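import Vale.Agent.P032.Words.H151.Beta

/-!
# BETA pair, special end far: Ae+Qd ≥ 2

Decision diagram of 16 potentials.
-/

namespace Vale.Agent.P032.Words.Trie.BetaF1

noncomputable def v0 : Tr := .l 0x82082082081081082081040
noncomputable def v1 : Tr := .l 0x82082082042042082042001
noncomputable def v2 : Tr := .l 0x82082082082082082082081
noncomputable def q0 : Tr := .c 4 v0 (.c 5 v1 (.c 7 v2 (.c 8 v1 (.c 9 v1 .e))))
noncomputable def q1 : Tr := .c 4 v0 (.c 5 v1 (.c 9 v1 .e))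
noncomputable def v3 : Tr := .l 0x82082081082082081040081
noncomputable def v4 : Tr := .l 0x82082042082082042001042
noncomputable def q2 : Tr := .c 4 v3 (.c 5 v4 (.c 8 v4 (.c 9 v4 .e)))
noncomputable def q3 : Tr := .c 4 v3 (.c 5 v4 (.c 9 v4 .e))
noncomputable def q4 : Tr := .c 4 v0 (.c 5 v1 .e)
noncomputable def r0 : Tr := .c 0 q0 (.c 1 q1 (.c 6 q2 (.c 7 q3 (.c 8 q4 .e))))
noncomputable def v5 : Tr := .l 0x82082082082082042042042
noncomputable def v6 : Tr := .l 0x82082082082082082082082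
noncomputable def q5 : Tr := .c 4 v2 (.c 5 v5 (.c 7 v6 (.c 8 v5 (.c 9 v5 .e))))
noncomputable def q6 : Tr := .c 4 v2 (.c 5 v5 (.c 9 v5 .e))
noncomputable def q7 : Tr := .c 5 v5 (.c 7 v6 (.c 8 v5 (.c 9 v5 .e)))
noncomputable def v7 : Tr := .l 0x82082082082082081081082
noncomputable def q8 : Tr := .c 4 v7 (.c 5 v5 (.c 8 v5 (.c 9 v5 .e)))
noncomputable def q9 : Tr := .c 4 v7 (.c 5 v5 (.c 9 v5 .e))
noncomputable def q10 : Tr := .c 4 v2 (.c 5 v5 .e)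
noncomputable def r1 : Tr := .c 0 q5 (.c 1 q6 (.c 2 q7 (.c 6 q8 (.c 7 q9 (.c 8 q10 .e)))))
noncomputable def v8 : Tr := .l 0x82082082082082082042042
noncomputable def q11 : Tr := .c 4 v2 (.c 5 v8 (.c 7 v6 (.c 8 v8 (.c 9 v8 .e))))
noncomputable def q12 : Tr := .c 5 v8 (.c 7 v6 (.c 8 v8 (.c 9 v8 .e)))
noncomputable def q13 : Tr := .c 7 v6 (.c 8 v8 (.c 9 v8 .e))
noncomputable def r2 : Tr := .c 0 q11 (.c 2 q12 (.c 3 q13 (.c 4 q13 .e)))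
noncomputable def q14 : Tr := .c 7 v6 (.c 8 v5 (.c 9 v5 .e))
noncomputable def r3 : Tr := .c 0 q5 (.c 2 q7 (.c 3 q14 (.c 4 q14 (.c 6 q8 .e))))
noncomputable def r4 : Tr := .c 0 q5 (.c 1 q6 (.c 2 q7 (.c 3 q14 (.c 4 q14 (.c 6 q8 (.c 7 q9 .e))))))
noncomputable def t0 : Tr := .c 4 r0 (.c 5 r1 (.c 7 r2 (.c 8 r3 (.c 9 r4 .e))))
noncomputable def q15 : Tr := .c 5 v1 (.c 7 v2 (.c 8 v1 (.c 9 v1 .e)))
noncomputable def r5 : Tr := .c 1 q1 (.c 2 q15 (.c 7 q3 (.c 8 q4 .e)))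
noncomputable def q16 : Tr := .c 7 v2 (.c 8 v1 (.c 9 v1 .e))
noncomputable def r6 : Tr := .c 1 q1 (.c 2 q15 (.c 4 q16 (.c 8 q4 .e)))
noncomputable def t1 : Tr := .c 3 r5 (.c 4 r0 (.c 5 r1 (.c 6 r6 (.c 9 r4 .e))))
noncomputable def v9 : Tr := .l 0x82082082082082081082082
noncomputable def q17 : Tr := .c 7 v9 .e
noncomputable def v10 : Tr := .l 0x82042082082081040081082
noncomputable def v11 : Tr := .l 0x81082082082042001042082
noncomputable def q18 : Tr := .c 4 v10 (.c 5 v11 .e)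
noncomputable def r7 : Tr := .c 3 q17 (.c 4 q17 (.c 6 q18 .e))
noncomputable def v12 : Tr := .l 0x82081082082040081082081
noncomputable def v13 : Tr := .l 0x42082082082001042082042
noncomputable def q19 : Tr := .c 4 v12 (.c 5 v13 .e)
noncomputable def r8 : Tr := .c 3 q17 (.c 6 q18 (.c 7 q18 (.c 8 q19 .e)))
noncomputable def v14 : Tr := .l 0x82082082082081082082082
noncomputable def q20 : Tr := .c 4 v12 (.c 5 v13 (.c 7 v14 .e))
noncomputable def r9 : Tr := .c 0 q20 (.c 1 q19 (.c 6 q18 (.c 7 q18 (.c 8 q19 .e))))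
noncomputable def v15 : Tr := .l 0x82082082082081081082082
noncomputable def v16 : Tr := .l 0x82082082082042042082082
noncomputable def q21 : Tr := .c 4 v15 (.c 5 v16 (.c 7 v9 .e))
noncomputable def q22 : Tr := .c 4 v15 (.c 5 v16 .e)
noncomputable def q23 : Tr := .c 5 v16 (.c 7 v9 .e)
noncomputable def r10 : Tr := .c 0 q21 (.c 1 q22 (.c 2 q23 (.c 6 q18 (.c 7 q18 (.c 8 q22 .e)))))
noncomputable def r11 : Tr := .c 0 q21 (.c 2 q23 (.c 3 q17 (.c 4 q17 (.c 6 q18 .e))))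
noncomputable def r12 : Tr := .c 0 q21 (.c 1 q22 (.c 2 q23 (.c 3 q17 (.c 4 q17 (.c 6 q18 (.c 7 q18 .e))))))
noncomputable def t2 : Tr := .c 1 r7 (.c 2 r8 (.c 4 r9 (.c 5 r10 (.c 8 r11 (.c 9 r12 .e)))))
noncomputable def q24 : Tr := .c 7 v6 .e
noncomputable def r13 : Tr := .c 4 q24 (.c 7 q18 (.c 8 q19 .e))
noncomputable def q25 : Tr := .c 5 v13 (.c 7 v6 .e)
noncomputable def r14 : Tr := .c 1 q19 (.c 2 q25 (.c 7 q18 (.c 8 q19 .e)))
noncomputable def t3 : Tr := .c 0 r13 (.c 2 r8 (.c 3 r14 (.c 4 r9 (.c 5 r10 (.c 9 r12 .e)))))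
noncomputable def q26 : Tr := .c 8 v4 (.c 9 v4 .e)
noncomputable def r15 : Tr := .c 4 q26 (.c 7 q3 (.c 8 q4 .e))
noncomputable def r16 : Tr := .c 3 q26 (.c 6 q2 (.c 7 q3 (.c 8 q4 .e)))
noncomputable def q27 : Tr := .c 5 v1 (.c 8 v1 (.c 9 v1 .e))
noncomputable def r17 : Tr := .c 1 q1 (.c 2 q27 (.c 7 q3 (.c 8 q4 .e)))
noncomputable def q28 : Tr := .c 4 v0 (.c 5 v1 (.c 8 v1 (.c 9 v1 .e)))
noncomputable def r18 : Tr := .c 0 q28 (.c 1 q1 (.c 6 q2 (.c 7 q3 (.c 8 q4 .e))))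
noncomputable def q29 : Tr := .c 4 v2 (.c 5 v5 (.c 8 v5 (.c 9 v5 .e)))
noncomputable def q30 : Tr := .c 5 v5 (.c 8 v5 (.c 9 v5 .e))
noncomputable def r19 : Tr := .c 0 q29 (.c 1 q6 (.c 2 q30 (.c 6 q8 (.c 7 q9 (.c 8 q10 .e)))))
noncomputable def q31 : Tr := .c 8 v1 (.c 9 v1 .e)
noncomputable def r20 : Tr := .c 1 q1 (.c 2 q27 (.c 4 q31 (.c 8 q4 .e)))
noncomputable def t4 : Tr := .c 0 r15 (.c 2 r16 (.c 3 r17 (.c 4 r18 (.c 5 r19 (.c 6 r20 .e)))))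
noncomputable def q32 : Tr := .c 5 v4 (.c 9 v4 .e)
noncomputable def q33 : Tr := .c 5 v1 .e
noncomputable def r21 : Tr := .c 4 q26 (.c 7 q32 (.c 8 q33 .e))
noncomputable def q34 : Tr := .c 5 v4 (.c 8 v4 (.c 9 v4 .e))
noncomputable def r22 : Tr := .c 3 q26 (.c 4 q26 (.c 6 q34 .e))
noncomputable def r23 : Tr := .c 3 q26 (.c 6 q34 (.c 7 q32 (.c 8 q33 .e)))
noncomputable def q35 : Tr := .c 5 v1 (.c 9 v1 .e)
noncomputable def r24 : Tr := .c 1 q35 (.c 2 q27 (.c 7 q32 (.c 8 q33 .e)))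
noncomputable def r25 : Tr := .c 0 q27 (.c 1 q35 (.c 6 q34 (.c 7 q32 (.c 8 q33 .e))))
noncomputable def r26 : Tr := .c 1 q35 (.c 2 q27 (.c 4 q31 (.c 8 q33 .e)))
noncomputable def r27 : Tr := .c 0 q27 (.c 2 q27 (.c 3 q31 (.c 4 q31 .e)))
noncomputable def t5 : Tr := .c 0 r21 (.c 1 r22 (.c 2 r23 (.c 3 r24 (.c 4 r25 (.c 6 r26 (.c 7 r27 .e))))))
noncomputable def v17 : Tr := .l 0x82081081040082082082081
noncomputable def v18 : Tr := .l 0x42082042001082082082042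
noncomputable def v19 : Tr := .l 0x82082082081082082082082
noncomputable def q36 : Tr := .c 4 v17 (.c 5 v18 (.c 7 v19 (.c 8 v18 (.c 9 v18 .e))))
noncomputable def q37 : Tr := .c 4 v17 (.c 5 v18 (.c 9 v18 .e))
noncomputable def v20 : Tr := .l 0x82042040081082082081082
noncomputable def v21 : Tr := .l 0x81082001042082082042082
noncomputable def q38 : Tr := .c 4 v20 (.c 5 v21 (.c 8 v21 (.c 9 v21 .e)))
noncomputable def q39 : Tr := .c 4 v20 (.c 5 v21 (.c 9 v21 .e))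
noncomputable def q40 : Tr := .c 4 v17 (.c 5 v18 .e)
noncomputable def q41 : Tr := .c 4 v17 (.c 7 v17 .e)
noncomputable def r28 : Tr := .c 0 q36 (.c 1 q37 (.c 6 q38 (.c 7 q39 (.c 8 q40 (.c 9 q41 .e)))))
noncomputable def v22 : Tr := .l 0x82041082081082082082082
noncomputable def v23 : Tr := .l 0x41042042042082041082082
noncomputable def v24 : Tr := .l 0x82081082081082082082082
noncomputable def q42 : Tr := .c 4 v22 (.c 5 v23 (.c 7 v24 (.c 8 v23 (.c 9 v23 .e))))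
noncomputable def q43 : Tr := .c 4 v22 (.c 5 v23 (.c 9 v23 .e))
noncomputable def v25 : Tr := .l 0x82042081082082082082082
noncomputable def q44 : Tr := .c 4 v25 (.c 5 v23 (.c 8 v23 (.c 9 v23 .e)))
noncomputable def q45 : Tr := .c 4 v25 (.c 5 v23 (.c 9 v23 .e))
noncomputable def q46 : Tr := .c 4 v22 (.c 5 v23 .e)
noncomputable def r29 : Tr := .c 0 q42 (.c 1 q43 (.c 6 q44 (.c 7 q45 (.c 8 q46 .e))))
noncomputable def v26 : Tr := .l 0x82082082081082082082042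
noncomputable def q47 : Tr := .c 4 v24 (.c 5 v26 (.c 7 v17 (.c 8 v26 (.c 9 v26 .e))))
noncomputable def q48 : Tr := .c 7 v17 (.c 8 v26 (.c 9 v26 .e))
noncomputable def v27 : Tr := .l 0x82082082041082082082082
noncomputable def q49 : Tr := .c 7 v17 (.c 8 v27 .e)
noncomputable def r30 : Tr := .c 0 q47 (.c 3 q48 (.c 5 q49 (.c 9 q41 .e)))
noncomputable def q50 : Tr := .c 7 v24 (.c 8 v23 (.c 9 v23 .e))
noncomputable def v28 : Tr := .l 0x42040082081081082082082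
noncomputable def v29 : Tr := .l 0x82081082082081082082082
noncomputable def q51 : Tr := .c 7 v28 (.c 8 v29 .e)
noncomputable def r31 : Tr := .c 0 q42 (.c 3 q50 (.c 5 q51 (.c 6 q44 .e)))
noncomputable def r32 : Tr := .c 0 q42 (.c 1 q43 (.c 3 q50 (.c 6 q44 (.c 7 q45 .e))))
noncomputable def t6 : Tr := .c 4 r28 (.c 5 r29 (.c 7 r30 (.c 8 r31 (.c 9 r32 .e))))
noncomputable def r33 : Tr := .c 1 q37 (.c 7 q39 (.c 8 q40 (.c 9 q41 .e)))
noncomputable def r34 : Tr := .c 1 q37 (.c 5 q49 (.c 8 q40 (.c 9 q41 .e)))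
noncomputable def t7 : Tr := .c 3 r33 (.c 4 r28 (.c 5 r29 (.c 6 r34 (.c 9 r32 .e))))
noncomputable def q52 : Tr := .c 4 v17 .e
noncomputable def q53 : Tr := .c 4 v20 .e
noncomputable def r35 : Tr := .c 1 q52 (.c 7 q53 (.c 8 q52 (.c 9 q41 .e)))
noncomputable def q54 : Tr := .c 4 v22 (.c 7 v24 (.c 8 v23 .e))
noncomputable def q55 : Tr := .c 4 v22 .e
noncomputable def q56 : Tr := .c 4 v25 (.c 8 v23 .e)
noncomputable def q57 : Tr := .c 4 v25 .e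
noncomputable def r36 : Tr := .c 0 q54 (.c 1 q55 (.c 6 q56 (.c 7 q57 (.c 8 q55 .e))))
noncomputable def r37 : Tr := .c 1 q52 (.c 5 q49 (.c 8 q52 (.c 9 q41 .e)))
noncomputable def q58 : Tr := .c 4 v24 (.c 7 v17 (.c 8 v26 .e))
noncomputable def q59 : Tr := .c 7 v17 (.c 8 v26 .e)
noncomputable def r38 : Tr := .c 0 q58 (.c 3 q59 (.c 5 q49 (.c 9 q41 .e)))
noncomputable def q60 : Tr := .c 7 v24 (.c 8 v23 .e)
noncomputable def r39 : Tr := .c 0 q54 (.c 3 q60 (.c 5 q51 (.c 6 q56 .e)))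
noncomputable def r40 : Tr := .c 0 q54 (.c 1 q55 (.c 3 q60 (.c 6 q56 (.c 7 q57 .e))))
noncomputable def t8 : Tr := .c 3 r35 (.c 5 r36 (.c 6 r37 (.c 7 r38 (.c 8 r39 (.c 9 r40 .e)))))
noncomputable def q61 : Tr := .c 7 v24 .e
noncomputable def q62 : Tr := .c 7 v28 .e
noncomputable def v30 : Tr := .l 0x81001081082082081082082
noncomputable def v31 : Tr := .l 0x40042042082082042082082
noncomputable def q63 : Tr := .c 4 v30 (.c 5 v31 .e)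
noncomputable def q64 : Tr := .c 4 v28 (.c 7 v28 .e)
noncomputable def r41 : Tr := .c 3 q61 (.c 5 q62 (.c 6 q63 (.c 9 q64 .e)))
noncomputable def v32 : Tr := .l 0x1081082042042082082082
noncomputable def q65 : Tr := .c 4 v28 (.c 5 v32 .e)
noncomputable def r42 : Tr := .c 3 q61 (.c 5 q62 (.c 6 q63 (.c 7 q63 (.c 8 q65 (.c 9 q64 .e)))))
noncomputable def q66 : Tr := .c 4 v28 (.c 5 v32 (.c 7 v6 .e))
noncomputable def r43 : Tr := .c 0 q66 (.c 1 q65 (.c 6 q63 (.c 7 q63 (.c 8 q65 (.c 9 q64 .e)))))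
noncomputable def q67 : Tr := .c 4 v22 (.c 5 v23 (.c 7 v24 .e))
noncomputable def r44 : Tr := .c 0 q67 (.c 1 q46 (.c 6 q63 (.c 7 q63 (.c 8 q46 .e))))
noncomputable def r45 : Tr := .c 0 q67 (.c 3 q61 (.c 5 q62 (.c 6 q63 .e)))
noncomputable def r46 : Tr := .c 0 q67 (.c 1 q46 (.c 3 q61 (.c 6 q63 (.c 7 q63 .e))))
noncomputable def t9 : Tr := .c 1 r41 (.c 2 r42 (.c 4 r43 (.c 5 r44 (.c 8 r45 (.c 9 r46 .e)))))
noncomputable def r47 : Tr := .c 5 q62 (.c 7 q63 (.c 8 q65 (.c 9 q64 .e)))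
noncomputable def r48 : Tr := .c 1 q65 (.c 7 q63 (.c 8 q65 (.c 9 q64 .e)))
noncomputable def t10 : Tr := .c 0 r47 (.c 2 r42 (.c 3 r48 (.c 4 r43 (.c 5 r44 (.c 9 r46 .e)))))
noncomputable def v33 : Tr := .l 0x82082042082082082082082
noncomputable def q68 : Tr := .c 8 v33 .e
noncomputable def r49 : Tr := .c 5 q68 (.c 7 q39 (.c 8 q40 (.c 9 q52 .e)))
noncomputable def q69 : Tr := .c 8 v21 (.c 9 v21 .e)
noncomputable def r50 : Tr := .c 3 q69 (.c 5 q68 (.c 6 q38 (.c 7 q39 (.c 8 q40 (.c 9 q52 .e)))))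
noncomputable def r51 : Tr := .c 1 q37 (.c 7 q39 (.c 8 q40 (.c 9 q52 .e)))
noncomputable def q70 : Tr := .c 4 v17 (.c 5 v18 (.c 8 v18 (.c 9 v18 .e)))
noncomputable def r52 : Tr := .c 0 q70 (.c 1 q37 (.c 6 q38 (.c 7 q39 (.c 8 q40 (.c 9 q52 .e)))))
noncomputable def q71 : Tr := .c 4 v22 (.c 5 v23 (.c 8 v23 (.c 9 v23 .e)))
noncomputable def r53 : Tr := .c 0 q71 (.c 1 q43 (.c 6 q44 (.c 7 q45 (.c 8 q46 .e))))
noncomputable def q72 : Tr := .c 8 v27 .e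
noncomputable def r54 : Tr := .c 1 q37 (.c 5 q72 (.c 8 q40 (.c 9 q52 .e)))
noncomputable def t11 : Tr := .c 0 r49 (.c 2 r50 (.c 3 r51 (.c 4 r52 (.c 5 r53 (.c 6 r54 .e)))))
noncomputable def v34 : Tr := .l 0x82082082082082082082042
noncomputable def q73 : Tr := .c 4 v2 (.c 5 v34 (.c 7 v6 (.c 8 v34 (.c 9 v34 .e))))
noncomputable def q74 : Tr := .c 4 v2 (.c 5 v34 (.c 9 v34 .e))
noncomputable def v35 : Tr := .l 0x82082082082082082081082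
noncomputable def q75 : Tr := .c 4 v35 (.c 5 v6 (.c 8 v6 (.c 9 v6 .e)))
noncomputable def q76 : Tr := .c 4 v35 (.c 5 v6 (.c 9 v6 .e))
noncomputable def r55 : Tr := .c 0 q73 (.c 1 q74 (.c 6 q75 (.c 7 q76 .e)))
noncomputable def q77 : Tr := .c 4 v6 (.c 5 v8 (.c 7 v2 (.c 8 v8 (.c 9 v8 .e))))
noncomputable def q78 : Tr := .c 4 v6 (.c 5 v8 (.c 9 v8 .e))
noncomputable def q79 : Tr := .c 5 v8 (.c 7 v2 (.c 8 v8 (.c 9 v8 .e)))
noncomputable def q80 : Tr := .c 4 v9 (.c 5 v8 (.c 8 v8 (.c 9 v8 .e)))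
noncomputable def q81 : Tr := .c 4 v9 (.c 5 v8 (.c 9 v8 .e))
noncomputable def r56 : Tr := .c 0 q77 (.c 1 q78 (.c 2 q79 (.c 6 q80 (.c 7 q81 .e))))
noncomputable def q82 : Tr := .c 4 v6 (.c 5 v1 (.c 7 v0 (.c 8 v1 (.c 9 v1 .e))))
noncomputable def q83 : Tr := .c 5 v1 (.c 7 v0 (.c 8 v1 (.c 9 v1 .e)))
noncomputable def q84 : Tr := .c 7 v0 (.c 8 v1 (.c 9 v1 .e))
noncomputable def v36 : Tr := .l 0x82082082082082082082041
noncomputable def q85 : Tr := .c 7 v0 (.c 8 v36 .e)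
noncomputable def r57 : Tr := .c 0 q82 (.c 2 q83 (.c 3 q84 (.c 4 q84 (.c 5 q85 .e))))
noncomputable def q86 : Tr := .c 7 v2 (.c 8 v8 (.c 9 v8 .e))
noncomputable def v37 : Tr := .l 0x82081082082082082082081
noncomputable def q87 : Tr := .c 7 v37 (.c 8 v6 .e)
noncomputable def r58 : Tr := .c 0 q77 (.c 2 q79 (.c 3 q86 (.c 4 q86 (.c 5 q87 (.c 6 q80 .e)))))
noncomputable def r59 : Tr := .c 0 q77 (.c 1 q78 (.c 2 q79 (.c 3 q86 (.c 4 q86 (.c 6 q80 (.c 7 q81 .e))))))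
noncomputable def t12 : Tr := .c 4 r55 (.c 5 r56 (.c 7 r57 (.c 8 r58 (.c 9 r59 .e))))
noncomputable def q88 : Tr := .c 4 v2 .e
noncomputable def q89 : Tr := .c 7 v0 (.c 8 v1 .e)
noncomputable def q90 : Tr := .c 4 v6 .e
noncomputable def r60 : Tr := .c 1 q88 (.c 2 q89 (.c 7 q90 .e))
noncomputable def q91 : Tr := .c 4 v6 (.c 7 v2 (.c 8 v8 .e))
noncomputable def q92 : Tr := .c 7 v2 (.c 8 v8 .e)
noncomputable def q93 : Tr := .c 4 v9 (.c 8 v8 .e)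
noncomputable def q94 : Tr := .c 4 v9 .e
noncomputable def r61 : Tr := .c 0 q91 (.c 1 q90 (.c 2 q92 (.c 6 q93 (.c 7 q94 .e))))
noncomputable def r62 : Tr := .c 1 q88 (.c 2 q89 (.c 4 q89 (.c 5 q85 .e)))
noncomputable def q95 : Tr := .c 4 v6 (.c 7 v0 (.c 8 v1 .e))
noncomputable def r63 : Tr := .c 0 q95 (.c 2 q89 (.c 3 q89 (.c 4 q89 (.c 5 q85 .e))))
noncomputable def r64 : Tr := .c 0 q91 (.c 2 q92 (.c 3 q92 (.c 4 q92 (.c 5 q87 (.c 6 q93 .e)))))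
noncomputable def r65 : Tr := .c 0 q91 (.c 1 q90 (.c 2 q92 (.c 3 q92 (.c 4 q92 (.c 6 q93 (.c 7 q94 .e))))))
noncomputable def t13 : Tr := .c 3 r60 (.c 5 r61 (.c 6 r62 (.c 7 r63 (.c 8 r64 (.c 9 r65 .e)))))
noncomputable def r66 : Tr := .c 3 q86 (.c 4 q86 (.c 5 q87 (.c 6 q80 .e)))
noncomputable def r67 : Tr := .c 3 q86 (.c 5 q87 (.c 6 q80 (.c 7 q81 .e)))
noncomputable def t14 : Tr := .c 1 r66 (.c 2 r67 (.c 7 r57 (.c 8 r58 (.c 9 r59 .e))))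
noncomputable def r68 : Tr := .c 4 q92 (.c 5 q87 (.c 7 q90 .e))
noncomputable def r69 : Tr := .c 3 q92 (.c 4 q92 (.c 5 q87 (.c 6 q93 .e)))
noncomputable def t15 : Tr := .c 0 r68 (.c 1 r69 (.c 6 r62 (.c 7 r63 (.c 8 r64 (.c 9 r65 .e)))))
noncomputable def v38 : Tr := .l 0x82082082082082082042081
noncomputable def q96 : Tr := .c 7 v38 (.c 8 v4 (.c 9 v4 .e))
noncomputable def q97 : Tr := .c 7 v2 (.c 8 v38 .e)
noncomputable def r70 : Tr := .c 4 q96 (.c 5 q97 (.c 7 q32 .e))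
noncomputable def r71 : Tr := .c 3 q96 (.c 4 q96 (.c 5 q97 (.c 6 q34 .e)))
noncomputable def r72 : Tr := .c 3 q96 (.c 5 q97 (.c 6 q34 (.c 7 q32 .e)))
noncomputable def q98 : Tr := .c 7 v2 (.c 8 v36 .e)
noncomputable def r73 : Tr := .c 1 q35 (.c 2 q83 (.c 4 q84 (.c 5 q98 .e)))
noncomputable def r74 : Tr := .c 0 q83 (.c 2 q83 (.c 3 q84 (.c 4 q84 (.c 5 q98 .e))))
noncomputable def q99 : Tr := .c 5 v4 (.c 7 v38 (.c 8 v4 (.c 9 v4 .e)))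
noncomputable def r75 : Tr := .c 0 q99 (.c 2 q99 (.c 3 q96 (.c 4 q96 (.c 5 q97 (.c 6 q34 .e)))))
noncomputable def t16 : Tr := .c 0 r70 (.c 1 r71 (.c 2 r72 (.c 6 r73 (.c 7 r74 (.c 8 r75 .e)))))
noncomputable def q100 : Tr := .c 8 v38 .e
noncomputable def r76 : Tr := .c 4 q26 (.c 5 q100 (.c 7 q32 .e))
noncomputable def r77 : Tr := .c 3 q26 (.c 4 q26 (.c 5 q100 (.c 6 q34 .e)))
noncomputable def r78 : Tr := .c 3 q26 (.c 5 q100 (.c 6 q34 (.c 7 q32 .e)))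
noncomputable def r79 : Tr := .c 1 q35 (.c 2 q27 (.c 7 q32 .e))
noncomputable def r80 : Tr := .c 0 q27 (.c 1 q35 (.c 6 q34 (.c 7 q32 .e)))
noncomputable def q101 : Tr := .c 8 v36 .e
noncomputable def r81 : Tr := .c 1 q35 (.c 2 q27 (.c 4 q31 (.c 5 q101 .e)))
noncomputable def r82 : Tr := .c 0 q27 (.c 2 q27 (.c 3 q31 (.c 4 q31 (.c 5 q101 .e))))
noncomputable def t17 : Tr := .c 0 r76 (.c 1 r77 (.c 2 r78 (.c 3 r79 (.c 4 r80 (.c 6 r81 (.c 7 r82 .e))))))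
noncomputable def r83 : Tr := .c 0 q36 (.c 1 q37 (.c 8 q40 (.c 9 q41 .e)))
noncomputable def q102 : Tr := .c 5 v23 (.c 7 v24 (.c 8 v23 (.c 9 v23 .e)))
noncomputable def r84 : Tr := .c 0 q42 (.c 1 q43 (.c 2 q102 (.c 8 q46 .e)))
noncomputable def q103 : Tr := .c 5 v26 (.c 7 v17 (.c 8 v26 (.c 9 v26 .e)))
noncomputable def r85 : Tr := .c 0 q47 (.c 2 q103 (.c 3 q48 (.c 4 q48 (.c 5 q49 (.c 9 q41 .e)))))
noncomputable def r86 : Tr := .c 0 q42 (.c 2 q102 (.c 3 q50 (.c 4 q50 (.c 5 q51 .e))))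
noncomputable def r87 : Tr := .c 0 q42 (.c 1 q43 (.c 2 q102 (.c 3 q50 (.c 4 q50 .e))))
noncomputable def t18 : Tr := .c 4 r83 (.c 5 r84 (.c 7 r85 (.c 8 r86 (.c 9 r87 .e))))
noncomputable def r88 : Tr := .c 1 q52 (.c 2 q59 (.c 8 q52 (.c 9 q41 .e)))
noncomputable def r89 : Tr := .c 0 q54 (.c 1 q55 (.c 2 q60 (.c 8 q55 .e)))
noncomputable def r90 : Tr := .c 1 q52 (.c 2 q59 (.c 4 q59 (.c 5 q49 (.c 8 q52 (.c 9 q41 .e)))))
noncomputable def r91 : Tr := .c 0 q58 (.c 2 q59 (.c 3 q59 (.c 4 q59 (.c 5 q49 (.c 9 q41 .e)))))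
noncomputable def r92 : Tr := .c 0 q54 (.c 2 q60 (.c 3 q60 (.c 4 q60 (.c 5 q51 .e))))
noncomputable def r93 : Tr := .c 0 q54 (.c 1 q55 (.c 2 q60 (.c 3 q60 (.c 4 q60 .e))))
noncomputable def t19 : Tr := .c 3 r88 (.c 5 r89 (.c 6 r90 (.c 7 r91 (.c 8 r92 (.c 9 r93 .e)))))
noncomputable def r94 : Tr := .c 3 q50 (.c 4 q50 (.c 5 q51 (.c 9 q64 .e)))
noncomputable def r95 : Tr := .c 3 q50 (.c 5 q51 (.c 8 q65 (.c 9 q64 .e)))
noncomputable def t20 : Tr := .c 1 r94 (.c 2 r95 (.c 7 r85 (.c 8 r86 (.c 9 r87 .e))))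
noncomputable def q104 : Tr := .c 4 v28 .e
noncomputable def r96 : Tr := .c 4 q60 (.c 5 q51 (.c 8 q104 (.c 9 q64 .e)))
noncomputable def r97 : Tr := .c 3 q60 (.c 4 q60 (.c 5 q51 (.c 9 q64 .e)))
noncomputable def t21 : Tr := .c 0 r96 (.c 1 r97 (.c 6 r90 (.c 7 r91 (.c 8 r92 (.c 9 r93 .e)))))
noncomputable def v39 : Tr := .l 0x82082082082082082041082
noncomputable def q105 : Tr := .c 7 v6 (.c 8 v39 (.c 9 v39 .e))
noncomputable def q106 : Tr := .c 7 v37 (.c 8 v2 .e)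
noncomputable def v40 : Tr := .l 0x42082082082082082082082
noncomputable def q107 : Tr := .c 5 v40 .e
noncomputable def q108 : Tr := .c 7 v37 .e
noncomputable def r98 : Tr := .c 4 q105 (.c 5 q106 (.c 8 q107 (.c 9 q108 .e)))
noncomputable def r99 : Tr := .c 3 q105 (.c 4 q105 (.c 5 q106 (.c 9 q108 .e)))
noncomputable def r100 : Tr := .c 3 q105 (.c 5 q106 (.c 8 q107 (.c 9 q108 .e)))
noncomputable def v41 : Tr := .l 0x82082082042082082082042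
noncomputable def q109 : Tr := .c 5 v41 (.c 9 v41 .e)
noncomputable def v42 : Tr := .l 0x82082082081082082082081
noncomputable def q110 : Tr := .c 5 v41 (.c 7 v42 (.c 8 v41 (.c 9 v41 .e)))
noncomputable def q111 : Tr := .c 7 v42 (.c 8 v41 (.c 9 v41 .e))
noncomputable def q112 : Tr := .c 7 v42 (.c 8 v2 .e)
noncomputable def q113 : Tr := .c 5 v41 .e
noncomputable def q114 : Tr := .c 7 v42 .e
noncomputable def r101 : Tr := .c 1 q109 (.c 2 q110 (.c 4 q111 (.c 5 q112 (.c 8 q113 (.c 9 q114 .e)))))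
noncomputable def r102 : Tr := .c 0 q110 (.c 2 q110 (.c 3 q111 (.c 4 q111 (.c 5 q112 (.c 9 q114 .e)))))
noncomputable def q115 : Tr := .c 5 v39 (.c 7 v6 (.c 8 v39 (.c 9 v39 .e)))
noncomputable def r103 : Tr := .c 0 q115 (.c 2 q115 (.c 3 q105 (.c 4 q105 (.c 5 q106 .e))))
noncomputable def t22 : Tr := .c 0 r98 (.c 1 r99 (.c 2 r100 (.c 6 r101 (.c 7 r102 (.c 8 r103 .e)))))
noncomputable def r104 : Tr := .c 3 q61 (.c 4 q61 (.c 5 q62 (.c 9 q64 .e)))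
noncomputable def r105 : Tr := .c 3 q61 (.c 5 q62 (.c 8 q65 (.c 9 q64 .e)))
noncomputable def r106 : Tr := .c 0 q66 (.c 1 q65 (.c 8 q65 (.c 9 q64 .e)))
noncomputable def q116 : Tr := .c 5 v23 (.c 7 v24 .e)
noncomputable def r107 : Tr := .c 0 q67 (.c 1 q46 (.c 2 q116 (.c 8 q46 .e)))
noncomputable def r108 : Tr := .c 0 q67 (.c 2 q116 (.c 3 q61 (.c 4 q61 (.c 5 q62 .e))))
noncomputable def r109 : Tr := .c 0 q67 (.c 1 q46 (.c 2 q116 (.c 3 q61 (.c 4 q61 .e))))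
noncomputable def t23 : Tr := .c 1 r104 (.c 2 r105 (.c 4 r106 (.c 5 r107 (.c 8 r108 (.c 9 r109 .e)))))
noncomputable def r110 : Tr := .c 0 q42 (.c 1 q43 (.c 8 q46 .e))
noncomputable def r111 : Tr := .c 0 q42 (.c 3 q50 (.c 5 q51 .e))
noncomputable def r112 : Tr := .c 0 q42 (.c 1 q43 (.c 3 q50 .e))
noncomputable def t24 : Tr := .c 4 r83 (.c 5 r110 (.c 7 r30 (.c 8 r111 (.c 9 r112 .e))))
noncomputable def r113 : Tr := .c 1 q37 (.c 8 q40 (.c 9 q41 .e))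
noncomputable def t25 : Tr := .c 3 r113 (.c 4 r83 (.c 5 r110 (.c 6 r34 (.c 9 r112 .e))))
noncomputable def r114 : Tr := .c 1 q52 (.c 8 q52 (.c 9 q41 .e))
noncomputable def r115 : Tr := .c 0 q54 (.c 1 q55 (.c 8 q55 .e))
noncomputable def r116 : Tr := .c 0 q54 (.c 3 q60 (.c 5 q51 .e))
noncomputable def r117 : Tr := .c 0 q54 (.c 1 q55 (.c 3 q60 .e))
noncomputable def t26 : Tr := .c 3 r114 (.c 5 r115 (.c 6 r37 (.c 7 r38 (.c 8 r116 (.c 9 r117 .e)))))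
noncomputable def r118 : Tr := .c 3 q50 (.c 5 q51 (.c 9 q64 .e))
noncomputable def t27 : Tr := .c 1 r118 (.c 2 r95 (.c 7 r30 (.c 8 r111 (.c 9 r112 .e))))
noncomputable def r119 : Tr := .c 5 q51 (.c 8 q104 (.c 9 q64 .e))
noncomputable def r120 : Tr := .c 3 q60 (.c 5 q51 (.c 9 q64 .e))
noncomputable def t28 : Tr := .c 0 r119 (.c 1 r120 (.c 6 r37 (.c 7 r38 (.c 8 r116 (.c 9 r117 .e)))))
noncomputable def r121 : Tr := .c 3 q61 (.c 5 q62 (.c 9 q64 .e))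
noncomputable def r122 : Tr := .c 0 q67 (.c 1 q46 (.c 8 q46 .e))
noncomputable def r123 : Tr := .c 0 q67 (.c 3 q61 (.c 5 q62 .e))
noncomputable def r124 : Tr := .c 0 q67 (.c 1 q46 (.c 3 q61 .e))
noncomputable def t29 : Tr := .c 1 r121 (.c 2 r105 (.c 4 r106 (.c 5 r122 (.c 8 r123 (.c 9 r124 .e)))))
noncomputable def r125 : Tr := .c 5 q62 (.c 8 q65 (.c 9 q64 .e))
noncomputable def r126 : Tr := .c 1 q65 (.c 8 q65 (.c 9 q64 .e))
noncomputable def t30 : Tr := .c 0 r125 (.c 2 r105 (.c 3 r126 (.c 4 r106 (.c 5 r122 (.c 9 r124 .e)))))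
noncomputable def q117 : Tr := .c 3 v0 (.c 4 v0 (.c 5 v1 (.c 6 v0 (.c 9 v1 .e))))
noncomputable def q118 : Tr := .c 3 v0 (.c 5 v1 (.c 6 v0 (.c 9 v1 .e)))
noncomputable def q119 : Tr := .c 3 v3 (.c 4 v3 (.c 5 v4 (.c 9 v4 .e)))
noncomputable def q120 : Tr := .c 3 v0 (.c 4 v0 (.c 5 v1 (.c 6 v0 .e)))
noncomputable def q121 : Tr := .c 3 v0 (.c 4 v0 (.c 6 v0 .e))
noncomputable def r127 : Tr := .c 1 q117 (.c 2 q118 (.c 7 q119 (.c 8 q120 (.c 9 q121 .e))))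
noncomputable def r128 : Tr := .c 0 q1 (.c 1 q117 (.c 6 q3 (.c 7 q119 (.c 8 q120 (.c 9 q121 .e)))))
noncomputable def q122 : Tr := .c 3 v2 (.c 4 v2 (.c 5 v5 (.c 6 v2 (.c 9 v5 .e))))
noncomputable def q123 : Tr := .c 3 v2 (.c 5 v5 (.c 6 v2 (.c 9 v5 .e)))
noncomputable def q124 : Tr := .c 3 v7 (.c 4 v7 (.c 5 v5 (.c 9 v5 .e)))
noncomputable def q125 : Tr := .c 3 v2 (.c 4 v2 (.c 5 v5 (.c 6 v2 .e)))
noncomputable def r129 : Tr := .c 0 q6 (.c 1 q122 (.c 2 q123 (.c 6 q9 (.c 7 q124 (.c 8 q125 .e)))))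
noncomputable def q126 : Tr := .c 6 v0 (.c 9 v1 .e)
noncomputable def q127 : Tr := .c 6 v0 .e
noncomputable def r130 : Tr := .c 1 q117 (.c 2 q118 (.c 4 q126 (.c 5 q127 (.c 8 q120 (.c 9 q121 .e)))))
noncomputable def q128 : Tr := .c 9 v5 .e
noncomputable def q129 : Tr := .c 6 v2 (.c 9 v5 .e)
noncomputable def r131 : Tr := .c 0 q6 (.c 1 q122 (.c 2 q123 (.c 3 q128 (.c 4 q129 (.c 6 q9 (.c 7 q124 .e))))))
noncomputable def t31 : Tr := .c 3 r127 (.c 4 r128 (.c 5 r129 (.c 6 r130 (.c 9 r131 .e))))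
noncomputable def q130 : Tr := .c 3 v0 (.c 6 v0 .e)
noncomputable def q131 : Tr := .c 3 v3 (.c 4 v3 .e)
noncomputable def r132 : Tr := .c 1 q121 (.c 2 q130 (.c 7 q131 (.c 8 q121 (.c 9 q121 .e))))
noncomputable def q132 : Tr := .c 3 v2 (.c 4 v2 (.c 6 v2 .e))
noncomputable def q133 : Tr := .c 3 v2 (.c 6 v2 .e)
noncomputable def q134 : Tr := .c 4 v7 .e
noncomputable def q135 : Tr := .c 3 v7 (.c 4 v7 .e)
noncomputable def r133 : Tr := .c 0 q88 (.c 1 q132 (.c 2 q133 (.c 6 q134 (.c 7 q135 (.c 8 q132 .e)))))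
noncomputable def r134 : Tr := .c 1 q121 (.c 2 q130 (.c 4 q127 (.c 5 q127 (.c 8 q121 (.c 9 q121 .e)))))
noncomputable def r135 : Tr := .c 0 q88 (.c 2 q130 (.c 4 q127 (.c 5 q127 (.c 9 q121 .e))))
noncomputable def q136 : Tr := .c 6 v2 .e
noncomputable def q137 : Tr := .c 6 v37 .e
noncomputable def r136 : Tr := .c 0 q88 (.c 2 q133 (.c 4 q136 (.c 5 q137 (.c 6 q134 .e))))
noncomputable def r137 : Tr := .c 0 q88 (.c 1 q132 (.c 2 q133 (.c 4 q136 (.c 6 q134 (.c 7 q135 .e)))))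
noncomputable def t32 : Tr := .c 3 r132 (.c 5 r133 (.c 6 r134 (.c 7 r135 (.c 8 r136 (.c 9 r137 .e)))))
noncomputable def q138 : Tr := .c 6 v6 .e
noncomputable def q139 : Tr := .c 6 v12 .e
noncomputable def q140 : Tr := .c 3 v10 (.c 4 v10 (.c 5 v11 .e))
noncomputable def q141 : Tr := .c 3 v12 (.c 4 v12 (.c 5 v13 (.c 6 v12 .e)))
noncomputable def q142 : Tr := .c 3 v12 (.c 4 v12 (.c 6 v12 .e))
noncomputable def r138 : Tr := .c 4 q138 (.c 5 q139 (.c 7 q140 (.c 8 q141 (.c 9 q142 .e))))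
noncomputable def r139 : Tr := .c 5 q139 (.c 6 q18 (.c 7 q140 (.c 8 q141 (.c 9 q142 .e))))
noncomputable def q143 : Tr := .c 3 v12 (.c 5 v13 (.c 6 v12 .e))
noncomputable def r140 : Tr := .c 1 q141 (.c 2 q143 (.c 7 q140 (.c 8 q141 (.c 9 q142 .e))))
noncomputable def r141 : Tr := .c 0 q19 (.c 1 q141 (.c 6 q18 (.c 7 q140 (.c 8 q141 (.c 9 q142 .e)))))
noncomputable def q144 : Tr := .c 3 v15 (.c 4 v15 (.c 5 v16 (.c 6 v15 .e)))
noncomputable def q145 : Tr := .c 3 v15 (.c 5 v16 (.c 6 v15 .e))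
noncomputable def r142 : Tr := .c 0 q22 (.c 1 q144 (.c 2 q145 (.c 6 q18 (.c 7 q140 (.c 8 q144 .e)))))
noncomputable def q146 : Tr := .c 6 v15 .e
noncomputable def r143 : Tr := .c 0 q22 (.c 1 q144 (.c 2 q145 (.c 4 q146 (.c 6 q18 (.c 7 q140 .e)))))
noncomputable def t33 : Tr := .c 0 r138 (.c 2 r139 (.c 3 r140 (.c 4 r141 (.c 5 r142 (.c 9 r143 .e)))))
noncomputable def q147 : Tr := .c 9 v4 .e
noncomputable def q148 : Tr := .c 3 v0 (.c 4 v0 (.c 5 v1 .e))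
noncomputable def q149 : Tr := .c 3 v0 (.c 4 v0 .e)
noncomputable def r144 : Tr := .c 4 q147 (.c 7 q119 (.c 8 q148 (.c 9 q149 .e)))
noncomputable def r145 : Tr := .c 3 q147 (.c 6 q3 (.c 7 q119 (.c 8 q148 (.c 9 q149 .e))))
noncomputable def q150 : Tr := .c 3 v0 (.c 4 v0 (.c 5 v1 (.c 9 v1 .e)))
noncomputable def q151 : Tr := .c 3 v0 (.c 5 v1 (.c 9 v1 .e))
noncomputable def r146 : Tr := .c 1 q150 (.c 2 q151 (.c 7 q119 (.c 8 q148 (.c 9 q149 .e))))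
noncomputable def r147 : Tr := .c 0 q1 (.c 1 q150 (.c 6 q3 (.c 7 q119 (.c 8 q148 (.c 9 q149 .e)))))
noncomputable def q152 : Tr := .c 3 v2 (.c 4 v2 (.c 5 v5 (.c 9 v5 .e)))
noncomputable def q153 : Tr := .c 3 v2 (.c 5 v5 (.c 9 v5 .e))
noncomputable def q154 : Tr := .c 3 v2 (.c 4 v2 (.c 5 v5 .e))
noncomputable def r148 : Tr := .c 0 q6 (.c 1 q152 (.c 2 q153 (.c 6 q9 (.c 7 q124 (.c 8 q154 .e)))))
noncomputable def q155 : Tr := .c 9 v1 .e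
noncomputable def r149 : Tr := .c 1 q150 (.c 2 q151 (.c 4 q155 (.c 8 q148 (.c 9 q149 .e))))
noncomputable def t34 : Tr := .c 0 r144 (.c 2 r145 (.c 3 r146 (.c 4 r147 (.c 5 r148 (.c 6 r149 .e)))))
noncomputable def q156 : Tr := .c 3 v3 (.c 5 v4 (.c 9 v4 .e))
noncomputable def q157 : Tr := .c 3 v0 (.c 5 v1 .e)
noncomputable def q158 : Tr := .c 3 v0 .e
noncomputable def r150 : Tr := .c 4 q147 (.c 7 q156 (.c 8 q157 (.c 9 q158 .e)))
noncomputable def r151 : Tr := .c 3 q147 (.c 4 q147 (.c 6 q32 (.c 9 q158 .e)))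
noncomputable def r152 : Tr := .c 3 q147 (.c 6 q32 (.c 7 q156 (.c 8 q157 (.c 9 q158 .e))))
noncomputable def r153 : Tr := .c 1 q151 (.c 2 q151 (.c 7 q156 (.c 8 q157 (.c 9 q158 .e))))
noncomputable def r154 : Tr := .c 0 q35 (.c 1 q151 (.c 6 q32 (.c 7 q156 (.c 8 q157 (.c 9 q158 .e)))))
noncomputable def r155 : Tr := .c 1 q151 (.c 2 q151 (.c 4 q155 (.c 8 q157 (.c 9 q158 .e))))
noncomputable def r156 : Tr := .c 0 q35 (.c 2 q151 (.c 3 q155 (.c 4 q155 (.c 9 q158 .e))))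
noncomputable def t35 : Tr := .c 0 r150 (.c 1 r151 (.c 2 r152 (.c 3 r153 (.c 4 r154 (.c 6 r155 (.c 7 r156 .e))))))
noncomputable def r157 : Tr := .c 0 q1 (.c 1 q117 (.c 6 q3 (.c 7 q119 (.c 8 q120 .e))))
noncomputable def q159 : Tr := .c 4 v2 (.c 5 v8 (.c 9 v8 .e))
noncomputable def q160 : Tr := .c 3 v2 (.c 5 v8 (.c 6 v2 (.c 9 v8 .e)))
noncomputable def q161 : Tr := .c 9 v8 .e
noncomputable def q162 : Tr := .c 6 v2 (.c 9 v8 .e)
noncomputable def r158 : Tr := .c 0 q159 (.c 2 q160 (.c 3 q161 (.c 4 q162 .e)))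
noncomputable def r159 : Tr := .c 0 q6 (.c 2 q123 (.c 3 q128 (.c 4 q129 (.c 6 q9 .e))))
noncomputable def t36 : Tr := .c 4 r157 (.c 5 r129 (.c 7 r158 (.c 8 r159 (.c 9 r131 .e))))
noncomputable def r160 : Tr := .c 1 q117 (.c 2 q118 (.c 7 q119 (.c 8 q120 .e)))
noncomputable def r161 : Tr := .c 1 q117 (.c 2 q118 (.c 4 q126 (.c 8 q120 .e)))
noncomputable def t37 : Tr := .c 3 r160 (.c 4 r157 (.c 5 r129 (.c 6 r161 (.c 9 r131 .e))))
noncomputable def r162 : Tr := .c 4 q146 (.c 6 q18 .e)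
noncomputable def r163 : Tr := .c 6 q18 (.c 7 q140 (.c 8 q141 .e))
noncomputable def r164 : Tr := .c 0 q19 (.c 1 q141 (.c 6 q18 (.c 7 q140 (.c 8 q141 .e))))
noncomputable def r165 : Tr := .c 0 q22 (.c 2 q145 (.c 4 q146 (.c 6 q18 .e)))
noncomputable def t38 : Tr := .c 1 r162 (.c 2 r163 (.c 4 r164 (.c 5 r142 (.c 8 r165 (.c 9 r143 .e)))))
noncomputable def r166 : Tr := .c 4 q138 (.c 7 q140 (.c 8 q141 .e))
noncomputable def r167 : Tr := .c 1 q141 (.c 2 q143 (.c 7 q140 (.c 8 q141 .e)))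
noncomputable def t39 : Tr := .c 0 r166 (.c 2 r163 (.c 3 r167 (.c 4 r164 (.c 5 r142 (.c 9 r143 .e)))))
noncomputable def r168 : Tr := .c 4 q147 (.c 7 q119 (.c 8 q148 .e))
noncomputable def r169 : Tr := .c 3 q147 (.c 6 q3 (.c 7 q119 (.c 8 q148 .e)))
noncomputable def r170 : Tr := .c 1 q150 (.c 2 q151 (.c 7 q119 (.c 8 q148 .e)))
noncomputable def r171 : Tr := .c 0 q1 (.c 1 q150 (.c 6 q3 (.c 7 q119 (.c 8 q148 .e))))
noncomputable def r172 : Tr := .c 1 q150 (.c 2 q151 (.c 4 q155 (.c 8 q148 .e)))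
noncomputable def t40 : Tr := .c 0 r168 (.c 2 r169 (.c 3 r170 (.c 4 r171 (.c 5 r148 (.c 6 r172 .e)))))
noncomputable def r173 : Tr := .c 4 q147 (.c 7 q156 (.c 8 q157 .e))
noncomputable def r174 : Tr := .c 3 q147 (.c 4 q147 (.c 6 q32 .e))
noncomputable def r175 : Tr := .c 3 q147 (.c 6 q32 (.c 7 q156 (.c 8 q157 .e)))
noncomputable def r176 : Tr := .c 1 q151 (.c 2 q151 (.c 7 q156 (.c 8 q157 .e)))
noncomputable def r177 : Tr := .c 0 q35 (.c 1 q151 (.c 6 q32 (.c 7 q156 (.c 8 q157 .e))))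
noncomputable def r178 : Tr := .c 1 q151 (.c 2 q151 (.c 4 q155 (.c 8 q157 .e)))
noncomputable def r179 : Tr := .c 0 q35 (.c 2 q151 (.c 3 q155 (.c 4 q155 .e)))
noncomputable def t41 : Tr := .c 0 r173 (.c 1 r174 (.c 2 r175 (.c 3 r176 (.c 4 r177 (.c 6 r178 (.c 7 r179 .e))))))
noncomputable def q163 : Tr := .c 3 v17 (.c 4 v17 (.c 5 v18 (.c 6 v17 (.c 9 v18 .e))))
noncomputable def q164 : Tr := .c 3 v20 (.c 4 v20 (.c 5 v21 (.c 9 v21 .e)))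
noncomputable def q165 : Tr := .c 3 v17 (.c 4 v17 (.c 5 v18 (.c 6 v17 .e)))
noncomputable def q166 : Tr := .c 3 v17 (.c 4 v17 (.c 6 v17 .e))
noncomputable def r180 : Tr := .c 0 q37 (.c 1 q163 (.c 6 q39 (.c 7 q164 (.c 8 q165 (.c 9 q166 .e)))))
noncomputable def q167 : Tr := .c 3 v22 (.c 4 v22 (.c 5 v23 (.c 6 v22 (.c 9 v23 .e))))
noncomputable def q168 : Tr := .c 3 v25 (.c 4 v25 (.c 5 v23 (.c 9 v23 .e)))
noncomputable def q169 : Tr := .c 3 v22 (.c 4 v22 (.c 5 v23 (.c 6 v22 .e)))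
noncomputable def r181 : Tr := .c 0 q43 (.c 1 q167 (.c 6 q45 (.c 7 q168 (.c 8 q169 .e))))
noncomputable def q170 : Tr := .c 4 v24 (.c 5 v26 (.c 9 v26 .e))
noncomputable def q171 : Tr := .c 9 v26 .e
noncomputable def q172 : Tr := .c 6 v17 .e
noncomputable def r182 : Tr := .c 0 q170 (.c 3 q171 (.c 5 q172 (.c 9 q166 .e)))
noncomputable def q173 : Tr := .c 9 v23 .e
noncomputable def q174 : Tr := .c 6 v28 .e
noncomputable def r183 : Tr := .c 0 q43 (.c 3 q173 (.c 5 q174 (.c 6 q45 .e)))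
noncomputable def r184 : Tr := .c 0 q43 (.c 1 q167 (.c 3 q173 (.c 6 q45 (.c 7 q168 .e))))
noncomputable def t42 : Tr := .c 4 r180 (.c 5 r181 (.c 7 r182 (.c 8 r183 (.c 9 r184 .e))))
noncomputable def r185 : Tr := .c 1 q163 (.c 7 q164 (.c 8 q165 (.c 9 q166 .e)))
noncomputable def r186 : Tr := .c 1 q163 (.c 5 q172 (.c 8 q165 (.c 9 q166 .e)))
noncomputable def t43 : Tr := .c 3 r185 (.c 4 r180 (.c 5 r181 (.c 6 r186 (.c 9 r184 .e))))
noncomputable def q175 : Tr := .c 3 v20 (.c 4 v20 .e)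
noncomputable def r187 : Tr := .c 1 q166 (.c 7 q175 (.c 8 q166 (.c 9 q166 .e)))
noncomputable def q176 : Tr := .c 3 v22 (.c 4 v22 (.c 6 v22 .e))
noncomputable def q177 : Tr := .c 3 v25 (.c 4 v25 .e)
noncomputable def r188 : Tr := .c 0 q55 (.c 1 q176 (.c 6 q57 (.c 7 q177 (.c 8 q176 .e))))
noncomputable def r189 : Tr := .c 1 q166 (.c 5 q172 (.c 8 q166 (.c 9 q166 .e)))
noncomputable def q178 : Tr := .c 4 v24 .e
noncomputable def r190 : Tr := .c 0 q178 (.c 5 q172 (.c 9 q166 .e))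
noncomputable def r191 : Tr := .c 0 q55 (.c 5 q174 (.c 6 q57 .e))
noncomputable def r192 : Tr := .c 0 q55 (.c 1 q176 (.c 6 q57 (.c 7 q177 .e)))
noncomputable def t44 : Tr := .c 3 r187 (.c 5 r188 (.c 6 r189 (.c 7 r190 (.c 8 r191 (.c 9 r192 .e)))))
noncomputable def q179 : Tr := .c 3 v28 (.c 4 v28 (.c 6 v28 .e))
noncomputable def r193 : Tr := .c 5 q174 (.c 6 q63 (.c 9 q179 .e))
noncomputable def q180 : Tr := .c 3 v30 (.c 4 v30 (.c 5 v31 .e))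
noncomputable def q181 : Tr := .c 3 v28 (.c 4 v28 (.c 5 v32 (.c 6 v28 .e)))
noncomputable def r194 : Tr := .c 5 q174 (.c 6 q63 (.c 7 q180 (.c 8 q181 (.c 9 q179 .e))))
noncomputable def r195 : Tr := .c 0 q65 (.c 1 q181 (.c 6 q63 (.c 7 q180 (.c 8 q181 (.c 9 q179 .e)))))
noncomputable def r196 : Tr := .c 0 q46 (.c 1 q169 (.c 6 q63 (.c 7 q180 (.c 8 q169 .e))))
noncomputable def r197 : Tr := .c 0 q46 (.c 5 q174 (.c 6 q63 .e))
noncomputable def r198 : Tr := .c 0 q46 (.c 1 q169 (.c 6 q63 (.c 7 q180 .e)))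
noncomputable def t45 : Tr := .c 1 r193 (.c 2 r194 (.c 4 r195 (.c 5 r196 (.c 8 r197 (.c 9 r198 .e)))))
noncomputable def r199 : Tr := .c 5 q174 (.c 7 q180 (.c 8 q181 (.c 9 q179 .e)))
noncomputable def r200 : Tr := .c 1 q181 (.c 7 q180 (.c 8 q181 (.c 9 q179 .e)))
noncomputable def t46 : Tr := .c 0 r199 (.c 2 r194 (.c 3 r200 (.c 4 r195 (.c 5 r196 (.c 9 r198 .e)))))
noncomputable def q182 : Tr := .c 3 v17 (.c 4 v17 (.c 5 v18 .e))
noncomputable def q183 : Tr := .c 3 v17 (.c 4 v17 .e)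
noncomputable def r201 : Tr := .c 7 q164 (.c 8 q182 (.c 9 q183 .e))
noncomputable def q184 : Tr := .c 9 v21 .e
noncomputable def r202 : Tr := .c 3 q184 (.c 6 q39 (.c 7 q164 (.c 8 q182 (.c 9 q183 .e))))
noncomputable def q185 : Tr := .c 3 v17 (.c 4 v17 (.c 5 v18 (.c 9 v18 .e)))
noncomputable def r203 : Tr := .c 1 q185 (.c 7 q164 (.c 8 q182 (.c 9 q183 .e)))
noncomputable def r204 : Tr := .c 0 q37 (.c 1 q185 (.c 6 q39 (.c 7 q164 (.c 8 q182 (.c 9 q183 .e)))))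
noncomputable def q186 : Tr := .c 3 v22 (.c 4 v22 (.c 5 v23 (.c 9 v23 .e)))
noncomputable def q187 : Tr := .c 3 v22 (.c 4 v22 (.c 5 v23 .e))
noncomputable def r205 : Tr := .c 0 q43 (.c 1 q186 (.c 6 q45 (.c 7 q168 (.c 8 q187 .e))))
noncomputable def r206 : Tr := .c 1 q185 (.c 8 q182 (.c 9 q183 .e))
noncomputable def t47 : Tr := .c 0 r201 (.c 2 r202 (.c 3 r203 (.c 4 r204 (.c 5 r205 (.c 6 r206 .e)))))
noncomputable def r207 : Tr := .c 1 q117 (.c 2 q118 (.c 7 q119 .e))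
noncomputable def r208 : Tr := .c 0 q1 (.c 1 q117 (.c 6 q3 (.c 7 q119 .e)))
noncomputable def r209 : Tr := .c 0 q6 (.c 1 q122 (.c 2 q123 (.c 6 q9 (.c 7 q124 .e))))
noncomputable def r210 : Tr := .c 1 q117 (.c 2 q118 (.c 4 q126 (.c 5 q127 .e)))
noncomputable def t48 : Tr := .c 3 r207 (.c 4 r208 (.c 5 r209 (.c 6 r210 (.c 9 r131 .e))))
noncomputable def r211 : Tr := .c 1 q121 (.c 2 q130 (.c 7 q131 .e))
noncomputable def r212 : Tr := .c 0 q88 (.c 1 q132 (.c 2 q133 (.c 6 q134 (.c 7 q135 .e))))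
noncomputable def r213 : Tr := .c 1 q121 (.c 2 q130 (.c 4 q127 (.c 5 q127 .e)))
noncomputable def r214 : Tr := .c 0 q88 (.c 2 q130 (.c 4 q127 (.c 5 q127 .e)))
noncomputable def t49 : Tr := .c 3 r211 (.c 5 r212 (.c 6 r213 (.c 7 r214 (.c 8 r136 (.c 9 r137 .e)))))
noncomputable def q188 : Tr := .c 3 v6 (.c 4 v6 .e)
noncomputable def r215 : Tr := .c 4 q136 (.c 5 q137 (.c 7 q188 .e))
noncomputable def r216 : Tr := .c 4 q136 (.c 5 q137 (.c 6 q134 .e))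
noncomputable def t50 : Tr := .c 0 r215 (.c 1 r216 (.c 6 r213 (.c 7 r214 (.c 8 r136 (.c 9 r137 .e)))))
noncomputable def q189 : Tr := .c 6 v38 (.c 9 v4 .e)
noncomputable def r217 : Tr := .c 4 q189 (.c 5 q136 (.c 7 q156 .e))
noncomputable def r218 : Tr := .c 3 q147 (.c 4 q189 (.c 5 q136 (.c 6 q32 .e)))
noncomputable def r219 : Tr := .c 3 q147 (.c 5 q136 (.c 6 q32 (.c 7 q156 .e)))
noncomputable def r220 : Tr := .c 1 q118 (.c 2 q118 (.c 4 q126 (.c 5 q136 .e)))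
noncomputable def r221 : Tr := .c 0 q35 (.c 2 q118 (.c 3 q155 (.c 4 q126 (.c 5 q136 .e))))
noncomputable def q190 : Tr := .c 3 v38 (.c 5 v4 (.c 6 v38 (.c 9 v4 .e)))
noncomputable def r222 : Tr := .c 0 q32 (.c 2 q190 (.c 3 q147 (.c 4 q189 (.c 5 q136 (.c 6 q32 .e)))))
noncomputable def t51 : Tr := .c 0 r217 (.c 1 r218 (.c 2 r219 (.c 6 r220 (.c 7 r221 (.c 8 r222 .e)))))
noncomputable def r223 : Tr := .c 4 q147 (.c 7 q119 .e)
noncomputable def r224 : Tr := .c 3 q147 (.c 6 q3 (.c 7 q119 .e))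
noncomputable def r225 : Tr := .c 1 q150 (.c 2 q151 (.c 7 q119 .e))
noncomputable def r226 : Tr := .c 0 q1 (.c 1 q150 (.c 6 q3 (.c 7 q119 .e)))
noncomputable def r227 : Tr := .c 0 q6 (.c 1 q152 (.c 2 q153 (.c 6 q9 (.c 7 q124 .e))))
noncomputable def r228 : Tr := .c 1 q150 (.c 2 q151 (.c 4 q155 .e))
noncomputable def t52 : Tr := .c 0 r223 (.c 2 r224 (.c 3 r225 (.c 4 r226 (.c 5 r227 (.c 6 r228 .e)))))
noncomputable def r229 : Tr := .c 4 q147 (.c 7 q156 .e)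
noncomputable def r230 : Tr := .c 3 q147 (.c 6 q32 (.c 7 q156 .e))
noncomputable def r231 : Tr := .c 1 q151 (.c 2 q151 (.c 7 q156 .e))
noncomputable def r232 : Tr := .c 0 q35 (.c 1 q151 (.c 6 q32 (.c 7 q156 .e)))
noncomputable def r233 : Tr := .c 1 q151 (.c 2 q151 (.c 4 q155 .e))
noncomputable def t53 : Tr := .c 0 r229 (.c 1 r174 (.c 2 r230 (.c 3 r231 (.c 4 r232 (.c 6 r233 (.c 7 r179 .e))))))
noncomputable def r234 : Tr := .c 0 q37 (.c 1 q163 (.c 8 q165 (.c 9 q166 .e)))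
noncomputable def r235 : Tr := .c 0 q43 (.c 1 q167 (.c 8 q169 .e))
noncomputable def r236 : Tr := .c 0 q43 (.c 3 q173 (.c 5 q174 .e))
noncomputable def r237 : Tr := .c 0 q43 (.c 1 q167 (.c 3 q173 .e))
noncomputable def t54 : Tr := .c 4 r234 (.c 5 r235 (.c 7 r182 (.c 8 r236 (.c 9 r237 .e))))
noncomputable def r238 : Tr := .c 1 q163 (.c 8 q165 (.c 9 q166 .e))
noncomputable def t55 : Tr := .c 3 r238 (.c 4 r234 (.c 5 r235 (.c 6 r186 (.c 9 r237 .e))))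
noncomputable def r239 : Tr := .c 1 q166 (.c 8 q166 (.c 9 q166 .e))
noncomputable def r240 : Tr := .c 0 q55 (.c 1 q176 (.c 8 q176 .e))
noncomputable def r241 : Tr := .c 0 q55 (.c 5 q174 .e)
noncomputable def r242 : Tr := .c 0 q55 (.c 1 q176 .e)
noncomputable def t56 : Tr := .c 3 r239 (.c 5 r240 (.c 6 r189 (.c 7 r190 (.c 8 r241 (.c 9 r242 .e)))))
noncomputable def r243 : Tr := .c 3 q173 (.c 5 q174 (.c 9 q179 .e))
noncomputable def r244 : Tr := .c 3 q173 (.c 5 q174 (.c 8 q181 (.c 9 q179 .e)))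
noncomputable def t57 : Tr := .c 1 r243 (.c 2 r244 (.c 7 r182 (.c 8 r236 (.c 9 r237 .e))))
noncomputable def r245 : Tr := .c 5 q174 (.c 8 q179 (.c 9 q179 .e))
noncomputable def r246 : Tr := .c 5 q174 (.c 9 q179 .e)
noncomputable def t58 : Tr := .c 0 r245 (.c 1 r246 (.c 6 r189 (.c 7 r190 (.c 8 r241 (.c 9 r242 .e)))))
noncomputable def r247 : Tr := .c 5 q174 (.c 8 q181 (.c 9 q179 .e))
noncomputable def r248 : Tr := .c 0 q65 (.c 1 q181 (.c 8 q181 (.c 9 q179 .e)))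
noncomputable def r249 : Tr := .c 0 q46 (.c 1 q169 (.c 8 q169 .e))
noncomputable def r250 : Tr := .c 0 q46 (.c 5 q174 .e)
noncomputable def r251 : Tr := .c 0 q46 (.c 1 q169 .e)
noncomputable def t59 : Tr := .c 1 r246 (.c 2 r247 (.c 4 r248 (.c 5 r249 (.c 8 r250 (.c 9 r251 .e)))))
noncomputable def r252 : Tr := .c 1 q181 (.c 8 q181 (.c 9 q179 .e))
noncomputable def t60 : Tr := .c 0 r247 (.c 2 r247 (.c 3 r252 (.c 4 r248 (.c 5 r249 (.c 9 r251 .e)))))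
noncomputable def q191 : Tr := .c 3 v0 (.c 5 v1 (.c 6 v0 (.c 7 v0 (.c 8 v1 (.c 9 v1 .e)))))
noncomputable def q192 : Tr := .c 3 v0 (.c 5 v1 (.c 6 v0 .e))
noncomputable def q193 : Tr := .c 3 v0 (.c 6 v0 (.c 7 v0 .e))
noncomputable def r253 : Tr := .c 1 q118 (.c 2 q191 (.c 7 q156 (.c 8 q192 (.c 9 q193 .e))))
noncomputable def r254 : Tr := .c 0 q15 (.c 1 q118 (.c 6 q34 (.c 7 q156 (.c 8 q192 (.c 9 q193 .e)))))
noncomputable def q194 : Tr := .c 6 v0 (.c 7 v0 (.c 8 v1 (.c 9 v1 .e)))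
noncomputable def q195 : Tr := .c 6 v0 (.c 7 v0 (.c 8 v36 .e))
noncomputable def r255 : Tr := .c 1 q118 (.c 2 q191 (.c 4 q194 (.c 5 q195 (.c 8 q192 (.c 9 q193 .e)))))
noncomputable def t61 : Tr := .c 3 r253 (.c 4 r254 (.c 6 r255 .e))
noncomputable def q196 : Tr := .c 3 v0 (.c 6 v0 (.c 7 v0 (.c 8 v1 .e)))
noncomputable def q197 : Tr := .c 3 v3 .e
noncomputable def r256 : Tr := .c 1 q130 (.c 2 q196 (.c 7 q197 (.c 8 q130 (.c 9 q193 .e))))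
noncomputable def q198 : Tr := .c 6 v0 (.c 7 v0 (.c 8 v1 .e))
noncomputable def r257 : Tr := .c 1 q130 (.c 2 q196 (.c 4 q198 (.c 5 q195 (.c 8 q130 (.c 9 q193 .e)))))
noncomputable def r258 : Tr := .c 0 q89 (.c 2 q196 (.c 3 q89 (.c 4 q198 (.c 5 q195 (.c 9 q193 .e)))))
noncomputable def q199 : Tr := .c 3 v2 (.c 6 v2 (.c 7 v2 (.c 8 v8 .e)))
noncomputable def q200 : Tr := .c 6 v2 (.c 7 v2 (.c 8 v8 .e))
noncomputable def q201 : Tr := .c 6 v37 (.c 7 v37 (.c 8 v6 .e))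
noncomputable def q202 : Tr := .c 8 v8 .e
noncomputable def r259 : Tr := .c 0 q92 (.c 2 q199 (.c 3 q92 (.c 4 q200 (.c 5 q201 (.c 6 q202 .e)))))
noncomputable def t62 : Tr := .c 3 r256 (.c 6 r257 (.c 7 r258 (.c 8 r259 .e)))
noncomputable def q203 : Tr := .c 6 v6 (.c 7 v6 .e)
noncomputable def q204 : Tr := .c 6 v12 (.c 7 v12 .e)
noncomputable def q205 : Tr := .c 3 v10 (.c 5 v11 .e)
noncomputable def q206 : Tr := .c 3 v12 (.c 6 v12 (.c 7 v12 .e))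
noncomputable def r260 : Tr := .c 4 q203 (.c 5 q204 (.c 7 q205 (.c 8 q143 (.c 9 q206 .e))))
noncomputable def q207 : Tr := .c 7 v14 .e
noncomputable def q208 : Tr := .c 5 v11 .e
noncomputable def r261 : Tr := .c 3 q207 (.c 5 q204 (.c 6 q208 (.c 7 q205 (.c 8 q143 (.c 9 q206 .e)))))
noncomputable def q209 : Tr := .c 3 v12 (.c 5 v13 (.c 6 v12 (.c 7 v12 .e)))
noncomputable def r262 : Tr := .c 1 q143 (.c 2 q209 (.c 7 q205 (.c 8 q143 (.c 9 q206 .e))))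
noncomputable def r263 : Tr := .c 0 q25 (.c 1 q143 (.c 6 q208 (.c 7 q205 (.c 8 q143 (.c 9 q206 .e)))))
noncomputable def t63 : Tr := .c 0 r260 (.c 2 r261 (.c 3 r262 (.c 4 r263 .e)))
noncomputable def r264 : Tr := .c 4 q26 (.c 5 q100 (.c 7 q156 (.c 8 q157 (.c 9 q158 .e))))
noncomputable def r265 : Tr := .c 3 q26 (.c 5 q100 (.c 6 q34 (.c 7 q156 (.c 8 q157 (.c 9 q158 .e)))))
noncomputable def q210 : Tr := .c 3 v0 (.c 5 v1 (.c 8 v1 (.c 9 v1 .e)))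
noncomputable def r266 : Tr := .c 1 q151 (.c 2 q210 (.c 7 q156 (.c 8 q157 (.c 9 q158 .e))))
noncomputable def r267 : Tr := .c 0 q27 (.c 1 q151 (.c 6 q34 (.c 7 q156 (.c 8 q157 (.c 9 q158 .e)))))
noncomputable def r268 : Tr := .c 1 q151 (.c 2 q210 (.c 4 q31 (.c 5 q101 (.c 8 q157 (.c 9 q158 .e)))))
noncomputable def t64 : Tr := .c 0 r264 (.c 2 r265 (.c 3 r266 (.c 4 r267 (.c 6 r268 .e))))
noncomputable def r269 : Tr := .c 3 q26 (.c 4 q26 (.c 5 q100 (.c 6 q34 (.c 9 q158 .e))))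
noncomputable def r270 : Tr := .c 0 q27 (.c 2 q210 (.c 3 q31 (.c 4 q31 (.c 5 q101 (.c 9 q158 .e)))))
noncomputable def t65 : Tr := .c 0 r264 (.c 1 r269 (.c 2 r265 (.c 3 r266 (.c 4 r267 (.c 6 r268 (.c 7 r270 .e))))))
noncomputable def q211 : Tr := .c 5 v18 (.c 7 v19 (.c 8 v18 (.c 9 v18 .e)))
noncomputable def q212 : Tr := .c 3 v17 (.c 5 v18 (.c 6 v17 (.c 9 v18 .e)))
noncomputable def q213 : Tr := .c 5 v21 (.c 8 v21 (.c 9 v21 .e))
noncomputable def q214 : Tr := .c 3 v20 (.c 5 v21 (.c 9 v21 .e))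
noncomputable def q215 : Tr := .c 3 v17 (.c 5 v18 (.c 6 v17 .e))
noncomputable def q216 : Tr := .c 3 v17 (.c 6 v17 (.c 7 v17 .e))
noncomputable def r271 : Tr := .c 0 q211 (.c 1 q212 (.c 6 q213 (.c 7 q214 (.c 8 q215 (.c 9 q216 .e)))))
noncomputable def q217 : Tr := .c 6 v17 (.c 7 v17 (.c 8 v27 .e))
noncomputable def r272 : Tr := .c 0 q103 (.c 3 q48 (.c 5 q217 (.c 9 q216 .e)))
noncomputable def q218 : Tr := .c 6 v28 (.c 7 v28 (.c 8 v29 .e))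
noncomputable def q219 : Tr := .c 5 v23 (.c 8 v23 (.c 9 v23 .e))
noncomputable def r273 : Tr := .c 0 q102 (.c 3 q50 (.c 5 q218 (.c 6 q219 .e)))
noncomputable def t66 : Tr := .c 4 r271 (.c 7 r272 (.c 8 r273 .e))
noncomputable def r274 : Tr := .c 1 q212 (.c 7 q214 (.c 8 q215 (.c 9 q216 .e)))
noncomputable def r275 : Tr := .c 1 q212 (.c 5 q217 (.c 8 q215 (.c 9 q216 .e)))
noncomputable def t67 : Tr := .c 3 r274 (.c 4 r271 (.c 6 r275 .e))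
noncomputable def q220 : Tr := .c 3 v17 (.c 6 v17 .e)
noncomputable def q221 : Tr := .c 3 v20 .e
noncomputable def r276 : Tr := .c 1 q220 (.c 7 q221 (.c 8 q220 (.c 9 q216 .e)))
noncomputable def r277 : Tr := .c 1 q220 (.c 5 q217 (.c 8 q220 (.c 9 q216 .e)))
noncomputable def r278 : Tr := .c 0 q59 (.c 3 q59 (.c 5 q217 (.c 9 q216 .e)))
noncomputable def q222 : Tr := .c 8 v23 .e
noncomputable def r279 : Tr := .c 0 q60 (.c 3 q60 (.c 5 q218 (.c 6 q222 .e)))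
noncomputable def t68 : Tr := .c 3 r276 (.c 6 r277 (.c 7 r278 (.c 8 r279 .e)))
noncomputable def q223 : Tr := .c 6 v28 (.c 7 v28 .e)
noncomputable def q224 : Tr := .c 5 v31 .e
noncomputable def q225 : Tr := .c 3 v28 (.c 6 v28 (.c 7 v28 .e))
noncomputable def r280 : Tr := .c 3 q61 (.c 5 q223 (.c 6 q224 (.c 9 q225 .e)))
noncomputable def q226 : Tr := .c 3 v30 (.c 5 v31 .e)
noncomputable def q227 : Tr := .c 3 v28 (.c 5 v32 (.c 6 v28 .e))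
noncomputable def r281 : Tr := .c 3 q61 (.c 5 q223 (.c 6 q224 (.c 7 q226 (.c 8 q227 (.c 9 q225 .e)))))
noncomputable def q228 : Tr := .c 5 v32 (.c 7 v6 .e)
noncomputable def r282 : Tr := .c 0 q228 (.c 1 q227 (.c 6 q224 (.c 7 q226 (.c 8 q227 (.c 9 q225 .e)))))
noncomputable def r283 : Tr := .c 0 q116 (.c 3 q61 (.c 5 q223 (.c 6 q224 .e)))
noncomputable def t69 : Tr := .c 1 r280 (.c 2 r281 (.c 4 r282 (.c 8 r283 .e)))
noncomputable def r284 : Tr := .c 5 q223 (.c 7 q226 (.c 8 q227 (.c 9 q225 .e)))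
noncomputable def r285 : Tr := .c 1 q227 (.c 7 q226 (.c 8 q227 (.c 9 q225 .e)))
noncomputable def t70 : Tr := .c 0 r284 (.c 2 r281 (.c 3 r285 (.c 4 r282 .e)))
noncomputable def q229 : Tr := .c 3 v17 (.c 5 v18 .e)
noncomputable def q230 : Tr := .c 3 v17 .e
noncomputable def r286 : Tr := .c 5 q68 (.c 7 q214 (.c 8 q229 (.c 9 q230 .e)))
noncomputable def r287 : Tr := .c 3 q69 (.c 5 q68 (.c 6 q213 (.c 7 q214 (.c 8 q229 (.c 9 q230 .e)))))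
noncomputable def q231 : Tr := .c 3 v17 (.c 5 v18 (.c 9 v18 .e))
noncomputable def r288 : Tr := .c 1 q231 (.c 7 q214 (.c 8 q229 (.c 9 q230 .e)))
noncomputable def q232 : Tr := .c 5 v18 (.c 8 v18 (.c 9 v18 .e))
noncomputable def r289 : Tr := .c 0 q232 (.c 1 q231 (.c 6 q213 (.c 7 q214 (.c 8 q229 (.c 9 q230 .e)))))
noncomputable def r290 : Tr := .c 1 q231 (.c 5 q72 (.c 8 q229 (.c 9 q230 .e)))
noncomputable def t71 : Tr := .c 0 r286 (.c 2 r287 (.c 3 r288 (.c 4 r289 (.c 6 r290 .e))))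
noncomputable def r291 : Tr := .c 1 q118 (.c 2 q191 (.c 7 q156 .e))
noncomputable def r292 : Tr := .c 0 q15 (.c 1 q118 (.c 6 q34 (.c 7 q156 .e)))
noncomputable def r293 : Tr := .c 1 q118 (.c 2 q191 (.c 4 q194 (.c 5 q195 .e)))
noncomputable def t72 : Tr := .c 3 r291 (.c 4 r292 (.c 6 r293 .e))
noncomputable def r294 : Tr := .c 1 q130 (.c 2 q196 (.c 7 q197 .e))
noncomputable def r295 : Tr := .c 1 q130 (.c 2 q196 (.c 4 q198 (.c 5 q195 .e)))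
noncomputable def r296 : Tr := .c 0 q89 (.c 2 q196 (.c 3 q89 (.c 4 q198 (.c 5 q195 .e))))
noncomputable def t73 : Tr := .c 3 r294 (.c 6 r295 (.c 7 r296 (.c 8 r259 .e)))
noncomputable def q233 : Tr := .c 3 v6 .e
noncomputable def r297 : Tr := .c 4 q200 (.c 5 q201 (.c 7 q233 .e))
noncomputable def r298 : Tr := .c 3 q92 (.c 4 q200 (.c 5 q201 (.c 6 q202 .e)))
noncomputable def t74 : Tr := .c 0 r297 (.c 1 r298 (.c 6 r295 (.c 7 r296 (.c 8 r259 .e))))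
noncomputable def q234 : Tr := .c 6 v38 (.c 7 v38 (.c 8 v4 (.c 9 v4 .e)))
noncomputable def q235 : Tr := .c 6 v2 (.c 7 v2 (.c 8 v38 .e))
noncomputable def r299 : Tr := .c 4 q234 (.c 5 q235 (.c 7 q156 .e))
noncomputable def r300 : Tr := .c 3 q96 (.c 4 q234 (.c 5 q235 (.c 6 q34 .e)))
noncomputable def r301 : Tr := .c 3 q96 (.c 5 q235 (.c 6 q34 (.c 7 q156 .e)))
noncomputable def q236 : Tr := .c 6 v2 (.c 7 v2 (.c 8 v36 .e))
noncomputable def r302 : Tr := .c 1 q118 (.c 2 q191 (.c 4 q194 (.c 5 q236 .e)))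
noncomputable def r303 : Tr := .c 0 q83 (.c 2 q191 (.c 3 q84 (.c 4 q194 (.c 5 q236 .e))))
noncomputable def q237 : Tr := .c 3 v38 (.c 5 v4 (.c 6 v38 (.c 7 v38 (.c 8 v4 (.c 9 v4 .e)))))
noncomputable def r304 : Tr := .c 0 q99 (.c 2 q237 (.c 3 q96 (.c 4 q234 (.c 5 q235 (.c 6 q34 .e)))))
noncomputable def t75 : Tr := .c 0 r299 (.c 1 r300 (.c 2 r301 (.c 6 r302 (.c 7 r303 (.c 8 r304 .e)))))
noncomputable def r305 : Tr := .c 4 q26 (.c 5 q100 (.c 7 q156 .e))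
noncomputable def r306 : Tr := .c 3 q26 (.c 5 q100 (.c 6 q34 (.c 7 q156 .e)))
noncomputable def r307 : Tr := .c 1 q151 (.c 2 q210 (.c 7 q156 .e))
noncomputable def r308 : Tr := .c 0 q27 (.c 1 q151 (.c 6 q34 (.c 7 q156 .e)))
noncomputable def r309 : Tr := .c 1 q151 (.c 2 q210 (.c 4 q31 (.c 5 q101 .e)))
noncomputable def t76 : Tr := .c 0 r305 (.c 2 r306 (.c 3 r307 (.c 4 r308 (.c 6 r309 .e))))
noncomputable def r310 : Tr := .c 0 q27 (.c 2 q210 (.c 3 q31 (.c 4 q31 (.c 5 q101 .e))))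
noncomputable def t77 : Tr := .c 0 r305 (.c 1 r77 (.c 2 r306 (.c 3 r307 (.c 4 r308 (.c 6 r309 (.c 7 r310 .e))))))
noncomputable def q238 : Tr := .c 5 v34 (.c 7 v6 (.c 8 v34 (.c 9 v34 .e)))
noncomputable def q239 : Tr := .c 3 v2 (.c 5 v34 (.c 6 v2 (.c 9 v34 .e)))
noncomputable def q240 : Tr := .c 5 v6 (.c 8 v6 (.c 9 v6 .e))
noncomputable def q241 : Tr := .c 3 v6 (.c 5 v6 (.c 9 v6 .e))
noncomputable def r311 : Tr := .c 0 q238 (.c 1 q239 (.c 6 q240 (.c 7 q241 .e)))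
noncomputable def r312 : Tr := .c 0 q83 (.c 2 q191 (.c 3 q84 (.c 4 q194 (.c 5 q195 .e))))
noncomputable def q242 : Tr := .c 3 v2 (.c 5 v8 (.c 6 v2 (.c 7 v2 (.c 8 v8 (.c 9 v8 .e)))))
noncomputable def q243 : Tr := .c 6 v2 (.c 7 v2 (.c 8 v8 (.c 9 v8 .e)))
noncomputable def q244 : Tr := .c 5 v8 (.c 8 v8 (.c 9 v8 .e))
noncomputable def r313 : Tr := .c 0 q79 (.c 2 q242 (.c 3 q86 (.c 4 q243 (.c 5 q201 (.c 6 q244 .e)))))
noncomputable def t78 : Tr := .c 4 r311 (.c 7 r312 (.c 8 r313 .e))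
noncomputable def r314 : Tr := .c 3 q86 (.c 4 q243 (.c 5 q201 (.c 6 q244 .e)))
noncomputable def q245 : Tr := .c 3 v35 (.c 5 v8 (.c 9 v8 .e))
noncomputable def r315 : Tr := .c 3 q86 (.c 5 q201 (.c 6 q244 (.c 7 q245 .e)))
noncomputable def t79 : Tr := .c 1 r314 (.c 2 r315 (.c 7 r312 (.c 8 r313 .e)))
noncomputable def r316 : Tr := .c 0 q211 (.c 1 q212 (.c 8 q215 (.c 9 q216 .e)))
noncomputable def q246 : Tr := .c 3 v17 (.c 5 v26 (.c 6 v17 (.c 7 v17 (.c 8 v26 (.c 9 v26 .e)))))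
noncomputable def q247 : Tr := .c 6 v17 (.c 7 v17 (.c 8 v26 (.c 9 v26 .e)))
noncomputable def r317 : Tr := .c 0 q103 (.c 2 q246 (.c 3 q48 (.c 4 q247 (.c 5 q217 (.c 9 q216 .e)))))
noncomputable def q248 : Tr := .c 3 v24 (.c 5 v23 (.c 6 v24 (.c 7 v24 (.c 8 v23 (.c 9 v23 .e)))))
noncomputable def q249 : Tr := .c 6 v24 (.c 7 v24 (.c 8 v23 (.c 9 v23 .e)))
noncomputable def r318 : Tr := .c 0 q102 (.c 2 q248 (.c 3 q50 (.c 4 q249 (.c 5 q218 .e))))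
noncomputable def t80 : Tr := .c 4 r316 (.c 7 r317 (.c 8 r318 .e))
noncomputable def q250 : Tr := .c 3 v17 (.c 6 v17 (.c 7 v17 (.c 8 v26 .e)))
noncomputable def r319 : Tr := .c 1 q220 (.c 2 q250 (.c 8 q220 (.c 9 q216 .e)))
noncomputable def q251 : Tr := .c 6 v17 (.c 7 v17 (.c 8 v26 .e))
noncomputable def r320 : Tr := .c 1 q220 (.c 2 q250 (.c 4 q251 (.c 5 q217 (.c 8 q220 (.c 9 q216 .e)))))
noncomputable def r321 : Tr := .c 0 q59 (.c 2 q250 (.c 3 q59 (.c 4 q251 (.c 5 q217 (.c 9 q216 .e)))))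
noncomputable def q252 : Tr := .c 3 v24 (.c 6 v24 (.c 7 v24 (.c 8 v23 .e)))
noncomputable def q253 : Tr := .c 6 v24 (.c 7 v24 (.c 8 v23 .e))
noncomputable def r322 : Tr := .c 0 q60 (.c 2 q252 (.c 3 q60 (.c 4 q253 (.c 5 q218 .e))))
noncomputable def t81 : Tr := .c 3 r319 (.c 6 r320 (.c 7 r321 (.c 8 r322 .e)))
noncomputable def r323 : Tr := .c 3 q50 (.c 4 q249 (.c 5 q218 (.c 9 q225 .e)))
noncomputable def r324 : Tr := .c 3 q50 (.c 5 q218 (.c 8 q227 (.c 9 q225 .e)))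
noncomputable def t82 : Tr := .c 1 r323 (.c 2 r324 (.c 7 r317 (.c 8 r318 .e)))
noncomputable def q254 : Tr := .c 3 v28 (.c 6 v28 .e)
noncomputable def r325 : Tr := .c 4 q253 (.c 5 q218 (.c 8 q254 (.c 9 q225 .e)))
noncomputable def r326 : Tr := .c 3 q60 (.c 4 q253 (.c 5 q218 (.c 9 q225 .e)))
noncomputable def t83 : Tr := .c 0 r325 (.c 1 r326 (.c 6 r320 (.c 7 r321 (.c 8 r322 .e))))
noncomputable def q255 : Tr := .c 6 v6 (.c 7 v6 (.c 8 v39 (.c 9 v39 .e)))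
noncomputable def q256 : Tr := .c 6 v37 (.c 7 v37 (.c 8 v2 .e))
noncomputable def q257 : Tr := .c 3 v37 (.c 5 v40 (.c 6 v37 .e))
noncomputable def q258 : Tr := .c 3 v37 (.c 6 v37 (.c 7 v37 .e))
noncomputable def r327 : Tr := .c 4 q255 (.c 5 q256 (.c 8 q257 (.c 9 q258 .e)))
noncomputable def r328 : Tr := .c 3 q105 (.c 4 q255 (.c 5 q256 (.c 9 q258 .e)))
noncomputable def r329 : Tr := .c 3 q105 (.c 5 q256 (.c 8 q257 (.c 9 q258 .e)))
noncomputable def q259 : Tr := .c 3 v42 (.c 5 v41 (.c 6 v42 (.c 9 v41 .e)))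
noncomputable def q260 : Tr := .c 3 v42 (.c 5 v41 (.c 6 v42 (.c 7 v42 (.c 8 v41 (.c 9 v41 .e)))))
noncomputable def q261 : Tr := .c 6 v42 (.c 7 v42 (.c 8 v41 (.c 9 v41 .e)))
noncomputable def q262 : Tr := .c 6 v42 (.c 7 v42 (.c 8 v2 .e))
noncomputable def q263 : Tr := .c 3 v42 (.c 5 v41 (.c 6 v42 .e))
noncomputable def q264 : Tr := .c 3 v42 (.c 6 v42 (.c 7 v42 .e))
noncomputable def r330 : Tr := .c 1 q259 (.c 2 q260 (.c 4 q261 (.c 5 q262 (.c 8 q263 (.c 9 q264 .e)))))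
noncomputable def r331 : Tr := .c 0 q110 (.c 2 q260 (.c 3 q111 (.c 4 q261 (.c 5 q262 (.c 9 q264 .e)))))
noncomputable def q265 : Tr := .c 3 v6 (.c 5 v39 (.c 6 v6 (.c 7 v6 (.c 8 v39 (.c 9 v39 .e)))))
noncomputable def r332 : Tr := .c 0 q115 (.c 2 q265 (.c 3 q105 (.c 4 q255 (.c 5 q256 .e))))
noncomputable def t84 : Tr := .c 0 r327 (.c 1 r328 (.c 2 r329 (.c 6 r330 (.c 7 r331 (.c 8 r332 .e)))))
noncomputable def q266 : Tr := .c 6 v24 (.c 7 v24 .e)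
noncomputable def r333 : Tr := .c 3 q61 (.c 4 q266 (.c 5 q223 (.c 9 q225 .e)))
noncomputable def r334 : Tr := .c 3 q61 (.c 5 q223 (.c 8 q227 (.c 9 q225 .e)))
noncomputable def r335 : Tr := .c 0 q228 (.c 1 q227 (.c 8 q227 (.c 9 q225 .e)))
noncomputable def q267 : Tr := .c 3 v24 (.c 5 v23 (.c 6 v24 (.c 7 v24 .e)))
noncomputable def r336 : Tr := .c 0 q116 (.c 2 q267 (.c 3 q61 (.c 4 q266 (.c 5 q223 .e))))
noncomputable def t85 : Tr := .c 1 r333 (.c 2 r334 (.c 4 r335 (.c 8 r336 .e)))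
noncomputable def r337 : Tr := .c 0 q102 (.c 3 q50 (.c 5 q218 .e))
noncomputable def t86 : Tr := .c 4 r316 (.c 7 r272 (.c 8 r337 .e))
noncomputable def r338 : Tr := .c 1 q212 (.c 8 q215 (.c 9 q216 .e))
noncomputable def t87 : Tr := .c 3 r338 (.c 4 r316 (.c 6 r275 .e))
noncomputable def r339 : Tr := .c 1 q220 (.c 8 q220 (.c 9 q216 .e))
noncomputable def r340 : Tr := .c 0 q60 (.c 3 q60 (.c 5 q218 .e))
noncomputable def t88 : Tr := .c 3 r339 (.c 6 r277 (.c 7 r278 (.c 8 r340 .e)))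
noncomputable def r341 : Tr := .c 3 q50 (.c 5 q218 (.c 9 q225 .e))
noncomputable def t89 : Tr := .c 1 r341 (.c 2 r324 (.c 7 r272 (.c 8 r337 .e)))
noncomputable def r342 : Tr := .c 5 q218 (.c 8 q254 (.c 9 q225 .e))
noncomputable def r343 : Tr := .c 3 q60 (.c 5 q218 (.c 9 q225 .e))
noncomputable def t90 : Tr := .c 0 r342 (.c 1 r343 (.c 6 r277 (.c 7 r278 (.c 8 r340 .e))))
noncomputable def r344 : Tr := .c 3 q61 (.c 5 q223 (.c 9 q225 .e))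
noncomputable def r345 : Tr := .c 0 q116 (.c 3 q61 (.c 5 q223 .e))
noncomputable def t91 : Tr := .c 1 r344 (.c 2 r334 (.c 4 r335 (.c 8 r345 .e)))
noncomputable def r346 : Tr := .c 5 q223 (.c 8 q227 (.c 9 q225 .e))
noncomputable def r347 : Tr := .c 1 q227 (.c 8 q227 (.c 9 q225 .e))
noncomputable def t92 : Tr := .c 0 r346 (.c 2 r334 (.c 3 r347 (.c 4 r335 .e)))
noncomputable def q268 : Tr := .c 1 v23 (.c 2 v23 (.c 7 v24 (.c 8 v23 (.c 9 v23 .e))))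
noncomputable def q269 : Tr := .c 1 v23 (.c 7 v24 (.c 8 v23 (.c 9 v23 .e)))
noncomputable def q270 : Tr := .c 1 v29 (.c 2 v29 (.c 7 v28 (.c 8 v29 .e)))
noncomputable def q271 : Tr := .c 1 v23 (.c 2 v23 (.c 8 v23 (.c 9 v23 .e)))
noncomputable def q272 : Tr := .c 1 v29 (.c 2 v29 (.c 7 v28 .e))
noncomputable def r348 : Tr := .c 3 q268 (.c 4 q269 (.c 5 q270 (.c 6 q271 (.c 9 q272 .e))))
noncomputable def q273 : Tr := .c 2 v23 (.c 9 v23 .e)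
noncomputable def q274 : Tr := .c 2 v29 .e
noncomputable def r349 : Tr := .c 3 q268 (.c 5 q270 (.c 6 q271 (.c 7 q273 (.c 8 q274 (.c 9 q272 .e)))))
noncomputable def q275 : Tr := .c 1 v26 (.c 2 v26 (.c 7 v17 (.c 8 v26 (.c 9 v26 .e))))
noncomputable def q276 : Tr := .c 1 v26 (.c 7 v17 (.c 8 v26 (.c 9 v26 .e)))
noncomputable def q277 : Tr := .c 1 v27 (.c 2 v27 (.c 7 v17 (.c 8 v27 .e)))
noncomputable def q278 : Tr := .c 1 v27 (.c 2 v27 (.c 7 v17 .e))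
noncomputable def r350 : Tr := .c 0 q48 (.c 2 q48 (.c 3 q275 (.c 4 q276 (.c 5 q277 (.c 9 q278 .e)))))
noncomputable def r351 : Tr := .c 0 q50 (.c 2 q50 (.c 3 q268 (.c 4 q269 (.c 5 q270 (.c 6 q271 .e)))))
noncomputable def r352 : Tr := .c 0 q50 (.c 1 q173 (.c 2 q50 (.c 3 q268 (.c 4 q269 (.c 6 q271 (.c 7 q273 .e))))))
noncomputable def t93 : Tr := .c 1 r348 (.c 2 r349 (.c 7 r350 (.c 8 r351 (.c 9 r352 .e))))
noncomputable def q279 : Tr := .c 1 v23 (.c 7 v24 (.c 8 v23 .e))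
noncomputable def q280 : Tr := .c 2 v6 .e
noncomputable def r353 : Tr := .c 4 q279 (.c 5 q270 (.c 7 q280 (.c 8 q274 (.c 9 q272 .e))))
noncomputable def q281 : Tr := .c 1 v23 (.c 2 v23 (.c 7 v24 (.c 8 v23 .e)))
noncomputable def q282 : Tr := .c 1 v23 (.c 2 v23 (.c 8 v23 .e))
noncomputable def r354 : Tr := .c 3 q281 (.c 4 q279 (.c 5 q270 (.c 6 q282 (.c 9 q272 .e))))
noncomputable def q283 : Tr := .c 1 v26 (.c 7 v17 (.c 8 v26 .e))
noncomputable def q284 : Tr := .c 2 v27 .e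
noncomputable def r355 : Tr := .c 2 q59 (.c 4 q283 (.c 5 q277 (.c 8 q284 (.c 9 q278 .e))))
noncomputable def q285 : Tr := .c 1 v26 (.c 2 v26 (.c 7 v17 (.c 8 v26 .e)))
noncomputable def r356 : Tr := .c 0 q59 (.c 2 q59 (.c 3 q285 (.c 4 q283 (.c 5 q277 (.c 9 q278 .e)))))
noncomputable def r357 : Tr := .c 0 q60 (.c 2 q60 (.c 3 q281 (.c 4 q279 (.c 5 q270 (.c 6 q282 .e)))))
noncomputable def q286 : Tr := .c 2 v23 .e
noncomputable def r358 : Tr := .c 0 q60 (.c 2 q60 (.c 3 q281 (.c 4 q279 (.c 6 q282 (.c 7 q286 .e)))))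
noncomputable def t94 : Tr := .c 0 r353 (.c 1 r354 (.c 6 r355 (.c 7 r356 (.c 8 r357 (.c 9 r358 .e)))))
noncomputable def q287 : Tr := .c 1 v39 (.c 7 v6 (.c 8 v39 (.c 9 v39 .e)))
noncomputable def q288 : Tr := .c 1 v2 (.c 7 v37 (.c 8 v2 .e))
noncomputable def q289 : Tr := .c 9 v39 .e
noncomputable def q290 : Tr := .c 1 v2 (.c 7 v37 .e)
noncomputable def r359 : Tr := .c 4 q287 (.c 5 q288 (.c 7 q289 (.c 9 q290 .e)))
noncomputable def q291 : Tr := .c 1 v39 (.c 8 v39 (.c 9 v39 .e))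
noncomputable def r360 : Tr := .c 3 q287 (.c 4 q287 (.c 5 q288 (.c 6 q291 (.c 9 q290 .e))))
noncomputable def r361 : Tr := .c 3 q287 (.c 5 q288 (.c 6 q291 (.c 7 q289 (.c 9 q290 .e))))
noncomputable def q292 : Tr := .c 9 v41 .e
noncomputable def q293 : Tr := .c 1 v41 (.c 7 v42 (.c 8 v41 (.c 9 v41 .e)))
noncomputable def q294 : Tr := .c 1 v2 (.c 7 v42 (.c 8 v2 .e))
noncomputable def q295 : Tr := .c 1 v2 (.c 7 v42 .e)
noncomputable def r362 : Tr := .c 1 q292 (.c 2 q111 (.c 4 q293 (.c 5 q294 (.c 9 q295 .e))))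
noncomputable def r363 : Tr := .c 0 q111 (.c 2 q111 (.c 3 q293 (.c 4 q293 (.c 5 q294 (.c 9 q295 .e)))))
noncomputable def r364 : Tr := .c 0 q105 (.c 2 q105 (.c 3 q287 (.c 4 q287 (.c 5 q288 (.c 6 q291 .e)))))
noncomputable def t95 : Tr := .c 0 r359 (.c 1 r360 (.c 2 r361 (.c 6 r362 (.c 7 r363 (.c 8 r364 .e)))))
noncomputable def q296 : Tr := .c 1 v23 (.c 2 v23 (.c 7 v24 .e))
noncomputable def q297 : Tr := .c 1 v23 (.c 7 v24 .e)
noncomputable def q298 : Tr := .c 1 v23 (.c 2 v23 .e)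
noncomputable def r365 : Tr := .c 3 q296 (.c 4 q297 (.c 5 q272 (.c 6 q298 (.c 9 q272 .e))))
noncomputable def r366 : Tr := .c 3 q296 (.c 5 q272 (.c 6 q298 (.c 7 q286 (.c 8 q274 (.c 9 q272 .e)))))
noncomputable def r367 : Tr := .c 0 q24 (.c 6 q298 (.c 7 q286 (.c 8 q274 (.c 9 q272 .e))))
noncomputable def r368 : Tr := .c 0 q61 (.c 2 q61 (.c 6 q298 (.c 7 q286 (.c 8 q280 .e))))
noncomputable def r369 : Tr := .c 0 q61 (.c 2 q61 (.c 3 q296 (.c 4 q297 (.c 5 q272 (.c 6 q298 .e)))))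
noncomputable def r370 : Tr := .c 0 q61 (.c 2 q61 (.c 3 q296 (.c 4 q297 (.c 6 q298 (.c 7 q286 .e)))))
noncomputable def t96 : Tr := .c 1 r365 (.c 2 r366 (.c 4 r367 (.c 5 r368 (.c 8 r369 (.c 9 r370 .e)))))
noncomputable def q299 : Tr := .c 1 v2 (.c 8 v2 .e)
noncomputable def q300 : Tr := .c 1 v2 .e
noncomputable def r371 : Tr := .c 4 q291 (.c 5 q299 (.c 7 q289 (.c 9 q300 .e)))
noncomputable def r372 : Tr := .c 3 q291 (.c 4 q291 (.c 5 q299 (.c 6 q291 (.c 9 q300 .e))))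
noncomputable def r373 : Tr := .c 3 q291 (.c 5 q299 (.c 6 q291 (.c 7 q289 (.c 9 q300 .e))))
noncomputable def q301 : Tr := .c 8 v41 (.c 9 v41 .e)
noncomputable def r374 : Tr := .c 1 q292 (.c 2 q301 (.c 7 q289 (.c 9 q300 .e)))
noncomputable def r375 : Tr := .c 0 q301 (.c 1 q292 (.c 6 q291 (.c 7 q289 (.c 9 q300 .e))))
noncomputable def q302 : Tr := .c 1 v41 (.c 8 v41 (.c 9 v41 .e))
noncomputable def r376 : Tr := .c 1 q292 (.c 2 q301 (.c 4 q302 (.c 5 q299 (.c 9 q300 .e))))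
noncomputable def r377 : Tr := .c 0 q301 (.c 2 q301 (.c 3 q302 (.c 4 q302 (.c 5 q299 (.c 9 q300 .e)))))
noncomputable def t97 : Tr := .c 0 r371 (.c 1 r372 (.c 2 r373 (.c 3 r374 (.c 4 r375 (.c 6 r376 (.c 7 r377 .e))))))
noncomputable def r378 : Tr := .c 3 q268 (.c 4 q269 (.c 6 q271 .e))
noncomputable def r379 : Tr := .c 3 q268 (.c 6 q271 (.c 7 q273 (.c 8 q274 .e)))
noncomputable def r380 : Tr := .c 0 q48 (.c 2 q48 (.c 3 q275 (.c 4 q276 .e)))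
noncomputable def r381 : Tr := .c 0 q50 (.c 2 q50 (.c 3 q268 (.c 4 q269 (.c 6 q271 .e))))
noncomputable def t98 : Tr := .c 1 r378 (.c 2 r379 (.c 7 r380 (.c 8 r381 (.c 9 r352 .e))))
noncomputable def r382 : Tr := .c 4 q287 (.c 7 q289 .e)
noncomputable def r383 : Tr := .c 3 q287 (.c 4 q287 (.c 6 q291 .e))
noncomputable def r384 : Tr := .c 3 q287 (.c 6 q291 (.c 7 q289 .e))
noncomputable def r385 : Tr := .c 1 q292 (.c 2 q111 (.c 4 q293 .e))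
noncomputable def r386 : Tr := .c 0 q111 (.c 2 q111 (.c 3 q293 (.c 4 q293 .e)))
noncomputable def r387 : Tr := .c 0 q105 (.c 2 q105 (.c 3 q287 (.c 4 q287 (.c 6 q291 .e))))
noncomputable def t99 : Tr := .c 0 r382 (.c 1 r383 (.c 2 r384 (.c 6 r385 (.c 7 r386 (.c 8 r387 .e)))))
noncomputable def r388 : Tr := .c 3 q296 (.c 4 q297 (.c 6 q298 .e))
noncomputable def r389 : Tr := .c 3 q296 (.c 6 q298 (.c 7 q286 (.c 8 q274 .e)))
noncomputable def r390 : Tr := .c 0 q24 (.c 6 q298 (.c 7 q286 (.c 8 q274 .e)))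
noncomputable def r391 : Tr := .c 0 q61 (.c 2 q61 (.c 3 q296 (.c 4 q297 (.c 6 q298 .e))))
noncomputable def t100 : Tr := .c 1 r388 (.c 2 r389 (.c 4 r390 (.c 5 r368 (.c 8 r391 (.c 9 r370 .e)))))
noncomputable def q303 : Tr := .c 1 v6 (.c 7 v6 .e)
noncomputable def r392 : Tr := .c 4 q303 (.c 7 q286 (.c 8 q274 .e))
noncomputable def r393 : Tr := .c 2 q207 (.c 7 q286 (.c 8 q274 .e))
noncomputable def t101 : Tr := .c 0 r392 (.c 2 r389 (.c 3 r393 (.c 4 r390 (.c 5 r368 (.c 9 r370 .e)))))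
noncomputable def q304 : Tr := .c 2 v39 (.c 9 v39 .e)
noncomputable def q305 : Tr := .c 2 v2 .e
noncomputable def r394 : Tr := .c 4 q291 (.c 7 q304 (.c 8 q305 .e))
noncomputable def q306 : Tr := .c 1 v39 (.c 2 v39 (.c 8 v39 (.c 9 v39 .e)))
noncomputable def r395 : Tr := .c 3 q306 (.c 6 q306 (.c 7 q304 (.c 8 q305 .e)))
noncomputable def r396 : Tr := .c 1 q292 (.c 2 q301 (.c 7 q304 (.c 8 q305 .e)))
noncomputable def r397 : Tr := .c 0 q301 (.c 1 q292 (.c 6 q306 (.c 7 q304 (.c 8 q305 .e))))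
noncomputable def q307 : Tr := .c 8 v6 (.c 9 v6 .e)
noncomputable def q308 : Tr := .c 9 v6 .e
noncomputable def q309 : Tr := .c 1 v6 (.c 2 v6 (.c 8 v6 (.c 9 v6 .e)))
noncomputable def q310 : Tr := .c 2 v6 (.c 9 v6 .e)
noncomputable def r398 : Tr := .c 0 q307 (.c 1 q308 (.c 2 q307 (.c 6 q309 (.c 7 q310 (.c 8 q280 .e)))))
noncomputable def r399 : Tr := .c 1 q292 (.c 2 q301 (.c 4 q302 (.c 8 q305 .e)))
noncomputable def t102 : Tr := .c 0 r394 (.c 2 r395 (.c 3 r396 (.c 4 r397 (.c 5 r398 (.c 6 r399 .e)))))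
noncomputable def r400 : Tr := .c 4 q291 (.c 7 q289 .e)
noncomputable def r401 : Tr := .c 3 q291 (.c 4 q291 (.c 6 q291 .e))
noncomputable def r402 : Tr := .c 3 q291 (.c 6 q291 (.c 7 q289 .e))
noncomputable def r403 : Tr := .c 1 q292 (.c 2 q301 (.c 7 q289 .e))
noncomputable def r404 : Tr := .c 0 q301 (.c 1 q292 (.c 6 q291 (.c 7 q289 .e)))
noncomputable def r405 : Tr := .c 1 q292 (.c 2 q301 (.c 4 q302 .e))
noncomputable def r406 : Tr := .c 0 q301 (.c 2 q301 (.c 3 q302 (.c 4 q302 .e)))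
noncomputable def t103 : Tr := .c 0 r400 (.c 1 r401 (.c 2 r402 (.c 3 r403 (.c 4 r404 (.c 6 r405 (.c 7 r406 .e))))))
noncomputable def q311 : Tr := .c 7 v6 (.c 8 v34 (.c 9 v34 .e))
noncomputable def q312 : Tr := .c 9 v34 .e
noncomputable def r407 : Tr := .c 0 q311 (.c 1 q312 (.c 6 q309 (.c 7 q310 .e)))
noncomputable def q313 : Tr := .c 1 v8 (.c 2 v8 (.c 8 v8 (.c 9 v8 .e)))
noncomputable def q314 : Tr := .c 2 v8 (.c 9 v8 .e)
noncomputable def r408 : Tr := .c 0 q86 (.c 1 q161 (.c 2 q86 (.c 6 q313 (.c 7 q314 .e))))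
noncomputable def q315 : Tr := .c 1 v1 (.c 2 v1 (.c 7 v0 (.c 8 v1 (.c 9 v1 .e))))
noncomputable def q316 : Tr := .c 1 v1 (.c 7 v0 (.c 8 v1 (.c 9 v1 .e)))
noncomputable def q317 : Tr := .c 1 v36 (.c 2 v36 (.c 7 v0 (.c 8 v36 .e)))
noncomputable def r409 : Tr := .c 0 q84 (.c 2 q84 (.c 3 q315 (.c 4 q316 (.c 5 q317 .e))))
noncomputable def q318 : Tr := .c 1 v8 (.c 2 v8 (.c 7 v2 (.c 8 v8 (.c 9 v8 .e))))
noncomputable def q319 : Tr := .c 1 v8 (.c 7 v2 (.c 8 v8 (.c 9 v8 .e)))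
noncomputable def q320 : Tr := .c 1 v6 (.c 2 v6 (.c 7 v37 (.c 8 v6 .e)))
noncomputable def r410 : Tr := .c 0 q86 (.c 2 q86 (.c 3 q318 (.c 4 q319 (.c 5 q320 (.c 6 q313 .e)))))
noncomputable def r411 : Tr := .c 0 q86 (.c 1 q161 (.c 2 q86 (.c 3 q318 (.c 4 q319 (.c 6 q313 (.c 7 q314 .e))))))
noncomputable def t104 : Tr := .c 4 r407 (.c 5 r408 (.c 7 r409 (.c 8 r410 (.c 9 r411 .e))))
noncomputable def q321 : Tr := .c 2 v35 .e
noncomputable def r412 : Tr := .c 2 q89 (.c 7 q321 .e)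
noncomputable def q322 : Tr := .c 1 v8 (.c 2 v8 (.c 8 v8 .e))
noncomputable def q323 : Tr := .c 2 v8 .e
noncomputable def r413 : Tr := .c 0 q92 (.c 2 q92 (.c 6 q322 (.c 7 q323 .e)))
noncomputable def q324 : Tr := .c 1 v1 (.c 7 v0 (.c 8 v1 .e))
noncomputable def r414 : Tr := .c 2 q89 (.c 4 q324 (.c 5 q317 .e))
noncomputable def q325 : Tr := .c 1 v1 (.c 2 v1 (.c 7 v0 (.c 8 v1 .e)))
noncomputable def r415 : Tr := .c 0 q89 (.c 2 q89 (.c 3 q325 (.c 4 q324 (.c 5 q317 .e))))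
noncomputable def q326 : Tr := .c 1 v8 (.c 2 v8 (.c 7 v2 (.c 8 v8 .e)))
noncomputable def q327 : Tr := .c 1 v8 (.c 7 v2 (.c 8 v8 .e))
noncomputable def r416 : Tr := .c 0 q92 (.c 2 q92 (.c 3 q326 (.c 4 q327 (.c 5 q320 (.c 6 q322 .e)))))
noncomputable def r417 : Tr := .c 0 q92 (.c 2 q92 (.c 3 q326 (.c 4 q327 (.c 6 q322 (.c 7 q323 .e)))))
noncomputable def t105 : Tr := .c 3 r412 (.c 5 r413 (.c 6 r414 (.c 7 r415 (.c 8 r416 (.c 9 r417 .e)))))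
noncomputable def r418 : Tr := .c 3 q318 (.c 4 q319 (.c 5 q320 (.c 6 q313 .e)))
noncomputable def r419 : Tr := .c 3 q318 (.c 5 q320 (.c 6 q313 (.c 7 q314 .e)))
noncomputable def t106 : Tr := .c 1 r418 (.c 2 r419 (.c 7 r409 (.c 8 r410 (.c 9 r411 .e))))
noncomputable def r420 : Tr := .c 4 q327 (.c 5 q320 (.c 7 q280 .e))
noncomputable def r421 : Tr := .c 3 q326 (.c 4 q327 (.c 5 q320 (.c 6 q322 .e)))
noncomputable def t107 : Tr := .c 0 r420 (.c 1 r421 (.c 6 r414 (.c 7 r415 (.c 8 r416 (.c 9 r417 .e)))))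
noncomputable def q328 : Tr := .c 1 v4 (.c 7 v38 (.c 8 v4 (.c 9 v4 .e)))
noncomputable def q329 : Tr := .c 1 v38 (.c 7 v2 (.c 8 v38 .e))
noncomputable def r422 : Tr := .c 4 q328 (.c 5 q329 (.c 7 q147 .e))
noncomputable def q330 : Tr := .c 1 v4 (.c 8 v4 (.c 9 v4 .e))
noncomputable def r423 : Tr := .c 3 q328 (.c 4 q328 (.c 5 q329 (.c 6 q330 .e)))
noncomputable def r424 : Tr := .c 3 q328 (.c 5 q329 (.c 6 q330 (.c 7 q147 .e)))
noncomputable def q331 : Tr := .c 1 v36 (.c 7 v2 (.c 8 v36 .e))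
noncomputable def r425 : Tr := .c 1 q155 (.c 2 q84 (.c 4 q316 (.c 5 q331 .e)))
noncomputable def r426 : Tr := .c 0 q84 (.c 2 q84 (.c 3 q316 (.c 4 q316 (.c 5 q331 .e))))
noncomputable def r427 : Tr := .c 0 q96 (.c 2 q96 (.c 3 q328 (.c 4 q328 (.c 5 q329 (.c 6 q330 .e)))))
noncomputable def t108 : Tr := .c 0 r422 (.c 1 r423 (.c 2 r424 (.c 6 r425 (.c 7 r426 (.c 8 r427 .e)))))
noncomputable def q332 : Tr := .c 1 v38 (.c 8 v38 .e)
noncomputable def r428 : Tr := .c 4 q330 (.c 5 q332 (.c 7 q147 .e))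
noncomputable def r429 : Tr := .c 3 q330 (.c 4 q330 (.c 5 q332 (.c 6 q330 .e)))
noncomputable def r430 : Tr := .c 3 q330 (.c 5 q332 (.c 6 q330 (.c 7 q147 .e)))
noncomputable def r431 : Tr := .c 1 q155 (.c 2 q31 (.c 7 q147 .e))
noncomputable def r432 : Tr := .c 0 q31 (.c 1 q155 (.c 6 q330 (.c 7 q147 .e)))
noncomputable def q333 : Tr := .c 1 v1 (.c 8 v1 (.c 9 v1 .e))
noncomputable def q334 : Tr := .c 1 v36 (.c 8 v36 .e)
noncomputable def r433 : Tr := .c 1 q155 (.c 2 q31 (.c 4 q333 (.c 5 q334 .e)))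
noncomputable def r434 : Tr := .c 0 q31 (.c 2 q31 (.c 3 q333 (.c 4 q333 (.c 5 q334 .e))))
noncomputable def t109 : Tr := .c 0 r428 (.c 1 r429 (.c 2 r430 (.c 3 r431 (.c 4 r432 (.c 6 r433 (.c 7 r434 .e))))))
noncomputable def q335 : Tr := .c 7 v19 (.c 8 v18 (.c 9 v18 .e))
noncomputable def q336 : Tr := .c 9 v18 .e
noncomputable def r435 : Tr := .c 0 q335 (.c 1 q336 (.c 8 q284 (.c 9 q278 .e)))
noncomputable def r436 : Tr := .c 0 q50 (.c 1 q173 (.c 2 q50 (.c 8 q280 .e)))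
noncomputable def r437 : Tr := .c 0 q50 (.c 2 q50 (.c 3 q268 (.c 4 q269 (.c 5 q270 .e))))
noncomputable def r438 : Tr := .c 0 q50 (.c 1 q173 (.c 2 q50 (.c 3 q268 (.c 4 q269 .e))))
noncomputable def t110 : Tr := .c 4 r435 (.c 5 r436 (.c 7 r350 (.c 8 r437 (.c 9 r438 .e))))
noncomputable def r439 : Tr := .c 2 q59 (.c 8 q284 (.c 9 q278 .e))
noncomputable def r440 : Tr := .c 0 q60 (.c 2 q60 (.c 8 q280 .e))
noncomputable def r441 : Tr := .c 0 q60 (.c 2 q60 (.c 3 q281 (.c 4 q279 (.c 5 q270 .e))))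
noncomputable def r442 : Tr := .c 0 q60 (.c 2 q60 (.c 3 q281 (.c 4 q279 .e)))
noncomputable def t111 : Tr := .c 3 r439 (.c 5 r440 (.c 6 r355 (.c 7 r356 (.c 8 r441 (.c 9 r442 .e)))))
noncomputable def r443 : Tr := .c 3 q268 (.c 4 q269 (.c 5 q270 (.c 9 q272 .e)))
noncomputable def r444 : Tr := .c 3 q268 (.c 5 q270 (.c 8 q274 (.c 9 q272 .e)))
noncomputable def t112 : Tr := .c 1 r443 (.c 2 r444 (.c 7 r350 (.c 8 r437 (.c 9 r438 .e))))
noncomputable def r445 : Tr := .c 4 q279 (.c 5 q270 (.c 8 q274 (.c 9 q272 .e)))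
noncomputable def r446 : Tr := .c 3 q281 (.c 4 q279 (.c 5 q270 (.c 9 q272 .e)))
noncomputable def t113 : Tr := .c 0 r445 (.c 1 r446 (.c 6 r355 (.c 7 r356 (.c 8 r441 (.c 9 r442 .e)))))
noncomputable def r447 : Tr := .c 4 q287 (.c 5 q288 (.c 9 q290 .e))
noncomputable def r448 : Tr := .c 3 q287 (.c 4 q287 (.c 5 q288 (.c 9 q290 .e)))
noncomputable def r449 : Tr := .c 3 q287 (.c 5 q288 (.c 9 q290 .e))
noncomputable def r450 : Tr := .c 0 q105 (.c 2 q105 (.c 3 q287 (.c 4 q287 (.c 5 q288 .e))))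
noncomputable def t114 : Tr := .c 0 r447 (.c 1 r448 (.c 2 r449 (.c 6 r362 (.c 7 r363 (.c 8 r450 .e)))))
noncomputable def r451 : Tr := .c 3 q296 (.c 4 q297 (.c 5 q272 (.c 9 q272 .e)))
noncomputable def r452 : Tr := .c 3 q296 (.c 5 q272 (.c 8 q274 (.c 9 q272 .e)))
noncomputable def r453 : Tr := .c 0 q24 (.c 8 q274 (.c 9 q272 .e))
noncomputable def r454 : Tr := .c 0 q61 (.c 2 q61 (.c 8 q280 .e))
noncomputable def r455 : Tr := .c 0 q61 (.c 2 q61 (.c 3 q296 (.c 4 q297 (.c 5 q272 .e))))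
noncomputable def r456 : Tr := .c 0 q61 (.c 2 q61 (.c 3 q296 (.c 4 q297 .e)))
noncomputable def t115 : Tr := .c 1 r451 (.c 2 r452 (.c 4 r453 (.c 5 r454 (.c 8 r455 (.c 9 r456 .e)))))
noncomputable def r457 : Tr := .c 0 q50 (.c 1 q173 (.c 8 q280 .e))
noncomputable def r458 : Tr := .c 0 q48 (.c 3 q275 (.c 5 q277 (.c 9 q278 .e)))
noncomputable def r459 : Tr := .c 0 q50 (.c 3 q268 (.c 5 q270 .e))
noncomputable def r460 : Tr := .c 0 q50 (.c 1 q173 (.c 3 q268 .e))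
noncomputable def t116 : Tr := .c 4 r435 (.c 5 r457 (.c 7 r458 (.c 8 r459 (.c 9 r460 .e))))
noncomputable def r461 : Tr := .c 1 q336 (.c 8 q284 (.c 9 q278 .e))
noncomputable def r462 : Tr := .c 1 q336 (.c 5 q277 (.c 8 q284 (.c 9 q278 .e)))
noncomputable def t117 : Tr := .c 3 r461 (.c 4 r435 (.c 5 r457 (.c 6 r462 (.c 9 r460 .e))))
noncomputable def r463 : Tr := .c 8 q284 (.c 9 q278 .e)
noncomputable def r464 : Tr := .c 0 q60 (.c 8 q280 .e)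
noncomputable def r465 : Tr := .c 5 q277 (.c 8 q284 (.c 9 q278 .e))
noncomputable def r466 : Tr := .c 0 q59 (.c 3 q285 (.c 5 q277 (.c 9 q278 .e)))
noncomputable def r467 : Tr := .c 0 q60 (.c 3 q281 (.c 5 q270 .e))
noncomputable def r468 : Tr := .c 0 q60 (.c 3 q281 .e)
noncomputable def t118 : Tr := .c 3 r463 (.c 5 r464 (.c 6 r465 (.c 7 r466 (.c 8 r467 (.c 9 r468 .e)))))
noncomputable def r469 : Tr := .c 3 q268 (.c 5 q270 (.c 9 q272 .e))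
noncomputable def t119 : Tr := .c 1 r469 (.c 2 r444 (.c 7 r458 (.c 8 r459 (.c 9 r460 .e))))
noncomputable def r470 : Tr := .c 5 q270 (.c 8 q274 (.c 9 q272 .e))
noncomputable def r471 : Tr := .c 3 q281 (.c 5 q270 (.c 9 q272 .e))
noncomputable def t120 : Tr := .c 0 r470 (.c 1 r471 (.c 6 r465 (.c 7 r466 (.c 8 r467 (.c 9 r468 .e)))))
noncomputable def r472 : Tr := .c 3 q296 (.c 5 q272 (.c 9 q272 .e))
noncomputable def r473 : Tr := .c 0 q61 (.c 8 q280 .e)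
noncomputable def r474 : Tr := .c 0 q61 (.c 3 q296 (.c 5 q272 .e))
noncomputable def r475 : Tr := .c 0 q61 (.c 3 q296 .e)
noncomputable def t121 : Tr := .c 1 r472 (.c 2 r452 (.c 4 r453 (.c 5 r473 (.c 8 r474 (.c 9 r475 .e)))))
noncomputable def r476 : Tr := .c 5 q272 (.c 8 q274 (.c 9 q272 .e))
noncomputable def r477 : Tr := .c 8 q274 (.c 9 q272 .e)
noncomputable def t122 : Tr := .c 0 r476 (.c 2 r452 (.c 3 r477 (.c 4 r453 (.c 5 r473 (.c 9 r475 .e)))))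
noncomputable def q337 : Tr := .c 0 v23 (.c 1 v23 (.c 6 v24 (.c 7 v24 (.c 8 v23 .e))))
noncomputable def q338 : Tr := .c 0 v29 (.c 1 v29 (.c 6 v28 (.c 7 v28 (.c 8 v29 .e))))
noncomputable def q339 : Tr := .c 0 v6 .e
noncomputable def q340 : Tr := .c 0 v29 (.c 6 v28 .e)
noncomputable def q341 : Tr := .c 0 v29 (.c 1 v29 (.c 6 v28 (.c 7 v28 .e)))
noncomputable def r478 : Tr := .c 4 q337 (.c 5 q338 (.c 7 q339 (.c 8 q340 (.c 9 q341 .e))))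
noncomputable def q342 : Tr := .c 1 v23 (.c 8 v23 .e)
noncomputable def r479 : Tr := .c 3 q279 (.c 4 q337 (.c 5 q338 (.c 6 q342 (.c 9 q341 .e))))
noncomputable def q343 : Tr := .c 0 v26 (.c 1 v26 (.c 6 v17 (.c 7 v17 (.c 8 v26 .e))))
noncomputable def q344 : Tr := .c 0 v27 (.c 1 v27 (.c 6 v17 (.c 7 v17 (.c 8 v27 .e))))
noncomputable def q345 : Tr := .c 0 v27 (.c 6 v17 .e)
noncomputable def q346 : Tr := .c 0 v27 (.c 1 v27 (.c 6 v17 (.c 7 v17 .e)))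
noncomputable def r480 : Tr := .c 1 q172 (.c 2 q251 (.c 4 q343 (.c 5 q344 (.c 8 q345 (.c 9 q346 .e)))))
noncomputable def r481 : Tr := .c 0 q59 (.c 2 q251 (.c 3 q283 (.c 4 q343 (.c 5 q344 (.c 9 q346 .e)))))
noncomputable def r482 : Tr := .c 0 q60 (.c 2 q253 (.c 3 q279 (.c 4 q337 (.c 5 q338 (.c 6 q342 .e)))))
noncomputable def t123 : Tr := .c 0 r478 (.c 1 r479 (.c 6 r480 (.c 7 r481 (.c 8 r482 .e))))
noncomputable def q347 : Tr := .c 0 v39 (.c 1 v39 (.c 6 v6 (.c 7 v6 (.c 8 v39 (.c 9 v39 .e)))))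
noncomputable def q348 : Tr := .c 0 v2 (.c 1 v2 (.c 6 v37 (.c 7 v37 (.c 8 v2 .e))))
noncomputable def q349 : Tr := .c 0 v6 (.c 9 v39 .e)
noncomputable def q350 : Tr := .c 0 v2 (.c 6 v37 .e)
noncomputable def q351 : Tr := .c 0 v2 (.c 1 v2 (.c 6 v37 (.c 7 v37 .e)))
noncomputable def r483 : Tr := .c 4 q347 (.c 5 q348 (.c 7 q349 (.c 8 q350 (.c 9 q351 .e))))
noncomputable def r484 : Tr := .c 3 q287 (.c 4 q347 (.c 5 q348 (.c 6 q291 (.c 9 q351 .e))))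
noncomputable def r485 : Tr := .c 3 q287 (.c 5 q348 (.c 6 q291 (.c 7 q349 (.c 8 q350 (.c 9 q351 .e)))))
noncomputable def q352 : Tr := .c 6 v42 (.c 9 v41 .e)
noncomputable def q353 : Tr := .c 0 v41 (.c 1 v41 (.c 6 v42 (.c 7 v42 (.c 8 v41 (.c 9 v41 .e)))))
noncomputable def q354 : Tr := .c 0 v2 (.c 1 v2 (.c 6 v42 (.c 7 v42 (.c 8 v2 .e))))
noncomputable def q355 : Tr := .c 0 v2 (.c 6 v42 .e)
noncomputable def q356 : Tr := .c 0 v2 (.c 1 v2 (.c 6 v42 (.c 7 v42 .e)))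
noncomputable def r486 : Tr := .c 1 q352 (.c 2 q261 (.c 4 q353 (.c 5 q354 (.c 8 q355 (.c 9 q356 .e)))))
noncomputable def r487 : Tr := .c 0 q111 (.c 2 q261 (.c 3 q293 (.c 4 q353 (.c 5 q354 (.c 9 q356 .e)))))
noncomputable def r488 : Tr := .c 0 q105 (.c 2 q255 (.c 3 q287 (.c 4 q347 (.c 5 q348 (.c 6 q291 .e)))))
noncomputable def t124 : Tr := .c 0 r483 (.c 1 r484 (.c 2 r485 (.c 6 r486 (.c 7 r487 (.c 8 r488 .e)))))
noncomputable def q357 : Tr := .c 0 v6 (.c 1 v6 (.c 6 v6 (.c 7 v6 .e)))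
noncomputable def q358 : Tr := .c 0 v6 (.c 1 v6 (.c 6 v19 (.c 7 v19 .e)))
noncomputable def q359 : Tr := .c 0 v6 (.c 6 v19 .e)
noncomputable def r489 : Tr := .c 4 q357 (.c 5 q358 (.c 7 q339 (.c 8 q359 (.c 9 q358 .e))))
noncomputable def q360 : Tr := .c 1 v6 .e
noncomputable def r490 : Tr := .c 3 q303 (.c 5 q358 (.c 6 q360 (.c 7 q339 (.c 8 q359 (.c 9 q358 .e)))))
noncomputable def q361 : Tr := .c 6 v19 .e
noncomputable def q362 : Tr := .c 6 v19 (.c 7 v19 .e)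
noncomputable def r491 : Tr := .c 1 q361 (.c 2 q362 (.c 7 q339 (.c 8 q359 (.c 9 q358 .e))))
noncomputable def r492 : Tr := .c 0 q24 (.c 1 q361 (.c 6 q360 (.c 7 q339 (.c 8 q359 (.c 9 q358 .e)))))
noncomputable def t125 : Tr := .c 0 r489 (.c 2 r490 (.c 3 r491 (.c 4 r492 .e)))
noncomputable def q363 : Tr := .c 0 v39 (.c 1 v39 (.c 8 v39 (.c 9 v39 .e)))
noncomputable def q364 : Tr := .c 0 v2 (.c 1 v2 (.c 8 v2 .e))
noncomputable def q365 : Tr := .c 0 v2 .e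
noncomputable def q366 : Tr := .c 0 v2 (.c 1 v2 .e)
noncomputable def r493 : Tr := .c 4 q363 (.c 5 q364 (.c 7 q349 (.c 8 q365 (.c 9 q366 .e))))
noncomputable def r494 : Tr := .c 3 q291 (.c 5 q364 (.c 6 q291 (.c 7 q349 (.c 8 q365 (.c 9 q366 .e)))))
noncomputable def r495 : Tr := .c 1 q292 (.c 2 q301 (.c 7 q349 (.c 8 q365 (.c 9 q366 .e))))
noncomputable def r496 : Tr := .c 0 q301 (.c 1 q292 (.c 6 q291 (.c 7 q349 (.c 8 q365 (.c 9 q366 .e)))))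
noncomputable def q367 : Tr := .c 0 v41 (.c 1 v41 (.c 8 v41 (.c 9 v41 .e)))
noncomputable def r497 : Tr := .c 1 q292 (.c 2 q301 (.c 4 q367 (.c 5 q364 (.c 8 q365 (.c 9 q366 .e)))))
noncomputable def t126 : Tr := .c 0 r493 (.c 2 r494 (.c 3 r495 (.c 4 r496 (.c 6 r497 .e))))
noncomputable def r498 : Tr := .c 3 q291 (.c 4 q363 (.c 5 q364 (.c 6 q291 (.c 9 q366 .e))))
noncomputable def r499 : Tr := .c 0 q301 (.c 2 q301 (.c 3 q302 (.c 4 q367 (.c 5 q364 (.c 9 q366 .e)))))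
noncomputable def t127 : Tr := .c 0 r493 (.c 1 r498 (.c 2 r494 (.c 3 r495 (.c 4 r496 (.c 6 r497 (.c 7 r499 .e))))))
noncomputable def q368 : Tr := .c 0 v23 (.c 1 v23 (.c 6 v24 (.c 7 v24 (.c 8 v23 (.c 9 v23 .e)))))
noncomputable def q369 : Tr := .c 1 v23 (.c 8 v23 (.c 9 v23 .e))
noncomputable def r500 : Tr := .c 3 q269 (.c 4 q368 (.c 5 q338 (.c 6 q369 (.c 9 q341 .e))))
noncomputable def q370 : Tr := .c 0 v6 (.c 9 v23 .e)
noncomputable def r501 : Tr := .c 3 q269 (.c 5 q338 (.c 6 q369 (.c 7 q370 (.c 8 q340 (.c 9 q341 .e)))))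
noncomputable def q371 : Tr := .c 0 v26 (.c 1 v26 (.c 6 v17 (.c 7 v17 (.c 8 v26 (.c 9 v26 .e)))))
noncomputable def r502 : Tr := .c 0 q48 (.c 2 q247 (.c 3 q276 (.c 4 q371 (.c 5 q344 (.c 9 q346 .e)))))
noncomputable def r503 : Tr := .c 0 q50 (.c 2 q249 (.c 3 q269 (.c 4 q368 (.c 5 q338 (.c 6 q369 .e)))))
noncomputable def t128 : Tr := .c 1 r500 (.c 2 r501 (.c 7 r502 (.c 8 r503 .e)))
noncomputable def q372 : Tr := .c 0 v23 (.c 1 v23 (.c 6 v24 (.c 7 v24 .e)))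
noncomputable def q373 : Tr := .c 1 v23 .e
noncomputable def r504 : Tr := .c 3 q297 (.c 4 q372 (.c 5 q341 (.c 6 q373 (.c 9 q341 .e))))
noncomputable def r505 : Tr := .c 3 q297 (.c 5 q341 (.c 6 q373 (.c 7 q339 (.c 8 q340 (.c 9 q341 .e)))))
noncomputable def r506 : Tr := .c 0 q24 (.c 1 q174 (.c 6 q373 (.c 7 q339 (.c 8 q340 (.c 9 q341 .e)))))
noncomputable def r507 : Tr := .c 0 q61 (.c 2 q266 (.c 3 q297 (.c 4 q372 (.c 5 q341 (.c 6 q373 .e)))))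
noncomputable def t129 : Tr := .c 1 r504 (.c 2 r505 (.c 4 r506 (.c 8 r507 .e)))
noncomputable def q374 : Tr := .c 0 v34 (.c 9 v4 .e)
noncomputable def r508 : Tr := .c 1 q126 (.c 2 q194 (.c 7 q374 .e))
noncomputable def r509 : Tr := .c 0 q16 (.c 1 q126 (.c 6 q330 (.c 7 q374 .e)))
noncomputable def q375 : Tr := .c 0 v1 (.c 1 v1 (.c 6 v0 (.c 7 v0 (.c 8 v1 (.c 9 v1 .e)))))
noncomputable def q376 : Tr := .c 0 v36 (.c 1 v36 (.c 6 v0 (.c 7 v0 (.c 8 v36 .e))))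
noncomputable def r510 : Tr := .c 1 q126 (.c 2 q194 (.c 4 q375 (.c 5 q376 .e)))
noncomputable def t130 : Tr := .c 3 r508 (.c 4 r509 (.c 6 r510 .e))
noncomputable def q377 : Tr := .c 0 v34 .e
noncomputable def r511 : Tr := .c 1 q127 (.c 2 q198 (.c 7 q377 .e))
noncomputable def q378 : Tr := .c 0 v1 (.c 1 v1 (.c 6 v0 (.c 7 v0 (.c 8 v1 .e))))
noncomputable def r512 : Tr := .c 1 q127 (.c 2 q198 (.c 4 q378 (.c 5 q376 .e)))
noncomputable def r513 : Tr := .c 0 q89 (.c 2 q198 (.c 3 q324 (.c 4 q378 (.c 5 q376 .e))))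
noncomputable def q379 : Tr := .c 0 v8 (.c 1 v8 (.c 6 v2 (.c 7 v2 (.c 8 v8 .e))))
noncomputable def q380 : Tr := .c 0 v6 (.c 1 v6 (.c 6 v37 (.c 7 v37 (.c 8 v6 .e))))
noncomputable def q381 : Tr := .c 1 v8 (.c 8 v8 .e)
noncomputable def r514 : Tr := .c 0 q92 (.c 2 q200 (.c 3 q327 (.c 4 q379 (.c 5 q380 (.c 6 q381 .e)))))
noncomputable def t131 : Tr := .c 3 r511 (.c 6 r512 (.c 7 r513 (.c 8 r514 .e)))
noncomputable def r515 : Tr := .c 4 q379 (.c 5 q380 (.c 7 q339 .e))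
noncomputable def r516 : Tr := .c 3 q327 (.c 4 q379 (.c 5 q380 (.c 6 q381 .e)))
noncomputable def t132 : Tr := .c 0 r515 (.c 1 r516 (.c 6 r512 (.c 7 r513 (.c 8 r514 .e))))
noncomputable def q382 : Tr := .c 0 v4 (.c 1 v4 (.c 6 v38 (.c 7 v38 (.c 8 v4 (.c 9 v4 .e)))))
noncomputable def q383 : Tr := .c 0 v38 (.c 1 v38 (.c 6 v2 (.c 7 v2 (.c 8 v38 .e))))
noncomputable def r517 : Tr := .c 4 q382 (.c 5 q383 (.c 7 q374 .e))
noncomputable def r518 : Tr := .c 3 q328 (.c 4 q382 (.c 5 q383 (.c 6 q330 .e)))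
noncomputable def r519 : Tr := .c 3 q328 (.c 5 q383 (.c 6 q330 (.c 7 q374 .e)))
noncomputable def q384 : Tr := .c 0 v36 (.c 1 v36 (.c 6 v2 (.c 7 v2 (.c 8 v36 .e))))
noncomputable def r520 : Tr := .c 1 q126 (.c 2 q194 (.c 4 q375 (.c 5 q384 .e)))
noncomputable def r521 : Tr := .c 0 q84 (.c 2 q194 (.c 3 q316 (.c 4 q375 (.c 5 q384 .e))))
noncomputable def r522 : Tr := .c 0 q96 (.c 2 q234 (.c 3 q328 (.c 4 q382 (.c 5 q383 (.c 6 q330 .e)))))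
noncomputable def t133 : Tr := .c 0 r517 (.c 1 r518 (.c 2 r519 (.c 6 r520 (.c 7 r521 (.c 8 r522 .e)))))
noncomputable def q385 : Tr := .c 0 v4 (.c 1 v4 (.c 8 v4 (.c 9 v4 .e)))
noncomputable def q386 : Tr := .c 0 v38 (.c 1 v38 (.c 8 v38 .e))
noncomputable def r523 : Tr := .c 4 q385 (.c 5 q386 (.c 7 q374 .e))
noncomputable def r524 : Tr := .c 3 q330 (.c 5 q386 (.c 6 q330 (.c 7 q374 .e)))
noncomputable def r525 : Tr := .c 1 q155 (.c 2 q31 (.c 7 q374 .e))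
noncomputable def r526 : Tr := .c 0 q31 (.c 1 q155 (.c 6 q330 (.c 7 q374 .e)))
noncomputable def q387 : Tr := .c 0 v1 (.c 1 v1 (.c 8 v1 (.c 9 v1 .e)))
noncomputable def q388 : Tr := .c 0 v36 (.c 1 v36 (.c 8 v36 .e))
noncomputable def r527 : Tr := .c 1 q155 (.c 2 q31 (.c 4 q387 (.c 5 q388 .e)))
noncomputable def t134 : Tr := .c 0 r523 (.c 2 r524 (.c 3 r525 (.c 4 r526 (.c 6 r527 .e))))
noncomputable def r528 : Tr := .c 3 q330 (.c 4 q385 (.c 5 q386 (.c 6 q330 .e)))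
noncomputable def r529 : Tr := .c 0 q31 (.c 2 q31 (.c 3 q333 (.c 4 q387 (.c 5 q388 .e))))
noncomputable def t135 : Tr := .c 0 r523 (.c 1 r528 (.c 2 r524 (.c 3 r525 (.c 4 r526 (.c 6 r527 (.c 7 r529 .e))))))
noncomputable def q389 : Tr := .c 6 v2 (.c 9 v34 .e)
noncomputable def q390 : Tr := .c 1 v6 (.c 8 v6 (.c 9 v6 .e))
noncomputable def q391 : Tr := .c 0 v6 (.c 9 v6 .e)
noncomputable def r530 : Tr := .c 0 q311 (.c 1 q389 (.c 6 q390 (.c 7 q391 .e)))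
noncomputable def r531 : Tr := .c 0 q84 (.c 2 q194 (.c 3 q316 (.c 4 q375 (.c 5 q376 .e))))
noncomputable def q392 : Tr := .c 0 v8 (.c 1 v8 (.c 6 v2 (.c 7 v2 (.c 8 v8 (.c 9 v8 .e)))))
noncomputable def q393 : Tr := .c 1 v8 (.c 8 v8 (.c 9 v8 .e))
noncomputable def r532 : Tr := .c 0 q86 (.c 2 q243 (.c 3 q319 (.c 4 q392 (.c 5 q380 (.c 6 q393 .e)))))
noncomputable def t136 : Tr := .c 4 r530 (.c 7 r531 (.c 8 r532 .e))
noncomputable def r533 : Tr := .c 3 q319 (.c 4 q392 (.c 5 q380 (.c 6 q393 .e)))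
noncomputable def q394 : Tr := .c 0 v6 (.c 9 v8 .e)
noncomputable def r534 : Tr := .c 3 q319 (.c 5 q380 (.c 6 q393 (.c 7 q394 .e)))
noncomputable def t137 : Tr := .c 1 r533 (.c 2 r534 (.c 7 r531 (.c 8 r532 .e)))
noncomputable def q395 : Tr := .c 6 v17 (.c 9 v18 .e)
noncomputable def r535 : Tr := .c 0 q335 (.c 1 q395 (.c 8 q345 (.c 9 q346 .e)))
noncomputable def r536 : Tr := .c 0 q50 (.c 2 q249 (.c 3 q269 (.c 4 q368 (.c 5 q338 .e))))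
noncomputable def t138 : Tr := .c 4 r535 (.c 7 r502 (.c 8 r536 .e))
noncomputable def r537 : Tr := .c 1 q172 (.c 2 q251 (.c 8 q345 (.c 9 q346 .e)))
noncomputable def r538 : Tr := .c 0 q60 (.c 2 q253 (.c 3 q279 (.c 4 q337 (.c 5 q338 .e))))
noncomputable def t139 : Tr := .c 3 r537 (.c 6 r480 (.c 7 r481 (.c 8 r538 .e)))
noncomputable def r539 : Tr := .c 3 q269 (.c 4 q368 (.c 5 q338 (.c 9 q341 .e)))
noncomputable def r540 : Tr := .c 3 q269 (.c 5 q338 (.c 8 q340 (.c 9 q341 .e)))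
noncomputable def t140 : Tr := .c 1 r539 (.c 2 r540 (.c 7 r502 (.c 8 r536 .e)))
noncomputable def r541 : Tr := .c 4 q337 (.c 5 q338 (.c 8 q340 (.c 9 q341 .e)))
noncomputable def r542 : Tr := .c 3 q279 (.c 4 q337 (.c 5 q338 (.c 9 q341 .e)))
noncomputable def t141 : Tr := .c 0 r541 (.c 1 r542 (.c 6 r480 (.c 7 r481 (.c 8 r538 .e))))
noncomputable def r543 : Tr := .c 4 q347 (.c 5 q348 (.c 8 q350 (.c 9 q351 .e)))
noncomputable def r544 : Tr := .c 3 q287 (.c 4 q347 (.c 5 q348 (.c 9 q351 .e)))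
noncomputable def r545 : Tr := .c 3 q287 (.c 5 q348 (.c 8 q350 (.c 9 q351 .e)))
noncomputable def r546 : Tr := .c 0 q105 (.c 2 q255 (.c 3 q287 (.c 4 q347 (.c 5 q348 .e))))
noncomputable def t142 : Tr := .c 0 r543 (.c 1 r544 (.c 2 r545 (.c 6 r486 (.c 7 r487 (.c 8 r546 .e)))))
noncomputable def r547 : Tr := .c 3 q297 (.c 4 q372 (.c 5 q341 (.c 9 q341 .e)))
noncomputable def r548 : Tr := .c 3 q297 (.c 5 q341 (.c 8 q340 (.c 9 q341 .e)))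
noncomputable def r549 : Tr := .c 0 q24 (.c 1 q174 (.c 8 q340 (.c 9 q341 .e)))
noncomputable def r550 : Tr := .c 0 q61 (.c 2 q266 (.c 3 q297 (.c 4 q372 (.c 5 q341 .e))))
noncomputable def t143 : Tr := .c 1 r547 (.c 2 r548 (.c 4 r549 (.c 8 r550 .e)))
noncomputable def r551 : Tr := .c 0 q48 (.c 3 q276 (.c 5 q344 (.c 9 q346 .e)))
noncomputable def r552 : Tr := .c 0 q50 (.c 3 q269 (.c 5 q338 .e))
noncomputable def t144 : Tr := .c 4 r535 (.c 7 r551 (.c 8 r552 .e))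
noncomputable def r553 : Tr := .c 1 q395 (.c 8 q345 (.c 9 q346 .e))
noncomputable def r554 : Tr := .c 1 q395 (.c 5 q344 (.c 8 q345 (.c 9 q346 .e)))
noncomputable def t145 : Tr := .c 3 r553 (.c 4 r535 (.c 6 r554 .e))
noncomputable def r555 : Tr := .c 1 q172 (.c 8 q345 (.c 9 q346 .e))
noncomputable def r556 : Tr := .c 1 q172 (.c 5 q344 (.c 8 q345 (.c 9 q346 .e)))
noncomputable def r557 : Tr := .c 0 q59 (.c 3 q283 (.c 5 q344 (.c 9 q346 .e)))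
noncomputable def r558 : Tr := .c 0 q60 (.c 3 q279 (.c 5 q338 .e))
noncomputable def t146 : Tr := .c 3 r555 (.c 6 r556 (.c 7 r557 (.c 8 r558 .e)))
noncomputable def r559 : Tr := .c 3 q269 (.c 5 q338 (.c 9 q341 .e))
noncomputable def t147 : Tr := .c 1 r559 (.c 2 r540 (.c 7 r551 (.c 8 r552 .e)))
noncomputable def r560 : Tr := .c 5 q338 (.c 8 q340 (.c 9 q341 .e))
noncomputable def r561 : Tr := .c 3 q279 (.c 5 q338 (.c 9 q341 .e))
noncomputable def t148 : Tr := .c 0 r560 (.c 1 r561 (.c 6 r556 (.c 7 r557 (.c 8 r558 .e))))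
noncomputable def r562 : Tr := .c 3 q297 (.c 5 q341 (.c 9 q341 .e))
noncomputable def r563 : Tr := .c 0 q61 (.c 3 q297 (.c 5 q341 .e))
noncomputable def t149 : Tr := .c 1 r562 (.c 2 r548 (.c 4 r549 (.c 8 r563 .e)))
noncomputable def r564 : Tr := .c 5 q341 (.c 8 q340 (.c 9 q341 .e))
noncomputable def r565 : Tr := .c 1 q174 (.c 8 q340 (.c 9 q341 .e))
noncomputable def t150 : Tr := .c 0 r564 (.c 2 r548 (.c 3 r565 (.c 4 r549 .e)))
noncomputable def q396 : Tr := .c 0 v10 (.c 1 v10 (.c 6 v15 (.c 7 v15 (.c 8 v10 .e))))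
noncomputable def v43 : Tr := .l 0x82081082082082081082081
noncomputable def q397 : Tr := .c 0 v43 (.c 1 v43 (.c 2 v43 (.c 6 v43 (.c 7 v43 (.c 8 v43 .e)))))
noncomputable def q398 : Tr := .c 0 v9 (.c 2 v9 .e)
noncomputable def q399 : Tr := .c 0 v43 (.c 2 v43 (.c 6 v43 .e))
noncomputable def q400 : Tr := .c 0 v43 (.c 1 v43 (.c 2 v43 (.c 6 v43 (.c 7 v43 .e))))
noncomputable def r566 : Tr := .c 4 q396 (.c 5 q397 (.c 7 q398 (.c 8 q399 (.c 9 q400 .e))))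
noncomputable def q401 : Tr := .c 1 v10 (.c 2 v10 (.c 7 v15 (.c 8 v10 .e)))
noncomputable def q402 : Tr := .c 1 v10 (.c 2 v10 (.c 8 v10 .e))
noncomputable def r567 : Tr := .c 3 q401 (.c 4 q396 (.c 5 q397 (.c 6 q402 (.c 9 q400 .e))))
noncomputable def q403 : Tr := .c 6 v42 .e
noncomputable def q404 : Tr := .c 6 v42 (.c 7 v42 (.c 8 v9 .e))
noncomputable def q405 : Tr := .c 0 v9 (.c 1 v9 (.c 6 v42 (.c 7 v42 (.c 8 v9 .e))))
noncomputable def q406 : Tr := .c 0 v2 (.c 1 v2 (.c 2 v2 (.c 6 v42 (.c 7 v42 (.c 8 v2 .e)))))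
noncomputable def q407 : Tr := .c 0 v2 (.c 2 v2 (.c 6 v42 .e))
noncomputable def q408 : Tr := .c 0 v2 (.c 1 v2 (.c 2 v2 (.c 6 v42 (.c 7 v42 .e))))
noncomputable def r568 : Tr := .c 1 q403 (.c 2 q404 (.c 4 q405 (.c 5 q406 (.c 8 q407 (.c 9 q408 .e)))))
noncomputable def q409 : Tr := .c 7 v42 (.c 8 v9 .e)
noncomputable def q410 : Tr := .c 1 v9 (.c 2 v9 (.c 7 v42 (.c 8 v9 .e)))
noncomputable def r569 : Tr := .c 0 q409 (.c 2 q404 (.c 3 q410 (.c 4 q405 (.c 5 q406 (.c 9 q408 .e)))))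
noncomputable def q411 : Tr := .c 7 v15 (.c 8 v10 .e)
noncomputable def q412 : Tr := .c 6 v15 (.c 7 v15 (.c 8 v10 .e))
noncomputable def r570 : Tr := .c 0 q411 (.c 2 q412 (.c 3 q401 (.c 4 q396 (.c 5 q397 (.c 6 q402 .e)))))
noncomputable def q413 : Tr := .c 0 v10 (.c 2 v10 .e)
noncomputable def r571 : Tr := .c 0 q411 (.c 1 q146 (.c 2 q412 (.c 3 q401 (.c 4 q396 (.c 6 q402 (.c 7 q413 .e))))))
noncomputable def t151 : Tr := .c 0 r566 (.c 1 r567 (.c 6 r568 (.c 7 r569 (.c 8 r570 (.c 9 r571 .e)))))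
noncomputable def v44 : Tr := .l 0x82082082082082081042081
noncomputable def q414 : Tr := .c 0 v44 (.c 1 v44 (.c 6 v2 (.c 7 v2 (.c 8 v44 .e))))
noncomputable def q415 : Tr := .c 0 v0 (.c 1 v0 (.c 6 v0 (.c 7 v0 (.c 8 v0 .e))))
noncomputable def q416 : Tr := .c 0 v3 .e
noncomputable def q417 : Tr := .c 0 v0 (.c 6 v0 .e)
noncomputable def q418 : Tr := .c 0 v0 (.c 1 v0 (.c 6 v0 (.c 7 v0 .e)))
noncomputable def r572 : Tr := .c 4 q414 (.c 5 q415 (.c 7 q416 (.c 8 q417 (.c 9 q418 .e))))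
noncomputable def q419 : Tr := .c 1 v44 (.c 7 v2 (.c 8 v44 .e))
noncomputable def q420 : Tr := .c 1 v44 (.c 8 v44 .e)
noncomputable def r573 : Tr := .c 3 q419 (.c 4 q414 (.c 5 q415 (.c 6 q420 (.c 9 q418 .e))))
noncomputable def q421 : Tr := .c 6 v2 (.c 7 v2 (.c 8 v2 .e))
noncomputable def q422 : Tr := .c 0 v2 (.c 1 v2 (.c 6 v2 (.c 7 v2 (.c 8 v2 .e))))
noncomputable def q423 : Tr := .c 0 v0 (.c 1 v0 (.c 6 v2 (.c 7 v2 (.c 8 v0 .e))))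
noncomputable def q424 : Tr := .c 0 v0 (.c 6 v2 .e)
noncomputable def q425 : Tr := .c 0 v0 (.c 1 v0 (.c 6 v2 (.c 7 v2 .e)))
noncomputable def r574 : Tr := .c 1 q136 (.c 2 q421 (.c 4 q422 (.c 5 q423 (.c 8 q424 (.c 9 q425 .e)))))
noncomputable def q426 : Tr := .c 7 v2 (.c 8 v2 .e)
noncomputable def q427 : Tr := .c 1 v2 (.c 7 v2 (.c 8 v2 .e))
noncomputable def r575 : Tr := .c 0 q426 (.c 2 q421 (.c 3 q427 (.c 4 q422 (.c 5 q423 (.c 9 q425 .e)))))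
noncomputable def q428 : Tr := .c 7 v2 (.c 8 v44 .e)
noncomputable def q429 : Tr := .c 6 v2 (.c 7 v2 (.c 8 v44 .e))
noncomputable def r576 : Tr := .c 0 q428 (.c 2 q429 (.c 3 q419 (.c 4 q414 (.c 5 q415 (.c 6 q420 .e)))))
noncomputable def t152 : Tr := .c 0 r572 (.c 1 r573 (.c 6 r574 (.c 7 r575 (.c 8 r576 .e))))
noncomputable def q430 : Tr := .c 0 v9 (.c 1 v9 (.c 6 v6 (.c 7 v6 .e)))
noncomputable def q431 : Tr := .c 0 v12 (.c 1 v12 (.c 2 v12 (.c 6 v12 (.c 7 v12 .e))))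
noncomputable def q432 : Tr := .c 0 v12 (.c 2 v12 (.c 6 v12 .e))
noncomputable def r577 : Tr := .c 4 q430 (.c 5 q431 (.c 7 q413 (.c 8 q432 (.c 9 q431 .e))))
noncomputable def r578 : Tr := .c 1 q139 (.c 2 q204 (.c 7 q413 (.c 8 q432 (.c 9 q431 .e))))
noncomputable def q433 : Tr := .c 7 v15 .e
noncomputable def q434 : Tr := .c 6 v15 (.c 7 v15 .e)
noncomputable def q435 : Tr := .c 1 v10 (.c 2 v10 .e)
noncomputable def q436 : Tr := .c 0 v15 (.c 2 v15 (.c 6 v15 .e))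
noncomputable def r579 : Tr := .c 0 q433 (.c 1 q146 (.c 2 q434 (.c 6 q435 (.c 7 q413 (.c 8 q436 .e)))))
noncomputable def q437 : Tr := .c 1 v10 (.c 2 v10 (.c 7 v15 .e))
noncomputable def q438 : Tr := .c 0 v10 (.c 1 v10 (.c 6 v15 (.c 7 v15 .e)))
noncomputable def r580 : Tr := .c 0 q433 (.c 1 q146 (.c 2 q434 (.c 3 q437 (.c 4 q438 (.c 6 q435 (.c 7 q413 .e))))))
noncomputable def t153 : Tr := .c 0 r577 (.c 3 r578 (.c 5 r579 (.c 9 r580 .e)))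
noncomputable def q439 : Tr := .c 0 v44 (.c 1 v44 (.c 8 v44 .e))
noncomputable def q440 : Tr := .c 0 v0 (.c 1 v0 (.c 2 v0 (.c 8 v0 .e)))
noncomputable def q441 : Tr := .c 0 v3 (.c 2 v3 .e)
noncomputable def q442 : Tr := .c 0 v0 (.c 2 v0 .e)
noncomputable def q443 : Tr := .c 0 v0 (.c 1 v0 (.c 2 v0 .e))
noncomputable def r581 : Tr := .c 4 q439 (.c 5 q440 (.c 7 q441 (.c 8 q442 (.c 9 q443 .e))))
noncomputable def q444 : Tr := .c 8 v2 .e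
noncomputable def r582 : Tr := .c 2 q444 (.c 7 q441 (.c 8 q442 (.c 9 q443 .e)))
noncomputable def q445 : Tr := .c 8 v6 .e
noncomputable def q446 : Tr := .c 1 v7 (.c 2 v7 (.c 8 v7 .e))
noncomputable def q447 : Tr := .c 0 v7 (.c 2 v7 .e)
noncomputable def q448 : Tr := .c 0 v2 (.c 2 v2 .e)
noncomputable def r583 : Tr := .c 0 q445 (.c 2 q445 (.c 6 q446 (.c 7 q447 (.c 8 q448 .e))))
noncomputable def r584 : Tr := .c 2 q444 (.c 4 q364 (.c 5 q440 (.c 8 q442 (.c 9 q443 .e))))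
noncomputable def t154 : Tr := .c 0 r581 (.c 3 r582 (.c 5 r583 (.c 6 r584 .e)))
noncomputable def q449 : Tr := .c 0 v0 (.c 1 v0 (.c 8 v0 .e))
noncomputable def q450 : Tr := .c 0 v0 .e
noncomputable def q451 : Tr := .c 0 v0 (.c 1 v0 .e)
noncomputable def r585 : Tr := .c 4 q439 (.c 5 q449 (.c 7 q416 (.c 8 q450 (.c 9 q451 .e))))
noncomputable def r586 : Tr := .c 3 q420 (.c 4 q439 (.c 5 q449 (.c 6 q420 (.c 9 q451 .e))))
noncomputable def r587 : Tr := .c 2 q444 (.c 7 q416 (.c 8 q450 (.c 9 q451 .e)))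
noncomputable def r588 : Tr := .c 2 q444 (.c 4 q364 (.c 5 q449 (.c 8 q450 (.c 9 q451 .e))))
noncomputable def r589 : Tr := .c 0 q444 (.c 2 q444 (.c 3 q299 (.c 4 q364 (.c 5 q449 (.c 9 q451 .e)))))
noncomputable def t155 : Tr := .c 0 r585 (.c 1 r586 (.c 3 r587 (.c 6 r588 (.c 7 r589 .e))))
noncomputable def t156 : Tr := .c 1 r567 (.c 7 r569 (.c 8 r570 (.c 9 r571 .e)))
noncomputable def r590 : Tr := .c 3 q437 (.c 4 q438 (.c 5 q400 (.c 6 q435 (.c 9 q400 .e))))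
noncomputable def r591 : Tr := .c 0 q433 (.c 2 q434 (.c 3 q437 (.c 4 q438 (.c 5 q400 (.c 6 q435 .e)))))
noncomputable def t157 : Tr := .c 1 r590 (.c 5 r579 (.c 8 r591 (.c 9 r580 .e)))
noncomputable def r592 : Tr := .c 3 q401 (.c 4 q396 (.c 6 q402 .e))
noncomputable def r593 : Tr := .c 0 q409 (.c 2 q404 (.c 3 q410 (.c 4 q405 .e)))
noncomputable def r594 : Tr := .c 0 q411 (.c 2 q412 (.c 3 q401 (.c 4 q396 (.c 6 q402 .e))))
noncomputable def t158 : Tr := .c 1 r592 (.c 7 r593 (.c 8 r594 (.c 9 r571 .e)))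
noncomputable def r595 : Tr := .c 4 q414 (.c 7 q416 (.c 8 q417 .e))
noncomputable def r596 : Tr := .c 3 q419 (.c 4 q414 (.c 6 q420 .e))
noncomputable def r597 : Tr := .c 1 q136 (.c 2 q421 (.c 4 q422 (.c 8 q424 .e)))
noncomputable def r598 : Tr := .c 0 q426 (.c 2 q421 (.c 3 q427 (.c 4 q422 .e)))
noncomputable def r599 : Tr := .c 0 q428 (.c 2 q429 (.c 3 q419 (.c 4 q414 (.c 6 q420 .e))))
noncomputable def t159 : Tr := .c 0 r595 (.c 1 r596 (.c 6 r597 (.c 7 r598 (.c 8 r599 .e))))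
noncomputable def r600 : Tr := .c 3 q437 (.c 4 q438 (.c 6 q435 .e))
noncomputable def r601 : Tr := .c 0 q433 (.c 2 q434 (.c 3 q437 (.c 4 q438 (.c 6 q435 .e))))
noncomputable def t160 : Tr := .c 1 r600 (.c 5 r579 (.c 8 r601 (.c 9 r580 .e)))
noncomputable def r602 : Tr := .c 4 q430 (.c 7 q413 (.c 8 q432 .e))
noncomputable def r603 : Tr := .c 1 q139 (.c 2 q204 (.c 7 q413 (.c 8 q432 .e)))
noncomputable def t161 : Tr := .c 0 r602 (.c 3 r603 (.c 5 r579 (.c 9 r580 .e)))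
noncomputable def r604 : Tr := .c 4 q439 (.c 7 q441 (.c 8 q442 .e))
noncomputable def r605 : Tr := .c 2 q444 (.c 7 q441 (.c 8 q442 .e))
noncomputable def r606 : Tr := .c 2 q444 (.c 4 q364 (.c 8 q442 .e))
noncomputable def t162 : Tr := .c 0 r604 (.c 3 r605 (.c 5 r583 (.c 6 r606 .e)))
noncomputable def r607 : Tr := .c 4 q439 (.c 7 q416 (.c 8 q450 .e))
noncomputable def r608 : Tr := .c 3 q420 (.c 4 q439 (.c 6 q420 .e))
noncomputable def r609 : Tr := .c 2 q444 (.c 7 q416 (.c 8 q450 .e))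
noncomputable def r610 : Tr := .c 2 q444 (.c 4 q364 (.c 8 q450 .e))
noncomputable def r611 : Tr := .c 0 q444 (.c 2 q444 (.c 3 q299 (.c 4 q364 .e)))
noncomputable def t163 : Tr := .c 0 r607 (.c 1 r608 (.c 3 r609 (.c 6 r610 (.c 7 r611 .e))))
noncomputable def r612 : Tr := .c 1 q127 (.c 2 q195 (.c 7 q441 .e))
noncomputable def q452 : Tr := .c 7 v2 (.c 8 v7 .e)
noncomputable def q453 : Tr := .c 6 v2 (.c 7 v2 (.c 8 v7 .e))
noncomputable def r613 : Tr := .c 0 q452 (.c 1 q136 (.c 2 q453 (.c 6 q446 (.c 7 q447 .e))))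
noncomputable def q454 : Tr := .c 0 v2 (.c 1 v2 (.c 2 v2 (.c 6 v2 (.c 7 v2 (.c 8 v2 .e)))))
noncomputable def r614 : Tr := .c 1 q127 (.c 2 q195 (.c 4 q376 (.c 5 q454 .e)))
noncomputable def q455 : Tr := .c 1 v7 (.c 2 v7 (.c 7 v2 (.c 8 v7 .e)))
noncomputable def q456 : Tr := .c 0 v7 (.c 1 v7 (.c 6 v2 (.c 7 v2 (.c 8 v7 .e))))
noncomputable def r615 : Tr := .c 0 q452 (.c 1 q136 (.c 2 q453 (.c 3 q455 (.c 4 q456 (.c 6 q446 (.c 7 q447 .e))))))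
noncomputable def t164 : Tr := .c 3 r612 (.c 5 r613 (.c 6 r614 (.c 9 r615 .e)))
noncomputable def r616 : Tr := .c 0 q85 (.c 2 q195 (.c 3 q317 (.c 4 q376 (.c 5 q454 .e))))
noncomputable def q457 : Tr := .c 0 v2 (.c 1 v2 (.c 2 v2 (.c 6 v37 (.c 7 v37 (.c 8 v2 .e)))))
noncomputable def r617 : Tr := .c 0 q452 (.c 2 q453 (.c 3 q455 (.c 4 q456 (.c 5 q457 (.c 6 q446 .e)))))
noncomputable def t165 : Tr := .c 3 r612 (.c 5 r613 (.c 6 r614 (.c 7 r616 (.c 8 r617 (.c 9 r615 .e)))))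
noncomputable def q458 : Tr := .c 0 v6 (.c 2 v6 .e)
noncomputable def r618 : Tr := .c 4 q456 (.c 5 q457 (.c 7 q458 .e))
noncomputable def r619 : Tr := .c 3 q455 (.c 4 q456 (.c 5 q457 (.c 6 q446 .e)))
noncomputable def t166 : Tr := .c 0 r618 (.c 1 r619 (.c 6 r614 (.c 7 r616 (.c 8 r617 (.c 9 r615 .e)))))
noncomputable def q459 : Tr := .c 0 v44 (.c 1 v44 (.c 6 v38 (.c 7 v38 (.c 8 v44 .e))))
noncomputable def r620 : Tr := .c 4 q459 (.c 5 q423 (.c 7 q416 .e))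
noncomputable def q460 : Tr := .c 1 v44 (.c 7 v38 (.c 8 v44 .e))
noncomputable def r621 : Tr := .c 3 q460 (.c 4 q459 (.c 5 q423 (.c 6 q420 .e)))
noncomputable def q461 : Tr := .c 0 v2 (.c 1 v2 (.c 6 v6 (.c 7 v6 (.c 8 v2 .e))))
noncomputable def r622 : Tr := .c 1 q136 (.c 2 q236 (.c 4 q384 (.c 5 q461 .e)))
noncomputable def r623 : Tr := .c 0 q98 (.c 2 q236 (.c 3 q331 (.c 4 q384 (.c 5 q461 .e))))
noncomputable def q462 : Tr := .c 7 v38 (.c 8 v44 .e)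
noncomputable def q463 : Tr := .c 6 v38 (.c 7 v38 (.c 8 v44 .e))
noncomputable def r624 : Tr := .c 0 q462 (.c 2 q463 (.c 3 q460 (.c 4 q459 (.c 5 q423 (.c 6 q420 .e)))))
noncomputable def t167 : Tr := .c 0 r620 (.c 1 r621 (.c 6 r622 (.c 7 r623 (.c 8 r624 .e))))
noncomputable def r625 : Tr := .c 4 q439 (.c 5 q440 (.c 7 q441 .e))
noncomputable def r626 : Tr := .c 2 q101 (.c 7 q441 .e)
noncomputable def q464 : Tr := .c 8 v7 .e
noncomputable def r627 : Tr := .c 0 q464 (.c 2 q464 (.c 6 q446 (.c 7 q447 .e)))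
noncomputable def q465 : Tr := .c 0 v2 (.c 1 v2 (.c 2 v2 (.c 8 v2 .e)))
noncomputable def r628 : Tr := .c 2 q101 (.c 4 q388 (.c 5 q465 .e))
noncomputable def t168 : Tr := .c 0 r625 (.c 3 r626 (.c 5 r627 (.c 6 r628 .e)))
noncomputable def r629 : Tr := .c 4 q439 (.c 5 q449 (.c 7 q416 .e))
noncomputable def r630 : Tr := .c 3 q420 (.c 4 q439 (.c 5 q449 (.c 6 q420 .e)))
noncomputable def r631 : Tr := .c 2 q101 (.c 7 q416 .e)
noncomputable def r632 : Tr := .c 2 q101 (.c 4 q388 (.c 5 q364 .e))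
noncomputable def r633 : Tr := .c 0 q101 (.c 2 q101 (.c 3 q334 (.c 4 q388 (.c 5 q364 .e))))
noncomputable def t169 : Tr := .c 0 r629 (.c 1 r630 (.c 3 r631 (.c 6 r632 (.c 7 r633 .e))))
noncomputable def t170 : Tr := .c 5 r613 (.c 7 r616 (.c 8 r617 (.c 9 r615 .e)))
noncomputable def t171 : Tr := .c 1 r619 (.c 7 r616 (.c 8 r617 (.c 9 r615 .e)))
noncomputable def q466 : Tr := .c 0 v6 (.c 2 v6 (.c 6 v15 .e))
noncomputable def r634 : Tr := .c 0 q411 (.c 1 q146 (.c 2 q412 (.c 8 q466 .e)))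
noncomputable def r635 : Tr := .c 0 q411 (.c 2 q412 (.c 3 q401 (.c 4 q396 (.c 5 q397 .e))))
noncomputable def r636 : Tr := .c 0 q411 (.c 1 q146 (.c 2 q412 (.c 3 q401 (.c 4 q396 .e))))
noncomputable def t172 : Tr := .c 5 r634 (.c 7 r569 (.c 8 r635 (.c 9 r636 .e)))
noncomputable def r637 : Tr := .c 1 q403 (.c 2 q404 (.c 8 q407 (.c 9 q408 .e)))
noncomputable def t173 : Tr := .c 3 r637 (.c 5 r634 (.c 6 r568 (.c 7 r569 (.c 8 r635 (.c 9 r636 .e)))))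
noncomputable def r638 : Tr := .c 3 q401 (.c 4 q396 (.c 5 q397 (.c 9 q400 .e)))
noncomputable def t174 : Tr := .c 1 r638 (.c 7 r569 (.c 8 r635 (.c 9 r636 .e)))
noncomputable def r639 : Tr := .c 4 q396 (.c 5 q397 (.c 8 q399 (.c 9 q400 .e)))
noncomputable def t175 : Tr := .c 0 r639 (.c 1 r638 (.c 6 r568 (.c 7 r569 (.c 8 r635 (.c 9 r636 .e)))))
noncomputable def r640 : Tr := .c 4 q414 (.c 5 q415 (.c 8 q417 (.c 9 q418 .e)))
noncomputable def r641 : Tr := .c 3 q419 (.c 4 q414 (.c 5 q415 (.c 9 q418 .e)))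
noncomputable def r642 : Tr := .c 0 q428 (.c 2 q429 (.c 3 q419 (.c 4 q414 (.c 5 q415 .e))))
noncomputable def t176 : Tr := .c 0 r640 (.c 1 r641 (.c 6 r574 (.c 7 r575 (.c 8 r642 .e))))
noncomputable def r643 : Tr := .c 3 q437 (.c 4 q438 (.c 5 q400 (.c 9 q400 .e)))
noncomputable def r644 : Tr := .c 0 q433 (.c 1 q146 (.c 2 q434 (.c 8 q436 .e)))
noncomputable def r645 : Tr := .c 0 q433 (.c 2 q434 (.c 3 q437 (.c 4 q438 (.c 5 q400 .e))))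
noncomputable def r646 : Tr := .c 0 q433 (.c 1 q146 (.c 2 q434 (.c 3 q437 (.c 4 q438 .e))))
noncomputable def t177 : Tr := .c 1 r643 (.c 5 r644 (.c 8 r645 (.c 9 r646 .e)))
noncomputable def q467 : Tr := .c 1 v29 (.c 2 v29 (.c 8 v29 .e))
noncomputable def q468 : Tr := .c 1 v23 (.c 2 v23 (.c 4 v23 (.c 5 v23 (.c 8 v23 (.c 9 v23 .e)))))
noncomputable def q469 : Tr := .c 1 v29 (.c 2 v29 (.c 4 v29 .e))
noncomputable def r647 : Tr := .c 3 q271 (.c 4 q369 (.c 5 q467 (.c 6 q468 (.c 9 q469 .e))))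
noncomputable def q470 : Tr := .c 2 v23 (.c 4 v23 (.c 5 v23 (.c 9 v23 .e)))
noncomputable def v45 : Tr := .l 0x42082082042042082082082
noncomputable def q471 : Tr := .c 2 v29 (.c 4 v29 (.c 5 v45 .e))
noncomputable def r648 : Tr := .c 3 q271 (.c 5 q467 (.c 6 q468 (.c 7 q470 (.c 8 q471 (.c 9 q469 .e)))))
noncomputable def q472 : Tr := .c 4 v6 (.c 5 v26 (.c 8 v26 (.c 9 v26 .e)))
noncomputable def q473 : Tr := .c 5 v26 (.c 8 v26 (.c 9 v26 .e))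
noncomputable def q474 : Tr := .c 1 v26 (.c 2 v26 (.c 8 v26 (.c 9 v26 .e)))
noncomputable def q475 : Tr := .c 1 v26 (.c 8 v26 (.c 9 v26 .e))
noncomputable def q476 : Tr := .c 1 v27 (.c 2 v27 (.c 8 v27 .e))
noncomputable def q477 : Tr := .c 1 v27 (.c 2 v27 (.c 4 v27 .e))
noncomputable def r649 : Tr := .c 0 q472 (.c 2 q473 (.c 3 q474 (.c 4 q475 (.c 5 q476 (.c 9 q477 .e)))))
noncomputable def t178 : Tr := .c 1 r647 (.c 2 r648 (.c 7 r649 .e))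
noncomputable def q478 : Tr := .c 2 v6 (.c 4 v6 .e)
noncomputable def q479 : Tr := .c 2 v29 (.c 4 v29 .e)
noncomputable def r650 : Tr := .c 4 q342 (.c 5 q467 (.c 7 q478 (.c 8 q479 (.c 9 q469 .e))))
noncomputable def q480 : Tr := .c 1 v23 (.c 2 v23 (.c 4 v23 (.c 8 v23 .e)))
noncomputable def r651 : Tr := .c 3 q282 (.c 4 q342 (.c 5 q467 (.c 6 q480 (.c 9 q469 .e))))
noncomputable def q481 : Tr := .c 4 v27 .e
noncomputable def q482 : Tr := .c 8 v26 .e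
noncomputable def q483 : Tr := .c 1 v26 (.c 8 v26 .e)
noncomputable def q484 : Tr := .c 2 v27 (.c 4 v27 .e)
noncomputable def r652 : Tr := .c 1 q481 (.c 2 q482 (.c 4 q483 (.c 5 q476 (.c 8 q484 (.c 9 q477 .e)))))
noncomputable def q485 : Tr := .c 4 v6 (.c 8 v26 .e)
noncomputable def q486 : Tr := .c 1 v26 (.c 2 v26 (.c 8 v26 .e))
noncomputable def r653 : Tr := .c 0 q485 (.c 2 q482 (.c 3 q486 (.c 4 q483 (.c 5 q476 (.c 9 q477 .e)))))
noncomputable def t179 : Tr := .c 0 r650 (.c 1 r651 (.c 6 r652 (.c 7 r653 .e)))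
noncomputable def q487 : Tr := .c 5 v39 (.c 9 v39 .e)
noncomputable def r654 : Tr := .c 4 q291 (.c 5 q299 (.c 7 q487 (.c 8 q113 (.c 9 q300 .e))))
noncomputable def q488 : Tr := .c 1 v39 (.c 5 v39 (.c 8 v39 (.c 9 v39 .e)))
noncomputable def r655 : Tr := .c 3 q291 (.c 4 q291 (.c 5 q299 (.c 6 q488 (.c 9 q300 .e))))
noncomputable def r656 : Tr := .c 3 q291 (.c 5 q299 (.c 6 q488 (.c 7 q487 (.c 8 q113 (.c 9 q300 .e)))))
noncomputable def q489 : Tr := .c 5 v41 (.c 8 v41 (.c 9 v41 .e))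
noncomputable def r657 : Tr := .c 1 q109 (.c 2 q489 (.c 4 q302 (.c 5 q299 (.c 8 q113 (.c 9 q300 .e)))))
noncomputable def r658 : Tr := .c 0 q489 (.c 2 q489 (.c 3 q302 (.c 4 q302 (.c 5 q299 (.c 9 q300 .e)))))
noncomputable def t180 : Tr := .c 0 r654 (.c 1 r655 (.c 2 r656 (.c 6 r657 (.c 7 r658 .e))))
noncomputable def q490 : Tr := .c 1 v29 (.c 2 v29 .e)
noncomputable def q491 : Tr := .c 1 v23 (.c 2 v23 (.c 4 v23 (.c 5 v23 .e)))
noncomputable def r659 : Tr := .c 3 q298 (.c 4 q373 (.c 5 q490 (.c 6 q491 (.c 9 q469 .e))))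
noncomputable def q492 : Tr := .c 2 v23 (.c 4 v23 (.c 5 v23 .e))
noncomputable def r660 : Tr := .c 3 q298 (.c 5 q490 (.c 6 q491 (.c 7 q492 (.c 8 q471 (.c 9 q469 .e)))))
noncomputable def q493 : Tr := .c 4 v29 (.c 5 v45 .e)
noncomputable def r661 : Tr := .c 0 q493 (.c 1 q493 (.c 6 q491 (.c 7 q492 (.c 8 q471 (.c 9 q469 .e)))))
noncomputable def q494 : Tr := .c 4 v6 (.c 5 v6 .e)
noncomputable def q495 : Tr := .c 5 v6 .e
noncomputable def v46 : Tr := .l 0x82082082082082042082082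
noncomputable def q496 : Tr := .c 1 v23 (.c 2 v23 (.c 4 v23 (.c 5 v46 .e)))
noncomputable def q497 : Tr := .c 2 v23 (.c 4 v23 (.c 5 v46 .e))
noncomputable def q498 : Tr := .c 2 v6 (.c 4 v6 (.c 5 v6 .e))
noncomputable def r662 : Tr := .c 0 q494 (.c 1 q494 (.c 2 q495 (.c 6 q496 (.c 7 q497 (.c 8 q498 .e)))))
noncomputable def t181 : Tr := .c 1 r659 (.c 2 r660 (.c 4 r661 (.c 5 r662 .e)))
noncomputable def r663 : Tr := .c 1 q109 (.c 2 q489 (.c 7 q487 (.c 8 q113 (.c 9 q300 .e))))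
noncomputable def r664 : Tr := .c 0 q489 (.c 1 q109 (.c 6 q488 (.c 7 q487 (.c 8 q113 (.c 9 q300 .e)))))
noncomputable def t182 : Tr := .c 0 r654 (.c 1 r655 (.c 2 r656 (.c 3 r663 (.c 4 r664 (.c 6 r657 (.c 7 r658 .e))))))
noncomputable def r665 : Tr := .c 3 q271 (.c 4 q369 (.c 6 q468 .e))
noncomputable def r666 : Tr := .c 3 q271 (.c 6 q468 (.c 7 q470 (.c 8 q471 .e)))
noncomputable def r667 : Tr := .c 0 q472 (.c 2 q473 (.c 3 q474 (.c 4 q475 .e)))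
noncomputable def t183 : Tr := .c 1 r665 (.c 2 r666 (.c 7 r667 .e))
noncomputable def r668 : Tr := .c 4 q291 (.c 7 q487 (.c 8 q113 .e))
noncomputable def r669 : Tr := .c 3 q291 (.c 4 q291 (.c 6 q488 .e))
noncomputable def r670 : Tr := .c 3 q291 (.c 6 q488 (.c 7 q487 (.c 8 q113 .e)))
noncomputable def r671 : Tr := .c 1 q109 (.c 2 q489 (.c 4 q302 (.c 8 q113 .e)))
noncomputable def r672 : Tr := .c 0 q489 (.c 2 q489 (.c 3 q302 (.c 4 q302 .e)))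
noncomputable def t184 : Tr := .c 0 r668 (.c 1 r669 (.c 2 r670 (.c 6 r671 (.c 7 r672 .e))))
noncomputable def r673 : Tr := .c 3 q298 (.c 4 q373 (.c 6 q491 .e))
noncomputable def r674 : Tr := .c 3 q298 (.c 6 q491 (.c 7 q492 (.c 8 q471 .e)))
noncomputable def r675 : Tr := .c 0 q493 (.c 1 q493 (.c 6 q491 (.c 7 q492 (.c 8 q471 .e))))
noncomputable def t185 : Tr := .c 1 r673 (.c 2 r674 (.c 4 r675 (.c 5 r662 .e)))
noncomputable def r676 : Tr := .c 4 q360 (.c 7 q492 (.c 8 q471 .e))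
noncomputable def q499 : Tr := .c 5 v45 .e
noncomputable def r677 : Tr := .c 1 q493 (.c 2 q499 (.c 7 q492 (.c 8 q471 .e)))
noncomputable def t186 : Tr := .c 0 r676 (.c 2 r674 (.c 3 r677 (.c 4 r675 (.c 5 r662 .e))))
noncomputable def q500 : Tr := .c 2 v39 (.c 4 v39 (.c 5 v39 (.c 9 v39 .e)))
noncomputable def q501 : Tr := .c 2 v2 (.c 4 v2 (.c 5 v41 .e))
noncomputable def r678 : Tr := .c 4 q291 (.c 7 q500 (.c 8 q501 .e))
noncomputable def q502 : Tr := .c 1 v39 (.c 2 v39 (.c 4 v39 (.c 5 v39 (.c 8 v39 (.c 9 v39 .e)))))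
noncomputable def r679 : Tr := .c 3 q306 (.c 6 q502 (.c 7 q500 (.c 8 q501 .e)))
noncomputable def q503 : Tr := .c 4 v2 (.c 5 v41 (.c 9 v41 .e))
noncomputable def r680 : Tr := .c 1 q503 (.c 2 q489 (.c 7 q500 (.c 8 q501 .e)))
noncomputable def q504 : Tr := .c 4 v2 (.c 5 v41 (.c 8 v41 (.c 9 v41 .e)))
noncomputable def r681 : Tr := .c 0 q504 (.c 1 q503 (.c 6 q502 (.c 7 q500 (.c 8 q501 .e))))
noncomputable def q505 : Tr := .c 4 v6 (.c 5 v6 (.c 8 v6 (.c 9 v6 .e)))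
noncomputable def q506 : Tr := .c 4 v6 (.c 5 v6 (.c 9 v6 .e))
noncomputable def q507 : Tr := .c 1 v6 (.c 2 v6 (.c 4 v6 (.c 5 v6 (.c 8 v6 (.c 9 v6 .e)))))
noncomputable def q508 : Tr := .c 2 v6 (.c 4 v6 (.c 5 v6 (.c 9 v6 .e)))
noncomputable def r682 : Tr := .c 0 q505 (.c 1 q506 (.c 2 q240 (.c 6 q507 (.c 7 q508 (.c 8 q498 .e)))))
noncomputable def r683 : Tr := .c 1 q503 (.c 2 q489 (.c 4 q302 (.c 8 q501 .e)))
noncomputable def t187 : Tr := .c 0 r678 (.c 2 r679 (.c 3 r680 (.c 4 r681 (.c 5 r682 (.c 6 r683 .e)))))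
noncomputable def r684 : Tr := .c 1 q109 (.c 2 q489 (.c 7 q487 (.c 8 q113 .e)))
noncomputable def r685 : Tr := .c 0 q489 (.c 1 q109 (.c 6 q488 (.c 7 q487 (.c 8 q113 .e))))
noncomputable def t188 : Tr := .c 0 r668 (.c 1 r669 (.c 2 r670 (.c 3 r684 (.c 4 r685 (.c 6 r671 (.c 7 r672 .e))))))
noncomputable def r686 : Tr := .c 0 q505 (.c 2 q240 (.c 3 q309 (.c 4 q390 .e)))
noncomputable def t189 : Tr := .c 4 r681 (.c 5 r682 (.c 7 r686 .e))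
noncomputable def t190 : Tr := .c 3 r680 (.c 4 r681 (.c 5 r682 (.c 6 r683 .e)))
noncomputable def q509 : Tr := .c 4 v27 (.c 5 v18 (.c 8 v18 (.c 9 v18 .e)))
noncomputable def q510 : Tr := .c 4 v27 (.c 5 v18 (.c 9 v18 .e))
noncomputable def v47 : Tr := .l 0x82082041042082082082082
noncomputable def q511 : Tr := .c 1 v47 (.c 2 v47 (.c 4 v47 (.c 5 v47 (.c 8 v47 (.c 9 v47 .e)))))
noncomputable def q512 : Tr := .c 2 v47 (.c 4 v47 (.c 5 v47 (.c 9 v47 .e)))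
noncomputable def q513 : Tr := .c 2 v27 (.c 4 v27 (.c 5 v18 .e))
noncomputable def r687 : Tr := .c 0 q509 (.c 1 q510 (.c 6 q511 (.c 7 q512 (.c 8 q513 (.c 9 q477 .e)))))
noncomputable def q514 : Tr := .c 4 v6 (.c 5 v23 (.c 8 v23 (.c 9 v23 .e)))
noncomputable def q515 : Tr := .c 4 v6 (.c 5 v23 (.c 9 v23 .e))
noncomputable def q516 : Tr := .c 2 v6 (.c 4 v6 (.c 5 v23 .e))
noncomputable def r688 : Tr := .c 0 q514 (.c 1 q515 (.c 6 q507 (.c 7 q508 (.c 8 q516 .e))))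
noncomputable def r689 : Tr := .c 0 q472 (.c 3 q474 (.c 5 q476 (.c 9 q477 .e)))
noncomputable def t191 : Tr := .c 4 r687 (.c 5 r688 (.c 7 r689 .e))
noncomputable def r690 : Tr := .c 1 q510 (.c 7 q512 (.c 8 q513 (.c 9 q477 .e)))
noncomputable def r691 : Tr := .c 1 q510 (.c 5 q476 (.c 8 q513 (.c 9 q477 .e)))
noncomputable def t192 : Tr := .c 3 r690 (.c 4 r687 (.c 5 r688 (.c 6 r691 .e)))
noncomputable def q517 : Tr := .c 2 v47 (.c 4 v47 .e)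
noncomputable def r692 : Tr := .c 1 q481 (.c 7 q517 (.c 8 q484 (.c 9 q477 .e)))
noncomputable def q518 : Tr := .c 4 v6 (.c 8 v23 .e)
noncomputable def q519 : Tr := .c 1 v6 (.c 2 v6 (.c 4 v6 (.c 8 v6 .e)))
noncomputable def r693 : Tr := .c 0 q518 (.c 1 q90 (.c 6 q519 (.c 7 q478 (.c 8 q478 .e))))
noncomputable def r694 : Tr := .c 1 q481 (.c 5 q476 (.c 8 q484 (.c 9 q477 .e)))
noncomputable def r695 : Tr := .c 0 q485 (.c 3 q486 (.c 5 q476 (.c 9 q477 .e)))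
noncomputable def t193 : Tr := .c 3 r692 (.c 5 r693 (.c 6 r694 (.c 7 r695 .e)))
noncomputable def v48 : Tr := .l 0x81082082082082082082082
noncomputable def q520 : Tr := .c 1 v23 (.c 2 v23 (.c 4 v23 (.c 5 v48 .e)))
noncomputable def r696 : Tr := .c 3 q298 (.c 5 q490 (.c 6 q520 (.c 9 q469 .e)))
noncomputable def q521 : Tr := .c 2 v23 (.c 4 v23 (.c 5 v48 .e))
noncomputable def r697 : Tr := .c 3 q298 (.c 5 q490 (.c 6 q520 (.c 7 q521 (.c 8 q471 (.c 9 q469 .e)))))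
noncomputable def r698 : Tr := .c 0 q493 (.c 1 q493 (.c 6 q520 (.c 7 q521 (.c 8 q471 (.c 9 q469 .e)))))
noncomputable def v49 : Tr := .l 0x82042082082082082082082
noncomputable def q522 : Tr := .c 1 v49 (.c 2 v49 (.c 4 v49 (.c 5 v48 .e)))
noncomputable def q523 : Tr := .c 2 v49 (.c 4 v49 (.c 5 v48 .e))
noncomputable def r699 : Tr := .c 0 q494 (.c 1 q494 (.c 6 q522 (.c 7 q523 (.c 8 q498 .e))))
noncomputable def t194 : Tr := .c 1 r696 (.c 2 r697 (.c 4 r698 (.c 5 r699 .e)))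
noncomputable def r700 : Tr := .c 5 q490 (.c 7 q521 (.c 8 q471 (.c 9 q469 .e)))
noncomputable def r701 : Tr := .c 1 q493 (.c 7 q521 (.c 8 q471 (.c 9 q469 .e)))
noncomputable def t195 : Tr := .c 0 r700 (.c 2 r697 (.c 3 r701 (.c 4 r698 (.c 5 r699 .e))))
noncomputable def r702 : Tr := .c 5 q476 (.c 7 q512 (.c 8 q513 (.c 9 q477 .e)))
noncomputable def q524 : Tr := .c 1 v47 (.c 2 v47 (.c 8 v47 (.c 9 v47 .e)))
noncomputable def r703 : Tr := .c 3 q524 (.c 5 q476 (.c 6 q511 (.c 7 q512 (.c 8 q513 (.c 9 q477 .e)))))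
noncomputable def t196 : Tr := .c 0 r702 (.c 2 r703 (.c 3 r690 (.c 4 r687 (.c 5 r688 (.c 6 r691 .e)))))
noncomputable def r704 : Tr := .c 0 q509 (.c 1 q510 (.c 8 q513 (.c 9 q477 .e)))
noncomputable def r705 : Tr := .c 0 q514 (.c 1 q515 (.c 2 q219 (.c 8 q516 .e)))
noncomputable def t197 : Tr := .c 4 r704 (.c 5 r705 (.c 7 r649 .e))
noncomputable def r706 : Tr := .c 1 q481 (.c 2 q482 (.c 8 q484 (.c 9 q477 .e)))
noncomputable def r707 : Tr := .c 0 q518 (.c 1 q90 (.c 2 q222 (.c 8 q478 .e)))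
noncomputable def t198 : Tr := .c 3 r706 (.c 5 r707 (.c 6 r652 (.c 7 r653 .e)))
noncomputable def r708 : Tr := .c 3 q271 (.c 4 q369 (.c 5 q467 (.c 9 q469 .e)))
noncomputable def r709 : Tr := .c 3 q271 (.c 5 q467 (.c 8 q471 (.c 9 q469 .e)))
noncomputable def t199 : Tr := .c 1 r708 (.c 2 r709 (.c 7 r649 .e))
noncomputable def r710 : Tr := .c 4 q342 (.c 5 q467 (.c 8 q479 (.c 9 q469 .e)))
noncomputable def r711 : Tr := .c 3 q282 (.c 4 q342 (.c 5 q467 (.c 9 q469 .e)))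
noncomputable def t200 : Tr := .c 0 r710 (.c 1 r711 (.c 6 r652 (.c 7 r653 .e)))
noncomputable def r712 : Tr := .c 4 q291 (.c 5 q299 (.c 8 q113 (.c 9 q300 .e)))
noncomputable def r713 : Tr := .c 3 q291 (.c 4 q291 (.c 5 q299 (.c 9 q300 .e)))
noncomputable def r714 : Tr := .c 3 q291 (.c 5 q299 (.c 8 q113 (.c 9 q300 .e)))
noncomputable def t201 : Tr := .c 0 r712 (.c 1 r713 (.c 2 r714 (.c 6 r657 (.c 7 r658 .e))))
noncomputable def r715 : Tr := .c 3 q298 (.c 4 q373 (.c 5 q490 (.c 9 q469 .e)))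
noncomputable def r716 : Tr := .c 3 q298 (.c 5 q490 (.c 8 q471 (.c 9 q469 .e)))
noncomputable def r717 : Tr := .c 0 q493 (.c 1 q493 (.c 8 q471 (.c 9 q469 .e)))
noncomputable def r718 : Tr := .c 0 q494 (.c 1 q494 (.c 2 q495 (.c 8 q498 .e)))
noncomputable def t202 : Tr := .c 1 r715 (.c 2 r716 (.c 4 r717 (.c 5 r718 .e)))
noncomputable def r719 : Tr := .c 0 q514 (.c 1 q515 (.c 8 q516 .e))
noncomputable def t203 : Tr := .c 4 r704 (.c 5 r719 (.c 7 r689 .e))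
noncomputable def r720 : Tr := .c 1 q510 (.c 8 q513 (.c 9 q477 .e))
noncomputable def t204 : Tr := .c 3 r720 (.c 4 r704 (.c 5 r719 (.c 6 r691 .e)))
noncomputable def r721 : Tr := .c 1 q481 (.c 8 q484 (.c 9 q477 .e))
noncomputable def r722 : Tr := .c 0 q518 (.c 1 q90 (.c 8 q478 .e))
noncomputable def t205 : Tr := .c 3 r721 (.c 5 r722 (.c 6 r694 (.c 7 r695 .e)))
noncomputable def r723 : Tr := .c 3 q271 (.c 5 q467 (.c 9 q469 .e))
noncomputable def t206 : Tr := .c 1 r723 (.c 2 r709 (.c 7 r689 .e))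
noncomputable def r724 : Tr := .c 5 q467 (.c 8 q479 (.c 9 q469 .e))
noncomputable def r725 : Tr := .c 3 q282 (.c 5 q467 (.c 9 q469 .e))
noncomputable def t207 : Tr := .c 0 r724 (.c 1 r725 (.c 6 r694 (.c 7 r695 .e)))
noncomputable def r726 : Tr := .c 3 q298 (.c 5 q490 (.c 9 q469 .e))
noncomputable def r727 : Tr := .c 0 q494 (.c 1 q494 (.c 8 q498 .e))
noncomputable def t208 : Tr := .c 1 r726 (.c 2 r716 (.c 4 r717 (.c 5 r727 .e)))
noncomputable def r728 : Tr := .c 5 q490 (.c 8 q471 (.c 9 q469 .e))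
noncomputable def r729 : Tr := .c 1 q493 (.c 8 q471 (.c 9 q469 .e))
noncomputable def t209 : Tr := .c 0 r728 (.c 2 r716 (.c 3 r729 (.c 4 r717 (.c 5 r727 .e))))
noncomputable def v50 : Tr := .l 0x82081082082082082082082
noncomputable def q525 : Tr := .c 0 v50 (.c 2 v50 .e)
noncomputable def q526 : Tr := .c 0 v6 (.c 2 v6 (.c 3 v6 (.c 4 v6 .e)))
noncomputable def q527 : Tr := .c 0 v50 (.c 2 v50 (.c 3 v50 (.c 4 v50 .e)))
noncomputable def r730 : Tr := .c 4 q339 (.c 5 q525 (.c 7 q526 (.c 8 q527 (.c 9 q527 .e))))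
noncomputable def r731 : Tr := .c 3 q280 (.c 4 q339 (.c 5 q525 (.c 6 q478 (.c 9 q527 .e))))
noncomputable def q528 : Tr := .c 3 v19 (.c 4 v19 .e)
noncomputable def q529 : Tr := .c 3 v19 .e
noncomputable def q530 : Tr := .c 0 v19 (.c 2 v19 .e)
noncomputable def q531 : Tr := .c 0 v19 (.c 2 v19 (.c 3 v19 (.c 4 v19 .e)))
noncomputable def r732 : Tr := .c 1 q528 (.c 2 q529 (.c 4 q339 (.c 5 q530 (.c 8 q531 (.c 9 q531 .e)))))
noncomputable def r733 : Tr := .c 0 q90 (.c 2 q529 (.c 3 q280 (.c 4 q339 (.c 5 q530 (.c 9 q531 .e)))))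
noncomputable def t210 : Tr := .c 0 r730 (.c 1 r731 (.c 6 r732 (.c 7 r733 .e)))
noncomputable def v51 : Tr := .l 0x82082082082082082042082
noncomputable def q532 : Tr := .c 0 v51 (.c 9 v39 .e)
noncomputable def q533 : Tr := .c 0 v39 (.c 3 v39 (.c 5 v39 (.c 9 v39 .e)))
noncomputable def q534 : Tr := .c 0 v2 (.c 3 v2 (.c 5 v41 .e))
noncomputable def q535 : Tr := .c 0 v2 (.c 3 v2 .e)
noncomputable def r734 : Tr := .c 4 q532 (.c 5 q365 (.c 7 q533 (.c 8 q534 (.c 9 q535 .e))))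
noncomputable def r735 : Tr := .c 3 q289 (.c 4 q532 (.c 5 q365 (.c 6 q487 (.c 9 q535 .e))))
noncomputable def r736 : Tr := .c 3 q289 (.c 5 q365 (.c 6 q487 (.c 7 q533 (.c 8 q534 (.c 9 q535 .e)))))
noncomputable def q536 : Tr := .c 3 v2 (.c 5 v41 (.c 9 v41 .e))
noncomputable def q537 : Tr := .c 0 v34 (.c 9 v41 .e)
noncomputable def r737 : Tr := .c 1 q536 (.c 2 q536 (.c 4 q537 (.c 5 q365 (.c 8 q534 (.c 9 q535 .e)))))
noncomputable def r738 : Tr := .c 0 q109 (.c 2 q536 (.c 3 q292 (.c 4 q537 (.c 5 q365 (.c 9 q535 .e)))))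
noncomputable def t211 : Tr := .c 0 r734 (.c 1 r735 (.c 2 r736 (.c 6 r737 (.c 7 r738 .e))))
noncomputable def q538 : Tr := .c 0 v29 (.c 2 v29 .e)
noncomputable def q539 : Tr := .c 0 v23 (.c 2 v23 (.c 3 v23 (.c 4 v23 (.c 5 v23 .e))))
noncomputable def q540 : Tr := .c 0 v29 (.c 2 v29 (.c 3 v29 (.c 4 v29 (.c 5 v45 .e))))
noncomputable def q541 : Tr := .c 0 v29 (.c 2 v29 (.c 3 v29 (.c 4 v29 .e)))
noncomputable def r739 : Tr := .c 4 q339 (.c 5 q538 (.c 7 q539 (.c 8 q540 (.c 9 q541 .e))))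
noncomputable def r740 : Tr := .c 3 q286 (.c 5 q538 (.c 6 q492 (.c 7 q539 (.c 8 q540 (.c 9 q541 .e)))))
noncomputable def q542 : Tr := .c 3 v29 (.c 4 v29 (.c 5 v45 .e))
noncomputable def q543 : Tr := .c 3 v29 (.c 5 v45 .e)
noncomputable def r741 : Tr := .c 1 q542 (.c 2 q543 (.c 7 q539 (.c 8 q540 (.c 9 q541 .e))))
noncomputable def r742 : Tr := .c 0 q493 (.c 1 q542 (.c 6 q492 (.c 7 q539 (.c 8 q540 (.c 9 q541 .e)))))
noncomputable def q544 : Tr := .c 3 v6 (.c 4 v6 (.c 5 v6 .e))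
noncomputable def q545 : Tr := .c 3 v6 (.c 5 v6 .e)
noncomputable def q546 : Tr := .c 0 v23 (.c 2 v23 (.c 3 v23 (.c 4 v23 (.c 5 v46 .e))))
noncomputable def q547 : Tr := .c 0 v6 (.c 2 v6 (.c 3 v6 (.c 4 v6 (.c 5 v6 .e))))
noncomputable def r743 : Tr := .c 0 q494 (.c 1 q544 (.c 2 q545 (.c 6 q497 (.c 7 q546 (.c 8 q547 .e)))))
noncomputable def t212 : Tr := .c 0 r739 (.c 2 r740 (.c 3 r741 (.c 4 r742 (.c 5 r743 .e))))
noncomputable def q548 : Tr := .c 0 v39 (.c 2 v39 (.c 3 v39 (.c 4 v39 (.c 5 v39 (.c 9 v39 .e)))))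
noncomputable def q549 : Tr := .c 0 v2 (.c 2 v2 (.c 3 v2 (.c 4 v2 (.c 5 v41 .e))))
noncomputable def q550 : Tr := .c 0 v2 (.c 2 v2 (.c 3 v2 (.c 4 v2 .e)))
noncomputable def r744 : Tr := .c 4 q532 (.c 5 q448 (.c 7 q548 (.c 8 q549 (.c 9 q550 .e))))
noncomputable def r745 : Tr := .c 3 q304 (.c 5 q448 (.c 6 q500 (.c 7 q548 (.c 8 q549 (.c 9 q550 .e)))))
noncomputable def q551 : Tr := .c 3 v2 (.c 4 v2 (.c 5 v41 (.c 9 v41 .e)))
noncomputable def r746 : Tr := .c 1 q551 (.c 2 q536 (.c 7 q548 (.c 8 q549 (.c 9 q550 .e))))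
noncomputable def r747 : Tr := .c 0 q503 (.c 1 q551 (.c 6 q500 (.c 7 q548 (.c 8 q549 (.c 9 q550 .e)))))
noncomputable def q552 : Tr := .c 3 v6 (.c 4 v6 (.c 5 v6 (.c 9 v6 .e)))
noncomputable def q553 : Tr := .c 0 v6 (.c 2 v6 (.c 3 v6 (.c 4 v6 (.c 5 v6 (.c 9 v6 .e)))))
noncomputable def r748 : Tr := .c 0 q506 (.c 1 q552 (.c 2 q241 (.c 6 q508 (.c 7 q553 (.c 8 q547 .e)))))
noncomputable def r749 : Tr := .c 1 q551 (.c 2 q536 (.c 4 q537 (.c 5 q448 (.c 8 q549 (.c 9 q550 .e)))))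
noncomputable def t213 : Tr := .c 0 r744 (.c 2 r745 (.c 3 r746 (.c 4 r747 (.c 5 r748 (.c 6 r749 .e)))))
noncomputable def r750 : Tr := .c 1 q536 (.c 2 q536 (.c 7 q533 (.c 8 q534 (.c 9 q535 .e))))
noncomputable def r751 : Tr := .c 0 q109 (.c 1 q536 (.c 6 q487 (.c 7 q533 (.c 8 q534 (.c 9 q535 .e)))))
noncomputable def t214 : Tr := .c 0 r734 (.c 1 r735 (.c 2 r736 (.c 3 r750 (.c 4 r751 (.c 6 r737 (.c 7 r738 .e))))))
noncomputable def r752 : Tr := .c 3 q273 (.c 4 q370 (.c 6 q470 .e))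
noncomputable def q554 : Tr := .c 0 v23 (.c 2 v23 (.c 3 v23 (.c 4 v23 (.c 5 v23 (.c 9 v23 .e)))))
noncomputable def r753 : Tr := .c 3 q273 (.c 6 q470 (.c 7 q554 (.c 8 q540 .e)))
noncomputable def q555 : Tr := .c 4 v6 (.c 5 v26 (.c 9 v26 .e))
noncomputable def q556 : Tr := .c 3 v6 (.c 5 v26 (.c 9 v26 .e))
noncomputable def q557 : Tr := .c 2 v26 (.c 9 v26 .e)
noncomputable def q558 : Tr := .c 0 v6 (.c 9 v26 .e)
noncomputable def r754 : Tr := .c 0 q555 (.c 2 q556 (.c 3 q557 (.c 4 q558 .e)))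
noncomputable def t215 : Tr := .c 1 r752 (.c 2 r753 (.c 7 r754 .e))
noncomputable def r755 : Tr := .c 4 q532 (.c 7 q533 (.c 8 q534 .e))
noncomputable def r756 : Tr := .c 3 q289 (.c 4 q532 (.c 6 q487 .e))
noncomputable def r757 : Tr := .c 3 q289 (.c 6 q487 (.c 7 q533 (.c 8 q534 .e)))
noncomputable def r758 : Tr := .c 1 q536 (.c 2 q536 (.c 4 q537 (.c 8 q534 .e)))
noncomputable def r759 : Tr := .c 0 q109 (.c 2 q536 (.c 3 q292 (.c 4 q537 .e)))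
noncomputable def t216 : Tr := .c 0 r755 (.c 1 r756 (.c 2 r757 (.c 6 r758 (.c 7 r759 .e))))
noncomputable def r760 : Tr := .c 3 q286 (.c 4 q339 (.c 6 q492 .e))
noncomputable def r761 : Tr := .c 3 q286 (.c 6 q492 (.c 7 q539 (.c 8 q540 .e)))
noncomputable def r762 : Tr := .c 0 q493 (.c 1 q542 (.c 6 q492 (.c 7 q539 (.c 8 q540 .e))))
noncomputable def t217 : Tr := .c 1 r760 (.c 2 r761 (.c 4 r762 (.c 5 r743 .e)))
noncomputable def r763 : Tr := .c 4 q339 (.c 7 q539 (.c 8 q540 .e))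
noncomputable def r764 : Tr := .c 1 q542 (.c 2 q543 (.c 7 q539 (.c 8 q540 .e)))
noncomputable def t218 : Tr := .c 0 r763 (.c 2 r761 (.c 3 r764 (.c 4 r762 (.c 5 r743 .e))))
noncomputable def r765 : Tr := .c 4 q532 (.c 7 q548 (.c 8 q549 .e))
noncomputable def r766 : Tr := .c 3 q304 (.c 6 q500 (.c 7 q548 (.c 8 q549 .e)))
noncomputable def r767 : Tr := .c 1 q551 (.c 2 q536 (.c 7 q548 (.c 8 q549 .e)))
noncomputable def r768 : Tr := .c 0 q503 (.c 1 q551 (.c 6 q500 (.c 7 q548 (.c 8 q549 .e))))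
noncomputable def r769 : Tr := .c 1 q551 (.c 2 q536 (.c 4 q537 (.c 8 q549 .e)))
noncomputable def t219 : Tr := .c 0 r765 (.c 2 r766 (.c 3 r767 (.c 4 r768 (.c 5 r748 (.c 6 r769 .e)))))
noncomputable def r770 : Tr := .c 1 q536 (.c 2 q536 (.c 7 q533 (.c 8 q534 .e)))
noncomputable def r771 : Tr := .c 0 q109 (.c 1 q536 (.c 6 q487 (.c 7 q533 (.c 8 q534 .e))))
noncomputable def t220 : Tr := .c 0 r755 (.c 1 r756 (.c 2 r757 (.c 3 r770 (.c 4 r771 (.c 6 r758 (.c 7 r759 .e))))))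
noncomputable def t221 : Tr := .c 3 r746 (.c 4 r747 (.c 5 r748 (.c 6 r749 .e)))
noncomputable def q559 : Tr := .c 3 v2 (.c 4 v2 .e)
noncomputable def q560 : Tr := .c 3 v2 .e
noncomputable def q561 : Tr := .c 0 v39 (.c 2 v39 (.c 3 v39 (.c 4 v39 .e)))
noncomputable def r772 : Tr := .c 1 q559 (.c 2 q560 (.c 7 q561 (.c 8 q550 (.c 9 q550 .e))))
noncomputable def r773 : Tr := .c 0 q90 (.c 1 q188 (.c 2 q233 (.c 6 q478 (.c 7 q526 (.c 8 q526 .e)))))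
noncomputable def r774 : Tr := .c 1 q559 (.c 2 q560 (.c 4 q377 (.c 5 q448 (.c 8 q550 (.c 9 q550 .e)))))
noncomputable def r775 : Tr := .c 0 q90 (.c 2 q560 (.c 3 q280 (.c 4 q377 (.c 5 q448 (.c 9 q550 .e)))))
noncomputable def t222 : Tr := .c 3 r772 (.c 5 r773 (.c 6 r774 (.c 7 r775 .e)))
noncomputable def r776 : Tr := .c 0 q506 (.c 2 q241 (.c 3 q310 (.c 4 q391 .e)))
noncomputable def t223 : Tr := .c 4 r768 (.c 5 r748 (.c 7 r776 .e))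
noncomputable def t224 : Tr := .c 3 r767 (.c 4 r768 (.c 5 r748 (.c 6 r769 .e)))
noncomputable def q562 : Tr := .c 3 v27 (.c 4 v27 (.c 5 v18 (.c 9 v18 .e)))
noncomputable def q563 : Tr := .c 0 v47 (.c 2 v47 (.c 3 v47 (.c 4 v47 (.c 5 v47 (.c 9 v47 .e)))))
noncomputable def q564 : Tr := .c 0 v27 (.c 2 v27 (.c 3 v27 (.c 4 v27 (.c 5 v18 .e))))
noncomputable def q565 : Tr := .c 0 v27 (.c 2 v27 (.c 3 v27 (.c 4 v27 .e)))
noncomputable def r777 : Tr := .c 0 q510 (.c 1 q562 (.c 6 q512 (.c 7 q563 (.c 8 q564 (.c 9 q565 .e)))))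
noncomputable def q566 : Tr := .c 3 v6 (.c 4 v6 (.c 5 v23 (.c 9 v23 .e)))
noncomputable def q567 : Tr := .c 0 v6 (.c 2 v6 (.c 3 v6 (.c 4 v6 (.c 5 v23 .e))))
noncomputable def r778 : Tr := .c 0 q515 (.c 1 q566 (.c 6 q508 (.c 7 q553 (.c 8 q567 .e))))
noncomputable def q568 : Tr := .c 0 v27 (.c 2 v27 .e)
noncomputable def r779 : Tr := .c 0 q555 (.c 3 q557 (.c 5 q568 (.c 9 q565 .e)))
noncomputable def t225 : Tr := .c 4 r777 (.c 5 r778 (.c 7 r779 .e))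
noncomputable def r780 : Tr := .c 1 q562 (.c 7 q563 (.c 8 q564 (.c 9 q565 .e)))
noncomputable def r781 : Tr := .c 1 q562 (.c 5 q568 (.c 8 q564 (.c 9 q565 .e)))
noncomputable def t226 : Tr := .c 3 r780 (.c 4 r777 (.c 5 r778 (.c 6 r781 .e)))
noncomputable def q569 : Tr := .c 3 v27 (.c 4 v27 .e)
noncomputable def q570 : Tr := .c 0 v47 (.c 2 v47 (.c 3 v47 (.c 4 v47 .e)))
noncomputable def r782 : Tr := .c 1 q569 (.c 7 q570 (.c 8 q565 (.c 9 q565 .e)))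
noncomputable def r783 : Tr := .c 0 q90 (.c 1 q188 (.c 6 q478 (.c 7 q526 (.c 8 q526 .e))))
noncomputable def r784 : Tr := .c 1 q569 (.c 5 q568 (.c 8 q565 (.c 9 q565 .e)))
noncomputable def q571 : Tr := .c 2 v26 .e
noncomputable def r785 : Tr := .c 0 q90 (.c 3 q571 (.c 5 q568 (.c 9 q565 .e)))
noncomputable def t227 : Tr := .c 3 r782 (.c 5 r783 (.c 6 r784 (.c 7 r785 .e)))
noncomputable def r786 : Tr := .c 3 q286 (.c 5 q538 (.c 6 q521 (.c 9 q541 .e)))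
noncomputable def q572 : Tr := .c 0 v23 (.c 2 v23 (.c 3 v23 (.c 4 v23 (.c 5 v48 .e))))
noncomputable def r787 : Tr := .c 3 q286 (.c 5 q538 (.c 6 q521 (.c 7 q572 (.c 8 q540 (.c 9 q541 .e)))))
noncomputable def r788 : Tr := .c 0 q493 (.c 1 q542 (.c 6 q521 (.c 7 q572 (.c 8 q540 (.c 9 q541 .e)))))
noncomputable def q573 : Tr := .c 0 v49 (.c 2 v49 (.c 3 v49 (.c 4 v49 (.c 5 v48 .e))))
noncomputable def r789 : Tr := .c 0 q494 (.c 1 q544 (.c 6 q523 (.c 7 q573 (.c 8 q547 .e))))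
noncomputable def t228 : Tr := .c 1 r786 (.c 2 r787 (.c 4 r788 (.c 5 r789 .e)))
noncomputable def r790 : Tr := .c 5 q538 (.c 7 q572 (.c 8 q540 (.c 9 q541 .e)))
noncomputable def r791 : Tr := .c 1 q542 (.c 7 q572 (.c 8 q540 (.c 9 q541 .e)))
noncomputable def t229 : Tr := .c 0 r790 (.c 2 r787 (.c 3 r791 (.c 4 r788 (.c 5 r789 .e))))
noncomputable def r792 : Tr := .c 5 q568 (.c 7 q563 (.c 8 q564 (.c 9 q565 .e)))
noncomputable def q574 : Tr := .c 2 v47 (.c 9 v47 .e)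
noncomputable def r793 : Tr := .c 3 q574 (.c 5 q568 (.c 6 q512 (.c 7 q563 (.c 8 q564 (.c 9 q565 .e)))))
noncomputable def t230 : Tr := .c 0 r792 (.c 2 r793 (.c 3 r780 (.c 4 r777 (.c 5 r778 (.c 6 r781 .e)))))
noncomputable def r794 : Tr := .c 0 q510 (.c 1 q562 (.c 8 q564 (.c 9 q565 .e)))
noncomputable def r795 : Tr := .c 0 q515 (.c 1 q566 (.c 8 q567 .e))
noncomputable def t231 : Tr := .c 4 r794 (.c 5 r795 (.c 7 r779 .e))
noncomputable def r796 : Tr := .c 1 q562 (.c 8 q564 (.c 9 q565 .e))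
noncomputable def t232 : Tr := .c 3 r796 (.c 4 r794 (.c 5 r795 (.c 6 r781 .e)))
noncomputable def r797 : Tr := .c 1 q569 (.c 8 q565 (.c 9 q565 .e))
noncomputable def r798 : Tr := .c 0 q90 (.c 1 q188 (.c 8 q526 .e))
noncomputable def t233 : Tr := .c 3 r797 (.c 5 r798 (.c 6 r784 (.c 7 r785 .e)))
noncomputable def r799 : Tr := .c 3 q273 (.c 5 q538 (.c 9 q541 .e))
noncomputable def r800 : Tr := .c 3 q273 (.c 5 q538 (.c 8 q540 (.c 9 q541 .e)))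
noncomputable def t234 : Tr := .c 1 r799 (.c 2 r800 (.c 7 r779 .e))
noncomputable def r801 : Tr := .c 5 q538 (.c 8 q541 (.c 9 q541 .e))
noncomputable def r802 : Tr := .c 3 q286 (.c 5 q538 (.c 9 q541 .e))
noncomputable def t235 : Tr := .c 0 r801 (.c 1 r802 (.c 6 r784 (.c 7 r785 .e)))
noncomputable def r803 : Tr := .c 3 q286 (.c 5 q538 (.c 8 q540 (.c 9 q541 .e)))
noncomputable def r804 : Tr := .c 0 q493 (.c 1 q542 (.c 8 q540 (.c 9 q541 .e)))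
noncomputable def r805 : Tr := .c 0 q494 (.c 1 q544 (.c 8 q547 .e))
noncomputable def t236 : Tr := .c 1 r802 (.c 2 r803 (.c 4 r804 (.c 5 r805 .e)))
noncomputable def r806 : Tr := .c 5 q538 (.c 8 q540 (.c 9 q541 .e))
noncomputable def r807 : Tr := .c 1 q542 (.c 8 q540 (.c 9 q541 .e))
noncomputable def t237 : Tr := .c 0 r806 (.c 2 r803 (.c 3 r807 (.c 4 r804 (.c 5 r805 .e))))
noncomputable def q575 : Tr := .c 0 v10 (.c 6 v15 .e)
noncomputable def q576 : Tr := .c 0 v9 (.c 2 v9 (.c 3 v9 (.c 4 v9 .e)))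
noncomputable def q577 : Tr := .c 0 v43 (.c 2 v43 (.c 3 v43 (.c 4 v43 (.c 6 v43 .e))))
noncomputable def r808 : Tr := .c 4 q575 (.c 5 q399 (.c 7 q576 (.c 8 q577 (.c 9 q577 .e))))
noncomputable def q578 : Tr := .c 2 v10 .e
noncomputable def q579 : Tr := .c 2 v10 (.c 4 v10 .e)
noncomputable def r809 : Tr := .c 3 q578 (.c 4 q575 (.c 5 q399 (.c 6 q579 (.c 9 q577 .e))))
noncomputable def q580 : Tr := .c 4 v15 .e
noncomputable def q581 : Tr := .c 3 v15 (.c 6 v15 .e)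
noncomputable def r810 : Tr := .c 0 q580 (.c 2 q581 (.c 3 q578 (.c 4 q575 (.c 5 q399 (.c 6 q579 .e)))))
noncomputable def q582 : Tr := .c 3 v15 (.c 4 v15 (.c 6 v15 .e))
noncomputable def q583 : Tr := .c 0 v10 (.c 2 v10 (.c 3 v10 (.c 4 v10 .e)))
noncomputable def r811 : Tr := .c 0 q580 (.c 1 q582 (.c 2 q581 (.c 3 q578 (.c 4 q575 (.c 6 q579 (.c 7 q583 .e))))))
noncomputable def t238 : Tr := .c 0 r808 (.c 1 r809 (.c 8 r810 (.c 9 r811 .e)))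
noncomputable def q584 : Tr := .c 0 v44 (.c 6 v2 .e)
noncomputable def q585 : Tr := .c 0 v3 (.c 3 v3 (.c 5 v4 .e))
noncomputable def q586 : Tr := .c 0 v0 (.c 3 v0 (.c 5 v1 (.c 6 v0 .e)))
noncomputable def q587 : Tr := .c 0 v0 (.c 3 v0 (.c 6 v0 .e))
noncomputable def r812 : Tr := .c 4 q584 (.c 5 q417 (.c 7 q585 (.c 8 q586 (.c 9 q587 .e))))
noncomputable def q588 : Tr := .c 5 v4 .e
noncomputable def r813 : Tr := .c 4 q584 (.c 5 q417 (.c 6 q588 (.c 9 q587 .e)))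
noncomputable def r814 : Tr := .c 5 q417 (.c 6 q588 (.c 7 q585 (.c 8 q586 (.c 9 q587 .e))))
noncomputable def q589 : Tr := .c 5 v51 .e
noncomputable def q590 : Tr := .c 3 v2 (.c 5 v51 (.c 6 v2 .e))
noncomputable def r815 : Tr := .c 0 q589 (.c 2 q590 (.c 4 q584 (.c 5 q417 (.c 6 q588 .e))))
noncomputable def t239 : Tr := .c 0 r812 (.c 1 r813 (.c 2 r814 (.c 8 r815 .e)))
noncomputable def q591 : Tr := .c 0 v9 (.c 6 v6 .e)
noncomputable def q592 : Tr := .c 0 v10 (.c 2 v10 (.c 3 v10 (.c 4 v10 (.c 5 v11 .e))))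
noncomputable def q593 : Tr := .c 0 v12 (.c 2 v12 (.c 3 v12 (.c 4 v12 (.c 5 v13 (.c 6 v12 .e)))))
noncomputable def q594 : Tr := .c 0 v12 (.c 2 v12 (.c 3 v12 (.c 4 v12 (.c 6 v12 .e))))
noncomputable def r816 : Tr := .c 4 q591 (.c 5 q432 (.c 7 q592 (.c 8 q593 (.c 9 q594 .e))))
noncomputable def q595 : Tr := .c 2 v10 (.c 4 v10 (.c 5 v11 .e))
noncomputable def r817 : Tr := .c 3 q578 (.c 5 q432 (.c 6 q595 (.c 7 q592 (.c 8 q593 (.c 9 q594 .e)))))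
noncomputable def r818 : Tr := .c 1 q141 (.c 2 q143 (.c 7 q592 (.c 8 q593 (.c 9 q594 .e))))
noncomputable def r819 : Tr := .c 0 q19 (.c 1 q141 (.c 6 q595 (.c 7 q592 (.c 8 q593 (.c 9 q594 .e)))))
noncomputable def q596 : Tr := .c 0 v15 (.c 2 v15 (.c 3 v15 (.c 4 v15 (.c 5 v16 (.c 6 v15 .e)))))
noncomputable def r820 : Tr := .c 0 q22 (.c 1 q144 (.c 2 q145 (.c 6 q595 (.c 7 q592 (.c 8 q596 .e)))))
noncomputable def r821 : Tr := .c 0 q22 (.c 1 q144 (.c 2 q145 (.c 3 q578 (.c 4 q575 (.c 6 q595 (.c 7 q592 .e))))))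
noncomputable def t240 : Tr := .c 0 r816 (.c 2 r817 (.c 3 r818 (.c 4 r819 (.c 5 r820 (.c 9 r821 .e)))))
noncomputable def q597 : Tr := .c 0 v44 .e
noncomputable def q598 : Tr := .c 0 v3 (.c 2 v3 (.c 3 v3 (.c 4 v3 (.c 5 v4 .e))))
noncomputable def q599 : Tr := .c 0 v0 (.c 2 v0 (.c 3 v0 (.c 4 v0 (.c 5 v1 .e))))
noncomputable def q600 : Tr := .c 0 v0 (.c 2 v0 (.c 3 v0 (.c 4 v0 .e)))
noncomputable def r822 : Tr := .c 4 q597 (.c 5 q442 (.c 7 q598 (.c 8 q599 (.c 9 q600 .e))))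
noncomputable def q601 : Tr := .c 2 v3 .e
noncomputable def q602 : Tr := .c 2 v3 (.c 4 v3 (.c 5 v4 .e))
noncomputable def r823 : Tr := .c 3 q601 (.c 5 q442 (.c 6 q602 (.c 7 q598 (.c 8 q599 (.c 9 q600 .e)))))
noncomputable def r824 : Tr := .c 1 q148 (.c 2 q157 (.c 7 q598 (.c 8 q599 (.c 9 q600 .e))))
noncomputable def r825 : Tr := .c 0 q4 (.c 1 q148 (.c 6 q602 (.c 7 q598 (.c 8 q599 (.c 9 q600 .e)))))
noncomputable def q603 : Tr := .c 3 v2 (.c 5 v5 .e)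
noncomputable def q604 : Tr := .c 2 v7 (.c 4 v7 (.c 5 v5 .e))
noncomputable def q605 : Tr := .c 0 v7 (.c 2 v7 (.c 3 v7 (.c 4 v7 (.c 5 v5 .e))))
noncomputable def q606 : Tr := .c 0 v2 (.c 2 v2 (.c 3 v2 (.c 4 v2 (.c 5 v5 .e))))
noncomputable def r826 : Tr := .c 0 q10 (.c 1 q154 (.c 2 q603 (.c 6 q604 (.c 7 q605 (.c 8 q606 .e)))))
noncomputable def t241 : Tr := .c 0 r822 (.c 2 r823 (.c 3 r824 (.c 4 r825 (.c 5 r826 .e))))
noncomputable def q607 : Tr := .c 0 v0 (.c 3 v0 (.c 5 v1 .e))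
noncomputable def q608 : Tr := .c 0 v0 (.c 3 v0 .e)
noncomputable def r827 : Tr := .c 4 q597 (.c 5 q450 (.c 7 q585 (.c 8 q607 (.c 9 q608 .e))))
noncomputable def r828 : Tr := .c 4 q597 (.c 5 q450 (.c 6 q588 (.c 9 q608 .e)))
noncomputable def r829 : Tr := .c 5 q450 (.c 6 q588 (.c 7 q585 (.c 8 q607 (.c 9 q608 .e))))
noncomputable def r830 : Tr := .c 1 q157 (.c 2 q157 (.c 7 q585 (.c 8 q607 (.c 9 q608 .e))))
noncomputable def r831 : Tr := .c 0 q33 (.c 1 q157 (.c 6 q588 (.c 7 q585 (.c 8 q607 (.c 9 q608 .e)))))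
noncomputable def t242 : Tr := .c 0 r827 (.c 1 r828 (.c 2 r829 (.c 3 r830 (.c 4 r831 .e))))
noncomputable def r832 : Tr := .c 3 q578 (.c 4 q575 (.c 6 q595 .e))
noncomputable def r833 : Tr := .c 3 q578 (.c 6 q595 (.c 7 q592 (.c 8 q593 .e)))
noncomputable def r834 : Tr := .c 0 q22 (.c 2 q145 (.c 3 q578 (.c 4 q575 (.c 6 q595 .e))))
noncomputable def t243 : Tr := .c 1 r832 (.c 2 r833 (.c 8 r834 (.c 9 r821 .e)))
noncomputable def r835 : Tr := .c 4 q584 (.c 7 q585 (.c 8 q586 .e))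
noncomputable def r836 : Tr := .c 4 q584 (.c 6 q588 .e)
noncomputable def r837 : Tr := .c 6 q588 (.c 7 q585 (.c 8 q586 .e))
noncomputable def r838 : Tr := .c 0 q589 (.c 2 q590 (.c 4 q584 (.c 6 q588 .e)))
noncomputable def t244 : Tr := .c 0 r835 (.c 1 r836 (.c 2 r837 (.c 8 r838 .e)))
noncomputable def r839 : Tr := .c 0 q19 (.c 1 q141 (.c 6 q595 (.c 7 q592 (.c 8 q593 .e))))
noncomputable def t245 : Tr := .c 1 r832 (.c 2 r833 (.c 4 r839 (.c 5 r820 (.c 8 r834 (.c 9 r821 .e)))))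
noncomputable def r840 : Tr := .c 4 q591 (.c 7 q592 (.c 8 q593 .e))
noncomputable def r841 : Tr := .c 1 q141 (.c 2 q143 (.c 7 q592 (.c 8 q593 .e)))
noncomputable def t246 : Tr := .c 0 r840 (.c 2 r833 (.c 3 r841 (.c 4 r839 (.c 5 r820 (.c 9 r821 .e)))))
noncomputable def r842 : Tr := .c 4 q597 (.c 7 q598 (.c 8 q599 .e))
noncomputable def r843 : Tr := .c 3 q601 (.c 6 q602 (.c 7 q598 (.c 8 q599 .e)))
noncomputable def r844 : Tr := .c 1 q148 (.c 2 q157 (.c 7 q598 (.c 8 q599 .e)))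
noncomputable def r845 : Tr := .c 0 q4 (.c 1 q148 (.c 6 q602 (.c 7 q598 (.c 8 q599 .e))))
noncomputable def t247 : Tr := .c 0 r842 (.c 2 r843 (.c 3 r844 (.c 4 r845 (.c 5 r826 .e))))
noncomputable def r846 : Tr := .c 4 q597 (.c 7 q585 (.c 8 q607 .e))
noncomputable def r847 : Tr := .c 4 q597 (.c 6 q588 .e)
noncomputable def r848 : Tr := .c 6 q588 (.c 7 q585 (.c 8 q607 .e))
noncomputable def r849 : Tr := .c 1 q157 (.c 2 q157 (.c 7 q585 (.c 8 q607 .e)))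
noncomputable def r850 : Tr := .c 0 q33 (.c 1 q157 (.c 6 q588 (.c 7 q585 (.c 8 q607 .e))))
noncomputable def t248 : Tr := .c 0 r846 (.c 1 r847 (.c 2 r848 (.c 3 r849 (.c 4 r850 .e))))
noncomputable def q609 : Tr := .c 0 v0 (.c 2 v0 (.c 3 v0 (.c 4 v0 (.c 5 v1 (.c 6 v0 .e)))))
noncomputable def q610 : Tr := .c 0 v0 (.c 2 v0 (.c 3 v0 (.c 4 v0 (.c 6 v0 .e))))
noncomputable def r851 : Tr := .c 1 q120 (.c 2 q192 (.c 7 q598 (.c 8 q609 (.c 9 q610 .e))))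
noncomputable def r852 : Tr := .c 0 q4 (.c 1 q120 (.c 6 q602 (.c 7 q598 (.c 8 q609 (.c 9 q610 .e)))))
noncomputable def q611 : Tr := .c 3 v2 (.c 5 v5 (.c 6 v2 .e))
noncomputable def q612 : Tr := .c 0 v2 (.c 2 v2 (.c 3 v2 (.c 4 v2 (.c 5 v5 (.c 6 v2 .e)))))
noncomputable def r853 : Tr := .c 0 q10 (.c 1 q125 (.c 2 q611 (.c 6 q604 (.c 7 q605 (.c 8 q612 .e)))))
noncomputable def q613 : Tr := .c 2 v7 .e
noncomputable def q614 : Tr := .c 0 v7 (.c 6 v2 .e)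
noncomputable def r854 : Tr := .c 0 q10 (.c 1 q125 (.c 2 q611 (.c 3 q613 (.c 4 q614 (.c 6 q604 (.c 7 q605 .e))))))
noncomputable def t249 : Tr := .c 3 r851 (.c 4 r852 (.c 5 r853 (.c 9 r854 .e)))
noncomputable def q615 : Tr := .c 0 v3 (.c 2 v3 (.c 3 v3 (.c 4 v3 .e)))
noncomputable def r855 : Tr := .c 1 q121 (.c 2 q130 (.c 7 q615 (.c 8 q610 (.c 9 q610 .e))))
noncomputable def q616 : Tr := .c 2 v7 (.c 4 v7 .e)
noncomputable def q617 : Tr := .c 0 v7 (.c 2 v7 (.c 3 v7 (.c 4 v7 .e)))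
noncomputable def q618 : Tr := .c 0 v2 (.c 2 v2 (.c 3 v2 (.c 4 v2 (.c 6 v2 .e))))
noncomputable def r856 : Tr := .c 0 q88 (.c 1 q132 (.c 2 q133 (.c 6 q616 (.c 7 q617 (.c 8 q618 .e)))))
noncomputable def q619 : Tr := .c 0 v2 (.c 2 v2 (.c 6 v37 .e))
noncomputable def r857 : Tr := .c 0 q88 (.c 2 q133 (.c 3 q613 (.c 4 q614 (.c 5 q619 (.c 6 q616 .e)))))
noncomputable def r858 : Tr := .c 0 q88 (.c 1 q132 (.c 2 q133 (.c 3 q613 (.c 4 q614 (.c 6 q616 (.c 7 q617 .e))))))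
noncomputable def t250 : Tr := .c 3 r855 (.c 5 r856 (.c 8 r857 (.c 9 r858 .e)))
noncomputable def r859 : Tr := .c 0 q4 (.c 1 q120 (.c 6 q602 (.c 7 q598 (.c 8 q609 .e))))
noncomputable def r860 : Tr := .c 0 q10 (.c 2 q611 (.c 3 q613 (.c 4 q614 (.c 6 q604 .e))))
noncomputable def t251 : Tr := .c 4 r859 (.c 5 r853 (.c 8 r860 (.c 9 r854 .e)))
noncomputable def r861 : Tr := .c 1 q120 (.c 2 q192 (.c 7 q598 (.c 8 q609 .e)))
noncomputable def t252 : Tr := .c 3 r861 (.c 4 r859 (.c 5 r853 (.c 9 r854 .e)))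
noncomputable def q620 : Tr := .c 2 v20 (.c 4 v20 (.c 5 v21 .e))
noncomputable def q621 : Tr := .c 0 v20 (.c 2 v20 (.c 3 v20 (.c 4 v20 (.c 5 v21 .e))))
noncomputable def q622 : Tr := .c 0 v17 (.c 2 v17 (.c 3 v17 (.c 4 v17 (.c 5 v18 (.c 6 v17 .e)))))
noncomputable def q623 : Tr := .c 0 v17 (.c 2 v17 (.c 3 v17 (.c 4 v17 (.c 6 v17 .e))))
noncomputable def r862 : Tr := .c 0 q40 (.c 1 q165 (.c 6 q620 (.c 7 q621 (.c 8 q622 (.c 9 q623 .e)))))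
noncomputable def q624 : Tr := .c 2 v25 (.c 4 v25 (.c 5 v23 .e))
noncomputable def q625 : Tr := .c 0 v25 (.c 2 v25 (.c 3 v25 (.c 4 v25 (.c 5 v23 .e))))
noncomputable def q626 : Tr := .c 0 v22 (.c 2 v22 (.c 3 v22 (.c 4 v22 (.c 5 v23 (.c 6 v22 .e)))))
noncomputable def r863 : Tr := .c 0 q46 (.c 1 q169 (.c 6 q624 (.c 7 q625 (.c 8 q626 .e))))
noncomputable def q627 : Tr := .c 2 v25 .e
noncomputable def q628 : Tr := .c 0 v50 (.c 2 v50 (.c 6 v28 .e))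
noncomputable def r864 : Tr := .c 0 q46 (.c 3 q627 (.c 5 q628 (.c 6 q624 .e)))
noncomputable def r865 : Tr := .c 0 q46 (.c 1 q169 (.c 3 q627 (.c 6 q624 (.c 7 q625 .e))))
noncomputable def t253 : Tr := .c 4 r862 (.c 5 r863 (.c 8 r864 (.c 9 r865 .e)))
noncomputable def r866 : Tr := .c 1 q165 (.c 7 q621 (.c 8 q622 (.c 9 q623 .e)))
noncomputable def t254 : Tr := .c 3 r866 (.c 4 r862 (.c 5 r863 (.c 9 r865 .e)))
noncomputable def q629 : Tr := .c 0 v20 (.c 2 v20 (.c 3 v20 (.c 4 v20 .e)))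
noncomputable def r867 : Tr := .c 1 q166 (.c 7 q629 (.c 8 q623 (.c 9 q623 .e)))
noncomputable def q630 : Tr := .c 2 v25 (.c 4 v25 .e)
noncomputable def q631 : Tr := .c 0 v25 (.c 2 v25 (.c 3 v25 (.c 4 v25 .e)))
noncomputable def q632 : Tr := .c 0 v22 (.c 2 v22 (.c 3 v22 (.c 4 v22 (.c 6 v22 .e))))
noncomputable def r868 : Tr := .c 0 q55 (.c 1 q176 (.c 6 q630 (.c 7 q631 (.c 8 q632 .e))))
noncomputable def r869 : Tr := .c 0 q55 (.c 3 q627 (.c 5 q628 (.c 6 q630 .e)))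
noncomputable def r870 : Tr := .c 0 q55 (.c 1 q176 (.c 3 q627 (.c 6 q630 (.c 7 q631 .e))))
noncomputable def t255 : Tr := .c 3 r867 (.c 5 r868 (.c 8 r869 (.c 9 r870 .e)))
noncomputable def q633 : Tr := .c 2 v30 .e
noncomputable def q634 : Tr := .c 0 v28 (.c 2 v28 (.c 6 v28 .e))
noncomputable def q635 : Tr := .c 2 v30 (.c 4 v30 (.c 5 v31 .e))
noncomputable def q636 : Tr := .c 0 v28 (.c 2 v28 (.c 3 v28 (.c 4 v28 (.c 6 v28 .e))))
noncomputable def r871 : Tr := .c 3 q633 (.c 5 q634 (.c 6 q635 (.c 9 q636 .e)))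
noncomputable def q637 : Tr := .c 0 v30 (.c 2 v30 (.c 3 v30 (.c 4 v30 (.c 5 v31 .e))))
noncomputable def q638 : Tr := .c 0 v28 (.c 2 v28 (.c 3 v28 (.c 4 v28 (.c 5 v32 (.c 6 v28 .e)))))
noncomputable def r872 : Tr := .c 3 q633 (.c 5 q634 (.c 6 q635 (.c 7 q637 (.c 8 q638 (.c 9 q636 .e)))))
noncomputable def r873 : Tr := .c 0 q65 (.c 1 q181 (.c 6 q635 (.c 7 q637 (.c 8 q638 (.c 9 q636 .e)))))
noncomputable def r874 : Tr := .c 0 q46 (.c 1 q169 (.c 6 q635 (.c 7 q637 (.c 8 q626 .e))))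
noncomputable def r875 : Tr := .c 0 q46 (.c 3 q633 (.c 5 q634 (.c 6 q635 .e)))
noncomputable def r876 : Tr := .c 0 q46 (.c 1 q169 (.c 3 q633 (.c 6 q635 (.c 7 q637 .e))))
noncomputable def t256 : Tr := .c 1 r871 (.c 2 r872 (.c 4 r873 (.c 5 r874 (.c 8 r875 (.c 9 r876 .e)))))
noncomputable def r877 : Tr := .c 5 q634 (.c 7 q637 (.c 8 q638 (.c 9 q636 .e)))
noncomputable def r878 : Tr := .c 1 q181 (.c 7 q637 (.c 8 q638 (.c 9 q636 .e)))
noncomputable def t257 : Tr := .c 0 r877 (.c 2 r872 (.c 3 r878 (.c 4 r873 (.c 5 r874 (.c 9 r876 .e)))))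
noncomputable def q639 : Tr := .c 0 v17 (.c 2 v17 .e)
noncomputable def q640 : Tr := .c 0 v17 (.c 2 v17 (.c 3 v17 (.c 4 v17 (.c 5 v18 .e))))
noncomputable def q641 : Tr := .c 0 v17 (.c 2 v17 (.c 3 v17 (.c 4 v17 .e)))
noncomputable def r879 : Tr := .c 5 q639 (.c 7 q621 (.c 8 q640 (.c 9 q641 .e)))
noncomputable def q642 : Tr := .c 2 v20 .e
noncomputable def r880 : Tr := .c 3 q642 (.c 5 q639 (.c 6 q620 (.c 7 q621 (.c 8 q640 (.c 9 q641 .e)))))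
noncomputable def r881 : Tr := .c 1 q182 (.c 7 q621 (.c 8 q640 (.c 9 q641 .e)))
noncomputable def r882 : Tr := .c 0 q40 (.c 1 q182 (.c 6 q620 (.c 7 q621 (.c 8 q640 (.c 9 q641 .e)))))
noncomputable def q643 : Tr := .c 0 v22 (.c 2 v22 (.c 3 v22 (.c 4 v22 (.c 5 v23 .e))))
noncomputable def r883 : Tr := .c 0 q46 (.c 1 q187 (.c 6 q624 (.c 7 q625 (.c 8 q643 .e))))
noncomputable def t258 : Tr := .c 0 r879 (.c 2 r880 (.c 3 r881 (.c 4 r882 (.c 5 r883 .e))))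
noncomputable def r884 : Tr := .c 1 q120 (.c 2 q192 (.c 7 q598 .e))
noncomputable def r885 : Tr := .c 0 q4 (.c 1 q120 (.c 6 q602 (.c 7 q598 .e)))
noncomputable def r886 : Tr := .c 0 q10 (.c 1 q125 (.c 2 q611 (.c 6 q604 (.c 7 q605 .e))))
noncomputable def t259 : Tr := .c 3 r884 (.c 4 r885 (.c 5 r886 (.c 9 r854 .e)))
noncomputable def r887 : Tr := .c 1 q121 (.c 2 q130 (.c 7 q615 .e))
noncomputable def r888 : Tr := .c 0 q88 (.c 1 q132 (.c 2 q133 (.c 6 q616 (.c 7 q617 .e))))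
noncomputable def t260 : Tr := .c 3 r887 (.c 5 r888 (.c 8 r857 (.c 9 r858 .e)))
noncomputable def r889 : Tr := .c 4 q614 (.c 5 q619 (.c 7 q526 .e))
noncomputable def r890 : Tr := .c 3 q613 (.c 4 q614 (.c 5 q619 (.c 6 q616 .e)))
noncomputable def t261 : Tr := .c 0 r889 (.c 1 r890 (.c 8 r857 (.c 9 r858 .e)))
noncomputable def q644 : Tr := .c 0 v44 (.c 6 v38 .e)
noncomputable def r891 : Tr := .c 4 q644 (.c 5 q424 (.c 7 q585 .e))
noncomputable def r892 : Tr := .c 4 q644 (.c 5 q424 (.c 6 q588 .e))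
noncomputable def r893 : Tr := .c 5 q424 (.c 6 q588 (.c 7 q585 .e))
noncomputable def q645 : Tr := .c 3 v38 (.c 5 v4 (.c 6 v38 .e))
noncomputable def r894 : Tr := .c 0 q588 (.c 2 q645 (.c 4 q644 (.c 5 q424 (.c 6 q588 .e))))
noncomputable def t262 : Tr := .c 0 r891 (.c 1 r892 (.c 2 r893 (.c 8 r894 .e)))
noncomputable def r895 : Tr := .c 4 q597 (.c 5 q442 (.c 7 q598 .e))
noncomputable def r896 : Tr := .c 3 q601 (.c 5 q442 (.c 6 q602 (.c 7 q598 .e)))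
noncomputable def r897 : Tr := .c 1 q148 (.c 2 q157 (.c 7 q598 .e))
noncomputable def r898 : Tr := .c 0 q4 (.c 1 q148 (.c 6 q602 (.c 7 q598 .e)))
noncomputable def r899 : Tr := .c 0 q10 (.c 1 q154 (.c 2 q603 (.c 6 q604 (.c 7 q605 .e))))
noncomputable def t263 : Tr := .c 0 r895 (.c 2 r896 (.c 3 r897 (.c 4 r898 (.c 5 r899 .e))))
noncomputable def r900 : Tr := .c 4 q597 (.c 5 q450 (.c 7 q585 .e))
noncomputable def r901 : Tr := .c 4 q597 (.c 5 q450 (.c 6 q588 .e))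
noncomputable def r902 : Tr := .c 5 q450 (.c 6 q588 (.c 7 q585 .e))
noncomputable def r903 : Tr := .c 1 q157 (.c 2 q157 (.c 7 q585 .e))
noncomputable def r904 : Tr := .c 0 q33 (.c 1 q157 (.c 6 q588 (.c 7 q585 .e)))
noncomputable def t264 : Tr := .c 0 r900 (.c 1 r901 (.c 2 r902 (.c 3 r903 (.c 4 r904 .e))))
noncomputable def q646 : Tr := .c 0 v43 (.c 1 v43 (.c 2 v43 (.c 3 v43 (.c 4 v43 (.c 6 v43 (.c 7 v43 .e))))))
noncomputable def r905 : Tr := .c 4 q438 (.c 5 q400 (.c 7 q576 (.c 8 q577 (.c 9 q646 .e))))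
noncomputable def q647 : Tr := .c 1 v10 (.c 2 v10 (.c 4 v10 .e))
noncomputable def r906 : Tr := .c 3 q437 (.c 4 q438 (.c 5 q400 (.c 6 q647 (.c 9 q646 .e))))
noncomputable def q648 : Tr := .c 4 v15 (.c 7 v15 .e)
noncomputable def q649 : Tr := .c 3 v15 (.c 6 v15 (.c 7 v15 .e))
noncomputable def r907 : Tr := .c 0 q648 (.c 2 q649 (.c 3 q437 (.c 4 q438 (.c 5 q400 (.c 6 q647 .e)))))
noncomputable def r908 : Tr := .c 0 q648 (.c 1 q582 (.c 2 q649 (.c 3 q437 (.c 4 q438 (.c 6 q647 (.c 7 q583 .e))))))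
noncomputable def t265 : Tr := .c 0 r905 (.c 1 r906 (.c 8 r907 (.c 9 r908 .e)))
noncomputable def q650 : Tr := .c 0 v44 (.c 1 v44 (.c 6 v2 (.c 7 v2 .e)))
noncomputable def q651 : Tr := .c 0 v3 (.c 3 v3 .e)
noncomputable def q652 : Tr := .c 0 v0 (.c 1 v0 (.c 3 v0 (.c 6 v0 (.c 7 v0 .e))))
noncomputable def r909 : Tr := .c 4 q650 (.c 5 q418 (.c 7 q651 (.c 8 q587 (.c 9 q652 .e))))
noncomputable def q653 : Tr := .c 1 v44 (.c 7 v2 .e)
noncomputable def q654 : Tr := .c 1 v44 .e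
noncomputable def r910 : Tr := .c 3 q653 (.c 4 q650 (.c 5 q418 (.c 6 q654 (.c 9 q652 .e))))
noncomputable def q655 : Tr := .c 7 v2 .e
noncomputable def q656 : Tr := .c 3 v2 (.c 6 v2 (.c 7 v2 .e))
noncomputable def r911 : Tr := .c 0 q655 (.c 2 q656 (.c 3 q653 (.c 4 q650 (.c 5 q418 (.c 6 q654 .e)))))
noncomputable def t266 : Tr := .c 0 r909 (.c 1 r910 (.c 8 r911 .e))
noncomputable def q657 : Tr := .c 0 v12 (.c 1 v12 (.c 2 v12 (.c 3 v12 (.c 4 v12 (.c 6 v12 (.c 7 v12 .e))))))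
noncomputable def r912 : Tr := .c 4 q430 (.c 5 q431 (.c 7 q583 (.c 8 q594 (.c 9 q657 .e))))
noncomputable def r913 : Tr := .c 1 q142 (.c 2 q206 (.c 7 q583 (.c 8 q594 (.c 9 q657 .e))))
noncomputable def q658 : Tr := .c 0 v15 (.c 2 v15 (.c 3 v15 (.c 4 v15 (.c 6 v15 .e))))
noncomputable def r914 : Tr := .c 0 q648 (.c 1 q582 (.c 2 q649 (.c 6 q647 (.c 7 q583 (.c 8 q658 .e)))))
noncomputable def t267 : Tr := .c 0 r912 (.c 3 r913 (.c 5 r914 (.c 9 r908 .e)))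
noncomputable def q659 : Tr := .c 0 v44 (.c 1 v44 .e)
noncomputable def q660 : Tr := .c 0 v0 (.c 1 v0 (.c 2 v0 (.c 3 v0 (.c 4 v0 .e))))
noncomputable def r915 : Tr := .c 4 q659 (.c 5 q443 (.c 7 q615 (.c 8 q600 (.c 9 q660 .e))))
noncomputable def r916 : Tr := .c 1 q149 (.c 2 q158 (.c 7 q615 (.c 8 q600 (.c 9 q660 .e))))
noncomputable def q661 : Tr := .c 1 v7 (.c 2 v7 (.c 4 v7 .e))
noncomputable def r917 : Tr := .c 0 q88 (.c 1 q559 (.c 2 q560 (.c 6 q661 (.c 7 q617 (.c 8 q550 .e)))))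
noncomputable def t268 : Tr := .c 0 r915 (.c 3 r916 (.c 5 r917 .e))
noncomputable def q662 : Tr := .c 0 v0 (.c 1 v0 (.c 3 v0 .e))
noncomputable def r918 : Tr := .c 4 q659 (.c 5 q451 (.c 7 q651 (.c 8 q608 (.c 9 q662 .e))))
noncomputable def r919 : Tr := .c 3 q654 (.c 4 q659 (.c 5 q451 (.c 6 q654 (.c 9 q662 .e))))
noncomputable def r920 : Tr := .c 1 q158 (.c 2 q158 (.c 7 q651 (.c 8 q608 (.c 9 q662 .e))))
noncomputable def t269 : Tr := .c 0 r918 (.c 1 r919 (.c 3 r920 .e))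
noncomputable def t270 : Tr := .c 1 r906 (.c 8 r907 (.c 9 r908 .e))
noncomputable def t271 : Tr := .c 1 r906 (.c 5 r914 (.c 8 r907 (.c 9 r908 .e)))
noncomputable def r921 : Tr := .c 3 q437 (.c 4 q438 (.c 6 q647 .e))
noncomputable def r922 : Tr := .c 0 q648 (.c 2 q649 (.c 3 q437 (.c 4 q438 (.c 6 q647 .e))))
noncomputable def t272 : Tr := .c 1 r921 (.c 8 r922 (.c 9 r908 .e))
noncomputable def r923 : Tr := .c 4 q650 (.c 7 q651 (.c 8 q587 .e))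
noncomputable def r924 : Tr := .c 3 q653 (.c 4 q650 (.c 6 q654 .e))
noncomputable def r925 : Tr := .c 0 q655 (.c 2 q656 (.c 3 q653 (.c 4 q650 (.c 6 q654 .e))))
noncomputable def t273 : Tr := .c 0 r923 (.c 1 r924 (.c 8 r925 .e))
noncomputable def t274 : Tr := .c 1 r921 (.c 5 r914 (.c 8 r922 (.c 9 r908 .e)))
noncomputable def r926 : Tr := .c 4 q430 (.c 7 q583 (.c 8 q594 .e))
noncomputable def r927 : Tr := .c 1 q142 (.c 2 q206 (.c 7 q583 (.c 8 q594 .e)))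
noncomputable def t275 : Tr := .c 0 r926 (.c 3 r927 (.c 5 r914 (.c 9 r908 .e)))
noncomputable def r928 : Tr := .c 4 q659 (.c 7 q615 (.c 8 q600 .e))
noncomputable def r929 : Tr := .c 1 q149 (.c 2 q158 (.c 7 q615 (.c 8 q600 .e)))
noncomputable def t276 : Tr := .c 0 r928 (.c 3 r929 (.c 5 r917 .e))
noncomputable def r930 : Tr := .c 4 q659 (.c 7 q651 (.c 8 q608 .e))
noncomputable def r931 : Tr := .c 3 q654 (.c 4 q659 (.c 6 q654 .e))
noncomputable def r932 : Tr := .c 1 q158 (.c 2 q158 (.c 7 q651 (.c 8 q608 .e)))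
noncomputable def t277 : Tr := .c 0 r930 (.c 1 r931 (.c 3 r932 .e))
noncomputable def q663 : Tr := .c 0 v0 (.c 1 v0 (.c 2 v0 (.c 3 v0 (.c 4 v0 (.c 6 v0 (.c 7 v0 .e))))))
noncomputable def r933 : Tr := .c 1 q121 (.c 2 q193 (.c 7 q615 (.c 8 q610 (.c 9 q663 .e))))
noncomputable def q664 : Tr := .c 4 v2 (.c 7 v2 .e)
noncomputable def r934 : Tr := .c 0 q664 (.c 1 q132 (.c 2 q656 (.c 6 q661 (.c 7 q617 (.c 8 q618 .e)))))
noncomputable def q665 : Tr := .c 1 v7 (.c 2 v7 (.c 7 v2 .e))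
noncomputable def q666 : Tr := .c 0 v7 (.c 1 v7 (.c 6 v2 (.c 7 v2 .e)))
noncomputable def r935 : Tr := .c 0 q664 (.c 1 q132 (.c 2 q656 (.c 3 q665 (.c 4 q666 (.c 6 q661 (.c 7 q617 .e))))))
noncomputable def t278 : Tr := .c 3 r933 (.c 5 r934 (.c 9 r935 .e))
noncomputable def q667 : Tr := .c 0 v2 (.c 1 v2 (.c 2 v2 (.c 6 v37 (.c 7 v37 .e))))
noncomputable def r936 : Tr := .c 0 q664 (.c 2 q656 (.c 3 q665 (.c 4 q666 (.c 5 q667 (.c 6 q661 .e)))))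
noncomputable def t279 : Tr := .c 3 r933 (.c 5 r934 (.c 8 r936 (.c 9 r935 .e)))
noncomputable def r937 : Tr := .c 0 q664 (.c 2 q656 (.c 3 q665 (.c 4 q666 (.c 6 q661 .e))))
noncomputable def t280 : Tr := .c 5 r934 (.c 8 r937 (.c 9 r935 .e))
noncomputable def r938 : Tr := .c 1 q121 (.c 2 q193 (.c 7 q615 (.c 8 q610 .e)))
noncomputable def t281 : Tr := .c 3 r938 (.c 5 r934 (.c 9 r935 .e))
noncomputable def r939 : Tr := .c 1 q121 (.c 2 q193 (.c 7 q615 .e))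
noncomputable def r940 : Tr := .c 0 q664 (.c 1 q132 (.c 2 q656 (.c 6 q661 (.c 7 q617 .e))))
noncomputable def t282 : Tr := .c 3 r939 (.c 5 r940 (.c 9 r935 .e))
noncomputable def t283 : Tr := .c 3 r939 (.c 5 r940 (.c 8 r936 (.c 9 r935 .e)))
noncomputable def r941 : Tr := .c 4 q666 (.c 5 q667 (.c 7 q526 .e))
noncomputable def r942 : Tr := .c 3 q665 (.c 4 q666 (.c 5 q667 (.c 6 q661 .e)))
noncomputable def t284 : Tr := .c 0 r941 (.c 1 r942 (.c 8 r936 (.c 9 r935 .e)))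
noncomputable def q668 : Tr := .c 0 v44 (.c 1 v44 (.c 6 v38 (.c 7 v38 .e)))
noncomputable def r943 : Tr := .c 4 q668 (.c 5 q425 (.c 7 q651 .e))
noncomputable def q669 : Tr := .c 1 v44 (.c 7 v38 .e)
noncomputable def r944 : Tr := .c 3 q669 (.c 4 q668 (.c 5 q425 (.c 6 q654 .e)))
noncomputable def q670 : Tr := .c 7 v38 .e
noncomputable def q671 : Tr := .c 3 v38 (.c 6 v38 (.c 7 v38 .e))
noncomputable def r945 : Tr := .c 0 q670 (.c 2 q671 (.c 3 q669 (.c 4 q668 (.c 5 q425 (.c 6 q654 .e)))))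
noncomputable def t285 : Tr := .c 0 r943 (.c 1 r944 (.c 8 r945 .e))
noncomputable def r946 : Tr := .c 4 q659 (.c 5 q443 (.c 7 q615 .e))
noncomputable def r947 : Tr := .c 1 q149 (.c 2 q158 (.c 7 q615 .e))
noncomputable def r948 : Tr := .c 0 q88 (.c 1 q559 (.c 2 q560 (.c 6 q661 (.c 7 q617 .e))))
noncomputable def t286 : Tr := .c 0 r946 (.c 3 r947 (.c 5 r948 .e))
noncomputable def r949 : Tr := .c 4 q659 (.c 5 q451 (.c 7 q651 .e))
noncomputable def r950 : Tr := .c 3 q654 (.c 4 q659 (.c 5 q451 (.c 6 q654 .e)))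
noncomputable def r951 : Tr := .c 1 q158 (.c 2 q158 (.c 7 q651 .e))
noncomputable def t287 : Tr := .c 0 r949 (.c 1 r950 (.c 3 r951 .e))
noncomputable def t288 : Tr := .c 5 r940 (.c 8 r936 (.c 9 r935 .e))
noncomputable def t289 : Tr := .c 1 r942 (.c 8 r936 (.c 9 r935 .e))

/-- the diagram -/
noncomputable def T : Tr := (.c 0 (.c 4 (.c 0 t0 (.c 1 t1 (.c 6 t2 (.c 7 t3 (.c 8 t4 (.c 9 t5 .e)))))) (.c 5 (.c 0 t6 (.c 1
t7 (.c 2 t8 (.c 6 t9 (.c 7 t10 (.c 8 t11 .e)))))) (.c 7 (.c 0 t12 (.c 2 t13 (.c 3 t14 (.c 4 t15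
(.c 5 t16 (.c 9 t17 .e)))))) (.c 8 (.c 0 t18 (.c 2 t19 (.c 3 t20 (.c 4 t21 (.c 5 t22 (.c 6 t23
.e)))))) (.c 9 (.c 0 t24 (.c 1 t25 (.c 2 t26 (.c 3 t27 (.c 4 t28 (.c 6 t29 (.c 7 t30 .e)))))))
.e))))) (.c 1 (.c 3 (.c 1 t31 (.c 2 t32 (.c 7 t33 (.c 8 t34 (.c 9 t35 .e))))) (.c 4 (.c 0 t36
(.c 1 t37 (.c 6 t38 (.c 7 t39 (.c 8 t40 (.c 9 t41 .e)))))) (.c 5 (.c 0 t42 (.c 1 t43 (.c 2 t44
(.c 6 t45 (.c 7 t46 (.c 8 t47 .e)))))) (.c 6 (.c 1 t48 (.c 2 t49 (.c 4 t50 (.c 5 t51 (.c 8 t52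
(.c 9 t53 .e)))))) (.c 9 (.c 0 t54 (.c 1 t55 (.c 2 t56 (.c 3 t57 (.c 4 t58 (.c 6 t59 (.c 7 t60
.e))))))) .e))))) (.c 2 (.c 3 (.c 1 t61 (.c 2 t62 (.c 7 t63 (.c 8 t64 (.c 9 t65 .e))))) (.c 5
(.c 0 t66 (.c 1 t67 (.c 2 t68 (.c 6 t69 (.c 7 t70 (.c 8 t71 .e)))))) (.c 6 (.c 1 t72 (.c 2 t73
(.c 4 t74 (.c 5 t75 (.c 8 t76 (.c 9 t77 .e)))))) (.c 7 (.c 0 t78 (.c 2 t73 (.c 3 t79 (.c 4 t74
(.c 5 t75 (.c 9 t77 .e)))))) (.c 8 (.c 0 t80 (.c 2 t81 (.c 3 t82 (.c 4 t83 (.c 5 t84 (.c 6 t85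
.e)))))) (.c 9 (.c 0 t86 (.c 1 t87 (.c 2 t88 (.c 3 t89 (.c 4 t90 (.c 6 t91 (.c 7 t92 .e)))))))
.e)))))) (.c 3 (.c 1 (.c 3 t93 (.c 4 t94 (.c 5 t95 (.c 6 t96 (.c 9 t97 .e))))) (.c 2 (.c 3 t98
(.c 5 t99 (.c 6 t100 (.c 7 t101 (.c 8 t102 (.c 9 t103 .e)))))) (.c 7 (.c 0 t104 (.c 2 t105 (.c
3 t106 (.c 4 t107 (.c 5 t108 (.c 9 t109 .e)))))) (.c 8 (.c 0 t110 (.c 2 t111 (.c 3 t112 (.c 4
t113 (.c 5 t114 (.c 6 t115 .e)))))) (.c 9 (.c 0 t116 (.c 1 t117 (.c 2 t118 (.c 3 t119 (.c 4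
t120 (.c 6 t121 (.c 7 t122 .e))))))) .e))))) (.c 4 (.c 0 (.c 4 t123 (.c 5 t124 (.c 7 t125 (.c 8
t126 (.c 9 t127 .e))))) (.c 1 (.c 3 t128 (.c 4 t123 (.c 5 t124 (.c 6 t129 (.c 9 t127 .e)))))
(.c 6 (.c 1 t130 (.c 2 t131 (.c 4 t132 (.c 5 t133 (.c 8 t134 (.c 9 t135 .e)))))) (.c 7 (.c 0
t136 (.c 2 t131 (.c 3 t137 (.c 4 t132 (.c 5 t133 (.c 9 t135 .e)))))) (.c 8 (.c 0 t138 (.c 2
t139 (.c 3 t140 (.c 4 t141 (.c 5 t142 (.c 6 t143 .e)))))) (.c 9 (.c 0 t144 (.c 1 t145 (.c 2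
t146 (.c 3 t147 (.c 4 t148 (.c 6 t149 (.c 7 t150 .e))))))) .e)))))) (.c 5 (.c 0 (.c 4 t151 (.c
5 t152 (.c 7 t153 (.c 8 t154 (.c 9 t155 .e))))) (.c 1 (.c 3 t156 (.c 4 t151 (.c 5 t152 (.c 6
t157 (.c 9 t155 .e))))) (.c 2 (.c 3 t158 (.c 5 t159 (.c 6 t160 (.c 7 t161 (.c 8 t162 (.c 9 t163
.e)))))) (.c 6 (.c 1 t164 (.c 2 t165 (.c 4 t166 (.c 5 t167 (.c 8 t168 (.c 9 t169 .e)))))) (.c 7
(.c 0 t170 (.c 2 t165 (.c 3 t171 (.c 4 t166 (.c 5 t167 (.c 9 t169 .e)))))) (.c 8 (.c 0 t172 (.c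
2 t173 (.c 3 t174 (.c 4 t175 (.c 5 t176 (.c 6 t177 .e)))))) .e)))))) (.c 6 (.c 1 (.c 3 t178 (.c
4 t179 (.c 5 t180 (.c 6 t181 (.c 9 t182 .e))))) (.c 2 (.c 3 t183 (.c 5 t184 (.c 6 t185 (.c 7
t186 (.c 8 t187 (.c 9 t188 .e)))))) (.c 4 (.c 0 t189 (.c 1 t190 (.c 6 t185 (.c 7 t186 (.c 8
t187 (.c 9 t188 .e)))))) (.c 5 (.c 0 t191 (.c 1 t192 (.c 2 t193 (.c 6 t194 (.c 7 t195 (.c 8
t196 .e)))))) (.c 8 (.c 0 t197 (.c 2 t198 (.c 3 t199 (.c 4 t200 (.c 5 t201 (.c 6 t202 .e))))))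
(.c 9 (.c 0 t203 (.c 1 t204 (.c 2 t205 (.c 3 t206 (.c 4 t207 (.c 6 t208 (.c 7 t209 .e)))))))
.e)))))) (.c 7 (.c 0 (.c 4 t210 (.c 5 t211 (.c 7 t212 (.c 8 t213 (.c 9 t214 .e))))) (.c 2 (.c 3
t215 (.c 5 t216 (.c 6 t217 (.c 7 t218 (.c 8 t219 (.c 9 t220 .e)))))) (.c 3 (.c 1 t221 (.c 2
t222 (.c 7 t212 (.c 8 t213 (.c 9 t214 .e))))) (.c 4 (.c 0 t223 (.c 1 t224 (.c 6 t217 (.c 7 t218
(.c 8 t219 (.c 9 t220 .e)))))) (.c 5 (.c 0 t225 (.c 1 t226 (.c 2 t227 (.c 6 t228 (.c 7 t229 (.c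
8 t230 .e)))))) (.c 9 (.c 0 t231 (.c 1 t232 (.c 2 t233 (.c 3 t234 (.c 4 t235 (.c 6 t236 (.c 7
t237 .e))))))) .e)))))) (.c 8 (.c 0 (.c 4 t238 (.c 5 t239 (.c 7 t240 (.c 8 t241 (.c 9 t242
.e))))) (.c 2 (.c 3 t243 (.c 5 t244 (.c 6 t245 (.c 7 t246 (.c 8 t247 (.c 9 t248 .e)))))) (.c 3
(.c 1 t249 (.c 2 t250 (.c 7 t240 (.c 8 t241 (.c 9 t242 .e))))) (.c 4 (.c 0 t251 (.c 1 t252 (.c
6 t245 (.c 7 t246 (.c 8 t247 (.c 9 t248 .e)))))) (.c 5 (.c 0 t253 (.c 1 t254 (.c 2 t255 (.c 6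
t256 (.c 7 t257 (.c 8 t258 .e)))))) (.c 6 (.c 1 t259 (.c 2 t260 (.c 4 t261 (.c 5 t262 (.c 8
t263 (.c 9 t264 .e)))))) .e)))))) (.c 9 (.c 0 (.c 4 t265 (.c 5 t266 (.c 7 t267 (.c 8 t268 (.c 9
t269 .e))))) (.c 1 (.c 3 t270 (.c 4 t265 (.c 5 t266 (.c 6 t271 (.c 9 t269 .e))))) (.c 2 (.c 3
t272 (.c 5 t273 (.c 6 t274 (.c 7 t275 (.c 8 t276 (.c 9 t277 .e)))))) (.c 3 (.c 1 t278 (.c 2
t279 (.c 7 t267 (.c 8 t268 (.c 9 t269 .e))))) (.c 4 (.c 0 t280 (.c 1 t281 (.c 6 t274 (.c 7 t275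
(.c 8 t276 (.c 9 t277 .e)))))) (.c 6 (.c 1 t282 (.c 2 t283 (.c 4 t284 (.c 5 t285 (.c 8 t286 (.c
9 t287 .e)))))) (.c 7 (.c 0 t288 (.c 2 t283 (.c 3 t289 (.c 4 t284 (.c 5 t285 (.c 9 t287
.e)))))) .e))))))) .e))))))))))

theorem chk : chk [1, 0, 0, 0, 0, 0, 0, 1] 16 2 2 0 T = true := by decide +kernel

end Vale.Agent.P032.Words.Trie.BetaF1
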