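import Vale.Agent.P032.Words.H151.Beta

/-!
# BETA pair, special end far: 2Ae+2Af+Pf+3Qd ≥ 11

Decision diagram of 16 potentials.
-/

namespace Vale.Agent.P032.Words.Trie.BetaF2

noncomputable def v0 : Tr := .l 0x2052872051831421c41420c0
noncomputable def v1 : Tr := .l 0x1481ca1480c6085107085003
noncomputable def v2 : Tr := .l 0x2c82ca2c8246205287205183
noncomputable def q0 : Tr := .c 4 v0 (.c 5 v1 (.c 7 v2 (.c 8 v1 (.c 9 v1 .e))))
noncomputable def q1 : Tr := .c 4 v0 (.c 5 v1 (.c 9 v1 .e))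
noncomputable def v3 : Tr := .l 0x2872051832051c41420c0142
noncomputable def v4 : Tr := .l 0x1ca1480c6148107085003085
noncomputable def q2 : Tr := .c 4 v3 (.c 5 v4 (.c 8 v4 (.c 9 v4 .e)))
noncomputable def q3 : Tr := .c 4 v3 (.c 5 v4 (.c 9 v4 .e))
noncomputable def q4 : Tr := .c 4 v0 (.c 5 v1 .e)
noncomputable def r0 : Tr := .c 0 q0 (.c 1 q1 (.c 6 q2 (.c 7 q3 (.c 8 q4 .e))))
noncomputable def v5 : Tr := .l 0x2c82c82c8246205205205183
noncomputable def v6 : Tr := .l 0x20b20b20b1891481481480c6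
noncomputable def v7 : Tr := .l 0x2cb2cb2cb2cb2c92c82c82ca
noncomputable def q5 : Tr := .c 4 v5 (.c 5 v6 (.c 7 v7 (.c 8 v6 (.c 9 v6 .e))))
noncomputable def q6 : Tr := .c 4 v5 (.c 5 v6 (.c 9 v6 .e))
noncomputable def q7 : Tr := .c 5 v6 (.c 7 v7 (.c 8 v6 (.c 9 v6 .e)))
noncomputable def v8 : Tr := .l 0x2c82462462c8205183183205
noncomputable def v9 : Tr := .l 0x20b18918920b1480c60c6148
noncomputable def q8 : Tr := .c 4 v8 (.c 5 v9 (.c 8 v9 (.c 9 v9 .e)))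
noncomputable def q9 : Tr := .c 4 v8 (.c 5 v9 (.c 9 v9 .e))
noncomputable def q10 : Tr := .c 4 v5 (.c 5 v6 .e)
noncomputable def r1 : Tr := .c 0 q5 (.c 1 q6 (.c 2 q7 (.c 6 q8 (.c 7 q9 (.c 8 q10 .e)))))
noncomputable def v10 : Tr := .l 0x2cb28b20b28b24b1ca1481ca
noncomputable def v11 : Tr := .l 0x2cb2cb2cb2cb2cb2cb2cb2cb
noncomputable def q11 : Tr := .c 4 v2 (.c 5 v10 (.c 7 v11 (.c 8 v10 (.c 9 v10 .e))))
noncomputable def q12 : Tr := .c 5 v10 (.c 7 v11 (.c 8 v10 (.c 9 v10 .e)))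
noncomputable def q13 : Tr := .c 7 v11 (.c 8 v10 (.c 9 v10 .e))
noncomputable def r2 : Tr := .c 0 q11 (.c 2 q12 (.c 3 q13 (.c 4 q13 .e)))
noncomputable def q14 : Tr := .c 7 v7 (.c 8 v6 (.c 9 v6 .e))
noncomputable def r3 : Tr := .c 0 q5 (.c 2 q7 (.c 3 q14 (.c 4 q14 (.c 6 q8 .e))))
noncomputable def r4 : Tr := .c 0 q5 (.c 1 q6 (.c 2 q7 (.c 3 q14 (.c 4 q14 (.c 6 q8 (.c 7 q9 .e))))))
noncomputable def t0 : Tr := .c 4 r0 (.c 5 r1 (.c 7 r2 (.c 8 r3 (.c 9 r4 .e))))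
noncomputable def v12 : Tr := .l 0x18920b1891070c61480c6044
noncomputable def v13 : Tr := .l 0x2cb2cb2cb2cb2cb2cb2cb2ca
noncomputable def q15 : Tr := .c 5 v12 (.c 7 v13 (.c 8 v12 (.c 9 v12 .e)))
noncomputable def r5 : Tr := .c 1 q1 (.c 2 q15 (.c 7 q3 (.c 8 q4 .e)))
noncomputable def v14 : Tr := .l 0x2872c92872051c42461c4142
noncomputable def v15 : Tr := .l 0x1ca24b1ca148107189107085
noncomputable def q16 : Tr := .c 4 v14 (.c 5 v15 (.c 9 v15 .e))
noncomputable def v16 : Tr := .l 0x20b28b20b1891481ca1480c6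
noncomputable def q17 : Tr := .c 5 v16 (.c 7 v11 (.c 8 v16 (.c 9 v16 .e)))
noncomputable def q18 : Tr := .c 7 v11 (.c 8 v16 (.c 9 v16 .e))
noncomputable def q19 : Tr := .c 4 v14 (.c 5 v15 .e)
noncomputable def r6 : Tr := .c 1 q16 (.c 2 q17 (.c 4 q18 (.c 8 q19 .e)))
noncomputable def t1 : Tr := .c 3 r5 (.c 4 r0 (.c 5 r1 (.c 6 r6 (.c 9 r4 .e))))
noncomputable def v17 : Tr := .l 0x2ca2c92cb2cb2872462c82c9
noncomputable def q20 : Tr := .c 7 v17 .e
noncomputable def v18 : Tr := .l 0x2461c42462c8183101183205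
noncomputable def v19 : Tr := .l 0x18910718920b0c60440c6148
noncomputable def q21 : Tr := .c 4 v18 (.c 5 v19 .e)
noncomputable def r7 : Tr := .c 3 q20 (.c 4 q20 (.c 6 q21 .e))
noncomputable def v20 : Tr := .l 0x2c92c82ca2cb2462052872c8
noncomputable def q22 : Tr := .c 7 v20 .e
noncomputable def v21 : Tr := .l 0x2051832052871420c01421c4
noncomputable def v22 : Tr := .l 0x1480c61481ca085003085107
noncomputable def q23 : Tr := .c 4 v21 (.c 5 v22 .e)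
noncomputable def v23 : Tr := .l 0x1832052872050c01421c4142
noncomputable def v24 : Tr := .l 0xc61481ca148003085107085
noncomputable def q24 : Tr := .c 4 v23 (.c 5 v24 .e)
noncomputable def r8 : Tr := .c 3 q22 (.c 6 q23 (.c 7 q23 (.c 8 q24 .e)))
noncomputable def v25 : Tr := .l 0x2462c82ca2c8183205287205
noncomputable def q25 : Tr := .c 4 v23 (.c 5 v24 (.c 7 v25 .e))
noncomputable def r9 : Tr := .c 0 q25 (.c 1 q24 (.c 6 q23 (.c 7 q23 (.c 8 q24 .e))))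
noncomputable def v26 : Tr := .l 0x2462462c82c8183183205205
noncomputable def v27 : Tr := .l 0x18918920b20b0c60c6148148
noncomputable def q26 : Tr := .c 4 v26 (.c 5 v27 (.c 7 v17 .e))
noncomputable def q27 : Tr := .c 4 v26 (.c 5 v27 .e)
noncomputable def q28 : Tr := .c 5 v27 (.c 7 v17 .e)
noncomputable def r10 : Tr := .c 0 q26 (.c 1 q27 (.c 2 q28 (.c 6 q21 (.c 7 q21 (.c 8 q27 .e)))))
noncomputable def r11 : Tr := .c 0 q26 (.c 2 q28 (.c 3 q20 (.c 4 q20 (.c 6 q21 .e))))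
noncomputable def r12 : Tr := .c 0 q26 (.c 1 q27 (.c 2 q28 (.c 3 q20 (.c 4 q20 (.c 6 q21 (.c 7 q21 .e))))))
noncomputable def t2 : Tr := .c 1 r7 (.c 2 r8 (.c 4 r9 (.c 5 r10 (.c 8 r11 (.c 9 r12 .e)))))
noncomputable def q29 : Tr := .c 7 v11 .e
noncomputable def r13 : Tr := .c 4 q29 (.c 7 q23 (.c 8 q24 .e))
noncomputable def v28 : Tr := .l 0x10718920b1890440c61480c6
noncomputable def v29 : Tr := .l 0x2cb2cb2cb2cb2ca2c92cb2cb
noncomputable def q30 : Tr := .c 5 v28 (.c 7 v29 .e)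
noncomputable def r14 : Tr := .c 1 q24 (.c 2 q30 (.c 7 q23 (.c 8 q24 .e)))
noncomputable def t3 : Tr := .c 0 r13 (.c 2 r8 (.c 3 r14 (.c 4 r9 (.c 5 r10 (.c 9 r12 .e)))))
noncomputable def v30 : Tr := .l 0x28b20b18920b1ca1480c6148
noncomputable def q31 : Tr := .c 8 v30 (.c 9 v30 .e)
noncomputable def r15 : Tr := .c 4 q31 (.c 7 q3 (.c 8 q4 .e))
noncomputable def v31 : Tr := .l 0x24b1ca1481ca189107085107
noncomputable def q32 : Tr := .c 8 v31 (.c 9 v31 .e)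
noncomputable def r16 : Tr := .c 3 q32 (.c 6 q2 (.c 7 q3 (.c 8 q4 .e)))
noncomputable def q33 : Tr := .c 5 v12 (.c 8 v12 (.c 9 v12 .e))
noncomputable def r17 : Tr := .c 1 q1 (.c 2 q33 (.c 7 q3 (.c 8 q4 .e)))
noncomputable def q34 : Tr := .c 4 v0 (.c 5 v1 (.c 8 v1 (.c 9 v1 .e)))
noncomputable def r18 : Tr := .c 0 q34 (.c 1 q1 (.c 6 q2 (.c 7 q3 (.c 8 q4 .e))))
noncomputable def q35 : Tr := .c 4 v5 (.c 5 v6 (.c 8 v6 (.c 9 v6 .e)))
noncomputable def q36 : Tr := .c 5 v6 (.c 8 v6 (.c 9 v6 .e))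
noncomputable def r19 : Tr := .c 0 q35 (.c 1 q6 (.c 2 q36 (.c 6 q8 (.c 7 q9 (.c 8 q10 .e)))))
noncomputable def q37 : Tr := .c 5 v16 (.c 8 v16 (.c 9 v16 .e))
noncomputable def q38 : Tr := .c 8 v16 (.c 9 v16 .e)
noncomputable def r20 : Tr := .c 1 q16 (.c 2 q37 (.c 4 q38 (.c 8 q19 .e)))
noncomputable def t4 : Tr := .c 0 r15 (.c 2 r16 (.c 3 r17 (.c 4 r18 (.c 5 r19 (.c 6 r20 .e)))))
noncomputable def q39 : Tr := .c 5 v4 (.c 9 v4 .e)
noncomputable def q40 : Tr := .c 5 v1 .e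
noncomputable def r21 : Tr := .c 4 q31 (.c 7 q39 (.c 8 q40 .e))
noncomputable def v32 : Tr := .l 0x20b1891071891480c60440c6
noncomputable def q41 : Tr := .c 5 v32 (.c 8 v32 (.c 9 v32 .e))
noncomputable def r22 : Tr := .c 3 q31 (.c 4 q31 (.c 6 q41 .e))
noncomputable def q42 : Tr := .c 5 v4 (.c 8 v4 (.c 9 v4 .e))
noncomputable def r23 : Tr := .c 3 q32 (.c 6 q42 (.c 7 q39 (.c 8 q40 .e)))
noncomputable def q43 : Tr := .c 5 v1 (.c 9 v1 .e)
noncomputable def r24 : Tr := .c 1 q43 (.c 2 q33 (.c 7 q39 (.c 8 q40 .e)))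
noncomputable def q44 : Tr := .c 5 v1 (.c 8 v1 (.c 9 v1 .e))
noncomputable def r25 : Tr := .c 0 q44 (.c 1 q43 (.c 6 q42 (.c 7 q39 (.c 8 q40 .e))))
noncomputable def q45 : Tr := .c 5 v15 (.c 9 v15 .e)
noncomputable def q46 : Tr := .c 5 v15 .e
noncomputable def r26 : Tr := .c 1 q45 (.c 2 q37 (.c 4 q38 (.c 8 q46 .e)))
noncomputable def r27 : Tr := .c 0 q37 (.c 2 q37 (.c 3 q38 (.c 4 q38 .e)))
noncomputable def t5 : Tr := .c 0 r21 (.c 1 r22 (.c 2 r23 (.c 3 r24 (.c 4 r25 (.c 6 r26 (.c 7 r27 .e))))))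
noncomputable def v33 : Tr := .l 0x1421c41420c0205287205183
noncomputable def v34 : Tr := .l 0x851070850031481ca1480c6
noncomputable def v35 : Tr := .l 0x2c92cb2892872c92cb2cb2ca
noncomputable def q47 : Tr := .c 4 v33 (.c 5 v34 (.c 7 v35 (.c 8 v34 (.c 9 v34 .e))))
noncomputable def q48 : Tr := .c 4 v33 (.c 5 v34 (.c 9 v34 .e))
noncomputable def v36 : Tr := .l 0x1c41420c0142287205183205
noncomputable def v37 : Tr := .l 0x1070850030851ca1480c6148
noncomputable def q49 : Tr := .c 4 v36 (.c 5 v37 (.c 8 v37 (.c 9 v37 .e)))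
noncomputable def q50 : Tr := .c 4 v36 (.c 5 v37 (.c 9 v37 .e))
noncomputable def q51 : Tr := .c 4 v33 (.c 5 v34 .e)
noncomputable def v38 : Tr := .l 0x1c52471c51432882ca288206
noncomputable def q52 : Tr := .c 4 v33 (.c 7 v38 .e)
noncomputable def r28 : Tr := .c 0 q47 (.c 1 q48 (.c 6 q49 (.c 7 q50 (.c 8 q51 (.c 9 q52 .e)))))
noncomputable def v39 : Tr := .l 0x2052052051832c82c82c8246
noncomputable def v40 : Tr := .l 0x1481481480c620b20a20b189
noncomputable def v41 : Tr := .l 0x1c91ca1ca14828b28b28b20b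
noncomputable def q53 : Tr := .c 4 v39 (.c 5 v40 (.c 7 v41 (.c 8 v40 (.c 9 v40 .e))))
noncomputable def q54 : Tr := .c 4 v39 (.c 5 v40 (.c 9 v40 .e))
noncomputable def v42 : Tr := .l 0x2051831832052c82462462c8
noncomputable def v43 : Tr := .l 0x1480c60c614820b18918920b
noncomputable def q55 : Tr := .c 4 v42 (.c 5 v43 (.c 8 v43 (.c 9 v43 .e)))
noncomputable def q56 : Tr := .c 4 v42 (.c 5 v43 (.c 9 v43 .e))
noncomputable def q57 : Tr := .c 4 v39 (.c 5 v40 .e)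
noncomputable def r29 : Tr := .c 0 q53 (.c 1 q54 (.c 6 q55 (.c 7 q56 (.c 8 q57 .e))))
noncomputable def v44 : Tr := .l 0x2052872c92872c82ca2cb2ca
noncomputable def v45 : Tr := .l 0x1ca1ca1ca14828b28b28b20b
noncomputable def v46 : Tr := .l 0x24924b2491c72cb2cb2cb28a
noncomputable def q58 : Tr := .c 4 v44 (.c 5 v45 (.c 7 v46 (.c 8 v45 (.c 9 v45 .e))))
noncomputable def q59 : Tr := .c 7 v46 (.c 8 v45 (.c 9 v45 .e))
noncomputable def v47 : Tr := .l 0x28828a2882062cb2cb2cb2c9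
noncomputable def v48 : Tr := .l 0x28a28b20a2082ca2cb2ca2c8
noncomputable def q60 : Tr := .c 7 v47 (.c 8 v48 .e)
noncomputable def v49 : Tr := .l 0x2052872051832c82ca2c8246
noncomputable def q61 : Tr := .c 4 v49 (.c 7 v47 .e)
noncomputable def r30 : Tr := .c 0 q58 (.c 3 q59 (.c 5 q60 (.c 9 q61 .e)))
noncomputable def q62 : Tr := .c 7 v41 (.c 8 v40 (.c 9 v40 .e))
noncomputable def v50 : Tr := .l 0x20628828a2082c92cb2ca2c8
noncomputable def v51 : Tr := .l 0x20820a20b1892c82ca2c8246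
noncomputable def q63 : Tr := .c 7 v50 (.c 8 v51 .e)
noncomputable def r31 : Tr := .c 0 q53 (.c 3 q62 (.c 5 q63 (.c 6 q55 .e)))
noncomputable def r32 : Tr := .c 0 q53 (.c 1 q54 (.c 3 q62 (.c 6 q55 (.c 7 q56 .e))))
noncomputable def t6 : Tr := .c 4 r28 (.c 5 r29 (.c 7 r30 (.c 8 r31 (.c 9 r32 .e))))
noncomputable def r33 : Tr := .c 1 q48 (.c 7 q50 (.c 8 q51 (.c 9 q52 .e)))
noncomputable def v52 : Tr := .l 0x1c42461c41422872c9287205
noncomputable def v53 : Tr := .l 0x1071891070851ca24b1ca148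
noncomputable def q64 : Tr := .c 4 v52 (.c 5 v53 (.c 9 v53 .e))
noncomputable def v54 : Tr := .l 0x2472c92471c52ca2cb2ca288
noncomputable def v55 : Tr := .l 0x2c924b1c92472c92cb28b289
noncomputable def q65 : Tr := .c 7 v54 (.c 8 v55 .e)
noncomputable def q66 : Tr := .c 4 v52 (.c 5 v53 .e)
noncomputable def q67 : Tr := .c 4 v52 (.c 7 v54 .e)
noncomputable def r34 : Tr := .c 1 q64 (.c 5 q65 (.c 8 q66 (.c 9 q67 .e)))
noncomputable def t7 : Tr := .c 3 r33 (.c 4 r28 (.c 5 r29 (.c 6 r34 (.c 9 r32 .e))))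
noncomputable def v56 : Tr := .l 0x1832051831012462c82461c4
noncomputable def q68 : Tr := .c 4 v56 .e
noncomputable def v57 : Tr := .l 0x2051831011832c82461c4246
noncomputable def q69 : Tr := .c 4 v57 .e
noncomputable def v58 : Tr := .l 0x2062882061842c92cb2c9247
noncomputable def q70 : Tr := .c 4 v56 (.c 7 v58 .e)
noncomputable def r35 : Tr := .c 1 q68 (.c 7 q69 (.c 8 q68 (.c 9 q70 .e)))
noncomputable def q71 : Tr := .c 4 v39 (.c 7 v41 (.c 8 v40 .e))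
noncomputable def q72 : Tr := .c 4 v39 .e
noncomputable def q73 : Tr := .c 4 v42 (.c 8 v43 .e)
noncomputable def q74 : Tr := .c 4 v42 .e
noncomputable def r36 : Tr := .c 0 q71 (.c 1 q72 (.c 6 q73 (.c 7 q74 (.c 8 q72 .e))))
noncomputable def q75 : Tr := .c 4 v49 .e
noncomputable def r37 : Tr := .c 1 q75 (.c 5 q60 (.c 8 q75 (.c 9 q61 .e)))
noncomputable def q76 : Tr := .c 4 v44 (.c 7 v46 (.c 8 v45 .e))
noncomputable def q77 : Tr := .c 7 v46 (.c 8 v45 .e)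
noncomputable def r38 : Tr := .c 0 q76 (.c 3 q77 (.c 5 q60 (.c 9 q61 .e)))
noncomputable def q78 : Tr := .c 7 v41 (.c 8 v40 .e)
noncomputable def r39 : Tr := .c 0 q71 (.c 3 q78 (.c 5 q63 (.c 6 q73 .e)))
noncomputable def r40 : Tr := .c 0 q71 (.c 1 q72 (.c 3 q78 (.c 6 q73 (.c 7 q74 .e))))
noncomputable def t8 : Tr := .c 3 r35 (.c 5 r36 (.c 6 r37 (.c 7 r38 (.c 8 r39 (.c 9 r40 .e)))))
noncomputable def v59 : Tr := .l 0x20720924b1c92ca2ca2cb28b
noncomputable def q79 : Tr := .c 7 v59 .e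
noncomputable def v60 : Tr := .l 0x1842062882062472c92cb2c9
noncomputable def q80 : Tr := .c 7 v60 .e
noncomputable def v61 : Tr := .l 0x1831011832052461c42462c8
noncomputable def v62 : Tr := .l 0xc60440c614818910718920b
noncomputable def q81 : Tr := .c 4 v61 (.c 5 v62 .e)
noncomputable def v63 : Tr := .l 0x1011832051831c42462c8246
noncomputable def q82 : Tr := .c 4 v63 (.c 7 v60 .e)
noncomputable def r41 : Tr := .c 3 q79 (.c 5 q80 (.c 6 q81 (.c 9 q82 .e)))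
noncomputable def v64 : Tr := .l 0x20624828a2082c92c92cb2cb
noncomputable def q83 : Tr := .c 7 v64 .e
noncomputable def v65 : Tr := .l 0x1431c52471c52062882ca288
noncomputable def q84 : Tr := .c 7 v65 .e
noncomputable def v66 : Tr := .l 0x1420c01421c4205183205287
noncomputable def v67 : Tr := .l 0x850030851071480c61481ca
noncomputable def q85 : Tr := .c 4 v66 (.c 5 v67 .e)
noncomputable def v68 : Tr := .l 0xc01421c4142183205287205
noncomputable def v69 : Tr := .l 0x30851070850c61481ca148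
noncomputable def q86 : Tr := .c 4 v68 (.c 5 v69 .e)
noncomputable def q87 : Tr := .c 4 v68 (.c 7 v65 .e)
noncomputable def r42 : Tr := .c 3 q83 (.c 5 q84 (.c 6 q85 (.c 7 q85 (.c 8 q86 (.c 9 q87 .e)))))
noncomputable def v70 : Tr := .l 0x2872c92cb2c92872c92cb2c9
noncomputable def q88 : Tr := .c 4 v68 (.c 5 v69 (.c 7 v70 .e))
noncomputable def r43 : Tr := .c 0 q88 (.c 1 q86 (.c 6 q85 (.c 7 q85 (.c 8 q86 (.c 9 q87 .e)))))
noncomputable def v71 : Tr := .l 0x1831832052052462462c82c8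
noncomputable def v72 : Tr := .l 0xc60c614814818918920b20b
noncomputable def q89 : Tr := .c 4 v71 (.c 5 v72 (.c 7 v59 .e))
noncomputable def q90 : Tr := .c 4 v71 (.c 5 v72 .e)
noncomputable def r44 : Tr := .c 0 q89 (.c 1 q90 (.c 6 q81 (.c 7 q81 (.c 8 q90 .e))))
noncomputable def r45 : Tr := .c 0 q89 (.c 3 q79 (.c 5 q80 (.c 6 q81 .e)))
noncomputable def r46 : Tr := .c 0 q89 (.c 1 q90 (.c 3 q79 (.c 6 q81 (.c 7 q81 .e))))
noncomputable def t9 : Tr := .c 1 r41 (.c 2 r42 (.c 4 r43 (.c 5 r44 (.c 8 r45 (.c 9 r46 .e)))))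
noncomputable def r47 : Tr := .c 5 q84 (.c 7 q85 (.c 8 q86 (.c 9 q87 .e)))
noncomputable def r48 : Tr := .c 1 q86 (.c 7 q85 (.c 8 q86 (.c 9 q87 .e)))
noncomputable def t10 : Tr := .c 0 r47 (.c 2 r42 (.c 3 r48 (.c 4 r43 (.c 5 r44 (.c 9 r46 .e)))))
noncomputable def v73 : Tr := .l 0x2471c91471c52c828a20a288
noncomputable def q91 : Tr := .c 8 v73 .e
noncomputable def q92 : Tr := .c 4 v33 .e
noncomputable def r49 : Tr := .c 5 q91 (.c 7 q50 (.c 8 q51 (.c 9 q92 .e)))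
noncomputable def v74 : Tr := .l 0x18910708510724b1ca1481ca
noncomputable def q93 : Tr := .c 8 v74 (.c 9 v74 .e)
noncomputable def r50 : Tr := .c 3 q93 (.c 5 q91 (.c 6 q49 (.c 7 q50 (.c 8 q51 (.c 9 q92 .e)))))
noncomputable def r51 : Tr := .c 1 q48 (.c 7 q50 (.c 8 q51 (.c 9 q92 .e)))
noncomputable def q94 : Tr := .c 4 v33 (.c 5 v34 (.c 8 v34 (.c 9 v34 .e)))
noncomputable def r52 : Tr := .c 0 q94 (.c 1 q48 (.c 6 q49 (.c 7 q50 (.c 8 q51 (.c 9 q92 .e)))))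
noncomputable def q95 : Tr := .c 4 v39 (.c 5 v40 (.c 8 v40 (.c 9 v40 .e)))
noncomputable def r53 : Tr := .c 0 q95 (.c 1 q54 (.c 6 q55 (.c 7 q56 (.c 8 q57 .e))))
noncomputable def q96 : Tr := .c 8 v55 .e
noncomputable def q97 : Tr := .c 4 v52 .e
noncomputable def r54 : Tr := .c 1 q64 (.c 5 q96 (.c 8 q66 (.c 9 q97 .e)))
noncomputable def t11 : Tr := .c 0 r49 (.c 2 r50 (.c 3 r51 (.c 4 r52 (.c 5 r53 (.c 6 r54 .e)))))
noncomputable def v75 : Tr := .l 0x28b2cb2cb28b24b2cb2491ca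
noncomputable def q98 : Tr := .c 4 v2 (.c 5 v75 (.c 7 v11 (.c 8 v75 (.c 9 v75 .e))))
noncomputable def q99 : Tr := .c 4 v2 (.c 5 v75 (.c 9 v75 .e))
noncomputable def v76 : Tr := .l 0x2ca2c82462c8287205183205
noncomputable def v77 : Tr := .l 0x2cb2cb28a2cb2cb2491c7249
noncomputable def q100 : Tr := .c 4 v76 (.c 5 v77 (.c 8 v77 (.c 9 v77 .e)))
noncomputable def q101 : Tr := .c 4 v76 (.c 5 v77 (.c 9 v77 .e))
noncomputable def r55 : Tr := .c 0 q98 (.c 1 q99 (.c 6 q100 (.c 7 q101 .e)))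
noncomputable def v78 : Tr := .l 0x2cb2cb2cb2cb2c82c82c92ca
noncomputable def v79 : Tr := .l 0x1ca1ca1ca14828b28b24b20b
noncomputable def v80 : Tr := .l 0x24b24b24b1ca2cb2cb2cb28a
noncomputable def q102 : Tr := .c 4 v78 (.c 5 v79 (.c 7 v80 (.c 8 v79 (.c 9 v79 .e))))
noncomputable def q103 : Tr := .c 4 v78 (.c 5 v79 (.c 9 v79 .e))
noncomputable def q104 : Tr := .c 5 v79 (.c 7 v80 (.c 8 v79 (.c 9 v79 .e)))
noncomputable def v81 : Tr := .l 0x2cb2c92ca2cb2c82462872c9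
noncomputable def v82 : Tr := .l 0x24b20b20b1ca2cb24a1ca24b
noncomputable def q105 : Tr := .c 4 v81 (.c 5 v82 (.c 8 v82 (.c 9 v82 .e)))
noncomputable def q106 : Tr := .c 4 v81 (.c 5 v82 (.c 9 v82 .e))
noncomputable def r56 : Tr := .c 0 q102 (.c 1 q103 (.c 2 q104 (.c 6 q105 (.c 7 q106 .e))))
noncomputable def v83 : Tr := .l 0x24b24b24b1ca24b2cb24b1ca
noncomputable def v84 : Tr := .l 0x2cb2cb2cb2492cb2cb2cb249
noncomputable def q107 : Tr := .c 4 v11 (.c 5 v83 (.c 7 v84 (.c 8 v83 (.c 9 v83 .e))))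
noncomputable def q108 : Tr := .c 5 v83 (.c 7 v84 (.c 8 v83 (.c 9 v83 .e)))
noncomputable def q109 : Tr := .c 7 v84 (.c 8 v83 (.c 9 v83 .e))
noncomputable def v85 : Tr := .l 0x2ca2cb2ca2882ca2cb2ca2c8
noncomputable def v86 : Tr := .l 0x2cb2cb28b28a2ca2cb2ca288
noncomputable def q110 : Tr := .c 7 v85 (.c 8 v86 .e)
noncomputable def r57 : Tr := .c 0 q107 (.c 2 q108 (.c 3 q109 (.c 4 q109 (.c 5 q110 .e))))
noncomputable def q111 : Tr := .c 7 v80 (.c 8 v79 (.c 9 v79 .e))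
noncomputable def v87 : Tr := .l 0x2882ca2cb28a2ca2cb2ca2c8
noncomputable def v88 : Tr := .l 0x28a28b28b20b2ca2cb2ca2c8
noncomputable def q112 : Tr := .c 7 v87 (.c 8 v88 .e)
noncomputable def r58 : Tr := .c 0 q102 (.c 2 q104 (.c 3 q111 (.c 4 q111 (.c 5 q112 (.c 6 q105 .e)))))
noncomputable def r59 : Tr := .c 0 q102 (.c 1 q103 (.c 2 q104 (.c 3 q111 (.c 4 q111 (.c 6 q105 (.c 7 q106 .e))))))
noncomputable def t12 : Tr := .c 4 r55 (.c 5 r56 (.c 7 r57 (.c 8 r58 (.c 9 r59 .e))))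
noncomputable def q113 : Tr := .c 4 v13 .e
noncomputable def v89 : Tr := .l 0x2cb2cb2cb28a2c92cb2c9287
noncomputable def v90 : Tr := .l 0x24b28b24b1ca1ca24b1ca148
noncomputable def q114 : Tr := .c 7 v89 (.c 8 v90 .e)
noncomputable def v91 : Tr := .l 0x2cb2cb2cb2cb2cb2c92ca2cb
noncomputable def q115 : Tr := .c 4 v91 .e
noncomputable def r60 : Tr := .c 1 q113 (.c 2 q114 (.c 7 q115 .e))
noncomputable def q116 : Tr := .c 4 v78 (.c 7 v80 (.c 8 v79 .e))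
noncomputable def q117 : Tr := .c 4 v78 .e
noncomputable def q118 : Tr := .c 7 v80 (.c 8 v79 .e)
noncomputable def q119 : Tr := .c 4 v81 (.c 8 v82 .e)
noncomputable def q120 : Tr := .c 4 v81 .e
noncomputable def r61 : Tr := .c 0 q116 (.c 1 q117 (.c 2 q118 (.c 6 q119 (.c 7 q120 .e))))
noncomputable def q121 : Tr := .c 4 v11 .e
noncomputable def q122 : Tr := .c 7 v84 (.c 8 v83 .e)
noncomputable def r62 : Tr := .c 1 q121 (.c 2 q122 (.c 4 q122 (.c 5 q110 .e)))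
noncomputable def q123 : Tr := .c 4 v11 (.c 7 v84 (.c 8 v83 .e))
noncomputable def r63 : Tr := .c 0 q123 (.c 2 q122 (.c 3 q122 (.c 4 q122 (.c 5 q110 .e))))
noncomputable def r64 : Tr := .c 0 q116 (.c 2 q118 (.c 3 q118 (.c 4 q118 (.c 5 q112 (.c 6 q119 .e)))))
noncomputable def r65 : Tr := .c 0 q116 (.c 1 q117 (.c 2 q118 (.c 3 q118 (.c 4 q118 (.c 6 q119 (.c 7 q120 .e))))))
noncomputable def t13 : Tr := .c 3 r60 (.c 5 r61 (.c 6 r62 (.c 7 r63 (.c 8 r64 (.c 9 r65 .e)))))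
noncomputable def r66 : Tr := .c 3 q111 (.c 4 q111 (.c 5 q112 (.c 6 q105 .e)))
noncomputable def v92 : Tr := .l 0x28a28b28b20b2cb2ca28b2cb
noncomputable def v93 : Tr := .l 0x20b20b20b1892cb28b20b24b
noncomputable def q124 : Tr := .c 7 v92 (.c 8 v93 (.c 9 v93 .e))
noncomputable def v94 : Tr := .l 0x2472c92cb2c92ca2cb2ca2c8
noncomputable def v95 : Tr := .l 0x2c92cb2cb24b2c92cb2ca2c8
noncomputable def q125 : Tr := .c 7 v94 (.c 8 v95 .e)
noncomputable def v96 : Tr := .l 0x2ca2c82c92cb2872052462c8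
noncomputable def v97 : Tr := .l 0x28b24b20b20b28b20918920b
noncomputable def q126 : Tr := .c 4 v96 (.c 5 v97 (.c 8 v97 (.c 9 v97 .e)))
noncomputable def q127 : Tr := .c 4 v96 (.c 5 v97 (.c 9 v97 .e))
noncomputable def r67 : Tr := .c 3 q124 (.c 5 q125 (.c 6 q126 (.c 7 q127 .e)))
noncomputable def t14 : Tr := .c 1 r66 (.c 2 r67 (.c 7 r57 (.c 8 r58 (.c 9 r59 .e))))
noncomputable def r68 : Tr := .c 4 q118 (.c 5 q112 (.c 7 q121 .e))
noncomputable def r69 : Tr := .c 3 q118 (.c 4 q118 (.c 5 q112 (.c 6 q119 .e)))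
noncomputable def t15 : Tr := .c 0 r68 (.c 1 r69 (.c 6 r62 (.c 7 r63 (.c 8 r64 (.c 9 r65 .e)))))
noncomputable def v98 : Tr := .l 0x2cb2cb28b28b2ca28b20a288
noncomputable def v99 : Tr := .l 0x28b28b20b20b28a20b189208
noncomputable def q128 : Tr := .c 7 v98 (.c 8 v99 (.c 9 v99 .e))
noncomputable def v100 : Tr := .l 0x2ca2cb2ca2c82872c9287205
noncomputable def v101 : Tr := .l 0x2ca2cb28a2c8287289207205
noncomputable def q129 : Tr := .c 7 v100 (.c 8 v101 .e)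
noncomputable def v102 : Tr := .l 0x24b1ca1481ca1ca1480c6148
noncomputable def q130 : Tr := .c 5 v102 (.c 9 v102 .e)
noncomputable def r70 : Tr := .c 4 q128 (.c 5 q129 (.c 7 q130 .e))
noncomputable def v103 : Tr := .l 0x28b20b18920b20b189107189
noncomputable def q131 : Tr := .c 5 v103 (.c 8 v103 (.c 9 v103 .e))
noncomputable def r71 : Tr := .c 3 q128 (.c 4 q128 (.c 5 q129 (.c 6 q131 .e)))
noncomputable def v104 : Tr := .l 0x2cb2cb24b2cb2ca24b1ca248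
noncomputable def v105 : Tr := .l 0x2cb24b1ca24b24a1ca1481c8
noncomputable def q132 : Tr := .c 7 v104 (.c 8 v105 (.c 9 v105 .e))
noncomputable def q133 : Tr := .c 5 v102 (.c 8 v102 (.c 9 v102 .e))
noncomputable def r72 : Tr := .c 3 q132 (.c 5 q129 (.c 6 q133 (.c 7 q130 .e)))
noncomputable def v106 : Tr := .l 0x24b2cb24b1ca1ca24b1ca148
noncomputable def q134 : Tr := .c 5 v106 (.c 9 v106 .e)
noncomputable def v107 : Tr := .l 0x28b28b28b20b20b28b20b189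
noncomputable def v108 : Tr := .l 0x2cb2cb2cb28b28a2cb28a208
noncomputable def q135 : Tr := .c 5 v107 (.c 7 v108 (.c 8 v107 (.c 9 v107 .e)))
noncomputable def q136 : Tr := .c 7 v108 (.c 8 v107 (.c 9 v107 .e))
noncomputable def v109 : Tr := .l 0x2cb2cb2cb2ca2c92cb2c9287
noncomputable def v110 : Tr := .l 0x2cb2cb2cb2ca2c92cb289247
noncomputable def q137 : Tr := .c 7 v109 (.c 8 v110 .e)
noncomputable def r73 : Tr := .c 1 q134 (.c 2 q135 (.c 4 q136 (.c 5 q137 .e)))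
noncomputable def r74 : Tr := .c 0 q135 (.c 2 q135 (.c 3 q136 (.c 4 q136 (.c 5 q137 .e))))
noncomputable def q138 : Tr := .c 5 v99 (.c 7 v98 (.c 8 v99 (.c 9 v99 .e)))
noncomputable def r75 : Tr := .c 0 q138 (.c 2 q138 (.c 3 q128 (.c 4 q128 (.c 5 q129 (.c 6 q131 .e)))))
noncomputable def t16 : Tr := .c 0 r70 (.c 1 r71 (.c 2 r72 (.c 6 r73 (.c 7 r74 (.c 8 r75 .e)))))
noncomputable def q139 : Tr := .c 8 v99 (.c 9 v99 .e)
noncomputable def q140 : Tr := .c 8 v101 .e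
noncomputable def r76 : Tr := .c 4 q139 (.c 5 q140 (.c 7 q130 .e))
noncomputable def r77 : Tr := .c 3 q139 (.c 4 q139 (.c 5 q140 (.c 6 q131 .e)))
noncomputable def q141 : Tr := .c 8 v105 (.c 9 v105 .e)
noncomputable def r78 : Tr := .c 3 q141 (.c 5 q140 (.c 6 q133 (.c 7 q130 .e)))
noncomputable def v111 : Tr := .l 0x1ca24b1ca1481481ca1480c6
noncomputable def q142 : Tr := .c 5 v111 (.c 9 v111 .e)
noncomputable def v112 : Tr := .l 0x20b28b20b18918920b189107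
noncomputable def q143 : Tr := .c 5 v112 (.c 8 v112 (.c 9 v112 .e))
noncomputable def r79 : Tr := .c 1 q142 (.c 2 q143 (.c 7 q130 .e))
noncomputable def q144 : Tr := .c 5 v111 (.c 8 v111 (.c 9 v111 .e))
noncomputable def r80 : Tr := .c 0 q144 (.c 1 q142 (.c 6 q133 (.c 7 q130 .e)))
noncomputable def q145 : Tr := .c 5 v107 (.c 8 v107 (.c 9 v107 .e))
noncomputable def q146 : Tr := .c 8 v107 (.c 9 v107 .e)
noncomputable def q147 : Tr := .c 8 v110 .e
noncomputable def r81 : Tr := .c 1 q134 (.c 2 q145 (.c 4 q146 (.c 5 q147 .e)))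
noncomputable def r82 : Tr := .c 0 q145 (.c 2 q145 (.c 3 q146 (.c 4 q146 (.c 5 q147 .e))))
noncomputable def t17 : Tr := .c 0 r76 (.c 1 r77 (.c 2 r78 (.c 3 r79 (.c 4 r80 (.c 6 r81 (.c 7 r82 .e))))))
noncomputable def r83 : Tr := .c 0 q47 (.c 1 q48 (.c 8 q51 (.c 9 q52 .e)))
noncomputable def q148 : Tr := .c 5 v40 (.c 7 v41 (.c 8 v40 (.c 9 v40 .e)))
noncomputable def r84 : Tr := .c 0 q53 (.c 1 q54 (.c 2 q148 (.c 8 q57 .e)))
noncomputable def q149 : Tr := .c 5 v45 (.c 7 v46 (.c 8 v45 (.c 9 v45 .e)))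
noncomputable def r85 : Tr := .c 0 q58 (.c 2 q149 (.c 3 q59 (.c 4 q59 (.c 5 q60 (.c 9 q61 .e)))))
noncomputable def r86 : Tr := .c 0 q53 (.c 2 q148 (.c 3 q62 (.c 4 q62 (.c 5 q63 .e))))
noncomputable def r87 : Tr := .c 0 q53 (.c 1 q54 (.c 2 q148 (.c 3 q62 (.c 4 q62 .e))))
noncomputable def t18 : Tr := .c 4 r83 (.c 5 r84 (.c 7 r85 (.c 8 r86 (.c 9 r87 .e))))
noncomputable def v113 : Tr := .l 0x2472892471c52ca2cb2ca288
noncomputable def v114 : Tr := .l 0x20b20b20b1892cb2cb2cb24b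
noncomputable def q150 : Tr := .c 7 v113 (.c 8 v114 .e)
noncomputable def r88 : Tr := .c 1 q68 (.c 2 q150 (.c 8 q68 (.c 9 q70 .e)))
noncomputable def r89 : Tr := .c 0 q71 (.c 1 q72 (.c 2 q78 (.c 8 q72 .e)))
noncomputable def r90 : Tr := .c 1 q75 (.c 2 q77 (.c 4 q77 (.c 5 q60 (.c 8 q75 (.c 9 q61 .e)))))
noncomputable def r91 : Tr := .c 0 q76 (.c 2 q77 (.c 3 q77 (.c 4 q77 (.c 5 q60 (.c 9 q61 .e)))))
noncomputable def r92 : Tr := .c 0 q71 (.c 2 q78 (.c 3 q78 (.c 4 q78 (.c 5 q63 .e))))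
noncomputable def r93 : Tr := .c 0 q71 (.c 1 q72 (.c 2 q78 (.c 3 q78 (.c 4 q78 .e))))
noncomputable def t19 : Tr := .c 3 r88 (.c 5 r89 (.c 6 r90 (.c 7 r91 (.c 8 r92 (.c 9 r93 .e)))))
noncomputable def v115 : Tr := .l 0x1832052872052462c82ca2c8
noncomputable def q151 : Tr := .c 4 v115 (.c 7 v50 .e)
noncomputable def r94 : Tr := .c 3 q62 (.c 4 q62 (.c 5 q63 (.c 9 q151 .e)))
noncomputable def v116 : Tr := .l 0x20820a20b1892cb2cb2cb24b
noncomputable def v117 : Tr := .l 0x18918918910724a24924a1c9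
noncomputable def q152 : Tr := .c 7 v116 (.c 8 v117 (.c 9 v117 .e))
noncomputable def v118 : Tr := .l 0x1c52472c92472882ca2ca2c8
noncomputable def v119 : Tr := .l 0x24724924b1c92872c92c8246
noncomputable def q153 : Tr := .c 7 v118 (.c 8 v119 .e)
noncomputable def v120 : Tr := .l 0x1421c42461c42052872c9287
noncomputable def v121 : Tr := .l 0x851071891071481ca24b1ca
noncomputable def q154 : Tr := .c 4 v120 (.c 5 v121 .e)
noncomputable def q155 : Tr := .c 4 v120 (.c 7 v118 .e)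
noncomputable def r95 : Tr := .c 3 q152 (.c 5 q153 (.c 8 q154 (.c 9 q155 .e)))
noncomputable def t20 : Tr := .c 1 r94 (.c 2 r95 (.c 7 r85 (.c 8 r86 (.c 9 r87 .e))))
noncomputable def q156 : Tr := .c 4 v115 .e
noncomputable def r96 : Tr := .c 4 q78 (.c 5 q63 (.c 8 q156 (.c 9 q151 .e)))
noncomputable def r97 : Tr := .c 3 q78 (.c 4 q78 (.c 5 q63 (.c 9 q151 .e)))
noncomputable def t21 : Tr := .c 0 r96 (.c 1 r97 (.c 6 r90 (.c 7 r91 (.c 8 r92 (.c 9 r93 .e)))))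
noncomputable def v122 : Tr := .l 0x28b28b28b20b2ca2cb28a2c8
noncomputable def v123 : Tr := .l 0x20b20b20b1892c828a208246
noncomputable def q157 : Tr := .c 7 v122 (.c 8 v123 (.c 9 v123 .e))
noncomputable def v124 : Tr := .l 0x2882ca2ca2c82872c9287205
noncomputable def q158 : Tr := .c 7 v124 (.c 8 v2 .e)
noncomputable def v125 : Tr := .l 0x1481ca24b1ca1ca24a1c8148
noncomputable def q159 : Tr := .c 5 v125 .e
noncomputable def q160 : Tr := .c 7 v124 .e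
noncomputable def r98 : Tr := .c 4 q157 (.c 5 q158 (.c 8 q159 (.c 9 q160 .e)))
noncomputable def r99 : Tr := .c 3 q157 (.c 4 q157 (.c 5 q158 (.c 9 q160 .e)))
noncomputable def v126 : Tr := .l 0x2cb2cb2cb24b2ca2cb2492c8
noncomputable def v127 : Tr := .l 0x24b24b24a1c92c82491c7246
noncomputable def q161 : Tr := .c 7 v126 (.c 8 v127 (.c 9 v127 .e))
noncomputable def r100 : Tr := .c 3 q161 (.c 5 q158 (.c 8 q159 (.c 9 q160 .e)))
noncomputable def v128 : Tr := .l 0x1ca24b2cb24a24b2cb2491c9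
noncomputable def q162 : Tr := .c 5 v128 (.c 9 v128 .e)
noncomputable def v129 : Tr := .l 0x20b28b28b20b28a2cb28a208
noncomputable def v130 : Tr := .l 0x28b2cb2cb28a2ca2cb2ca288
noncomputable def q163 : Tr := .c 5 v129 (.c 7 v130 (.c 8 v129 (.c 9 v129 .e)))
noncomputable def q164 : Tr := .c 7 v130 (.c 8 v129 (.c 9 v129 .e))
noncomputable def v131 : Tr := .l 0x2ca2cb2cb2c92c92cb2c9287
noncomputable def q165 : Tr := .c 7 v131 (.c 8 v100 .e)
noncomputable def q166 : Tr := .c 5 v128 .e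
noncomputable def q167 : Tr := .c 7 v131 .e
noncomputable def r101 : Tr := .c 1 q162 (.c 2 q163 (.c 4 q164 (.c 5 q165 (.c 8 q166 (.c 9 q167 .e)))))
noncomputable def r102 : Tr := .c 0 q163 (.c 2 q163 (.c 3 q164 (.c 4 q164 (.c 5 q165 (.c 9 q167 .e)))))
noncomputable def q168 : Tr := .c 5 v123 (.c 7 v122 (.c 8 v123 (.c 9 v123 .e)))
noncomputable def r103 : Tr := .c 0 q168 (.c 2 q168 (.c 3 q157 (.c 4 q157 (.c 5 q158 .e))))
noncomputable def t22 : Tr := .c 0 r98 (.c 1 r99 (.c 2 r100 (.c 6 r101 (.c 7 r102 (.c 8 r103 .e)))))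
noncomputable def r104 : Tr := .c 3 q79 (.c 4 q79 (.c 5 q80 (.c 9 q82 .e)))
noncomputable def r105 : Tr := .c 3 q83 (.c 5 q84 (.c 8 q86 (.c 9 q87 .e)))
noncomputable def r106 : Tr := .c 0 q88 (.c 1 q86 (.c 8 q86 (.c 9 q87 .e)))
noncomputable def q169 : Tr := .c 5 v72 (.c 7 v59 .e)
noncomputable def r107 : Tr := .c 0 q89 (.c 1 q90 (.c 2 q169 (.c 8 q90 .e)))
noncomputable def r108 : Tr := .c 0 q89 (.c 2 q169 (.c 3 q79 (.c 4 q79 (.c 5 q80 .e))))
noncomputable def r109 : Tr := .c 0 q89 (.c 1 q90 (.c 2 q169 (.c 3 q79 (.c 4 q79 .e))))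
noncomputable def t23 : Tr := .c 1 r104 (.c 2 r105 (.c 4 r106 (.c 5 r107 (.c 8 r108 (.c 9 r109 .e)))))
noncomputable def r110 : Tr := .c 0 q53 (.c 1 q54 (.c 8 q57 .e))
noncomputable def r111 : Tr := .c 0 q53 (.c 3 q62 (.c 5 q63 .e))
noncomputable def r112 : Tr := .c 0 q53 (.c 1 q54 (.c 3 q62 .e))
noncomputable def t24 : Tr := .c 4 r83 (.c 5 r110 (.c 7 r30 (.c 8 r111 (.c 9 r112 .e))))
noncomputable def r113 : Tr := .c 1 q48 (.c 8 q51 (.c 9 q52 .e))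
noncomputable def t25 : Tr := .c 3 r113 (.c 4 r83 (.c 5 r110 (.c 6 r34 (.c 9 r112 .e))))
noncomputable def r114 : Tr := .c 1 q68 (.c 8 q68 (.c 9 q70 .e))
noncomputable def r115 : Tr := .c 0 q71 (.c 1 q72 (.c 8 q72 .e))
noncomputable def r116 : Tr := .c 0 q71 (.c 3 q78 (.c 5 q63 .e))
noncomputable def r117 : Tr := .c 0 q71 (.c 1 q72 (.c 3 q78 .e))
noncomputable def t26 : Tr := .c 3 r114 (.c 5 r115 (.c 6 r37 (.c 7 r38 (.c 8 r116 (.c 9 r117 .e)))))
noncomputable def r118 : Tr := .c 3 q62 (.c 5 q63 (.c 9 q151 .e))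
noncomputable def t27 : Tr := .c 1 r118 (.c 2 r95 (.c 7 r30 (.c 8 r111 (.c 9 r112 .e))))
noncomputable def r119 : Tr := .c 5 q63 (.c 8 q156 (.c 9 q151 .e))
noncomputable def r120 : Tr := .c 3 q78 (.c 5 q63 (.c 9 q151 .e))
noncomputable def t28 : Tr := .c 0 r119 (.c 1 r120 (.c 6 r37 (.c 7 r38 (.c 8 r116 (.c 9 r117 .e)))))
noncomputable def r121 : Tr := .c 3 q79 (.c 5 q80 (.c 9 q82 .e))
noncomputable def r122 : Tr := .c 0 q89 (.c 1 q90 (.c 8 q90 .e))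
noncomputable def r123 : Tr := .c 0 q89 (.c 3 q79 (.c 5 q80 .e))
noncomputable def r124 : Tr := .c 0 q89 (.c 1 q90 (.c 3 q79 .e))
noncomputable def t29 : Tr := .c 1 r121 (.c 2 r105 (.c 4 r106 (.c 5 r122 (.c 8 r123 (.c 9 r124 .e)))))
noncomputable def r125 : Tr := .c 5 q84 (.c 8 q86 (.c 9 q87 .e))
noncomputable def r126 : Tr := .c 1 q86 (.c 8 q86 (.c 9 q87 .e))
noncomputable def t30 : Tr := .c 0 r125 (.c 2 r105 (.c 3 r126 (.c 4 r106 (.c 5 r122 (.c 9 r124 .e)))))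
noncomputable def q170 : Tr := .c 3 v0 (.c 4 v0 (.c 5 v1 (.c 6 v14 (.c 9 v1 .e))))
noncomputable def v132 : Tr := .l 0x2462c82461c4183205183101
noncomputable def q171 : Tr := .c 3 v132 (.c 5 v12 (.c 6 v2 (.c 9 v12 .e)))
noncomputable def q172 : Tr := .c 3 v3 (.c 4 v3 (.c 5 v4 (.c 9 v4 .e)))
noncomputable def q173 : Tr := .c 3 v0 (.c 4 v0 (.c 5 v1 (.c 6 v14 .e)))
noncomputable def q174 : Tr := .c 3 v0 (.c 4 v0 (.c 6 v14 .e))
noncomputable def r127 : Tr := .c 1 q170 (.c 2 q171 (.c 7 q172 (.c 8 q173 (.c 9 q174 .e))))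
noncomputable def r128 : Tr := .c 0 q1 (.c 1 q170 (.c 6 q3 (.c 7 q172 (.c 8 q173 (.c 9 q174 .e)))))
noncomputable def v133 : Tr := .l 0x2ca2ca2ca2c8287287287205
noncomputable def q175 : Tr := .c 3 v5 (.c 4 v5 (.c 5 v6 (.c 6 v133 (.c 9 v6 .e))))
noncomputable def v134 : Tr := .l 0x2c92c92c9247206206206184
noncomputable def v135 : Tr := .l 0x2cb2cb2cb289288288288206
noncomputable def q176 : Tr := .c 3 v134 (.c 5 v6 (.c 6 v135 (.c 9 v6 .e)))
noncomputable def q177 : Tr := .c 3 v8 (.c 4 v8 (.c 5 v9 (.c 9 v9 .e)))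
noncomputable def q178 : Tr := .c 3 v5 (.c 4 v5 (.c 5 v6 (.c 6 v133 .e)))
noncomputable def r129 : Tr := .c 0 q6 (.c 1 q175 (.c 2 q176 (.c 6 q9 (.c 7 q177 (.c 8 q178 .e)))))
noncomputable def v136 : Tr := .l 0x2c92cb2c92872462c82461c4
noncomputable def q179 : Tr := .c 3 v14 (.c 4 v14 (.c 5 v15 (.c 6 v136 (.c 9 v15 .e))))
noncomputable def q180 : Tr := .c 3 v2 (.c 5 v16 (.c 6 v100 (.c 9 v16 .e)))
noncomputable def q181 : Tr := .c 6 v100 (.c 9 v16 .e)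
noncomputable def q182 : Tr := .c 6 v136 .e
noncomputable def q183 : Tr := .c 3 v14 (.c 4 v14 (.c 5 v15 (.c 6 v136 .e)))
noncomputable def q184 : Tr := .c 3 v14 (.c 4 v14 (.c 6 v136 .e))
noncomputable def r130 : Tr := .c 1 q179 (.c 2 q180 (.c 4 q181 (.c 5 q182 (.c 8 q183 (.c 9 q184 .e)))))
noncomputable def q185 : Tr := .c 9 v6 .e
noncomputable def q186 : Tr := .c 6 v135 (.c 9 v6 .e)
noncomputable def r131 : Tr := .c 0 q6 (.c 1 q175 (.c 2 q176 (.c 3 q185 (.c 4 q186 (.c 6 q9 (.c 7 q177 .e))))))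
noncomputable def t31 : Tr := .c 3 r127 (.c 4 r128 (.c 5 r129 (.c 6 r130 (.c 9 r131 .e))))
noncomputable def q187 : Tr := .c 3 v132 (.c 4 v132 (.c 6 v2 .e))
noncomputable def q188 : Tr := .c 3 v14 (.c 6 v136 .e)
noncomputable def v137 : Tr := .l 0x2c82461c4246205183101183
noncomputable def q189 : Tr := .c 3 v137 (.c 4 v137 .e)
noncomputable def r132 : Tr := .c 1 q187 (.c 2 q188 (.c 7 q189 (.c 8 q187 (.c 9 q187 .e))))
noncomputable def v138 : Tr := .l 0x2c82c82c82462462462461c4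
noncomputable def q190 : Tr := .c 4 v138 .e
noncomputable def v139 : Tr := .l 0x2ca2ca2ca2882c82c82c8246
noncomputable def q191 : Tr := .c 3 v138 (.c 4 v138 (.c 6 v139 .e))
noncomputable def v140 : Tr := .l 0x2c92c92c92872472462471c5
noncomputable def v141 : Tr := .l 0x2cb2cb2cb2492c92c82c9247
noncomputable def q192 : Tr := .c 3 v140 (.c 6 v141 .e)
noncomputable def v142 : Tr := .l 0x2c82462462c82461c41c4246
noncomputable def q193 : Tr := .c 4 v142 .e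
noncomputable def q194 : Tr := .c 3 v142 (.c 4 v142 .e)
noncomputable def r133 : Tr := .c 0 q190 (.c 1 q191 (.c 2 q192 (.c 6 q193 (.c 7 q194 (.c 8 q191 .e)))))
noncomputable def q195 : Tr := .c 3 v2 (.c 4 v2 (.c 6 v100 .e))
noncomputable def v143 : Tr := .l 0x2cb2cb2cb2c92c82ca2c8246
noncomputable def q196 : Tr := .c 3 v136 (.c 6 v143 .e)
noncomputable def q197 : Tr := .c 6 v143 .e
noncomputable def q198 : Tr := .c 6 v100 .e
noncomputable def r134 : Tr := .c 1 q195 (.c 2 q196 (.c 4 q197 (.c 5 q198 (.c 8 q195 (.c 9 q195 .e)))))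
noncomputable def v144 : Tr := .l 0x2c82ca2cb2ca2cb2cb2cb2ca
noncomputable def q199 : Tr := .c 4 v144 .e
noncomputable def r135 : Tr := .c 0 q199 (.c 2 q196 (.c 4 q197 (.c 5 q198 (.c 9 q195 .e))))
noncomputable def q200 : Tr := .c 6 v141 .e
noncomputable def v145 : Tr := .l 0x2c82ca2cb2ca2cb2cb2cb2c9
noncomputable def q201 : Tr := .c 6 v145 .e
noncomputable def r136 : Tr := .c 0 q190 (.c 2 q192 (.c 4 q200 (.c 5 q201 (.c 6 q193 .e))))
noncomputable def r137 : Tr := .c 0 q190 (.c 1 q191 (.c 2 q192 (.c 4 q200 (.c 6 q193 (.c 7 q194 .e)))))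
noncomputable def t32 : Tr := .c 3 r132 (.c 5 r133 (.c 6 r134 (.c 7 r135 (.c 8 r136 (.c 9 r137 .e)))))
noncomputable def v146 : Tr := .l 0x2cb2cb2cb2cb2cb2c92cb2ca
noncomputable def q202 : Tr := .c 6 v146 .e
noncomputable def v147 : Tr := .l 0x2052872c92871421c42461c4
noncomputable def q203 : Tr := .c 6 v147 .e
noncomputable def q204 : Tr := .c 3 v21 (.c 4 v21 (.c 5 v22 .e))
noncomputable def q205 : Tr := .c 3 v23 (.c 4 v23 (.c 5 v24 (.c 6 v147 .e)))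
noncomputable def q206 : Tr := .c 3 v23 (.c 4 v23 (.c 6 v147 .e))
noncomputable def r138 : Tr := .c 4 q202 (.c 5 q203 (.c 7 q204 (.c 8 q205 (.c 9 q206 .e))))
noncomputable def r139 : Tr := .c 5 q203 (.c 6 q23 (.c 7 q204 (.c 8 q205 (.c 9 q206 .e))))
noncomputable def v148 : Tr := .l 0x1c42462c8246101183205183
noncomputable def q207 : Tr := .c 3 v148 (.c 5 v28 (.c 6 v25 .e))
noncomputable def r140 : Tr := .c 1 q205 (.c 2 q207 (.c 7 q204 (.c 8 q205 (.c 9 q206 .e))))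
noncomputable def r141 : Tr := .c 0 q24 (.c 1 q205 (.c 6 q23 (.c 7 q204 (.c 8 q205 (.c 9 q206 .e)))))
noncomputable def v149 : Tr := .l 0x2c82c82ca2ca205205287287
noncomputable def q208 : Tr := .c 3 v26 (.c 4 v26 (.c 5 v27 (.c 6 v149 .e)))
noncomputable def v150 : Tr := .l 0x2472472c92c9184184206206
noncomputable def v151 : Tr := .l 0x2c92c92cb2cb206206288288
noncomputable def q209 : Tr := .c 3 v150 (.c 5 v27 (.c 6 v151 .e))
noncomputable def q210 : Tr := .c 3 v18 (.c 4 v18 (.c 5 v19 .e))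
noncomputable def r142 : Tr := .c 0 q27 (.c 1 q208 (.c 2 q209 (.c 6 q21 (.c 7 q210 (.c 8 q208 .e)))))
noncomputable def q211 : Tr := .c 6 v151 .e
noncomputable def r143 : Tr := .c 0 q27 (.c 1 q208 (.c 2 q209 (.c 4 q211 (.c 6 q21 (.c 7 q210 .e)))))
noncomputable def t33 : Tr := .c 0 r138 (.c 2 r139 (.c 3 r140 (.c 4 r141 (.c 5 r142 (.c 9 r143 .e)))))
noncomputable def q212 : Tr := .c 9 v30 .e
noncomputable def q213 : Tr := .c 3 v0 (.c 4 v0 (.c 5 v1 .e))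
noncomputable def q214 : Tr := .c 3 v0 (.c 4 v0 .e)
noncomputable def r144 : Tr := .c 4 q212 (.c 7 q172 (.c 8 q213 (.c 9 q214 .e)))
noncomputable def q215 : Tr := .c 9 v31 .e
noncomputable def r145 : Tr := .c 3 q215 (.c 6 q3 (.c 7 q172 (.c 8 q213 (.c 9 q214 .e))))
noncomputable def q216 : Tr := .c 3 v0 (.c 4 v0 (.c 5 v1 (.c 9 v1 .e)))
noncomputable def q217 : Tr := .c 3 v132 (.c 5 v12 (.c 9 v12 .e))
noncomputable def r146 : Tr := .c 1 q216 (.c 2 q217 (.c 7 q172 (.c 8 q213 (.c 9 q214 .e))))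
noncomputable def r147 : Tr := .c 0 q1 (.c 1 q216 (.c 6 q3 (.c 7 q172 (.c 8 q213 (.c 9 q214 .e)))))
noncomputable def q218 : Tr := .c 3 v5 (.c 4 v5 (.c 5 v6 (.c 9 v6 .e)))
noncomputable def q219 : Tr := .c 3 v134 (.c 5 v6 (.c 9 v6 .e))
noncomputable def q220 : Tr := .c 3 v5 (.c 4 v5 (.c 5 v6 .e))
noncomputable def r148 : Tr := .c 0 q6 (.c 1 q218 (.c 2 q219 (.c 6 q9 (.c 7 q177 (.c 8 q220 .e)))))
noncomputable def q221 : Tr := .c 3 v14 (.c 4 v14 (.c 5 v15 (.c 9 v15 .e)))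
noncomputable def q222 : Tr := .c 3 v2 (.c 5 v16 (.c 9 v16 .e))
noncomputable def q223 : Tr := .c 9 v16 .e
noncomputable def q224 : Tr := .c 3 v14 (.c 4 v14 (.c 5 v15 .e))
noncomputable def q225 : Tr := .c 3 v14 (.c 4 v14 .e)
noncomputable def r149 : Tr := .c 1 q221 (.c 2 q222 (.c 4 q223 (.c 8 q224 (.c 9 q225 .e))))
noncomputable def t34 : Tr := .c 0 r144 (.c 2 r145 (.c 3 r146 (.c 4 r147 (.c 5 r148 (.c 6 r149 .e)))))
noncomputable def q226 : Tr := .c 3 v3 (.c 5 v4 (.c 9 v4 .e))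
noncomputable def q227 : Tr := .c 3 v0 (.c 5 v1 .e)
noncomputable def q228 : Tr := .c 3 v0 .e
noncomputable def r150 : Tr := .c 4 q212 (.c 7 q226 (.c 8 q227 (.c 9 q228 .e)))
noncomputable def q229 : Tr := .c 5 v32 (.c 9 v32 .e)
noncomputable def r151 : Tr := .c 3 q212 (.c 4 q212 (.c 6 q229 (.c 9 q228 .e)))
noncomputable def r152 : Tr := .c 3 q215 (.c 6 q39 (.c 7 q226 (.c 8 q227 (.c 9 q228 .e))))
noncomputable def q230 : Tr := .c 3 v0 (.c 5 v1 (.c 9 v1 .e))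
noncomputable def r153 : Tr := .c 1 q230 (.c 2 q217 (.c 7 q226 (.c 8 q227 (.c 9 q228 .e))))
noncomputable def r154 : Tr := .c 0 q43 (.c 1 q230 (.c 6 q39 (.c 7 q226 (.c 8 q227 (.c 9 q228 .e)))))
noncomputable def q231 : Tr := .c 3 v14 (.c 5 v15 (.c 9 v15 .e))
noncomputable def q232 : Tr := .c 3 v14 (.c 5 v15 .e)
noncomputable def q233 : Tr := .c 3 v14 .e
noncomputable def r155 : Tr := .c 1 q231 (.c 2 q222 (.c 4 q223 (.c 8 q232 (.c 9 q233 .e))))
noncomputable def q234 : Tr := .c 5 v16 (.c 9 v16 .e)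
noncomputable def r156 : Tr := .c 0 q234 (.c 2 q222 (.c 3 q223 (.c 4 q223 (.c 9 q233 .e))))
noncomputable def t35 : Tr := .c 0 r150 (.c 1 r151 (.c 2 r152 (.c 3 r153 (.c 4 r154 (.c 6 r155 (.c 7 r156 .e))))))
noncomputable def r157 : Tr := .c 0 q1 (.c 1 q170 (.c 6 q3 (.c 7 q172 (.c 8 q173 .e))))
noncomputable def q235 : Tr := .c 4 v2 (.c 5 v10 (.c 9 v10 .e))
noncomputable def v152 : Tr := .l 0x2cb2cb2cb2cb2cb28b20b28a
noncomputable def v153 : Tr := .l 0x2cb2cb2cb2cb2cb2cb28b2cb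
noncomputable def q236 : Tr := .c 3 v152 (.c 5 v10 (.c 6 v153 (.c 9 v10 .e)))
noncomputable def q237 : Tr := .c 9 v10 .e
noncomputable def q238 : Tr := .c 6 v153 (.c 9 v10 .e)
noncomputable def r158 : Tr := .c 0 q235 (.c 2 q236 (.c 3 q237 (.c 4 q238 .e)))
noncomputable def r159 : Tr := .c 0 q6 (.c 2 q176 (.c 3 q185 (.c 4 q186 (.c 6 q9 .e))))
noncomputable def t36 : Tr := .c 4 r157 (.c 5 r129 (.c 7 r158 (.c 8 r159 (.c 9 r131 .e))))
noncomputable def r160 : Tr := .c 1 q170 (.c 2 q171 (.c 7 q172 (.c 8 q173 .e)))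
noncomputable def r161 : Tr := .c 1 q179 (.c 2 q180 (.c 4 q181 (.c 8 q183 .e)))
noncomputable def t37 : Tr := .c 3 r160 (.c 4 r157 (.c 5 r129 (.c 6 r161 (.c 9 r131 .e))))
noncomputable def r162 : Tr := .c 4 q211 (.c 6 q21 .e)
noncomputable def r163 : Tr := .c 6 q23 (.c 7 q204 (.c 8 q205 .e))
noncomputable def r164 : Tr := .c 0 q24 (.c 1 q205 (.c 6 q23 (.c 7 q204 (.c 8 q205 .e))))
noncomputable def r165 : Tr := .c 0 q27 (.c 2 q209 (.c 4 q211 (.c 6 q21 .e)))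
noncomputable def t38 : Tr := .c 1 r162 (.c 2 r163 (.c 4 r164 (.c 5 r142 (.c 8 r165 (.c 9 r143 .e)))))
noncomputable def r166 : Tr := .c 4 q202 (.c 7 q204 (.c 8 q205 .e))
noncomputable def r167 : Tr := .c 1 q205 (.c 2 q207 (.c 7 q204 (.c 8 q205 .e)))
noncomputable def t39 : Tr := .c 0 r166 (.c 2 r163 (.c 3 r167 (.c 4 r164 (.c 5 r142 (.c 9 r143 .e)))))
noncomputable def r168 : Tr := .c 4 q212 (.c 7 q172 (.c 8 q213 .e))
noncomputable def r169 : Tr := .c 3 q215 (.c 6 q3 (.c 7 q172 (.c 8 q213 .e)))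
noncomputable def r170 : Tr := .c 1 q216 (.c 2 q217 (.c 7 q172 (.c 8 q213 .e)))
noncomputable def r171 : Tr := .c 0 q1 (.c 1 q216 (.c 6 q3 (.c 7 q172 (.c 8 q213 .e))))
noncomputable def r172 : Tr := .c 1 q221 (.c 2 q222 (.c 4 q223 (.c 8 q224 .e)))
noncomputable def t40 : Tr := .c 0 r168 (.c 2 r169 (.c 3 r170 (.c 4 r171 (.c 5 r148 (.c 6 r172 .e)))))
noncomputable def r173 : Tr := .c 4 q212 (.c 7 q226 (.c 8 q227 .e))
noncomputable def r174 : Tr := .c 3 q212 (.c 4 q212 (.c 6 q229 .e))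
noncomputable def r175 : Tr := .c 3 q215 (.c 6 q39 (.c 7 q226 (.c 8 q227 .e)))
noncomputable def r176 : Tr := .c 1 q230 (.c 2 q217 (.c 7 q226 (.c 8 q227 .e)))
noncomputable def r177 : Tr := .c 0 q43 (.c 1 q230 (.c 6 q39 (.c 7 q226 (.c 8 q227 .e))))
noncomputable def r178 : Tr := .c 1 q231 (.c 2 q222 (.c 4 q223 (.c 8 q232 .e)))
noncomputable def r179 : Tr := .c 0 q234 (.c 2 q222 (.c 3 q223 (.c 4 q223 .e)))
noncomputable def t41 : Tr := .c 0 r173 (.c 1 r174 (.c 2 r175 (.c 3 r176 (.c 4 r177 (.c 6 r178 (.c 7 r179 .e))))))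
noncomputable def q239 : Tr := .c 3 v33 (.c 4 v33 (.c 5 v34 (.c 6 v52 (.c 9 v34 .e))))
noncomputable def q240 : Tr := .c 3 v36 (.c 4 v36 (.c 5 v37 (.c 9 v37 .e)))
noncomputable def q241 : Tr := .c 3 v33 (.c 4 v33 (.c 5 v34 (.c 6 v52 .e)))
noncomputable def q242 : Tr := .c 3 v33 (.c 4 v33 (.c 6 v52 .e))
noncomputable def r180 : Tr := .c 0 q48 (.c 1 q239 (.c 6 q50 (.c 7 q240 (.c 8 q241 (.c 9 q242 .e)))))
noncomputable def v154 : Tr := .l 0x2872872872052ca2ca2ca2c8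
noncomputable def q243 : Tr := .c 3 v39 (.c 4 v39 (.c 5 v40 (.c 6 v154 (.c 9 v40 .e))))
noncomputable def q244 : Tr := .c 3 v42 (.c 4 v42 (.c 5 v43 (.c 9 v43 .e)))
noncomputable def q245 : Tr := .c 3 v39 (.c 4 v39 (.c 5 v40 (.c 6 v154 .e)))
noncomputable def r181 : Tr := .c 0 q54 (.c 1 q243 (.c 6 q56 (.c 7 q244 (.c 8 q245 .e))))
noncomputable def q246 : Tr := .c 4 v44 (.c 5 v45 (.c 9 v45 .e))
noncomputable def q247 : Tr := .c 9 v45 .e
noncomputable def v155 : Tr := .l 0x2872c92872052ca2cb2ca2c8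
noncomputable def q248 : Tr := .c 6 v155 .e
noncomputable def q249 : Tr := .c 3 v49 (.c 4 v49 (.c 6 v155 .e))
noncomputable def r182 : Tr := .c 0 q246 (.c 3 q247 (.c 5 q248 (.c 9 q249 .e)))
noncomputable def q250 : Tr := .c 9 v40 .e
noncomputable def v156 : Tr := .l 0x2052872c92472c82ca2cb2c9
noncomputable def q251 : Tr := .c 6 v156 .e
noncomputable def r183 : Tr := .c 0 q54 (.c 3 q250 (.c 5 q251 (.c 6 q56 .e)))
noncomputable def r184 : Tr := .c 0 q54 (.c 1 q243 (.c 3 q250 (.c 6 q56 (.c 7 q244 .e))))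
noncomputable def t42 : Tr := .c 4 r180 (.c 5 r181 (.c 7 r182 (.c 8 r183 (.c 9 r184 .e))))
noncomputable def r185 : Tr := .c 1 q239 (.c 7 q240 (.c 8 q241 (.c 9 q242 .e)))
noncomputable def v157 : Tr := .l 0x2462c82461c42c92cb2c9287
noncomputable def q252 : Tr := .c 3 v52 (.c 4 v52 (.c 5 v53 (.c 6 v157 (.c 9 v53 .e))))
noncomputable def q253 : Tr := .c 6 v157 .e
noncomputable def q254 : Tr := .c 3 v52 (.c 4 v52 (.c 5 v53 (.c 6 v157 .e)))
noncomputable def q255 : Tr := .c 3 v52 (.c 4 v52 (.c 6 v157 .e))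
noncomputable def r186 : Tr := .c 1 q252 (.c 5 q253 (.c 8 q254 (.c 9 q255 .e)))
noncomputable def t43 : Tr := .c 3 r185 (.c 4 r180 (.c 5 r181 (.c 6 r186 (.c 9 r184 .e))))
noncomputable def q256 : Tr := .c 3 v56 (.c 4 v56 (.c 6 v49 .e))
noncomputable def q257 : Tr := .c 3 v57 (.c 4 v57 .e)
noncomputable def r187 : Tr := .c 1 q256 (.c 7 q257 (.c 8 q256 (.c 9 q256 .e)))
noncomputable def q258 : Tr := .c 3 v39 (.c 4 v39 (.c 6 v154 .e))
noncomputable def q259 : Tr := .c 3 v42 (.c 4 v42 .e)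
noncomputable def r188 : Tr := .c 0 q72 (.c 1 q258 (.c 6 q74 (.c 7 q259 (.c 8 q258 .e))))
noncomputable def r189 : Tr := .c 1 q249 (.c 5 q248 (.c 8 q249 (.c 9 q249 .e)))
noncomputable def q260 : Tr := .c 4 v44 .e
noncomputable def r190 : Tr := .c 0 q260 (.c 5 q248 (.c 9 q249 .e))
noncomputable def r191 : Tr := .c 0 q72 (.c 5 q251 (.c 6 q74 .e))
noncomputable def r192 : Tr := .c 0 q72 (.c 1 q258 (.c 6 q74 (.c 7 q259 .e)))
noncomputable def t44 : Tr := .c 3 r187 (.c 5 r188 (.c 6 r189 (.c 7 r190 (.c 8 r191 (.c 9 r192 .e)))))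
noncomputable def q261 : Tr := .c 6 v115 .e
noncomputable def q262 : Tr := .c 3 v63 (.c 4 v63 (.c 6 v115 .e))
noncomputable def r193 : Tr := .c 5 q261 (.c 6 q81 (.c 9 q262 .e))
noncomputable def q263 : Tr := .c 6 v120 .e
noncomputable def q264 : Tr := .c 3 v66 (.c 4 v66 (.c 5 v67 .e))
noncomputable def q265 : Tr := .c 3 v68 (.c 4 v68 (.c 5 v69 (.c 6 v120 .e)))
noncomputable def q266 : Tr := .c 3 v68 (.c 4 v68 (.c 6 v120 .e))
noncomputable def r194 : Tr := .c 5 q263 (.c 6 q85 (.c 7 q264 (.c 8 q265 (.c 9 q266 .e))))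
noncomputable def r195 : Tr := .c 0 q86 (.c 1 q265 (.c 6 q85 (.c 7 q264 (.c 8 q265 (.c 9 q266 .e)))))
noncomputable def v158 : Tr := .l 0x2052052872872c82c82ca2ca
noncomputable def q267 : Tr := .c 3 v71 (.c 4 v71 (.c 5 v72 (.c 6 v158 .e)))
noncomputable def q268 : Tr := .c 3 v61 (.c 4 v61 (.c 5 v62 .e))
noncomputable def r196 : Tr := .c 0 q90 (.c 1 q267 (.c 6 q81 (.c 7 q268 (.c 8 q267 .e))))
noncomputable def r197 : Tr := .c 0 q90 (.c 5 q261 (.c 6 q81 .e))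
noncomputable def r198 : Tr := .c 0 q90 (.c 1 q267 (.c 6 q81 (.c 7 q268 .e)))
noncomputable def t45 : Tr := .c 1 r193 (.c 2 r194 (.c 4 r195 (.c 5 r196 (.c 8 r197 (.c 9 r198 .e)))))
noncomputable def r199 : Tr := .c 5 q263 (.c 7 q264 (.c 8 q265 (.c 9 q266 .e)))
noncomputable def r200 : Tr := .c 1 q265 (.c 7 q264 (.c 8 q265 (.c 9 q266 .e)))
noncomputable def t46 : Tr := .c 0 r199 (.c 2 r194 (.c 3 r200 (.c 4 r195 (.c 5 r196 (.c 9 r198 .e)))))
noncomputable def q269 : Tr := .c 3 v33 (.c 4 v33 (.c 5 v34 .e))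
noncomputable def q270 : Tr := .c 3 v33 (.c 4 v33 .e)
noncomputable def r201 : Tr := .c 7 q240 (.c 8 q269 (.c 9 q270 .e))
noncomputable def q271 : Tr := .c 9 v74 .e
noncomputable def r202 : Tr := .c 3 q271 (.c 6 q50 (.c 7 q240 (.c 8 q269 (.c 9 q270 .e))))
noncomputable def q272 : Tr := .c 3 v33 (.c 4 v33 (.c 5 v34 (.c 9 v34 .e)))
noncomputable def r203 : Tr := .c 1 q272 (.c 7 q240 (.c 8 q269 (.c 9 q270 .e)))
noncomputable def r204 : Tr := .c 0 q48 (.c 1 q272 (.c 6 q50 (.c 7 q240 (.c 8 q269 (.c 9 q270 .e)))))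
noncomputable def q273 : Tr := .c 3 v39 (.c 4 v39 (.c 5 v40 (.c 9 v40 .e)))
noncomputable def q274 : Tr := .c 3 v39 (.c 4 v39 (.c 5 v40 .e))
noncomputable def r205 : Tr := .c 0 q54 (.c 1 q273 (.c 6 q56 (.c 7 q244 (.c 8 q274 .e))))
noncomputable def q275 : Tr := .c 3 v52 (.c 4 v52 (.c 5 v53 (.c 9 v53 .e)))
noncomputable def q276 : Tr := .c 3 v52 (.c 4 v52 (.c 5 v53 .e))
noncomputable def q277 : Tr := .c 3 v52 (.c 4 v52 .e)
noncomputable def r206 : Tr := .c 1 q275 (.c 8 q276 (.c 9 q277 .e))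
noncomputable def t47 : Tr := .c 0 r201 (.c 2 r202 (.c 3 r203 (.c 4 r204 (.c 5 r205 (.c 6 r206 .e)))))
noncomputable def v159 : Tr := .l 0x2c92872052872461c41421c4
noncomputable def q278 : Tr := .c 3 v159 (.c 4 v159 (.c 5 v31 (.c 9 v31 .e)))
noncomputable def r207 : Tr := .c 1 q179 (.c 2 q180 (.c 7 q278 .e))
noncomputable def q279 : Tr := .c 4 v159 (.c 5 v31 (.c 9 v31 .e))
noncomputable def r208 : Tr := .c 0 q16 (.c 1 q179 (.c 6 q279 (.c 7 q278 .e)))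
noncomputable def v160 : Tr := .l 0x28b28b28b20b1ca1ca1ca148
noncomputable def q280 : Tr := .c 4 v133 (.c 5 v160 (.c 9 v160 .e))
noncomputable def v161 : Tr := .l 0x2cb2cb2cb28a2c92c92c9287
noncomputable def q281 : Tr := .c 3 v133 (.c 4 v133 (.c 5 v160 (.c 6 v161 (.c 9 v160 .e))))
noncomputable def v162 : Tr := .l 0x2cb2cb2cb24b2ca2ca2ca288
noncomputable def q282 : Tr := .c 3 v135 (.c 5 v160 (.c 6 v162 (.c 9 v160 .e)))
noncomputable def v163 : Tr := .l 0x2ca2c82c82ca287205205287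
noncomputable def v164 : Tr := .l 0x28b20b20b28b1ca1481481ca
noncomputable def q283 : Tr := .c 4 v163 (.c 5 v164 (.c 9 v164 .e))
noncomputable def q284 : Tr := .c 3 v163 (.c 4 v163 (.c 5 v164 (.c 9 v164 .e)))
noncomputable def r209 : Tr := .c 0 q280 (.c 1 q281 (.c 2 q282 (.c 6 q283 (.c 7 q284 .e))))
noncomputable def v165 : Tr := .l 0x24b2cb24b1ca18920b189107
noncomputable def q285 : Tr := .c 3 v136 (.c 4 v136 (.c 5 v165 (.c 6 v143 (.c 9 v165 .e))))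
noncomputable def v166 : Tr := .l 0x28b2cb28b20b1ca24b1ca148
noncomputable def v167 : Tr := .l 0x2cb2cb2cb2ca2c92cb2c9247
noncomputable def q286 : Tr := .c 3 v100 (.c 5 v166 (.c 6 v167 (.c 9 v166 .e)))
noncomputable def q287 : Tr := .c 6 v167 (.c 9 v166 .e)
noncomputable def r210 : Tr := .c 1 q285 (.c 2 q286 (.c 4 q287 (.c 5 q197 .e)))
noncomputable def q288 : Tr := .c 9 v160 .e
noncomputable def q289 : Tr := .c 6 v162 (.c 9 v160 .e)
noncomputable def r211 : Tr := .c 0 q280 (.c 1 q281 (.c 2 q282 (.c 3 q288 (.c 4 q289 (.c 6 q283 (.c 7 q284 .e))))))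
noncomputable def t48 : Tr := .c 3 r207 (.c 4 r208 (.c 5 r209 (.c 6 r210 (.c 9 r211 .e))))
noncomputable def q290 : Tr := .c 3 v76 (.c 4 v76 .e)
noncomputable def r212 : Tr := .c 1 q195 (.c 2 q196 (.c 7 q290 .e))
noncomputable def q291 : Tr := .c 4 v139 .e
noncomputable def v168 : Tr := .l 0x2cb2cb2cb24a2ca2ca2ca2c8
noncomputable def q292 : Tr := .c 3 v139 (.c 4 v139 (.c 6 v168 .e))
noncomputable def v169 : Tr := .l 0x28b28b28b20b2cb2ca2cb2c9
noncomputable def q293 : Tr := .c 3 v141 (.c 6 v169 .e)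
noncomputable def v170 : Tr := .l 0x2ca2c82c82ca2c82462462c8
noncomputable def q294 : Tr := .c 4 v170 .e
noncomputable def q295 : Tr := .c 3 v170 (.c 4 v170 .e)
noncomputable def r213 : Tr := .c 0 q291 (.c 1 q292 (.c 2 q293 (.c 6 q294 (.c 7 q295 .e))))
noncomputable def v171 : Tr := .l 0x2cb2cb2cb2c92c92cb2c9287
noncomputable def q296 : Tr := .c 3 v100 (.c 4 v100 (.c 6 v171 .e))
noncomputable def v172 : Tr := .l 0x2cb2cb2cb28a2ca2cb2ca288
noncomputable def q297 : Tr := .c 3 v143 (.c 6 v172 .e)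
noncomputable def q298 : Tr := .c 6 v172 .e
noncomputable def q299 : Tr := .c 6 v171 .e
noncomputable def r214 : Tr := .c 1 q296 (.c 2 q297 (.c 4 q298 (.c 5 q299 .e)))
noncomputable def v173 : Tr := .l 0x2ca2cb2cb2cb2cb2cb2cb2cb
noncomputable def q300 : Tr := .c 4 v173 .e
noncomputable def r215 : Tr := .c 0 q300 (.c 2 q297 (.c 4 q298 (.c 5 q299 .e)))
noncomputable def q301 : Tr := .c 6 v169 .e
noncomputable def v174 : Tr := .l 0x2c92cb2cb2ca2c92cb2c9287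
noncomputable def q302 : Tr := .c 6 v174 .e
noncomputable def r216 : Tr := .c 0 q291 (.c 2 q293 (.c 4 q301 (.c 5 q302 (.c 6 q294 .e))))
noncomputable def r217 : Tr := .c 0 q291 (.c 1 q292 (.c 2 q293 (.c 4 q301 (.c 6 q294 (.c 7 q295 .e)))))
noncomputable def t49 : Tr := .c 3 r212 (.c 5 r213 (.c 6 r214 (.c 7 r215 (.c 8 r216 (.c 9 r217 .e)))))
noncomputable def q303 : Tr := .c 3 v146 (.c 4 v146 .e)
noncomputable def r218 : Tr := .c 4 q301 (.c 5 q302 (.c 7 q303 .e))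
noncomputable def r219 : Tr := .c 4 q301 (.c 5 q302 (.c 6 q294 .e))
noncomputable def t50 : Tr := .c 0 r218 (.c 1 r219 (.c 6 r214 (.c 7 r215 (.c 8 r216 (.c 9 r217 .e)))))
noncomputable def v175 : Tr := .l 0x2cb2cb2cb2ca2c92cb249287
noncomputable def v176 : Tr := .l 0x2cb28b20b24b24b1ca1481c9
noncomputable def q304 : Tr := .c 6 v175 (.c 9 v176 .e)
noncomputable def q305 : Tr := .c 3 v159 (.c 5 v31 (.c 9 v31 .e))
noncomputable def r220 : Tr := .c 4 q304 (.c 5 q182 (.c 7 q305 .e))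
noncomputable def q306 : Tr := .c 9 v176 .e
noncomputable def q307 : Tr := .c 5 v30 (.c 9 v30 .e)
noncomputable def r221 : Tr := .c 3 q306 (.c 4 q304 (.c 5 q182 (.c 6 q307 .e)))
noncomputable def v177 : Tr := .l 0x2cb24b1ca24b20b189107189
noncomputable def q308 : Tr := .c 9 v177 .e
noncomputable def q309 : Tr := .c 5 v31 (.c 9 v31 .e)
noncomputable def r222 : Tr := .c 3 q308 (.c 5 q182 (.c 6 q309 (.c 7 q305 .e)))
noncomputable def q310 : Tr := .c 3 v136 (.c 5 v165 (.c 6 v143 (.c 9 v165 .e)))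
noncomputable def r223 : Tr := .c 1 q310 (.c 2 q286 (.c 4 q287 (.c 5 q197 .e)))
noncomputable def q311 : Tr := .c 5 v166 (.c 9 v166 .e)
noncomputable def q312 : Tr := .c 9 v166 .e
noncomputable def r224 : Tr := .c 0 q311 (.c 2 q286 (.c 3 q312 (.c 4 q287 (.c 5 q197 .e))))
noncomputable def q313 : Tr := .c 5 v176 (.c 9 v176 .e)
noncomputable def v178 : Tr := .l 0x2cb2cb2cb2cb2cb28b20b289
noncomputable def q314 : Tr := .c 3 v178 (.c 5 v176 (.c 6 v175 (.c 9 v176 .e)))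
noncomputable def r225 : Tr := .c 0 q313 (.c 2 q314 (.c 3 q306 (.c 4 q304 (.c 5 q182 (.c 6 q307 .e)))))
noncomputable def t51 : Tr := .c 0 r220 (.c 1 r221 (.c 2 r222 (.c 6 r223 (.c 7 r224 (.c 8 r225 .e)))))
noncomputable def r226 : Tr := .c 4 q306 (.c 7 q278 .e)
noncomputable def r227 : Tr := .c 3 q308 (.c 6 q279 (.c 7 q278 .e))
noncomputable def r228 : Tr := .c 1 q221 (.c 2 q222 (.c 7 q278 .e))
noncomputable def r229 : Tr := .c 0 q16 (.c 1 q221 (.c 6 q279 (.c 7 q278 .e)))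
noncomputable def q315 : Tr := .c 3 v133 (.c 4 v133 (.c 5 v160 (.c 9 v160 .e)))
noncomputable def q316 : Tr := .c 3 v135 (.c 5 v160 (.c 9 v160 .e))
noncomputable def r230 : Tr := .c 0 q280 (.c 1 q315 (.c 2 q316 (.c 6 q283 (.c 7 q284 .e))))
noncomputable def q317 : Tr := .c 3 v136 (.c 4 v136 (.c 5 v165 (.c 9 v165 .e)))
noncomputable def q318 : Tr := .c 3 v100 (.c 5 v166 (.c 9 v166 .e))
noncomputable def r231 : Tr := .c 1 q317 (.c 2 q318 (.c 4 q312 .e))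
noncomputable def t52 : Tr := .c 0 r226 (.c 2 r227 (.c 3 r228 (.c 4 r229 (.c 5 r230 (.c 6 r231 .e)))))
noncomputable def r232 : Tr := .c 4 q306 (.c 7 q305 .e)
noncomputable def r233 : Tr := .c 3 q306 (.c 4 q306 (.c 6 q307 .e))
noncomputable def r234 : Tr := .c 3 q308 (.c 6 q309 (.c 7 q305 .e))
noncomputable def r235 : Tr := .c 1 q231 (.c 2 q222 (.c 7 q305 .e))
noncomputable def r236 : Tr := .c 0 q45 (.c 1 q231 (.c 6 q309 (.c 7 q305 .e)))
noncomputable def q319 : Tr := .c 3 v136 (.c 5 v165 (.c 9 v165 .e))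
noncomputable def r237 : Tr := .c 1 q319 (.c 2 q318 (.c 4 q312 .e))
noncomputable def r238 : Tr := .c 0 q311 (.c 2 q318 (.c 3 q312 (.c 4 q312 .e)))
noncomputable def t53 : Tr := .c 0 r232 (.c 1 r233 (.c 2 r234 (.c 3 r235 (.c 4 r236 (.c 6 r237 (.c 7 r238 .e))))))
noncomputable def r239 : Tr := .c 0 q48 (.c 1 q239 (.c 8 q241 (.c 9 q242 .e)))
noncomputable def r240 : Tr := .c 0 q54 (.c 1 q243 (.c 8 q245 .e))
noncomputable def r241 : Tr := .c 0 q54 (.c 3 q250 (.c 5 q251 .e))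
noncomputable def r242 : Tr := .c 0 q54 (.c 1 q243 (.c 3 q250 .e))
noncomputable def t54 : Tr := .c 4 r239 (.c 5 r240 (.c 7 r182 (.c 8 r241 (.c 9 r242 .e))))
noncomputable def r243 : Tr := .c 1 q239 (.c 8 q241 (.c 9 q242 .e))
noncomputable def t55 : Tr := .c 3 r243 (.c 4 r239 (.c 5 r240 (.c 6 r186 (.c 9 r242 .e))))
noncomputable def r244 : Tr := .c 1 q256 (.c 8 q256 (.c 9 q256 .e))
noncomputable def r245 : Tr := .c 0 q72 (.c 1 q258 (.c 8 q258 .e))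
noncomputable def r246 : Tr := .c 0 q72 (.c 5 q251 .e)
noncomputable def r247 : Tr := .c 0 q72 (.c 1 q258 .e)
noncomputable def t56 : Tr := .c 3 r244 (.c 5 r245 (.c 6 r189 (.c 7 r190 (.c 8 r246 (.c 9 r247 .e)))))
noncomputable def q320 : Tr := .c 3 v115 (.c 4 v115 (.c 6 v156 .e))
noncomputable def r248 : Tr := .c 3 q250 (.c 5 q251 (.c 9 q320 .e))
noncomputable def q321 : Tr := .c 9 v117 .e
noncomputable def v179 : Tr := .l 0x1c42462c82462872c92cb2c9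
noncomputable def q322 : Tr := .c 6 v179 .e
noncomputable def q323 : Tr := .c 3 v120 (.c 4 v120 (.c 5 v121 (.c 6 v179 .e)))
noncomputable def q324 : Tr := .c 3 v120 (.c 4 v120 (.c 6 v179 .e))
noncomputable def r249 : Tr := .c 3 q321 (.c 5 q322 (.c 8 q323 (.c 9 q324 .e)))
noncomputable def t57 : Tr := .c 1 r248 (.c 2 r249 (.c 7 r182 (.c 8 r241 (.c 9 r242 .e))))
noncomputable def r250 : Tr := .c 5 q251 (.c 8 q320 (.c 9 q320 .e))
noncomputable def r251 : Tr := .c 5 q251 (.c 9 q320 .e)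
noncomputable def t58 : Tr := .c 0 r250 (.c 1 r251 (.c 6 r189 (.c 7 r190 (.c 8 r246 (.c 9 r247 .e)))))
noncomputable def r252 : Tr := .c 5 q261 (.c 9 q262 .e)
noncomputable def r253 : Tr := .c 5 q263 (.c 8 q265 (.c 9 q266 .e))
noncomputable def r254 : Tr := .c 0 q86 (.c 1 q265 (.c 8 q265 (.c 9 q266 .e)))
noncomputable def r255 : Tr := .c 0 q90 (.c 1 q267 (.c 8 q267 .e))
noncomputable def r256 : Tr := .c 0 q90 (.c 5 q261 .e)
noncomputable def r257 : Tr := .c 0 q90 (.c 1 q267 .e)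
noncomputable def t59 : Tr := .c 1 r252 (.c 2 r253 (.c 4 r254 (.c 5 r255 (.c 8 r256 (.c 9 r257 .e)))))
noncomputable def r258 : Tr := .c 1 q265 (.c 8 q265 (.c 9 q266 .e))
noncomputable def t60 : Tr := .c 0 r253 (.c 2 r253 (.c 3 r258 (.c 4 r254 (.c 5 r255 (.c 9 r257 .e)))))
noncomputable def v180 : Tr := .l 0x206288206184183205183101
noncomputable def v181 : Tr := .l 0x1481ca1480c60c61480c6044
noncomputable def v182 : Tr := .l 0x2882ca288206205287205183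
noncomputable def q325 : Tr := .c 3 v180 (.c 5 v181 (.c 6 v182 (.c 9 v181 .e)))
noncomputable def v183 : Tr := .l 0x2472c92471c51c42461c4142
noncomputable def v184 : Tr := .l 0x18920b189107107189107085
noncomputable def v185 : Tr := .l 0x2c92cb2c92472462c82461c4
noncomputable def q326 : Tr := .c 3 v183 (.c 5 v184 (.c 6 v185 (.c 7 v185 (.c 8 v184 (.c 9 v184 .e)))))
noncomputable def v186 : Tr := .l 0x288206184206205183101183
noncomputable def v187 : Tr := .l 0x1ca1480c61481480c60440c6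
noncomputable def q327 : Tr := .c 3 v186 (.c 5 v187 (.c 9 v187 .e))
noncomputable def q328 : Tr := .c 3 v180 (.c 5 v181 (.c 6 v182 .e))
noncomputable def q329 : Tr := .c 3 v180 (.c 6 v182 (.c 7 v182 .e))
noncomputable def r259 : Tr := .c 1 q325 (.c 2 q326 (.c 7 q327 (.c 8 q328 (.c 9 q329 .e))))
noncomputable def v188 : Tr := .l 0x2cb2cb2cb2ca2cb2cb2cb2ca
noncomputable def q330 : Tr := .c 5 v181 (.c 7 v188 (.c 8 v181 (.c 9 v181 .e)))
noncomputable def q331 : Tr := .c 5 v187 (.c 8 v187 (.c 9 v187 .e))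
noncomputable def r260 : Tr := .c 0 q330 (.c 1 q325 (.c 6 q331 (.c 7 q327 (.c 8 q328 (.c 9 q329 .e)))))
noncomputable def v189 : Tr := .l 0x2ca2cb2ca2882872c9287205
noncomputable def q332 : Tr := .c 3 v182 (.c 5 v111 (.c 6 v189 (.c 9 v111 .e)))
noncomputable def q333 : Tr := .c 3 v185 (.c 5 v112 (.c 6 v143 (.c 7 v143 (.c 8 v112 (.c 9 v112 .e)))))
noncomputable def q334 : Tr := .c 6 v143 (.c 7 v143 (.c 8 v112 (.c 9 v112 .e)))
noncomputable def v190 : Tr := .l 0x2cb2cb28b24a24b28b20b1c9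
noncomputable def q335 : Tr := .c 6 v189 (.c 7 v189 (.c 8 v190 .e))
noncomputable def q336 : Tr := .c 3 v182 (.c 5 v111 (.c 6 v189 .e))
noncomputable def q337 : Tr := .c 3 v182 (.c 6 v189 (.c 7 v189 .e))
noncomputable def r261 : Tr := .c 1 q332 (.c 2 q333 (.c 4 q334 (.c 5 q335 (.c 8 q336 (.c 9 q337 .e)))))
noncomputable def t61 : Tr := .c 3 r259 (.c 4 r260 (.c 6 r261 .e))
noncomputable def q338 : Tr := .c 3 v183 (.c 6 v185 .e)
noncomputable def q339 : Tr := .c 3 v182 (.c 6 v189 (.c 7 v189 (.c 8 v111 .e)))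
noncomputable def v191 : Tr := .l 0x2c92471c52472461c41421c4
noncomputable def q340 : Tr := .c 3 v191 .e
noncomputable def q341 : Tr := .c 3 v183 (.c 6 v185 (.c 7 v185 .e))
noncomputable def r262 : Tr := .c 1 q338 (.c 2 q339 (.c 7 q340 (.c 8 q338 (.c 9 q341 .e))))
noncomputable def q342 : Tr := .c 3 v185 (.c 6 v143 .e)
noncomputable def q343 : Tr := .c 3 v189 (.c 6 v89 (.c 7 v89 (.c 8 v90 .e)))
noncomputable def q344 : Tr := .c 6 v89 (.c 7 v89 (.c 8 v90 .e))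
noncomputable def v192 : Tr := .l 0x2cb2cb2cb28b28b2cb24b20a
noncomputable def q345 : Tr := .c 6 v143 (.c 7 v143 (.c 8 v192 .e))
noncomputable def q346 : Tr := .c 3 v185 (.c 6 v143 (.c 7 v143 .e))
noncomputable def r263 : Tr := .c 1 q342 (.c 2 q343 (.c 4 q344 (.c 5 q345 (.c 8 q342 (.c 9 q346 .e)))))
noncomputable def r264 : Tr := .c 0 q114 (.c 2 q343 (.c 3 q114 (.c 4 q344 (.c 5 q345 (.c 9 q346 .e)))))
noncomputable def v193 : Tr := .l 0x28b28b28b20a2ca2c92ca288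
noncomputable def q347 : Tr := .c 7 v193 (.c 8 v114 .e)
noncomputable def v194 : Tr := .l 0x2ca2ca2ca288288287288206
noncomputable def q348 : Tr := .c 3 v194 (.c 6 v193 (.c 7 v193 (.c 8 v114 .e)))
noncomputable def q349 : Tr := .c 6 v193 (.c 7 v193 (.c 8 v114 .e))
noncomputable def v195 : Tr := .l 0x2c92cb2cb2cb2cb2cb2cb2ca
noncomputable def v196 : Tr := .l 0x2cb2cb2cb24b2cb2cb2cb2c9
noncomputable def q350 : Tr := .c 6 v195 (.c 7 v195 (.c 8 v196 .e))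
noncomputable def v197 : Tr := .l 0x20b18918920b2cb24b24b2cb
noncomputable def q351 : Tr := .c 8 v197 .e
noncomputable def r265 : Tr := .c 0 q347 (.c 2 q348 (.c 3 q347 (.c 4 q349 (.c 5 q350 (.c 6 q351 .e)))))
noncomputable def t62 : Tr := .c 3 r262 (.c 6 r263 (.c 7 r264 (.c 8 r265 .e)))
noncomputable def v198 : Tr := .l 0x2cb2cb2cb2cb2cb2ca2cb2cb
noncomputable def q352 : Tr := .c 6 v198 (.c 7 v198 .e)
noncomputable def v199 : Tr := .l 0x2062882ca288183205287205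
noncomputable def q353 : Tr := .c 6 v199 (.c 7 v199 .e)
noncomputable def v200 : Tr := .l 0x206184206288183101183205
noncomputable def v201 : Tr := .l 0x1480c61481ca0c60440c6148
noncomputable def q354 : Tr := .c 3 v200 (.c 5 v201 .e)
noncomputable def v202 : Tr := .l 0x184206288206101183205183
noncomputable def v203 : Tr := .l 0xc61481ca1480440c61480c6
noncomputable def q355 : Tr := .c 3 v202 (.c 5 v203 (.c 6 v199 .e))
noncomputable def q356 : Tr := .c 3 v202 (.c 6 v199 (.c 7 v199 .e))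
noncomputable def r266 : Tr := .c 4 q352 (.c 5 q353 (.c 7 q354 (.c 8 q355 (.c 9 q356 .e))))
noncomputable def v204 : Tr := .l 0x2c92cb2cb2cb2462c82ca2c8
noncomputable def q357 : Tr := .c 7 v204 .e
noncomputable def q358 : Tr := .c 5 v201 .e
noncomputable def r267 : Tr := .c 3 q357 (.c 5 q353 (.c 6 q358 (.c 7 q354 (.c 8 q355 (.c 9 q356 .e)))))
noncomputable def v205 : Tr := .l 0x1c52472c92471421c42461c4
noncomputable def v206 : Tr := .l 0x10718920b189085107189107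
noncomputable def v207 : Tr := .l 0x2472c92cb2c91c42462c8246
noncomputable def q359 : Tr := .c 3 v205 (.c 5 v206 (.c 6 v207 (.c 7 v207 .e)))
noncomputable def r268 : Tr := .c 1 q355 (.c 2 q359 (.c 7 q354 (.c 8 q355 (.c 9 q356 .e))))
noncomputable def v208 : Tr := .l 0x2ca2cb2cb2cb2ca2cb2cb2cb
noncomputable def q360 : Tr := .c 5 v203 (.c 7 v208 .e)
noncomputable def r269 : Tr := .c 0 q360 (.c 1 q355 (.c 6 q358 (.c 7 q354 (.c 8 q355 (.c 9 q356 .e)))))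
noncomputable def t63 : Tr := .c 0 r266 (.c 2 r267 (.c 3 r268 (.c 4 r269 .e)))
noncomputable def q361 : Tr := .c 8 v103 (.c 9 v103 .e)
noncomputable def v209 : Tr := .l 0x2ca28b20a28828920b189207
noncomputable def q362 : Tr := .c 8 v209 .e
noncomputable def q363 : Tr := .c 3 v180 (.c 5 v181 .e)
noncomputable def q364 : Tr := .c 3 v180 .e
noncomputable def r270 : Tr := .c 4 q361 (.c 5 q362 (.c 7 q327 (.c 8 q363 (.c 9 q364 .e))))
noncomputable def q365 : Tr := .c 8 v102 (.c 9 v102 .e)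
noncomputable def r271 : Tr := .c 3 q365 (.c 5 q362 (.c 6 q331 (.c 7 q327 (.c 8 q363 (.c 9 q364 .e)))))
noncomputable def q366 : Tr := .c 3 v180 (.c 5 v181 (.c 9 v181 .e))
noncomputable def q367 : Tr := .c 3 v183 (.c 5 v184 (.c 8 v184 (.c 9 v184 .e)))
noncomputable def r272 : Tr := .c 1 q366 (.c 2 q367 (.c 7 q327 (.c 8 q363 (.c 9 q364 .e))))
noncomputable def q368 : Tr := .c 5 v181 (.c 8 v181 (.c 9 v181 .e))
noncomputable def r273 : Tr := .c 0 q368 (.c 1 q366 (.c 6 q331 (.c 7 q327 (.c 8 q363 (.c 9 q364 .e)))))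
noncomputable def q369 : Tr := .c 3 v182 (.c 5 v111 (.c 9 v111 .e))
noncomputable def q370 : Tr := .c 3 v185 (.c 5 v112 (.c 8 v112 (.c 9 v112 .e)))
noncomputable def q371 : Tr := .c 8 v112 (.c 9 v112 .e)
noncomputable def q372 : Tr := .c 8 v190 .e
noncomputable def q373 : Tr := .c 3 v182 (.c 5 v111 .e)
noncomputable def q374 : Tr := .c 3 v182 .e
noncomputable def r274 : Tr := .c 1 q369 (.c 2 q370 (.c 4 q371 (.c 5 q372 (.c 8 q373 (.c 9 q374 .e)))))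
noncomputable def t64 : Tr := .c 0 r270 (.c 2 r271 (.c 3 r272 (.c 4 r273 (.c 6 r274 .e))))
noncomputable def v210 : Tr := .l 0x20b189107189189107085107
noncomputable def q375 : Tr := .c 5 v210 (.c 8 v210 (.c 9 v210 .e))
noncomputable def r275 : Tr := .c 3 q361 (.c 4 q361 (.c 5 q362 (.c 6 q375 (.c 9 q364 .e))))
noncomputable def r276 : Tr := .c 0 q143 (.c 2 q370 (.c 3 q371 (.c 4 q371 (.c 5 q372 (.c 9 q374 .e)))))
noncomputable def t65 : Tr := .c 0 r270 (.c 1 r275 (.c 2 r271 (.c 3 r272 (.c 4 r273 (.c 6 r274 (.c 7 r276 .e))))))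
noncomputable def q376 : Tr := .c 5 v34 (.c 7 v35 (.c 8 v34 (.c 9 v34 .e)))
noncomputable def v211 : Tr := .l 0x1431c51430c1206288206184
noncomputable def q377 : Tr := .c 3 v211 (.c 5 v34 (.c 6 v38 (.c 9 v34 .e)))
noncomputable def q378 : Tr := .c 5 v37 (.c 8 v37 (.c 9 v37 .e))
noncomputable def v212 : Tr := .l 0x1c51430c1143288206184206
noncomputable def q379 : Tr := .c 3 v212 (.c 5 v37 (.c 9 v37 .e))
noncomputable def q380 : Tr := .c 3 v211 (.c 5 v34 (.c 6 v38 .e))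
noncomputable def q381 : Tr := .c 3 v211 (.c 6 v38 (.c 7 v38 .e))
noncomputable def r277 : Tr := .c 0 q376 (.c 1 q377 (.c 6 q378 (.c 7 q379 (.c 8 q380 (.c 9 q381 .e)))))
noncomputable def q382 : Tr := .c 6 v47 (.c 7 v47 (.c 8 v48 .e))
noncomputable def q383 : Tr := .c 3 v58 (.c 6 v47 (.c 7 v47 .e))
noncomputable def r278 : Tr := .c 0 q149 (.c 3 q59 (.c 5 q382 (.c 9 q383 .e)))
noncomputable def q384 : Tr := .c 6 v50 (.c 7 v50 (.c 8 v51 .e))
noncomputable def q385 : Tr := .c 5 v43 (.c 8 v43 (.c 9 v43 .e))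
noncomputable def r279 : Tr := .c 0 q148 (.c 3 q62 (.c 5 q384 (.c 6 q385 .e)))
noncomputable def t66 : Tr := .c 4 r277 (.c 7 r278 (.c 8 r279 .e))
noncomputable def r280 : Tr := .c 1 q377 (.c 7 q379 (.c 8 q380 (.c 9 q381 .e)))
noncomputable def q386 : Tr := .c 3 v38 (.c 5 v53 (.c 6 v54 (.c 9 v53 .e)))
noncomputable def q387 : Tr := .c 6 v54 (.c 7 v54 (.c 8 v55 .e))
noncomputable def q388 : Tr := .c 3 v38 (.c 5 v53 (.c 6 v54 .e))
noncomputable def q389 : Tr := .c 3 v38 (.c 6 v54 (.c 7 v54 .e))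
noncomputable def r281 : Tr := .c 1 q386 (.c 5 q387 (.c 8 q388 (.c 9 q389 .e)))
noncomputable def t67 : Tr := .c 3 r280 (.c 4 r277 (.c 6 r281 .e))
noncomputable def v213 : Tr := .l 0x1842061841022472c92471c5
noncomputable def q390 : Tr := .c 3 v213 (.c 6 v58 .e)
noncomputable def v214 : Tr := .l 0x2061841021842c92471c5247
noncomputable def q391 : Tr := .c 3 v214 .e
noncomputable def q392 : Tr := .c 3 v213 (.c 6 v58 (.c 7 v58 .e))
noncomputable def r282 : Tr := .c 1 q390 (.c 7 q391 (.c 8 q390 (.c 9 q392 .e)))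
noncomputable def q393 : Tr := .c 3 v58 (.c 6 v47 .e)
noncomputable def r283 : Tr := .c 1 q393 (.c 5 q382 (.c 8 q393 (.c 9 q383 .e)))
noncomputable def r284 : Tr := .c 0 q77 (.c 3 q77 (.c 5 q382 (.c 9 q383 .e)))
noncomputable def q394 : Tr := .c 8 v43 .e
noncomputable def r285 : Tr := .c 0 q78 (.c 3 q78 (.c 5 q384 (.c 6 q394 .e)))
noncomputable def t68 : Tr := .c 3 r282 (.c 6 r283 (.c 7 r284 (.c 8 r285 .e)))
noncomputable def q395 : Tr := .c 6 v60 (.c 7 v60 .e)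
noncomputable def q396 : Tr := .c 5 v62 .e
noncomputable def v215 : Tr := .l 0x1021842061841c52472c9247
noncomputable def q397 : Tr := .c 3 v215 (.c 6 v60 (.c 7 v60 .e))
noncomputable def r286 : Tr := .c 3 q79 (.c 5 q395 (.c 6 q396 (.c 9 q397 .e)))
noncomputable def q398 : Tr := .c 6 v65 (.c 7 v65 .e)
noncomputable def q399 : Tr := .c 5 v67 .e
noncomputable def v216 : Tr := .l 0x1430c11431c5206184206288
noncomputable def q400 : Tr := .c 3 v216 (.c 5 v67 .e)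
noncomputable def v217 : Tr := .l 0xc11431c5143184206288206
noncomputable def q401 : Tr := .c 3 v217 (.c 5 v69 (.c 6 v65 .e))
noncomputable def q402 : Tr := .c 3 v217 (.c 6 v65 (.c 7 v65 .e))
noncomputable def r287 : Tr := .c 3 q83 (.c 5 q398 (.c 6 q399 (.c 7 q400 (.c 8 q401 (.c 9 q402 .e)))))
noncomputable def q403 : Tr := .c 5 v69 (.c 7 v70 .e)
noncomputable def r288 : Tr := .c 0 q403 (.c 1 q401 (.c 6 q399 (.c 7 q400 (.c 8 q401 (.c 9 q402 .e)))))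
noncomputable def r289 : Tr := .c 0 q169 (.c 3 q79 (.c 5 q395 (.c 6 q396 .e)))
noncomputable def t69 : Tr := .c 1 r286 (.c 2 r287 (.c 4 r288 (.c 8 r289 .e)))
noncomputable def r290 : Tr := .c 5 q398 (.c 7 q400 (.c 8 q401 (.c 9 q402 .e)))
noncomputable def r291 : Tr := .c 1 q401 (.c 7 q400 (.c 8 q401 (.c 9 q402 .e)))
noncomputable def t70 : Tr := .c 0 r290 (.c 2 r287 (.c 3 r291 (.c 4 r288 .e)))
noncomputable def q404 : Tr := .c 3 v211 (.c 5 v34 .e)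
noncomputable def q405 : Tr := .c 3 v211 .e
noncomputable def r292 : Tr := .c 5 q91 (.c 7 q379 (.c 8 q404 (.c 9 q405 .e)))
noncomputable def r293 : Tr := .c 3 q93 (.c 5 q91 (.c 6 q378 (.c 7 q379 (.c 8 q404 (.c 9 q405 .e)))))
noncomputable def q406 : Tr := .c 3 v211 (.c 5 v34 (.c 9 v34 .e))
noncomputable def r294 : Tr := .c 1 q406 (.c 7 q379 (.c 8 q404 (.c 9 q405 .e)))
noncomputable def q407 : Tr := .c 5 v34 (.c 8 v34 (.c 9 v34 .e))
noncomputable def r295 : Tr := .c 0 q407 (.c 1 q406 (.c 6 q378 (.c 7 q379 (.c 8 q404 (.c 9 q405 .e)))))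
noncomputable def q408 : Tr := .c 3 v38 (.c 5 v53 (.c 9 v53 .e))
noncomputable def q409 : Tr := .c 3 v38 (.c 5 v53 .e)
noncomputable def q410 : Tr := .c 3 v38 .e
noncomputable def r296 : Tr := .c 1 q408 (.c 5 q96 (.c 8 q409 (.c 9 q410 .e)))
noncomputable def t71 : Tr := .c 0 r292 (.c 2 r293 (.c 3 r294 (.c 4 r295 (.c 6 r296 .e))))
noncomputable def v218 : Tr := .l 0x2ca288206288287205183205
noncomputable def q411 : Tr := .c 3 v218 (.c 5 v102 (.c 9 v102 .e))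
noncomputable def r297 : Tr := .c 1 q332 (.c 2 q333 (.c 7 q411 .e))
noncomputable def q412 : Tr := .c 5 v111 (.c 7 v11 (.c 8 v111 (.c 9 v111 .e)))
noncomputable def r298 : Tr := .c 0 q412 (.c 1 q332 (.c 6 q133 (.c 7 q411 .e)))
noncomputable def v219 : Tr := .l 0x2cb2cb2cb2c92c92cb2c9247
noncomputable def q413 : Tr := .c 3 v189 (.c 5 v106 (.c 6 v219 (.c 9 v106 .e)))
noncomputable def v220 : Tr := .l 0x2cb2cb2cb28a28a2cb28a208
noncomputable def q414 : Tr := .c 3 v143 (.c 5 v107 (.c 6 v220 (.c 7 v220 (.c 8 v107 (.c 9 v107 .e)))))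
noncomputable def q415 : Tr := .c 6 v220 (.c 7 v220 (.c 8 v107 (.c 9 v107 .e)))
noncomputable def q416 : Tr := .c 6 v171 (.c 7 v171 (.c 8 v110 .e))
noncomputable def r299 : Tr := .c 1 q413 (.c 2 q414 (.c 4 q415 (.c 5 q416 .e)))
noncomputable def t72 : Tr := .c 3 r297 (.c 4 r298 (.c 6 r299 .e))
noncomputable def v221 : Tr := .l 0x2cb2c92472c92c82461c4246
noncomputable def q417 : Tr := .c 3 v221 .e
noncomputable def r300 : Tr := .c 1 q342 (.c 2 q343 (.c 7 q417 .e))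
noncomputable def v222 : Tr := .l 0x2ca2cb2ca2882ca2cb2ca288
noncomputable def q418 : Tr := .c 3 v143 (.c 6 v222 .e)
noncomputable def q419 : Tr := .c 3 v89 (.c 6 v84 (.c 7 v84 (.c 8 v83 .e)))
noncomputable def q420 : Tr := .c 6 v84 (.c 7 v84 (.c 8 v83 .e))
noncomputable def q421 : Tr := .c 6 v85 (.c 7 v85 (.c 8 v86 .e))
noncomputable def r301 : Tr := .c 1 q418 (.c 2 q419 (.c 4 q420 (.c 5 q421 .e)))
noncomputable def r302 : Tr := .c 0 q122 (.c 2 q419 (.c 3 q122 (.c 4 q420 (.c 5 q421 .e))))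
noncomputable def q422 : Tr := .c 3 v193 (.c 6 v80 (.c 7 v80 (.c 8 v79 .e)))
noncomputable def q423 : Tr := .c 6 v80 (.c 7 v80 (.c 8 v79 .e))
noncomputable def q424 : Tr := .c 6 v87 (.c 7 v87 (.c 8 v88 .e))
noncomputable def q425 : Tr := .c 8 v82 .e
noncomputable def r303 : Tr := .c 0 q118 (.c 2 q422 (.c 3 q118 (.c 4 q423 (.c 5 q424 (.c 6 q425 .e)))))
noncomputable def t73 : Tr := .c 3 r300 (.c 6 r301 (.c 7 r302 (.c 8 r303 .e)))
noncomputable def q426 : Tr := .c 3 v198 .e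
noncomputable def r304 : Tr := .c 4 q423 (.c 5 q424 (.c 7 q426 .e))
noncomputable def r305 : Tr := .c 3 q118 (.c 4 q423 (.c 5 q424 (.c 6 q425 .e)))
noncomputable def t74 : Tr := .c 0 r304 (.c 1 r305 (.c 6 r301 (.c 7 r302 (.c 8 r303 .e))))
noncomputable def q427 : Tr := .c 6 v98 (.c 7 v98 (.c 8 v99 (.c 9 v99 .e)))
noncomputable def q428 : Tr := .c 6 v100 (.c 7 v100 (.c 8 v101 .e))
noncomputable def r306 : Tr := .c 4 q427 (.c 5 q428 (.c 7 q411 .e))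
noncomputable def r307 : Tr := .c 3 q128 (.c 4 q427 (.c 5 q428 (.c 6 q131 .e)))
noncomputable def r308 : Tr := .c 3 q132 (.c 5 q428 (.c 6 q133 (.c 7 q411 .e)))
noncomputable def q429 : Tr := .c 3 v189 (.c 5 v106 (.c 6 v167 (.c 9 v106 .e)))
noncomputable def q430 : Tr := .c 3 v143 (.c 5 v107 (.c 6 v108 (.c 7 v108 (.c 8 v107 (.c 9 v107 .e)))))
noncomputable def q431 : Tr := .c 6 v108 (.c 7 v108 (.c 8 v107 (.c 9 v107 .e)))
noncomputable def q432 : Tr := .c 6 v109 (.c 7 v109 (.c 8 v110 .e))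
noncomputable def r309 : Tr := .c 1 q429 (.c 2 q430 (.c 4 q431 (.c 5 q432 .e)))
noncomputable def r310 : Tr := .c 0 q135 (.c 2 q430 (.c 3 q136 (.c 4 q431 (.c 5 q432 .e))))
noncomputable def v223 : Tr := .l 0x2cb2cb2cb2cb2cb2cb24b2ca
noncomputable def q433 : Tr := .c 3 v223 (.c 5 v99 (.c 6 v98 (.c 7 v98 (.c 8 v99 (.c 9 v99 .e)))))
noncomputable def r311 : Tr := .c 0 q138 (.c 2 q433 (.c 3 q128 (.c 4 q427 (.c 5 q428 (.c 6 q131 .e)))))
noncomputable def t75 : Tr := .c 0 r306 (.c 1 r307 (.c 2 r308 (.c 6 r309 (.c 7 r310 (.c 8 r311 .e)))))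
noncomputable def r312 : Tr := .c 4 q139 (.c 5 q140 (.c 7 q411 .e))
noncomputable def r313 : Tr := .c 3 q141 (.c 5 q140 (.c 6 q133 (.c 7 q411 .e)))
noncomputable def r314 : Tr := .c 1 q369 (.c 2 q370 (.c 7 q411 .e))
noncomputable def r315 : Tr := .c 0 q144 (.c 1 q369 (.c 6 q133 (.c 7 q411 .e)))
noncomputable def q434 : Tr := .c 3 v189 (.c 5 v106 (.c 9 v106 .e))
noncomputable def q435 : Tr := .c 3 v143 (.c 5 v107 (.c 8 v107 (.c 9 v107 .e)))
noncomputable def r316 : Tr := .c 1 q434 (.c 2 q435 (.c 4 q146 (.c 5 q147 .e)))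
noncomputable def t76 : Tr := .c 0 r312 (.c 2 r313 (.c 3 r314 (.c 4 r315 (.c 6 r316 .e))))
noncomputable def r317 : Tr := .c 0 q145 (.c 2 q435 (.c 3 q146 (.c 4 q146 (.c 5 q147 .e))))
noncomputable def t77 : Tr := .c 0 r312 (.c 1 r77 (.c 2 r313 (.c 3 r314 (.c 4 r315 (.c 6 r316 (.c 7 r317 .e))))))
noncomputable def q436 : Tr := .c 5 v75 (.c 7 v11 (.c 8 v75 (.c 9 v75 .e)))
noncomputable def v224 : Tr := .l 0x2cb2cb2cb2cb2cb2cb2cb28a
noncomputable def q437 : Tr := .c 3 v224 (.c 5 v75 (.c 6 v11 (.c 9 v75 .e)))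
noncomputable def q438 : Tr := .c 5 v77 (.c 8 v77 (.c 9 v77 .e))
noncomputable def v225 : Tr := .l 0x2cb2cb2cb2cb2cb2cb28a2cb
noncomputable def q439 : Tr := .c 3 v225 (.c 5 v77 (.c 9 v77 .e))
noncomputable def r318 : Tr := .c 0 q436 (.c 1 q437 (.c 6 q438 (.c 7 q439 .e)))
noncomputable def q440 : Tr := .c 3 v89 (.c 5 v83 (.c 6 v84 (.c 7 v84 (.c 8 v83 (.c 9 v83 .e)))))
noncomputable def q441 : Tr := .c 6 v84 (.c 7 v84 (.c 8 v83 (.c 9 v83 .e)))
noncomputable def r319 : Tr := .c 0 q108 (.c 2 q440 (.c 3 q109 (.c 4 q441 (.c 5 q421 .e))))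
noncomputable def q442 : Tr := .c 3 v193 (.c 5 v79 (.c 6 v80 (.c 7 v80 (.c 8 v79 (.c 9 v79 .e)))))
noncomputable def q443 : Tr := .c 6 v80 (.c 7 v80 (.c 8 v79 (.c 9 v79 .e)))
noncomputable def q444 : Tr := .c 5 v82 (.c 8 v82 (.c 9 v82 .e))
noncomputable def r320 : Tr := .c 0 q104 (.c 2 q442 (.c 3 q111 (.c 4 q443 (.c 5 q424 (.c 6 q444 .e)))))
noncomputable def t78 : Tr := .c 4 r318 (.c 7 r319 (.c 8 r320 .e))
noncomputable def r321 : Tr := .c 3 q111 (.c 4 q443 (.c 5 q424 (.c 6 q444 .e)))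
noncomputable def q445 : Tr := .c 6 v94 (.c 7 v94 (.c 8 v95 .e))
noncomputable def q446 : Tr := .c 5 v97 (.c 8 v97 (.c 9 v97 .e))
noncomputable def v226 : Tr := .l 0x2cb2cb2c92cb2ca2c82462c8
noncomputable def q447 : Tr := .c 3 v226 (.c 5 v97 (.c 9 v97 .e))
noncomputable def r322 : Tr := .c 3 q124 (.c 5 q445 (.c 6 q446 (.c 7 q447 .e)))
noncomputable def t79 : Tr := .c 1 r321 (.c 2 r322 (.c 7 r319 (.c 8 r320 .e)))
noncomputable def r323 : Tr := .c 0 q376 (.c 1 q377 (.c 8 q380 (.c 9 q381 .e)))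
noncomputable def q448 : Tr := .c 3 v113 (.c 5 v45 (.c 6 v46 (.c 7 v46 (.c 8 v45 (.c 9 v45 .e)))))
noncomputable def q449 : Tr := .c 6 v46 (.c 7 v46 (.c 8 v45 (.c 9 v45 .e)))
noncomputable def r324 : Tr := .c 0 q149 (.c 2 q448 (.c 3 q59 (.c 4 q449 (.c 5 q382 (.c 9 q383 .e)))))
noncomputable def q450 : Tr := .c 3 v114 (.c 5 v40 (.c 6 v41 (.c 7 v41 (.c 8 v40 (.c 9 v40 .e)))))
noncomputable def q451 : Tr := .c 6 v41 (.c 7 v41 (.c 8 v40 (.c 9 v40 .e)))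
noncomputable def r325 : Tr := .c 0 q148 (.c 2 q450 (.c 3 q62 (.c 4 q451 (.c 5 q384 .e))))
noncomputable def t80 : Tr := .c 4 r323 (.c 7 r324 (.c 8 r325 .e))
noncomputable def q452 : Tr := .c 3 v38 (.c 6 v113 (.c 7 v113 (.c 8 v114 .e)))
noncomputable def r326 : Tr := .c 1 q390 (.c 2 q452 (.c 8 q390 (.c 9 q392 .e)))
noncomputable def q453 : Tr := .c 3 v113 (.c 6 v46 (.c 7 v46 (.c 8 v45 .e)))
noncomputable def q454 : Tr := .c 6 v46 (.c 7 v46 (.c 8 v45 .e))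
noncomputable def r327 : Tr := .c 1 q393 (.c 2 q453 (.c 4 q454 (.c 5 q382 (.c 8 q393 (.c 9 q383 .e)))))
noncomputable def r328 : Tr := .c 0 q77 (.c 2 q453 (.c 3 q77 (.c 4 q454 (.c 5 q382 (.c 9 q383 .e)))))
noncomputable def q455 : Tr := .c 3 v114 (.c 6 v41 (.c 7 v41 (.c 8 v40 .e)))
noncomputable def q456 : Tr := .c 6 v41 (.c 7 v41 (.c 8 v40 .e))
noncomputable def r329 : Tr := .c 0 q78 (.c 2 q455 (.c 3 q78 (.c 4 q456 (.c 5 q384 .e))))
noncomputable def t81 : Tr := .c 3 r326 (.c 6 r327 (.c 7 r328 (.c 8 r329 .e)))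
noncomputable def q457 : Tr := .c 3 v60 (.c 6 v50 (.c 7 v50 .e))
noncomputable def r330 : Tr := .c 3 q62 (.c 4 q451 (.c 5 q384 (.c 9 q457 .e)))
noncomputable def q458 : Tr := .c 6 v118 (.c 7 v118 (.c 8 v119 .e))
noncomputable def q459 : Tr := .c 3 v65 (.c 5 v121 (.c 6 v118 .e))
noncomputable def q460 : Tr := .c 3 v65 (.c 6 v118 (.c 7 v118 .e))
noncomputable def r331 : Tr := .c 3 q152 (.c 5 q458 (.c 8 q459 (.c 9 q460 .e)))
noncomputable def t82 : Tr := .c 1 r330 (.c 2 r331 (.c 7 r324 (.c 8 r325 .e)))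
noncomputable def q461 : Tr := .c 3 v60 (.c 6 v50 .e)
noncomputable def r332 : Tr := .c 4 q456 (.c 5 q384 (.c 8 q461 (.c 9 q457 .e)))
noncomputable def r333 : Tr := .c 3 q78 (.c 4 q456 (.c 5 q384 (.c 9 q457 .e)))
noncomputable def t83 : Tr := .c 0 r332 (.c 1 r333 (.c 6 r327 (.c 7 r328 (.c 8 r329 .e))))
noncomputable def q462 : Tr := .c 6 v122 (.c 7 v122 (.c 8 v123 (.c 9 v123 .e)))
noncomputable def q463 : Tr := .c 6 v124 (.c 7 v124 (.c 8 v2 .e))
noncomputable def v227 : Tr := .l 0x2062882ca2882892cb289207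
noncomputable def q464 : Tr := .c 3 v227 (.c 5 v125 (.c 6 v124 .e))
noncomputable def q465 : Tr := .c 3 v227 (.c 6 v124 (.c 7 v124 .e))
noncomputable def r334 : Tr := .c 4 q462 (.c 5 q463 (.c 8 q464 (.c 9 q465 .e)))
noncomputable def r335 : Tr := .c 3 q157 (.c 4 q462 (.c 5 q463 (.c 9 q465 .e)))
noncomputable def r336 : Tr := .c 3 q161 (.c 5 q463 (.c 8 q464 (.c 9 q465 .e)))
noncomputable def v228 : Tr := .l 0x2882ca2c92472cb2cb2cb289
noncomputable def q466 : Tr := .c 3 v228 (.c 5 v128 (.c 6 v131 (.c 9 v128 .e)))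
noncomputable def v229 : Tr := .l 0x2c92cb2ca2882cb2cb2cb2ca
noncomputable def q467 : Tr := .c 3 v229 (.c 5 v129 (.c 6 v130 (.c 7 v130 (.c 8 v129 (.c 9 v129 .e)))))
noncomputable def q468 : Tr := .c 6 v130 (.c 7 v130 (.c 8 v129 (.c 9 v129 .e)))
noncomputable def q469 : Tr := .c 6 v131 (.c 7 v131 (.c 8 v100 .e))
noncomputable def q470 : Tr := .c 3 v228 (.c 5 v128 (.c 6 v131 .e))
noncomputable def q471 : Tr := .c 3 v228 (.c 6 v131 (.c 7 v131 .e))
noncomputable def r337 : Tr := .c 1 q466 (.c 2 q467 (.c 4 q468 (.c 5 q469 (.c 8 q470 (.c 9 q471 .e)))))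
noncomputable def r338 : Tr := .c 0 q163 (.c 2 q467 (.c 3 q164 (.c 4 q468 (.c 5 q469 (.c 9 q471 .e)))))
noncomputable def q472 : Tr := .c 3 v196 (.c 5 v123 (.c 6 v122 (.c 7 v122 (.c 8 v123 (.c 9 v123 .e)))))
noncomputable def r339 : Tr := .c 0 q168 (.c 2 q472 (.c 3 q157 (.c 4 q462 (.c 5 q463 .e))))
noncomputable def t84 : Tr := .c 0 r334 (.c 1 r335 (.c 2 r336 (.c 6 r337 (.c 7 r338 (.c 8 r339 .e)))))
noncomputable def q473 : Tr := .c 6 v59 (.c 7 v59 .e)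
noncomputable def r340 : Tr := .c 3 q79 (.c 4 q473 (.c 5 q395 (.c 9 q397 .e)))
noncomputable def r341 : Tr := .c 3 q83 (.c 5 q398 (.c 8 q401 (.c 9 q402 .e)))
noncomputable def r342 : Tr := .c 0 q403 (.c 1 q401 (.c 8 q401 (.c 9 q402 .e)))
noncomputable def v230 : Tr := .l 0x18918920b20b24b24b2cb2cb
noncomputable def q474 : Tr := .c 3 v230 (.c 5 v72 (.c 6 v59 (.c 7 v59 .e)))
noncomputable def r343 : Tr := .c 0 q169 (.c 2 q474 (.c 3 q79 (.c 4 q473 (.c 5 q395 .e))))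
noncomputable def t85 : Tr := .c 1 r340 (.c 2 r341 (.c 4 r342 (.c 8 r343 .e)))
noncomputable def r344 : Tr := .c 0 q148 (.c 3 q62 (.c 5 q384 .e))
noncomputable def t86 : Tr := .c 4 r323 (.c 7 r278 (.c 8 r344 .e))
noncomputable def r345 : Tr := .c 1 q377 (.c 8 q380 (.c 9 q381 .e))
noncomputable def t87 : Tr := .c 3 r345 (.c 4 r323 (.c 6 r281 .e))
noncomputable def r346 : Tr := .c 1 q390 (.c 8 q390 (.c 9 q392 .e))
noncomputable def r347 : Tr := .c 0 q78 (.c 3 q78 (.c 5 q384 .e))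
noncomputable def t88 : Tr := .c 3 r346 (.c 6 r283 (.c 7 r284 (.c 8 r347 .e)))
noncomputable def r348 : Tr := .c 3 q62 (.c 5 q384 (.c 9 q457 .e))
noncomputable def t89 : Tr := .c 1 r348 (.c 2 r331 (.c 7 r278 (.c 8 r344 .e)))
noncomputable def r349 : Tr := .c 5 q384 (.c 8 q461 (.c 9 q457 .e))
noncomputable def r350 : Tr := .c 3 q78 (.c 5 q384 (.c 9 q457 .e))
noncomputable def t90 : Tr := .c 0 r349 (.c 1 r350 (.c 6 r283 (.c 7 r284 (.c 8 r347 .e))))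
noncomputable def r351 : Tr := .c 3 q79 (.c 5 q395 (.c 9 q397 .e))
noncomputable def r352 : Tr := .c 0 q169 (.c 3 q79 (.c 5 q395 .e))
noncomputable def t91 : Tr := .c 1 r351 (.c 2 r341 (.c 4 r342 (.c 8 r352 .e)))
noncomputable def r353 : Tr := .c 5 q398 (.c 8 q401 (.c 9 q402 .e))
noncomputable def r354 : Tr := .c 1 q401 (.c 8 q401 (.c 9 q402 .e))
noncomputable def t92 : Tr := .c 0 r353 (.c 2 r341 (.c 3 r354 (.c 4 r342 .e)))
noncomputable def q475 : Tr := .c 1 v40 (.c 2 v117 (.c 7 v41 (.c 8 v40 (.c 9 v40 .e))))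
noncomputable def q476 : Tr := .c 1 v40 (.c 7 v41 (.c 8 v40 (.c 9 v40 .e)))
noncomputable def q477 : Tr := .c 1 v51 (.c 2 v119 (.c 7 v50 (.c 8 v51 .e)))
noncomputable def v231 : Tr := .l 0x1ca1ca1ca14828a20824920b
noncomputable def v232 : Tr := .l 0x20920a20b1892c924728824a
noncomputable def q478 : Tr := .c 1 v231 (.c 2 v232 (.c 8 v231 (.c 9 v231 .e)))
noncomputable def q479 : Tr := .c 1 v51 (.c 2 v119 (.c 7 v50 .e))
noncomputable def r355 : Tr := .c 3 q475 (.c 4 q476 (.c 5 q477 (.c 6 q478 (.c 9 q479 .e))))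
noncomputable def v233 : Tr := .l 0x1c91c81ca14828928828a20a
noncomputable def q480 : Tr := .c 1 v117 (.c 2 v233 (.c 7 v116 (.c 8 v117 (.c 9 v117 .e))))
noncomputable def v234 : Tr := .l 0x24628828a2082462c82c9287
noncomputable def q481 : Tr := .c 1 v119 (.c 2 v234 (.c 7 v118 (.c 8 v119 .e)))
noncomputable def v235 : Tr := .l 0x20920a20b1892491c720824a
noncomputable def v236 : Tr := .l 0x24824924b1ca28820624828a
noncomputable def q482 : Tr := .c 1 v235 (.c 2 v236 (.c 8 v235 (.c 9 v235 .e)))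
noncomputable def q483 : Tr := .c 2 v236 (.c 9 v235 .e)
noncomputable def q484 : Tr := .c 2 v234 .e
noncomputable def q485 : Tr := .c 1 v119 (.c 2 v234 (.c 7 v118 .e))
noncomputable def r356 : Tr := .c 3 q480 (.c 5 q481 (.c 6 q482 (.c 7 q483 (.c 8 q484 (.c 9 q485 .e)))))
noncomputable def q486 : Tr := .c 1 v45 (.c 2 v114 (.c 7 v46 (.c 8 v45 (.c 9 v45 .e))))
noncomputable def q487 : Tr := .c 1 v45 (.c 7 v46 (.c 8 v45 (.c 9 v45 .e)))
noncomputable def v237 : Tr := .l 0x2c92cb2492472c92cb2ca2c8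
noncomputable def q488 : Tr := .c 1 v48 (.c 2 v237 (.c 7 v47 (.c 8 v48 .e)))
noncomputable def q489 : Tr := .c 1 v48 (.c 2 v237 (.c 7 v47 .e))
noncomputable def r357 : Tr := .c 0 q59 (.c 2 q59 (.c 3 q486 (.c 4 q487 (.c 5 q488 (.c 9 q489 .e)))))
noncomputable def r358 : Tr := .c 0 q62 (.c 2 q62 (.c 3 q475 (.c 4 q476 (.c 5 q477 (.c 6 q478 .e)))))
noncomputable def q490 : Tr := .c 2 v232 (.c 9 v231 .e)
noncomputable def r359 : Tr := .c 0 q62 (.c 1 q250 (.c 2 q62 (.c 3 q475 (.c 4 q476 (.c 6 q478 (.c 7 q490 .e))))))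
noncomputable def t93 : Tr := .c 1 r355 (.c 2 r356 (.c 7 r357 (.c 8 r358 (.c 9 r359 .e))))
noncomputable def q491 : Tr := .c 1 v40 (.c 7 v41 (.c 8 v40 .e))
noncomputable def q492 : Tr := .c 2 v198 .e
noncomputable def q493 : Tr := .c 2 v119 .e
noncomputable def r360 : Tr := .c 4 q491 (.c 5 q477 (.c 7 q492 (.c 8 q493 (.c 9 q479 .e))))
noncomputable def q494 : Tr := .c 1 v40 (.c 2 v117 (.c 7 v41 (.c 8 v40 .e)))
noncomputable def q495 : Tr := .c 1 v231 (.c 2 v232 (.c 8 v231 .e))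
noncomputable def r361 : Tr := .c 3 q494 (.c 4 q491 (.c 5 q477 (.c 6 q495 (.c 9 q479 .e))))
noncomputable def q496 : Tr := .c 1 v45 (.c 7 v46 (.c 8 v45 .e))
noncomputable def q497 : Tr := .c 2 v237 .e
noncomputable def r362 : Tr := .c 2 q77 (.c 4 q496 (.c 5 q488 (.c 8 q497 (.c 9 q489 .e))))
noncomputable def q498 : Tr := .c 1 v45 (.c 2 v114 (.c 7 v46 (.c 8 v45 .e)))
noncomputable def r363 : Tr := .c 0 q77 (.c 2 q77 (.c 3 q498 (.c 4 q496 (.c 5 q488 (.c 9 q489 .e)))))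
noncomputable def r364 : Tr := .c 0 q78 (.c 2 q78 (.c 3 q494 (.c 4 q491 (.c 5 q477 (.c 6 q495 .e)))))
noncomputable def q499 : Tr := .c 2 v232 .e
noncomputable def r365 : Tr := .c 0 q78 (.c 2 q78 (.c 3 q494 (.c 4 q491 (.c 6 q495 (.c 7 q499 .e)))))
noncomputable def t94 : Tr := .c 0 r360 (.c 1 r361 (.c 6 r362 (.c 7 r363 (.c 8 r364 (.c 9 r365 .e)))))
noncomputable def q500 : Tr := .c 1 v123 (.c 7 v122 (.c 8 v123 (.c 9 v123 .e)))
noncomputable def q501 : Tr := .c 1 v2 (.c 7 v124 (.c 8 v2 .e))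
noncomputable def v238 : Tr := .l 0x28b24a1c824a2491c71451c7
noncomputable def q502 : Tr := .c 9 v238 .e
noncomputable def q503 : Tr := .c 1 v2 (.c 7 v124 .e)
noncomputable def r366 : Tr := .c 4 q500 (.c 5 q501 (.c 7 q502 (.c 9 q503 .e)))
noncomputable def v239 : Tr := .l 0x28b28b20920b28a208186208
noncomputable def q504 : Tr := .c 1 v239 (.c 8 v239 (.c 9 v239 .e))
noncomputable def r367 : Tr := .c 3 q500 (.c 4 q500 (.c 5 q501 (.c 6 q504 (.c 9 q503 .e))))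
noncomputable def q505 : Tr := .c 1 v127 (.c 7 v126 (.c 8 v127 (.c 9 v127 .e)))
noncomputable def q506 : Tr := .c 1 v238 (.c 8 v238 (.c 9 v238 .e))
noncomputable def r368 : Tr := .c 3 q505 (.c 5 q501 (.c 6 q506 (.c 7 q502 (.c 9 q503 .e))))
noncomputable def q507 : Tr := .c 9 v128 .e
noncomputable def q508 : Tr := .c 1 v129 (.c 7 v130 (.c 8 v129 (.c 9 v129 .e)))
noncomputable def q509 : Tr := .c 1 v100 (.c 7 v131 (.c 8 v100 .e))
noncomputable def q510 : Tr := .c 1 v100 (.c 7 v131 .e)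
noncomputable def r369 : Tr := .c 1 q507 (.c 2 q164 (.c 4 q508 (.c 5 q509 (.c 9 q510 .e))))
noncomputable def r370 : Tr := .c 0 q164 (.c 2 q164 (.c 3 q508 (.c 4 q508 (.c 5 q509 (.c 9 q510 .e)))))
noncomputable def r371 : Tr := .c 0 q157 (.c 2 q157 (.c 3 q500 (.c 4 q500 (.c 5 q501 (.c 6 q504 .e)))))
noncomputable def t95 : Tr := .c 0 r366 (.c 1 r367 (.c 2 r368 (.c 6 r369 (.c 7 r370 (.c 8 r371 .e)))))
noncomputable def v240 : Tr := .l 0x1c91c81ca14828928828a20b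
noncomputable def v241 : Tr := .l 0x2082072091892c82872c924a
noncomputable def q511 : Tr := .c 1 v240 (.c 2 v241 (.c 7 v59 .e))
noncomputable def q512 : Tr := .c 1 v240 (.c 7 v59 .e)
noncomputable def v242 : Tr := .l 0x20628828a2082462c82ca2c8
noncomputable def v243 : Tr := .l 0x2052872892472052872c9287
noncomputable def q513 : Tr := .c 1 v242 (.c 2 v243 (.c 7 v60 .e))
noncomputable def v244 : Tr := .l 0x24824924b1ca2c824620828a
noncomputable def v245 : Tr := .l 0x28728828a2092872052472c9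
noncomputable def q514 : Tr := .c 1 v244 (.c 2 v245 .e)
noncomputable def r372 : Tr := .c 3 q511 (.c 4 q512 (.c 5 q513 (.c 6 q514 (.c 9 q513 .e))))
noncomputable def v246 : Tr := .l 0x2082072091892c828724924a
noncomputable def v247 : Tr := .l 0x2472462481c9287246288289
noncomputable def q515 : Tr := .c 1 v246 (.c 2 v247 (.c 7 v64 .e))
noncomputable def v248 : Tr := .l 0x1c52472892472052872c9287
noncomputable def v249 : Tr := .l 0x1c42462482461c4246288246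
noncomputable def q516 : Tr := .c 1 v248 (.c 2 v249 (.c 7 v65 .e))
noncomputable def v250 : Tr := .l 0x28728828a2092872051c7249
noncomputable def v251 : Tr := .l 0x2462872c92482461c4206288
noncomputable def q517 : Tr := .c 1 v250 (.c 2 v251 .e)
noncomputable def q518 : Tr := .c 2 v251 .e
noncomputable def q519 : Tr := .c 2 v249 .e
noncomputable def r373 : Tr := .c 3 q515 (.c 5 q516 (.c 6 q517 (.c 7 q518 (.c 8 q519 (.c 9 q516 .e)))))
noncomputable def q520 : Tr := .c 7 v70 .e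
noncomputable def r374 : Tr := .c 0 q520 (.c 6 q517 (.c 7 q518 (.c 8 q519 (.c 9 q516 .e))))
noncomputable def q521 : Tr := .c 2 v245 .e
noncomputable def v252 : Tr := .l 0x2872872c92c92872872c92c9
noncomputable def q522 : Tr := .c 2 v252 .e
noncomputable def r375 : Tr := .c 0 q79 (.c 2 q79 (.c 6 q514 (.c 7 q521 (.c 8 q522 .e))))
noncomputable def r376 : Tr := .c 0 q79 (.c 2 q79 (.c 3 q511 (.c 4 q512 (.c 5 q513 (.c 6 q514 .e)))))
noncomputable def r377 : Tr := .c 0 q79 (.c 2 q79 (.c 3 q511 (.c 4 q512 (.c 6 q514 (.c 7 q521 .e)))))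
noncomputable def t96 : Tr := .c 1 r372 (.c 2 r373 (.c 4 r374 (.c 5 r375 (.c 8 r376 (.c 9 r377 .e)))))
noncomputable def q523 : Tr := .c 1 v123 (.c 8 v123 (.c 9 v123 .e))
noncomputable def q524 : Tr := .c 1 v2 (.c 8 v2 .e)
noncomputable def q525 : Tr := .c 1 v2 .e
noncomputable def r378 : Tr := .c 4 q523 (.c 5 q524 (.c 7 q502 (.c 9 q525 .e)))
noncomputable def r379 : Tr := .c 3 q523 (.c 4 q523 (.c 5 q524 (.c 6 q504 (.c 9 q525 .e))))
noncomputable def q526 : Tr := .c 1 v127 (.c 8 v127 (.c 9 v127 .e))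
noncomputable def r380 : Tr := .c 3 q526 (.c 5 q524 (.c 6 q506 (.c 7 q502 (.c 9 q525 .e))))
noncomputable def v253 : Tr := .l 0x20b28b24a1ca1ca2491c7148
noncomputable def q527 : Tr := .c 9 v253 .e
noncomputable def v254 : Tr := .l 0x24b2cb28b20b20b28a208189
noncomputable def q528 : Tr := .c 8 v254 (.c 9 v254 .e)
noncomputable def r381 : Tr := .c 1 q527 (.c 2 q528 (.c 7 q502 (.c 9 q525 .e)))
noncomputable def q529 : Tr := .c 8 v253 (.c 9 v253 .e)
noncomputable def r382 : Tr := .c 0 q529 (.c 1 q527 (.c 6 q506 (.c 7 q502 (.c 9 q525 .e))))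
noncomputable def q530 : Tr := .c 8 v129 (.c 9 v129 .e)
noncomputable def q531 : Tr := .c 1 v129 (.c 8 v129 (.c 9 v129 .e))
noncomputable def q532 : Tr := .c 1 v100 (.c 8 v100 .e)
noncomputable def q533 : Tr := .c 1 v100 .e
noncomputable def r383 : Tr := .c 1 q507 (.c 2 q530 (.c 4 q531 (.c 5 q532 (.c 9 q533 .e))))
noncomputable def r384 : Tr := .c 0 q530 (.c 2 q530 (.c 3 q531 (.c 4 q531 (.c 5 q532 (.c 9 q533 .e)))))
noncomputable def t97 : Tr := .c 0 r378 (.c 1 r379 (.c 2 r380 (.c 3 r381 (.c 4 r382 (.c 6 r383 (.c 7 r384 .e))))))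
noncomputable def v255 : Tr := .l 0x1ca1ca1ca14828928828920a
noncomputable def v256 : Tr := .l 0x20a20b20b1892cb2cb2cb24b
noncomputable def q534 : Tr := .c 1 v117 (.c 2 v255 (.c 7 v256 (.c 8 v117 (.c 9 v117 .e))))
noncomputable def q535 : Tr := .c 1 v117 (.c 7 v256 (.c 8 v117 (.c 9 v117 .e)))
noncomputable def v257 : Tr := .l 0x20b20a20b1892491c720824a
noncomputable def v258 : Tr := .l 0x24a24924a1ca288206247289
noncomputable def q536 : Tr := .c 1 v257 (.c 2 v258 (.c 8 v257 (.c 9 v257 .e)))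
noncomputable def r385 : Tr := .c 3 q534 (.c 4 q535 (.c 6 q536 .e))
noncomputable def v259 : Tr := .l 0x1ca1ca1ca14828a20824920a
noncomputable def v260 : Tr := .l 0x20a20920b1892c924728924b
noncomputable def v261 : Tr := .l 0x24924b24b1ca2cb28a2cb28b
noncomputable def q537 : Tr := .c 1 v259 (.c 2 v260 (.c 7 v261 (.c 8 v259 (.c 9 v259 .e))))
noncomputable def v262 : Tr := .l 0x24a24924a1ca2081861c7249
noncomputable def v263 : Tr := .l 0x28928828a20b2471c5207289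
noncomputable def q538 : Tr := .c 1 v262 (.c 2 v263 (.c 8 v262 (.c 9 v262 .e)))
noncomputable def q539 : Tr := .c 2 v263 (.c 9 v262 .e)
noncomputable def v264 : Tr := .l 0x2872c92cb249205287289287
noncomputable def q540 : Tr := .c 2 v264 .e
noncomputable def r386 : Tr := .c 3 q537 (.c 6 q538 (.c 7 q539 (.c 8 q540 .e)))
noncomputable def v265 : Tr := .l 0x28a28b28a2082cb2cb2cb2cb
noncomputable def q541 : Tr := .c 7 v265 (.c 8 v114 (.c 9 v114 .e))
noncomputable def v266 : Tr := .l 0x24b24b24b1ca2cb2ca2cb28b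
noncomputable def q542 : Tr := .c 1 v114 (.c 2 v266 (.c 7 v265 (.c 8 v114 (.c 9 v114 .e))))
noncomputable def q543 : Tr := .c 1 v114 (.c 7 v265 (.c 8 v114 (.c 9 v114 .e)))
noncomputable def r387 : Tr := .c 0 q541 (.c 2 q541 (.c 3 q542 (.c 4 q543 .e)))
noncomputable def q544 : Tr := .c 7 v256 (.c 8 v117 (.c 9 v117 .e))
noncomputable def r388 : Tr := .c 0 q544 (.c 2 q544 (.c 3 q534 (.c 4 q535 (.c 6 q536 .e))))
noncomputable def q545 : Tr := .c 2 v258 (.c 9 v257 .e)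
noncomputable def r389 : Tr := .c 0 q544 (.c 1 q321 (.c 2 q544 (.c 3 q534 (.c 4 q535 (.c 6 q536 (.c 7 q545 .e))))))
noncomputable def t98 : Tr := .c 1 r385 (.c 2 r386 (.c 7 r387 (.c 8 r388 (.c 9 r389 .e))))
noncomputable def v267 : Tr := .l 0x24a2491c7249208186104186
noncomputable def q546 : Tr := .c 9 v267 .e
noncomputable def r390 : Tr := .c 4 q505 (.c 7 q546 .e)
noncomputable def v268 : Tr := .l 0x28b28a20824a2491c71451c7
noncomputable def q547 : Tr := .c 1 v268 (.c 8 v268 (.c 9 v268 .e))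
noncomputable def r391 : Tr := .c 3 q505 (.c 4 q505 (.c 6 q547 .e))
noncomputable def v269 : Tr := .l 0x28b28b24920a289208186207
noncomputable def v270 : Tr := .l 0x2cb2cb2cb28b2cb28a208289
noncomputable def q548 : Tr := .c 1 v269 (.c 7 v270 (.c 8 v269 (.c 9 v269 .e)))
noncomputable def q549 : Tr := .c 1 v267 (.c 8 v267 (.c 9 v267 .e))
noncomputable def r392 : Tr := .c 3 q548 (.c 6 q549 (.c 7 q546 .e))
noncomputable def v271 : Tr := .l 0x20b28b2cb24b20b28a208189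
noncomputable def q550 : Tr := .c 9 v271 .e
noncomputable def v272 : Tr := .l 0x2cb2cb2cb2cb2ca2cb2ca248
noncomputable def v273 : Tr := .l 0x24b2cb2cb24b24a2cb2491c8
noncomputable def q551 : Tr := .c 7 v272 (.c 8 v273 (.c 9 v273 .e))
noncomputable def q552 : Tr := .c 1 v273 (.c 7 v272 (.c 8 v273 (.c 9 v273 .e)))
noncomputable def r393 : Tr := .c 1 q550 (.c 2 q551 (.c 4 q552 .e))
noncomputable def r394 : Tr := .c 0 q551 (.c 2 q551 (.c 3 q552 (.c 4 q552 .e)))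
noncomputable def r395 : Tr := .c 0 q161 (.c 2 q161 (.c 3 q505 (.c 4 q505 (.c 6 q547 .e))))
noncomputable def t99 : Tr := .c 0 r390 (.c 1 r391 (.c 2 r392 (.c 6 r393 (.c 7 r394 (.c 8 r395 .e)))))
noncomputable def v274 : Tr := .l 0x20a20920b1892c828724924a
noncomputable def v275 : Tr := .l 0x24924824a1ca287246288289
noncomputable def v276 : Tr := .l 0x24824a28b20a2c92c92cb2cb
noncomputable def q553 : Tr := .c 1 v274 (.c 2 v275 (.c 7 v276 .e))
noncomputable def q554 : Tr := .c 1 v274 (.c 7 v276 .e)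
noncomputable def v277 : Tr := .l 0x28928828a20b2872051c7249
noncomputable def v278 : Tr := .l 0x2c82872c924a2461c4206288
noncomputable def q555 : Tr := .c 1 v277 (.c 2 v278 .e)
noncomputable def r396 : Tr := .c 3 q553 (.c 4 q554 (.c 6 q555 .e))
noncomputable def v279 : Tr := .l 0x24924824a1ca2c824620828a
noncomputable def v280 : Tr := .l 0x28828728920a2872052472c9
noncomputable def v281 : Tr := .l 0x2472892cb2492ca2c828a2cb
noncomputable def q556 : Tr := .c 1 v279 (.c 2 v280 (.c 7 v281 .e))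
noncomputable def v282 : Tr := .l 0x2c828724924a2461c4186208
noncomputable def v283 : Tr := .l 0x2872462882892051831c5247
noncomputable def q557 : Tr := .c 1 v282 (.c 2 v283 .e)
noncomputable def q558 : Tr := .c 2 v283 .e
noncomputable def v284 : Tr := .l 0x205287289287183205247205
noncomputable def q559 : Tr := .c 2 v284 .e
noncomputable def r397 : Tr := .c 3 q556 (.c 6 q557 (.c 7 q558 (.c 8 q559 .e)))
noncomputable def v285 : Tr := .l 0x2c82ca2cb2ca2462c82ca2c8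
noncomputable def q560 : Tr := .c 7 v285 .e
noncomputable def r398 : Tr := .c 0 q560 (.c 6 q557 (.c 7 q558 (.c 8 q559 .e)))
noncomputable def q561 : Tr := .c 7 v276 .e
noncomputable def q562 : Tr := .c 2 v278 .e
noncomputable def v286 : Tr := .l 0x2c82c82ca2ca2462462c82c8
noncomputable def q563 : Tr := .c 2 v286 .e
noncomputable def r399 : Tr := .c 0 q561 (.c 2 q561 (.c 6 q555 (.c 7 q562 (.c 8 q563 .e))))
noncomputable def r400 : Tr := .c 0 q561 (.c 2 q561 (.c 3 q553 (.c 4 q554 (.c 6 q555 .e))))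
noncomputable def r401 : Tr := .c 0 q561 (.c 2 q561 (.c 3 q553 (.c 4 q554 (.c 6 q555 (.c 7 q562 .e)))))
noncomputable def t100 : Tr := .c 1 r396 (.c 2 r397 (.c 4 r398 (.c 5 r399 (.c 8 r400 (.c 9 r401 .e)))))
noncomputable def q564 : Tr := .c 1 v198 (.c 7 v11 .e)
noncomputable def r402 : Tr := .c 4 q564 (.c 7 q558 (.c 8 q559 .e))
noncomputable def r403 : Tr := .c 2 q357 (.c 7 q558 (.c 8 q559 .e))
noncomputable def t101 : Tr := .c 0 r402 (.c 2 r397 (.c 3 r403 (.c 4 r398 (.c 5 r399 (.c 9 r401 .e)))))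
noncomputable def v287 : Tr := .l 0x2892882062882471c51431c5
noncomputable def q565 : Tr := .c 2 v287 (.c 9 v267 .e)
noncomputable def v288 : Tr := .l 0x2872c92882462052471c5183
noncomputable def q566 : Tr := .c 2 v288 .e
noncomputable def r404 : Tr := .c 4 q526 (.c 7 q565 (.c 8 q566 .e))
noncomputable def v289 : Tr := .l 0x2ca2ca28824a2c92471c5247
noncomputable def q567 : Tr := .c 1 v269 (.c 2 v289 (.c 8 v269 (.c 9 v269 .e)))
noncomputable def q568 : Tr := .c 1 v267 (.c 2 v287 (.c 8 v267 (.c 9 v267 .e)))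
noncomputable def r405 : Tr := .c 3 q567 (.c 6 q568 (.c 7 q565 (.c 8 q566 .e)))
noncomputable def v290 : Tr := .l 0x1ca24b2491ca189208186107
noncomputable def q569 : Tr := .c 9 v290 .e
noncomputable def v291 : Tr := .l 0x20b28b28a20b1ca2491c7148
noncomputable def q570 : Tr := .c 8 v291 (.c 9 v291 .e)
noncomputable def r406 : Tr := .c 1 q569 (.c 2 q570 (.c 7 q565 (.c 8 q566 .e)))
noncomputable def q571 : Tr := .c 8 v290 (.c 9 v290 .e)
noncomputable def r407 : Tr := .c 0 q571 (.c 1 q569 (.c 6 q568 (.c 7 q565 (.c 8 q566 .e))))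
noncomputable def v292 : Tr := .l 0x28b28b2cb28b24b2492491ca
noncomputable def q572 : Tr := .c 8 v292 (.c 9 v292 .e)
noncomputable def q573 : Tr := .c 9 v292 .e
noncomputable def v293 : Tr := .l 0x2cb28a28a2cb2491c71c7249
noncomputable def v294 : Tr := .l 0x2cb2c92c92cb288206206288
noncomputable def q574 : Tr := .c 1 v293 (.c 2 v294 (.c 8 v293 (.c 9 v293 .e)))
noncomputable def q575 : Tr := .c 2 v294 (.c 9 v293 .e)
noncomputable def v295 : Tr := .l 0x2ca2ca2cb2c92c8288288246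
noncomputable def q576 : Tr := .c 2 v295 .e
noncomputable def r408 : Tr := .c 0 q572 (.c 1 q573 (.c 2 q572 (.c 6 q574 (.c 7 q575 (.c 8 q576 .e)))))
noncomputable def q577 : Tr := .c 8 v273 (.c 9 v273 .e)
noncomputable def q578 : Tr := .c 1 v273 (.c 8 v273 (.c 9 v273 .e))
noncomputable def v296 : Tr := .l 0x2c92cb2ca2c82872c9247205
noncomputable def q579 : Tr := .c 2 v296 .e
noncomputable def r409 : Tr := .c 1 q550 (.c 2 q577 (.c 4 q578 (.c 8 q579 .e)))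
noncomputable def t102 : Tr := .c 0 r404 (.c 2 r405 (.c 3 r406 (.c 4 r407 (.c 5 r408 (.c 6 r409 .e)))))
noncomputable def r410 : Tr := .c 4 q526 (.c 7 q546 .e)
noncomputable def r411 : Tr := .c 3 q526 (.c 4 q526 (.c 6 q547 .e))
noncomputable def q580 : Tr := .c 1 v269 (.c 8 v269 (.c 9 v269 .e))
noncomputable def r412 : Tr := .c 3 q580 (.c 6 q549 (.c 7 q546 .e))
noncomputable def r413 : Tr := .c 1 q569 (.c 2 q570 (.c 7 q546 .e))
noncomputable def r414 : Tr := .c 0 q571 (.c 1 q569 (.c 6 q549 (.c 7 q546 .e)))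
noncomputable def r415 : Tr := .c 1 q550 (.c 2 q577 (.c 4 q578 .e))
noncomputable def r416 : Tr := .c 0 q577 (.c 2 q577 (.c 3 q578 (.c 4 q578 .e)))
noncomputable def t103 : Tr := .c 0 r410 (.c 1 r411 (.c 2 r412 (.c 3 r413 (.c 4 r414 (.c 6 r415 (.c 7 r416 .e))))))
noncomputable def q581 : Tr := .c 7 v11 (.c 8 v75 (.c 9 v75 .e))
noncomputable def q582 : Tr := .c 9 v75 .e
noncomputable def v297 : Tr := .l 0x2cb2cb2c92cb2ca288206288
noncomputable def q583 : Tr := .c 1 v77 (.c 2 v297 (.c 8 v77 (.c 9 v77 .e)))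
noncomputable def q584 : Tr := .c 2 v297 (.c 9 v77 .e)
noncomputable def r417 : Tr := .c 0 q581 (.c 1 q582 (.c 6 q583 (.c 7 q584 .e)))
noncomputable def q585 : Tr := .c 9 v79 .e
noncomputable def v298 : Tr := .l 0x28b24b24b20b2cb28920928b
noncomputable def q586 : Tr := .c 1 v82 (.c 2 v298 (.c 8 v82 (.c 9 v82 .e)))
noncomputable def q587 : Tr := .c 2 v298 (.c 9 v82 .e)
noncomputable def r418 : Tr := .c 0 q111 (.c 1 q585 (.c 2 q111 (.c 6 q586 (.c 7 q587 .e))))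
noncomputable def v299 : Tr := .l 0x28b28b28b20b28b2cb28b20b
noncomputable def q588 : Tr := .c 1 v83 (.c 2 v299 (.c 7 v84 (.c 8 v83 (.c 9 v83 .e))))
noncomputable def q589 : Tr := .c 1 v83 (.c 7 v84 (.c 8 v83 (.c 9 v83 .e)))
noncomputable def v300 : Tr := .l 0x2cb2cb2cb2c92ca2cb2ca2c8
noncomputable def q590 : Tr := .c 1 v86 (.c 2 v300 (.c 7 v85 (.c 8 v86 .e)))
noncomputable def r419 : Tr := .c 0 q109 (.c 2 q109 (.c 3 q588 (.c 4 q589 (.c 5 q590 .e))))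
noncomputable def v301 : Tr := .l 0x20b20b20b1892cb2cb28b24b
noncomputable def q591 : Tr := .c 1 v79 (.c 2 v301 (.c 7 v80 (.c 8 v79 (.c 9 v79 .e))))
noncomputable def q592 : Tr := .c 1 v79 (.c 7 v80 (.c 8 v79 (.c 9 v79 .e)))
noncomputable def q593 : Tr := .c 1 v88 (.c 2 v95 (.c 7 v87 (.c 8 v88 .e)))
noncomputable def r420 : Tr := .c 0 q111 (.c 2 q111 (.c 3 q591 (.c 4 q592 (.c 5 q593 (.c 6 q586 .e)))))
noncomputable def r421 : Tr := .c 0 q111 (.c 1 q585 (.c 2 q111 (.c 3 q591 (.c 4 q592 (.c 6 q586 (.c 7 q587 .e))))))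
noncomputable def t104 : Tr := .c 4 r417 (.c 5 r418 (.c 7 r419 (.c 8 r420 (.c 9 r421 .e))))
noncomputable def q594 : Tr := .c 2 v226 .e
noncomputable def r422 : Tr := .c 2 q114 (.c 7 q594 .e)
noncomputable def q595 : Tr := .c 1 v82 (.c 2 v298 (.c 8 v82 .e))
noncomputable def q596 : Tr := .c 2 v298 .e
noncomputable def r423 : Tr := .c 0 q118 (.c 2 q118 (.c 6 q595 (.c 7 q596 .e)))
noncomputable def q597 : Tr := .c 1 v83 (.c 7 v84 (.c 8 v83 .e))
noncomputable def r424 : Tr := .c 2 q122 (.c 4 q597 (.c 5 q590 .e))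
noncomputable def q598 : Tr := .c 1 v83 (.c 2 v299 (.c 7 v84 (.c 8 v83 .e)))
noncomputable def r425 : Tr := .c 0 q122 (.c 2 q122 (.c 3 q598 (.c 4 q597 (.c 5 q590 .e))))
noncomputable def q599 : Tr := .c 1 v79 (.c 2 v301 (.c 7 v80 (.c 8 v79 .e)))
noncomputable def q600 : Tr := .c 1 v79 (.c 7 v80 (.c 8 v79 .e))
noncomputable def r426 : Tr := .c 0 q118 (.c 2 q118 (.c 3 q599 (.c 4 q600 (.c 5 q593 (.c 6 q595 .e)))))
noncomputable def r427 : Tr := .c 0 q118 (.c 2 q118 (.c 3 q599 (.c 4 q600 (.c 6 q595 (.c 7 q596 .e)))))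
noncomputable def t105 : Tr := .c 3 r422 (.c 5 r423 (.c 6 r424 (.c 7 r425 (.c 8 r426 (.c 9 r427 .e)))))
noncomputable def r428 : Tr := .c 3 q591 (.c 4 q592 (.c 5 q593 (.c 6 q586 .e)))
noncomputable def v302 : Tr := .l 0x24b24a24b1ca2cb2ca24b28b
noncomputable def q601 : Tr := .c 1 v93 (.c 2 v302 (.c 7 v92 (.c 8 v93 (.c 9 v93 .e))))
noncomputable def v303 : Tr := .l 0x2c82ca2cb28a2c82ca2cb2c9
noncomputable def q602 : Tr := .c 1 v95 (.c 2 v303 (.c 7 v94 (.c 8 v95 .e)))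
noncomputable def v304 : Tr := .l 0x2ca28b24b24b2ca2481ca24b
noncomputable def q603 : Tr := .c 1 v97 (.c 2 v304 (.c 8 v97 (.c 9 v97 .e)))
noncomputable def q604 : Tr := .c 2 v304 (.c 9 v97 .e)
noncomputable def r429 : Tr := .c 3 q601 (.c 5 q602 (.c 6 q603 (.c 7 q604 .e)))
noncomputable def t106 : Tr := .c 1 r428 (.c 2 r429 (.c 7 r419 (.c 8 r420 (.c 9 r421 .e))))
noncomputable def q605 : Tr := .c 2 v11 .e
noncomputable def r430 : Tr := .c 4 q600 (.c 5 q593 (.c 7 q605 .e))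
noncomputable def r431 : Tr := .c 3 q599 (.c 4 q600 (.c 5 q593 (.c 6 q595 .e)))
noncomputable def t107 : Tr := .c 0 r430 (.c 1 r431 (.c 6 r424 (.c 7 r425 (.c 8 r426 (.c 9 r427 .e)))))
noncomputable def q606 : Tr := .c 1 v99 (.c 7 v98 (.c 8 v99 (.c 9 v99 .e)))
noncomputable def q607 : Tr := .c 1 v101 (.c 7 v100 (.c 8 v101 .e))
noncomputable def q608 : Tr := .c 9 v102 .e
noncomputable def r432 : Tr := .c 4 q606 (.c 5 q607 (.c 7 q608 .e))
noncomputable def q609 : Tr := .c 1 v103 (.c 8 v103 (.c 9 v103 .e))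
noncomputable def r433 : Tr := .c 3 q606 (.c 4 q606 (.c 5 q607 (.c 6 q609 .e)))
noncomputable def q610 : Tr := .c 1 v105 (.c 7 v104 (.c 8 v105 (.c 9 v105 .e)))
noncomputable def q611 : Tr := .c 1 v102 (.c 8 v102 (.c 9 v102 .e))
noncomputable def r434 : Tr := .c 3 q610 (.c 5 q607 (.c 6 q611 (.c 7 q608 .e)))
noncomputable def q612 : Tr := .c 9 v106 .e
noncomputable def q613 : Tr := .c 1 v107 (.c 7 v108 (.c 8 v107 (.c 9 v107 .e)))
noncomputable def q614 : Tr := .c 1 v110 (.c 7 v109 (.c 8 v110 .e))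
noncomputable def r435 : Tr := .c 1 q612 (.c 2 q136 (.c 4 q613 (.c 5 q614 .e)))
noncomputable def r436 : Tr := .c 0 q136 (.c 2 q136 (.c 3 q613 (.c 4 q613 (.c 5 q614 .e))))
noncomputable def r437 : Tr := .c 0 q128 (.c 2 q128 (.c 3 q606 (.c 4 q606 (.c 5 q607 (.c 6 q609 .e)))))
noncomputable def t108 : Tr := .c 0 r432 (.c 1 r433 (.c 2 r434 (.c 6 r435 (.c 7 r436 (.c 8 r437 .e)))))
noncomputable def q615 : Tr := .c 1 v99 (.c 8 v99 (.c 9 v99 .e))
noncomputable def q616 : Tr := .c 1 v101 (.c 8 v101 .e)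
noncomputable def r438 : Tr := .c 4 q615 (.c 5 q616 (.c 7 q608 .e))
noncomputable def r439 : Tr := .c 3 q615 (.c 4 q615 (.c 5 q616 (.c 6 q609 .e)))
noncomputable def q617 : Tr := .c 1 v105 (.c 8 v105 (.c 9 v105 .e))
noncomputable def r440 : Tr := .c 3 q617 (.c 5 q616 (.c 6 q611 (.c 7 q608 .e)))
noncomputable def q618 : Tr := .c 9 v111 .e
noncomputable def r441 : Tr := .c 1 q618 (.c 2 q371 (.c 7 q608 .e))
noncomputable def q619 : Tr := .c 8 v111 (.c 9 v111 .e)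
noncomputable def r442 : Tr := .c 0 q619 (.c 1 q618 (.c 6 q611 (.c 7 q608 .e)))
noncomputable def q620 : Tr := .c 1 v107 (.c 8 v107 (.c 9 v107 .e))
noncomputable def q621 : Tr := .c 1 v110 (.c 8 v110 .e)
noncomputable def r443 : Tr := .c 1 q612 (.c 2 q146 (.c 4 q620 (.c 5 q621 .e)))
noncomputable def r444 : Tr := .c 0 q146 (.c 2 q146 (.c 3 q620 (.c 4 q620 (.c 5 q621 .e))))
noncomputable def t109 : Tr := .c 0 r438 (.c 1 r439 (.c 2 r440 (.c 3 r441 (.c 4 r442 (.c 6 r443 (.c 7 r444 .e))))))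
noncomputable def q622 : Tr := .c 7 v35 (.c 8 v34 (.c 9 v34 .e))
noncomputable def q623 : Tr := .c 9 v34 .e
noncomputable def v305 : Tr := .l 0x2462481c61c42462c8289287
noncomputable def q624 : Tr := .c 2 v305 .e
noncomputable def v306 : Tr := .l 0x2472892071c52872c92ca288
noncomputable def q625 : Tr := .c 1 v306 (.c 2 v305 (.c 7 v38 .e))
noncomputable def r445 : Tr := .c 0 q622 (.c 1 q623 (.c 8 q624 (.c 9 q625 .e)))
noncomputable def v307 : Tr := .l 0x2c92892892872c92c92cb2ca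
noncomputable def q626 : Tr := .c 2 v307 .e
noncomputable def r446 : Tr := .c 0 q62 (.c 1 q250 (.c 2 q62 (.c 8 q626 .e)))
noncomputable def r447 : Tr := .c 0 q62 (.c 2 q62 (.c 3 q475 (.c 4 q476 (.c 5 q477 .e))))
noncomputable def r448 : Tr := .c 0 q62 (.c 1 q250 (.c 2 q62 (.c 3 q475 (.c 4 q476 .e))))
noncomputable def t110 : Tr := .c 4 r445 (.c 5 r446 (.c 7 r357 (.c 8 r447 (.c 9 r448 .e))))
noncomputable def v308 : Tr := .l 0x2872892072052872c92ca2c8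
noncomputable def q627 : Tr := .c 2 v308 .e
noncomputable def v309 : Tr := .l 0x2882ca2482062c82ca2cb2c9
noncomputable def q628 : Tr := .c 1 v309 (.c 2 v308 (.c 7 v58 .e))
noncomputable def r449 : Tr := .c 2 q150 (.c 8 q627 (.c 9 q628 .e))
noncomputable def r450 : Tr := .c 0 q78 (.c 2 q78 (.c 8 q626 .e))
noncomputable def r451 : Tr := .c 0 q78 (.c 2 q78 (.c 3 q494 (.c 4 q491 (.c 5 q477 .e))))
noncomputable def r452 : Tr := .c 0 q78 (.c 2 q78 (.c 3 q494 (.c 4 q491 .e)))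
noncomputable def t111 : Tr := .c 3 r449 (.c 5 r450 (.c 6 r362 (.c 7 r363 (.c 8 r451 (.c 9 r452 .e)))))
noncomputable def r453 : Tr := .c 3 q475 (.c 4 q476 (.c 5 q477 (.c 9 q479 .e)))
noncomputable def r454 : Tr := .c 3 q480 (.c 5 q481 (.c 8 q484 (.c 9 q485 .e)))
noncomputable def t112 : Tr := .c 1 r453 (.c 2 r454 (.c 7 r357 (.c 8 r447 (.c 9 r448 .e))))
noncomputable def r455 : Tr := .c 4 q491 (.c 5 q477 (.c 8 q493 (.c 9 q479 .e)))
noncomputable def r456 : Tr := .c 3 q494 (.c 4 q491 (.c 5 q477 (.c 9 q479 .e)))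
noncomputable def t113 : Tr := .c 0 r455 (.c 1 r456 (.c 6 r362 (.c 7 r363 (.c 8 r451 (.c 9 r452 .e)))))
noncomputable def r457 : Tr := .c 4 q500 (.c 5 q501 (.c 9 q503 .e))
noncomputable def r458 : Tr := .c 3 q500 (.c 4 q500 (.c 5 q501 (.c 9 q503 .e)))
noncomputable def r459 : Tr := .c 3 q505 (.c 5 q501 (.c 9 q503 .e))
noncomputable def r460 : Tr := .c 0 q157 (.c 2 q157 (.c 3 q500 (.c 4 q500 (.c 5 q501 .e))))
noncomputable def t114 : Tr := .c 0 r457 (.c 1 r458 (.c 2 r459 (.c 6 r369 (.c 7 r370 (.c 8 r460 .e)))))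
noncomputable def r461 : Tr := .c 3 q511 (.c 4 q512 (.c 5 q513 (.c 9 q513 .e)))
noncomputable def r462 : Tr := .c 3 q515 (.c 5 q516 (.c 8 q519 (.c 9 q516 .e)))
noncomputable def r463 : Tr := .c 0 q520 (.c 8 q519 (.c 9 q516 .e))
noncomputable def r464 : Tr := .c 0 q79 (.c 2 q79 (.c 8 q522 .e))
noncomputable def r465 : Tr := .c 0 q79 (.c 2 q79 (.c 3 q511 (.c 4 q512 (.c 5 q513 .e))))
noncomputable def r466 : Tr := .c 0 q79 (.c 2 q79 (.c 3 q511 (.c 4 q512 .e)))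
noncomputable def t115 : Tr := .c 1 r461 (.c 2 r462 (.c 4 r463 (.c 5 r464 (.c 8 r465 (.c 9 r466 .e)))))
noncomputable def r467 : Tr := .c 0 q62 (.c 1 q250 (.c 8 q626 .e))
noncomputable def r468 : Tr := .c 0 q59 (.c 3 q486 (.c 5 q488 (.c 9 q489 .e)))
noncomputable def r469 : Tr := .c 0 q62 (.c 3 q475 (.c 5 q477 .e))
noncomputable def r470 : Tr := .c 0 q62 (.c 1 q250 (.c 3 q475 .e))
noncomputable def t116 : Tr := .c 4 r445 (.c 5 r467 (.c 7 r468 (.c 8 r469 (.c 9 r470 .e))))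
noncomputable def r471 : Tr := .c 1 q623 (.c 8 q624 (.c 9 q625 .e))
noncomputable def q629 : Tr := .c 9 v53 .e
noncomputable def v310 : Tr := .l 0x2c828a2082462c82ca2cb2c9
noncomputable def q630 : Tr := .c 1 v55 (.c 2 v310 (.c 7 v54 (.c 8 v55 .e)))
noncomputable def q631 : Tr := .c 2 v310 .e
noncomputable def q632 : Tr := .c 1 v55 (.c 2 v310 (.c 7 v54 .e))
noncomputable def r472 : Tr := .c 1 q629 (.c 5 q630 (.c 8 q631 (.c 9 q632 .e)))
noncomputable def t117 : Tr := .c 3 r471 (.c 4 r445 (.c 5 r467 (.c 6 r472 (.c 9 r470 .e))))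
noncomputable def r473 : Tr := .c 8 q627 (.c 9 q628 .e)
noncomputable def r474 : Tr := .c 0 q78 (.c 8 q626 .e)
noncomputable def r475 : Tr := .c 5 q488 (.c 8 q497 (.c 9 q489 .e))
noncomputable def r476 : Tr := .c 0 q77 (.c 3 q498 (.c 5 q488 (.c 9 q489 .e)))
noncomputable def r477 : Tr := .c 0 q78 (.c 3 q494 (.c 5 q477 .e))
noncomputable def r478 : Tr := .c 0 q78 (.c 3 q494 .e)
noncomputable def t118 : Tr := .c 3 r473 (.c 5 r474 (.c 6 r475 (.c 7 r476 (.c 8 r477 (.c 9 r478 .e)))))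
noncomputable def r479 : Tr := .c 3 q475 (.c 5 q477 (.c 9 q479 .e))
noncomputable def t119 : Tr := .c 1 r479 (.c 2 r454 (.c 7 r468 (.c 8 r469 (.c 9 r470 .e))))
noncomputable def r480 : Tr := .c 5 q477 (.c 8 q493 (.c 9 q479 .e))
noncomputable def r481 : Tr := .c 3 q494 (.c 5 q477 (.c 9 q479 .e))
noncomputable def t120 : Tr := .c 0 r480 (.c 1 r481 (.c 6 r475 (.c 7 r476 (.c 8 r477 (.c 9 r478 .e)))))
noncomputable def r482 : Tr := .c 3 q511 (.c 5 q513 (.c 9 q513 .e))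
noncomputable def r483 : Tr := .c 0 q79 (.c 8 q522 .e)
noncomputable def r484 : Tr := .c 0 q79 (.c 3 q511 (.c 5 q513 .e))
noncomputable def r485 : Tr := .c 0 q79 (.c 3 q511 .e)
noncomputable def t121 : Tr := .c 1 r482 (.c 2 r462 (.c 4 r463 (.c 5 r483 (.c 8 r484 (.c 9 r485 .e)))))
noncomputable def r486 : Tr := .c 5 q516 (.c 8 q519 (.c 9 q516 .e))
noncomputable def r487 : Tr := .c 8 q519 (.c 9 q516 .e)
noncomputable def t122 : Tr := .c 0 r486 (.c 2 r462 (.c 3 r487 (.c 4 r463 (.c 5 r483 (.c 9 r485 .e)))))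
noncomputable def q633 : Tr := .c 0 v40 (.c 1 v40 (.c 6 v41 (.c 7 v41 (.c 8 v40 .e))))
noncomputable def q634 : Tr := .c 0 v51 (.c 1 v51 (.c 6 v50 (.c 7 v50 (.c 8 v51 .e))))
noncomputable def q635 : Tr := .c 0 v114 .e
noncomputable def q636 : Tr := .c 0 v51 (.c 6 v50 .e)
noncomputable def q637 : Tr := .c 0 v51 (.c 1 v51 (.c 6 v50 (.c 7 v50 .e)))
noncomputable def r488 : Tr := .c 4 q633 (.c 5 q634 (.c 7 q635 (.c 8 q636 (.c 9 q637 .e))))
noncomputable def q638 : Tr := .c 1 v231 (.c 8 v231 .e)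
noncomputable def r489 : Tr := .c 3 q491 (.c 4 q633 (.c 5 q634 (.c 6 q638 (.c 9 q637 .e))))
noncomputable def q639 : Tr := .c 6 v47 .e
noncomputable def q640 : Tr := .c 0 v45 (.c 1 v45 (.c 6 v46 (.c 7 v46 (.c 8 v45 .e))))
noncomputable def q641 : Tr := .c 0 v48 (.c 1 v48 (.c 6 v47 (.c 7 v47 (.c 8 v48 .e))))
noncomputable def q642 : Tr := .c 0 v48 (.c 6 v47 .e)
noncomputable def q643 : Tr := .c 0 v48 (.c 1 v48 (.c 6 v47 (.c 7 v47 .e)))
noncomputable def r490 : Tr := .c 1 q639 (.c 2 q454 (.c 4 q640 (.c 5 q641 (.c 8 q642 (.c 9 q643 .e)))))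
noncomputable def r491 : Tr := .c 0 q77 (.c 2 q454 (.c 3 q496 (.c 4 q640 (.c 5 q641 (.c 9 q643 .e)))))
noncomputable def r492 : Tr := .c 0 q78 (.c 2 q456 (.c 3 q491 (.c 4 q633 (.c 5 q634 (.c 6 q638 .e)))))
noncomputable def t123 : Tr := .c 0 r488 (.c 1 r489 (.c 6 r490 (.c 7 r491 (.c 8 r492 .e))))
noncomputable def q644 : Tr := .c 0 v123 (.c 1 v123 (.c 6 v122 (.c 7 v122 (.c 8 v123 (.c 9 v123 .e)))))
noncomputable def q645 : Tr := .c 0 v2 (.c 1 v2 (.c 6 v124 (.c 7 v124 (.c 8 v2 .e))))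
noncomputable def v311 : Tr := .l 0x2cb2cb2cb2cb2cb28b20924b
noncomputable def q646 : Tr := .c 0 v311 (.c 9 v238 .e)
noncomputable def q647 : Tr := .c 0 v2 (.c 6 v124 .e)
noncomputable def q648 : Tr := .c 0 v2 (.c 1 v2 (.c 6 v124 (.c 7 v124 .e)))
noncomputable def r493 : Tr := .c 4 q644 (.c 5 q645 (.c 7 q646 (.c 8 q647 (.c 9 q648 .e))))
noncomputable def r494 : Tr := .c 3 q500 (.c 4 q644 (.c 5 q645 (.c 6 q504 (.c 9 q648 .e))))
noncomputable def r495 : Tr := .c 3 q505 (.c 5 q645 (.c 6 q506 (.c 7 q646 (.c 8 q647 (.c 9 q648 .e)))))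
noncomputable def q649 : Tr := .c 6 v131 (.c 9 v128 .e)
noncomputable def q650 : Tr := .c 0 v129 (.c 1 v129 (.c 6 v130 (.c 7 v130 (.c 8 v129 (.c 9 v129 .e)))))
noncomputable def q651 : Tr := .c 0 v100 (.c 1 v100 (.c 6 v131 (.c 7 v131 (.c 8 v100 .e))))
noncomputable def q652 : Tr := .c 0 v100 (.c 6 v131 .e)
noncomputable def q653 : Tr := .c 0 v100 (.c 1 v100 (.c 6 v131 (.c 7 v131 .e)))
noncomputable def r496 : Tr := .c 1 q649 (.c 2 q468 (.c 4 q650 (.c 5 q651 (.c 8 q652 (.c 9 q653 .e)))))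
noncomputable def r497 : Tr := .c 0 q164 (.c 2 q468 (.c 3 q508 (.c 4 q650 (.c 5 q651 (.c 9 q653 .e)))))
noncomputable def r498 : Tr := .c 0 q157 (.c 2 q462 (.c 3 q500 (.c 4 q644 (.c 5 q645 (.c 6 q504 .e)))))
noncomputable def t124 : Tr := .c 0 r493 (.c 1 r494 (.c 2 r495 (.c 6 r496 (.c 7 r497 (.c 8 r498 .e)))))
noncomputable def v312 : Tr := .l 0x28b28b28b20b2cb2cb2cb2cb
noncomputable def q654 : Tr := .c 0 v114 (.c 1 v114 (.c 6 v312 (.c 7 v312 .e)))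
noncomputable def v313 : Tr := .l 0x2c82ca2cb2c92c92cb2cb2cb
noncomputable def v314 : Tr := .l 0x2c92cb2c92472cb2cb2cb2ca
noncomputable def q655 : Tr := .c 0 v313 (.c 1 v313 (.c 6 v314 (.c 7 v314 .e)))
noncomputable def v315 : Tr := .l 0x2cb28b2cb2cb2cb2cb2cb2cb
noncomputable def q656 : Tr := .c 0 v315 .e
noncomputable def q657 : Tr := .c 0 v313 (.c 6 v314 .e)
noncomputable def r499 : Tr := .c 4 q654 (.c 5 q655 (.c 7 q656 (.c 8 q657 (.c 9 q655 .e))))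
noncomputable def v316 : Tr := .l 0x2cb2ca2cb2cb2cb2cb2cb2cb
noncomputable def v317 : Tr := .l 0x2cb2cb2cb2ca2cb2cb2cb2cb
noncomputable def q658 : Tr := .c 1 v316 (.c 7 v317 .e)
noncomputable def v318 : Tr := .l 0x2ca2c824a2cb2cb2cb2cb2cb
noncomputable def q659 : Tr := .c 1 v318 .e
noncomputable def r500 : Tr := .c 3 q658 (.c 5 q655 (.c 6 q659 (.c 7 q656 (.c 8 q657 (.c 9 q655 .e)))))
noncomputable def q660 : Tr := .c 6 v314 .e
noncomputable def v319 : Tr := .l 0x2ca2cb2ca2882cb2cb2cb2cb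
noncomputable def q661 : Tr := .c 6 v319 (.c 7 v319 .e)
noncomputable def r501 : Tr := .c 1 q660 (.c 2 q661 (.c 7 q656 (.c 8 q657 (.c 9 q655 .e))))
noncomputable def r502 : Tr := .c 0 q29 (.c 1 q660 (.c 6 q659 (.c 7 q656 (.c 8 q657 (.c 9 q655 .e)))))
noncomputable def t125 : Tr := .c 0 r499 (.c 2 r500 (.c 3 r501 (.c 4 r502 .e)))
noncomputable def q662 : Tr := .c 0 v123 (.c 1 v123 (.c 8 v123 (.c 9 v123 .e)))
noncomputable def q663 : Tr := .c 0 v2 (.c 1 v2 (.c 8 v2 .e))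
noncomputable def q664 : Tr := .c 0 v2 .e
noncomputable def q665 : Tr := .c 0 v2 (.c 1 v2 .e)
noncomputable def r503 : Tr := .c 4 q662 (.c 5 q663 (.c 7 q646 (.c 8 q664 (.c 9 q665 .e))))
noncomputable def r504 : Tr := .c 3 q526 (.c 5 q663 (.c 6 q506 (.c 7 q646 (.c 8 q664 (.c 9 q665 .e)))))
noncomputable def r505 : Tr := .c 1 q527 (.c 2 q528 (.c 7 q646 (.c 8 q664 (.c 9 q665 .e))))
noncomputable def r506 : Tr := .c 0 q529 (.c 1 q527 (.c 6 q506 (.c 7 q646 (.c 8 q664 (.c 9 q665 .e)))))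
noncomputable def q666 : Tr := .c 0 v129 (.c 1 v129 (.c 8 v129 (.c 9 v129 .e)))
noncomputable def q667 : Tr := .c 0 v100 (.c 1 v100 (.c 8 v100 .e))
noncomputable def q668 : Tr := .c 0 v100 .e
noncomputable def q669 : Tr := .c 0 v100 (.c 1 v100 .e)
noncomputable def r507 : Tr := .c 1 q507 (.c 2 q530 (.c 4 q666 (.c 5 q667 (.c 8 q668 (.c 9 q669 .e)))))
noncomputable def t126 : Tr := .c 0 r503 (.c 2 r504 (.c 3 r505 (.c 4 r506 (.c 6 r507 .e))))
noncomputable def r508 : Tr := .c 3 q523 (.c 4 q662 (.c 5 q663 (.c 6 q504 (.c 9 q665 .e))))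
noncomputable def r509 : Tr := .c 0 q530 (.c 2 q530 (.c 3 q531 (.c 4 q666 (.c 5 q667 (.c 9 q669 .e)))))
noncomputable def t127 : Tr := .c 0 r503 (.c 1 r508 (.c 2 r504 (.c 3 r505 (.c 4 r506 (.c 6 r507 (.c 7 r509 .e))))))
noncomputable def q670 : Tr := .c 0 v40 (.c 1 v40 (.c 6 v41 (.c 7 v41 (.c 8 v40 (.c 9 v40 .e)))))
noncomputable def q671 : Tr := .c 1 v231 (.c 8 v231 (.c 9 v231 .e))
noncomputable def r510 : Tr := .c 3 q476 (.c 4 q670 (.c 5 q634 (.c 6 q671 (.c 9 q637 .e))))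
noncomputable def q672 : Tr := .c 1 v117 (.c 7 v116 (.c 8 v117 (.c 9 v117 .e)))
noncomputable def q673 : Tr := .c 0 v119 (.c 1 v119 (.c 6 v118 (.c 7 v118 (.c 8 v119 .e))))
noncomputable def q674 : Tr := .c 1 v235 (.c 8 v235 (.c 9 v235 .e))
noncomputable def v320 : Tr := .l 0x2cb2cb2cb2cb2cb28b2cb2cb
noncomputable def q675 : Tr := .c 0 v320 (.c 9 v235 .e)
noncomputable def q676 : Tr := .c 0 v119 (.c 6 v118 .e)
noncomputable def q677 : Tr := .c 0 v119 (.c 1 v119 (.c 6 v118 (.c 7 v118 .e)))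
noncomputable def r511 : Tr := .c 3 q672 (.c 5 q673 (.c 6 q674 (.c 7 q675 (.c 8 q676 (.c 9 q677 .e)))))
noncomputable def q678 : Tr := .c 0 v45 (.c 1 v45 (.c 6 v46 (.c 7 v46 (.c 8 v45 (.c 9 v45 .e)))))
noncomputable def r512 : Tr := .c 0 q59 (.c 2 q449 (.c 3 q487 (.c 4 q678 (.c 5 q641 (.c 9 q643 .e)))))
noncomputable def r513 : Tr := .c 0 q62 (.c 2 q451 (.c 3 q476 (.c 4 q670 (.c 5 q634 (.c 6 q671 .e)))))
noncomputable def t128 : Tr := .c 1 r510 (.c 2 r511 (.c 7 r512 (.c 8 r513 .e)))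
noncomputable def q679 : Tr := .c 0 v240 (.c 1 v240 (.c 6 v59 (.c 7 v59 .e)))
noncomputable def q680 : Tr := .c 0 v242 (.c 1 v242 (.c 6 v60 (.c 7 v60 .e)))
noncomputable def q681 : Tr := .c 1 v244 .e
noncomputable def r514 : Tr := .c 3 q512 (.c 4 q679 (.c 5 q680 (.c 6 q681 (.c 9 q680 .e))))
noncomputable def q682 : Tr := .c 1 v246 (.c 7 v64 .e)
noncomputable def q683 : Tr := .c 0 v248 (.c 1 v248 (.c 6 v65 (.c 7 v65 .e)))
noncomputable def q684 : Tr := .c 1 v250 .e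
noncomputable def v321 : Tr := .l 0x24b2cb2cb2cb28b20b28b2cb
noncomputable def q685 : Tr := .c 0 v321 .e
noncomputable def q686 : Tr := .c 0 v248 (.c 6 v65 .e)
noncomputable def r515 : Tr := .c 3 q682 (.c 5 q683 (.c 6 q684 (.c 7 q685 (.c 8 q686 (.c 9 q683 .e)))))
noncomputable def q687 : Tr := .c 6 v65 .e
noncomputable def r516 : Tr := .c 0 q520 (.c 1 q687 (.c 6 q684 (.c 7 q685 (.c 8 q686 (.c 9 q683 .e)))))
noncomputable def r517 : Tr := .c 0 q79 (.c 2 q473 (.c 3 q512 (.c 4 q679 (.c 5 q680 (.c 6 q681 .e)))))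
noncomputable def t129 : Tr := .c 1 r514 (.c 2 r515 (.c 4 r516 (.c 8 r517 .e)))
noncomputable def q688 : Tr := .c 6 v189 (.c 9 v111 .e)
noncomputable def v322 : Tr := .l 0x2cb2cb2cb24b24b2cb24b1ca
noncomputable def q689 : Tr := .c 0 v322 (.c 9 v102 .e)
noncomputable def r518 : Tr := .c 1 q688 (.c 2 q334 (.c 7 q689 .e))
noncomputable def q690 : Tr := .c 7 v11 (.c 8 v111 (.c 9 v111 .e))
noncomputable def r519 : Tr := .c 0 q690 (.c 1 q688 (.c 6 q611 (.c 7 q689 .e)))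
noncomputable def q691 : Tr := .c 6 v219 (.c 9 v106 .e)
noncomputable def q692 : Tr := .c 0 v107 (.c 1 v107 (.c 6 v220 (.c 7 v220 (.c 8 v107 (.c 9 v107 .e)))))
noncomputable def q693 : Tr := .c 0 v110 (.c 1 v110 (.c 6 v171 (.c 7 v171 (.c 8 v110 .e))))
noncomputable def r520 : Tr := .c 1 q691 (.c 2 q415 (.c 4 q692 (.c 5 q693 .e)))
noncomputable def t130 : Tr := .c 3 r518 (.c 4 r519 (.c 6 r520 .e))
noncomputable def v323 : Tr := .l 0x2cb2cb2cb28b28b2cb28b20b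
noncomputable def q694 : Tr := .c 0 v323 .e
noncomputable def r521 : Tr := .c 1 q197 (.c 2 q344 (.c 7 q694 .e))
noncomputable def q695 : Tr := .c 6 v222 .e
noncomputable def q696 : Tr := .c 0 v83 (.c 1 v83 (.c 6 v84 (.c 7 v84 (.c 8 v83 .e))))
noncomputable def q697 : Tr := .c 0 v86 (.c 1 v86 (.c 6 v85 (.c 7 v85 (.c 8 v86 .e))))
noncomputable def r522 : Tr := .c 1 q695 (.c 2 q420 (.c 4 q696 (.c 5 q697 .e)))
noncomputable def r523 : Tr := .c 0 q122 (.c 2 q420 (.c 3 q597 (.c 4 q696 (.c 5 q697 .e))))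
noncomputable def q698 : Tr := .c 0 v79 (.c 1 v79 (.c 6 v80 (.c 7 v80 (.c 8 v79 .e))))
noncomputable def q699 : Tr := .c 0 v88 (.c 1 v88 (.c 6 v87 (.c 7 v87 (.c 8 v88 .e))))
noncomputable def q700 : Tr := .c 1 v82 (.c 8 v82 .e)
noncomputable def r524 : Tr := .c 0 q118 (.c 2 q423 (.c 3 q600 (.c 4 q698 (.c 5 q699 (.c 6 q700 .e)))))
noncomputable def t131 : Tr := .c 3 r521 (.c 6 r522 (.c 7 r523 (.c 8 r524 .e)))
noncomputable def q701 : Tr := .c 0 v312 .e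
noncomputable def r525 : Tr := .c 4 q698 (.c 5 q699 (.c 7 q701 .e))
noncomputable def r526 : Tr := .c 3 q600 (.c 4 q698 (.c 5 q699 (.c 6 q700 .e)))
noncomputable def t132 : Tr := .c 0 r525 (.c 1 r526 (.c 6 r522 (.c 7 r523 (.c 8 r524 .e))))
noncomputable def q702 : Tr := .c 0 v99 (.c 1 v99 (.c 6 v98 (.c 7 v98 (.c 8 v99 (.c 9 v99 .e)))))
noncomputable def q703 : Tr := .c 0 v101 (.c 1 v101 (.c 6 v100 (.c 7 v100 (.c 8 v101 .e))))
noncomputable def r527 : Tr := .c 4 q702 (.c 5 q703 (.c 7 q689 .e))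
noncomputable def r528 : Tr := .c 3 q606 (.c 4 q702 (.c 5 q703 (.c 6 q609 .e)))
noncomputable def r529 : Tr := .c 3 q610 (.c 5 q703 (.c 6 q611 (.c 7 q689 .e)))
noncomputable def q704 : Tr := .c 6 v167 (.c 9 v106 .e)
noncomputable def q705 : Tr := .c 0 v107 (.c 1 v107 (.c 6 v108 (.c 7 v108 (.c 8 v107 (.c 9 v107 .e)))))
noncomputable def q706 : Tr := .c 0 v110 (.c 1 v110 (.c 6 v109 (.c 7 v109 (.c 8 v110 .e))))
noncomputable def r530 : Tr := .c 1 q704 (.c 2 q431 (.c 4 q705 (.c 5 q706 .e)))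
noncomputable def r531 : Tr := .c 0 q136 (.c 2 q431 (.c 3 q613 (.c 4 q705 (.c 5 q706 .e))))
noncomputable def r532 : Tr := .c 0 q128 (.c 2 q427 (.c 3 q606 (.c 4 q702 (.c 5 q703 (.c 6 q609 .e)))))
noncomputable def t133 : Tr := .c 0 r527 (.c 1 r528 (.c 2 r529 (.c 6 r530 (.c 7 r531 (.c 8 r532 .e)))))
noncomputable def q707 : Tr := .c 0 v99 (.c 1 v99 (.c 8 v99 (.c 9 v99 .e)))
noncomputable def q708 : Tr := .c 0 v101 (.c 1 v101 (.c 8 v101 .e))
noncomputable def r533 : Tr := .c 4 q707 (.c 5 q708 (.c 7 q689 .e))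
noncomputable def r534 : Tr := .c 3 q617 (.c 5 q708 (.c 6 q611 (.c 7 q689 .e)))
noncomputable def r535 : Tr := .c 1 q618 (.c 2 q371 (.c 7 q689 .e))
noncomputable def r536 : Tr := .c 0 q619 (.c 1 q618 (.c 6 q611 (.c 7 q689 .e)))
noncomputable def q709 : Tr := .c 0 v107 (.c 1 v107 (.c 8 v107 (.c 9 v107 .e)))
noncomputable def q710 : Tr := .c 0 v110 (.c 1 v110 (.c 8 v110 .e))
noncomputable def r537 : Tr := .c 1 q612 (.c 2 q146 (.c 4 q709 (.c 5 q710 .e)))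
noncomputable def t134 : Tr := .c 0 r533 (.c 2 r534 (.c 3 r535 (.c 4 r536 (.c 6 r537 .e))))
noncomputable def r538 : Tr := .c 3 q615 (.c 4 q707 (.c 5 q708 (.c 6 q609 .e)))
noncomputable def r539 : Tr := .c 0 q146 (.c 2 q146 (.c 3 q620 (.c 4 q709 (.c 5 q710 .e))))
noncomputable def t135 : Tr := .c 0 r533 (.c 1 r538 (.c 2 r534 (.c 3 r535 (.c 4 r536 (.c 6 r537 (.c 7 r539 .e))))))
noncomputable def q711 : Tr := .c 6 v11 (.c 9 v75 .e)
noncomputable def q712 : Tr := .c 1 v77 (.c 8 v77 (.c 9 v77 .e))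
noncomputable def q713 : Tr := .c 0 v11 (.c 9 v77 .e)
noncomputable def r540 : Tr := .c 0 q581 (.c 1 q711 (.c 6 q712 (.c 7 q713 .e)))
noncomputable def q714 : Tr := .c 0 v83 (.c 1 v83 (.c 6 v84 (.c 7 v84 (.c 8 v83 (.c 9 v83 .e)))))
noncomputable def r541 : Tr := .c 0 q109 (.c 2 q441 (.c 3 q589 (.c 4 q714 (.c 5 q697 .e))))
noncomputable def q715 : Tr := .c 0 v79 (.c 1 v79 (.c 6 v80 (.c 7 v80 (.c 8 v79 (.c 9 v79 .e)))))
noncomputable def q716 : Tr := .c 1 v82 (.c 8 v82 (.c 9 v82 .e))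
noncomputable def r542 : Tr := .c 0 q111 (.c 2 q443 (.c 3 q592 (.c 4 q715 (.c 5 q699 (.c 6 q716 .e)))))
noncomputable def t136 : Tr := .c 4 r540 (.c 7 r541 (.c 8 r542 .e))
noncomputable def r543 : Tr := .c 3 q592 (.c 4 q715 (.c 5 q699 (.c 6 q716 .e)))
noncomputable def q717 : Tr := .c 1 v93 (.c 7 v92 (.c 8 v93 (.c 9 v93 .e)))
noncomputable def q718 : Tr := .c 0 v95 (.c 1 v95 (.c 6 v94 (.c 7 v94 (.c 8 v95 .e))))
noncomputable def q719 : Tr := .c 1 v97 (.c 8 v97 (.c 9 v97 .e))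
noncomputable def v324 : Tr := .l 0x2cb2cb2cb2cb2cb2cb2cb28b
noncomputable def q720 : Tr := .c 0 v324 (.c 9 v97 .e)
noncomputable def r544 : Tr := .c 3 q717 (.c 5 q718 (.c 6 q719 (.c 7 q720 .e)))
noncomputable def t137 : Tr := .c 1 r543 (.c 2 r544 (.c 7 r541 (.c 8 r542 .e)))
noncomputable def q721 : Tr := .c 6 v38 (.c 9 v34 .e)
noncomputable def q722 : Tr := .c 0 v306 (.c 6 v38 .e)
noncomputable def q723 : Tr := .c 0 v306 (.c 1 v306 (.c 6 v38 (.c 7 v38 .e)))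
noncomputable def r545 : Tr := .c 0 q622 (.c 1 q721 (.c 8 q722 (.c 9 q723 .e)))
noncomputable def r546 : Tr := .c 0 q62 (.c 2 q451 (.c 3 q476 (.c 4 q670 (.c 5 q634 .e))))
noncomputable def t138 : Tr := .c 4 r545 (.c 7 r512 (.c 8 r546 .e))
noncomputable def q724 : Tr := .c 6 v58 .e
noncomputable def q725 : Tr := .c 6 v113 (.c 7 v113 (.c 8 v114 .e))
noncomputable def q726 : Tr := .c 0 v309 (.c 6 v58 .e)
noncomputable def q727 : Tr := .c 0 v309 (.c 1 v309 (.c 6 v58 (.c 7 v58 .e)))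
noncomputable def r547 : Tr := .c 1 q724 (.c 2 q725 (.c 8 q726 (.c 9 q727 .e)))
noncomputable def r548 : Tr := .c 0 q78 (.c 2 q456 (.c 3 q491 (.c 4 q633 (.c 5 q634 .e))))
noncomputable def t139 : Tr := .c 3 r547 (.c 6 r490 (.c 7 r491 (.c 8 r548 .e)))
noncomputable def r549 : Tr := .c 3 q476 (.c 4 q670 (.c 5 q634 (.c 9 q637 .e)))
noncomputable def r550 : Tr := .c 3 q672 (.c 5 q673 (.c 8 q676 (.c 9 q677 .e)))
noncomputable def t140 : Tr := .c 1 r549 (.c 2 r550 (.c 7 r512 (.c 8 r546 .e)))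
noncomputable def r551 : Tr := .c 4 q633 (.c 5 q634 (.c 8 q636 (.c 9 q637 .e)))
noncomputable def r552 : Tr := .c 3 q491 (.c 4 q633 (.c 5 q634 (.c 9 q637 .e)))
noncomputable def t141 : Tr := .c 0 r551 (.c 1 r552 (.c 6 r490 (.c 7 r491 (.c 8 r548 .e))))
noncomputable def r553 : Tr := .c 4 q644 (.c 5 q645 (.c 8 q647 (.c 9 q648 .e)))
noncomputable def r554 : Tr := .c 3 q500 (.c 4 q644 (.c 5 q645 (.c 9 q648 .e)))
noncomputable def r555 : Tr := .c 3 q505 (.c 5 q645 (.c 8 q647 (.c 9 q648 .e)))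
noncomputable def r556 : Tr := .c 0 q157 (.c 2 q462 (.c 3 q500 (.c 4 q644 (.c 5 q645 .e))))
noncomputable def t142 : Tr := .c 0 r553 (.c 1 r554 (.c 2 r555 (.c 6 r496 (.c 7 r497 (.c 8 r556 .e)))))
noncomputable def r557 : Tr := .c 3 q512 (.c 4 q679 (.c 5 q680 (.c 9 q680 .e)))
noncomputable def r558 : Tr := .c 3 q682 (.c 5 q683 (.c 8 q686 (.c 9 q683 .e)))
noncomputable def r559 : Tr := .c 0 q520 (.c 1 q687 (.c 8 q686 (.c 9 q683 .e)))
noncomputable def r560 : Tr := .c 0 q79 (.c 2 q473 (.c 3 q512 (.c 4 q679 (.c 5 q680 .e))))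
noncomputable def t143 : Tr := .c 1 r557 (.c 2 r558 (.c 4 r559 (.c 8 r560 .e)))
noncomputable def r561 : Tr := .c 0 q59 (.c 3 q487 (.c 5 q641 (.c 9 q643 .e)))
noncomputable def r562 : Tr := .c 0 q62 (.c 3 q476 (.c 5 q634 .e))
noncomputable def t144 : Tr := .c 4 r545 (.c 7 r561 (.c 8 r562 .e))
noncomputable def r563 : Tr := .c 1 q721 (.c 8 q722 (.c 9 q723 .e))
noncomputable def q728 : Tr := .c 6 v54 (.c 9 v53 .e)
noncomputable def q729 : Tr := .c 0 v55 (.c 1 v55 (.c 6 v54 (.c 7 v54 (.c 8 v55 .e))))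
noncomputable def q730 : Tr := .c 0 v55 (.c 6 v54 .e)
noncomputable def q731 : Tr := .c 0 v55 (.c 1 v55 (.c 6 v54 (.c 7 v54 .e)))
noncomputable def r564 : Tr := .c 1 q728 (.c 5 q729 (.c 8 q730 (.c 9 q731 .e)))
noncomputable def t145 : Tr := .c 3 r563 (.c 4 r545 (.c 6 r564 .e))
noncomputable def r565 : Tr := .c 1 q724 (.c 8 q726 (.c 9 q727 .e))
noncomputable def r566 : Tr := .c 1 q639 (.c 5 q641 (.c 8 q642 (.c 9 q643 .e)))
noncomputable def r567 : Tr := .c 0 q77 (.c 3 q496 (.c 5 q641 (.c 9 q643 .e)))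
noncomputable def r568 : Tr := .c 0 q78 (.c 3 q491 (.c 5 q634 .e))
noncomputable def t146 : Tr := .c 3 r565 (.c 6 r566 (.c 7 r567 (.c 8 r568 .e)))
noncomputable def r569 : Tr := .c 3 q476 (.c 5 q634 (.c 9 q637 .e))
noncomputable def t147 : Tr := .c 1 r569 (.c 2 r550 (.c 7 r561 (.c 8 r562 .e)))
noncomputable def r570 : Tr := .c 5 q634 (.c 8 q636 (.c 9 q637 .e))
noncomputable def r571 : Tr := .c 3 q491 (.c 5 q634 (.c 9 q637 .e))
noncomputable def t148 : Tr := .c 0 r570 (.c 1 r571 (.c 6 r566 (.c 7 r567 (.c 8 r568 .e))))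
noncomputable def r572 : Tr := .c 3 q512 (.c 5 q680 (.c 9 q680 .e))
noncomputable def r573 : Tr := .c 0 q79 (.c 3 q512 (.c 5 q680 .e))
noncomputable def t149 : Tr := .c 1 r572 (.c 2 r558 (.c 4 r559 (.c 8 r573 .e)))
noncomputable def r574 : Tr := .c 5 q683 (.c 8 q686 (.c 9 q683 .e))
noncomputable def r575 : Tr := .c 1 q687 (.c 8 q686 (.c 9 q683 .e))
noncomputable def t150 : Tr := .c 0 r574 (.c 2 r558 (.c 3 r575 (.c 4 r559 .e)))
noncomputable def v325 : Tr := .l 0x20b20a20b1892c82872c8246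
noncomputable def v326 : Tr := .l 0x28b28b28b20b2c92c92ca2c8
noncomputable def q732 : Tr := .c 0 v325 (.c 1 v325 (.c 6 v326 (.c 7 v326 (.c 8 v325 .e))))
noncomputable def v327 : Tr := .l 0x2c92cb2ca2c82872c9287205
noncomputable def q733 : Tr := .c 0 v2 (.c 1 v2 (.c 2 v2 (.c 6 v327 (.c 7 v327 (.c 8 v2 .e)))))
noncomputable def v328 : Tr := .l 0x2cb2ca2cb2cb2c92872c92cb
noncomputable def q734 : Tr := .c 0 v328 (.c 2 v328 .e)
noncomputable def q735 : Tr := .c 0 v2 (.c 2 v2 (.c 6 v327 .e))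
noncomputable def q736 : Tr := .c 0 v2 (.c 1 v2 (.c 2 v2 (.c 6 v327 (.c 7 v327 .e))))
noncomputable def r576 : Tr := .c 4 q732 (.c 5 q733 (.c 7 q734 (.c 8 q735 (.c 9 q736 .e))))
noncomputable def v329 : Tr := .l 0x24a24924a1c9287246287246
noncomputable def q737 : Tr := .c 1 v325 (.c 2 v329 (.c 7 v326 (.c 8 v325 .e)))
noncomputable def v330 : Tr := .l 0x28a28828920b2872052462c8
noncomputable def v331 : Tr := .l 0x2c92872c824a2461c4205287
noncomputable def q738 : Tr := .c 1 v330 (.c 2 v331 (.c 8 v330 .e))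
noncomputable def r577 : Tr := .c 3 q737 (.c 4 q732 (.c 5 q733 (.c 6 q738 (.c 9 q736 .e))))
noncomputable def v332 : Tr := .l 0x2cb2cb2cb28a2ca2cb2ca2c8
noncomputable def v333 : Tr := .l 0x28b28b28b20b2ca2c92ca2c8
noncomputable def q739 : Tr := .c 6 v332 (.c 7 v332 (.c 8 v333 .e))
noncomputable def q740 : Tr := .c 0 v333 (.c 1 v333 (.c 6 v332 (.c 7 v332 (.c 8 v333 .e))))
noncomputable def q741 : Tr := .c 0 v100 (.c 1 v100 (.c 2 v100 (.c 6 v171 (.c 7 v171 (.c 8 v100 .e)))))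
noncomputable def q742 : Tr := .c 0 v100 (.c 2 v100 (.c 6 v171 .e))
noncomputable def q743 : Tr := .c 0 v100 (.c 1 v100 (.c 2 v100 (.c 6 v171 (.c 7 v171 .e))))
noncomputable def r578 : Tr := .c 1 q299 (.c 2 q739 (.c 4 q740 (.c 5 q741 (.c 8 q742 (.c 9 q743 .e)))))
noncomputable def q744 : Tr := .c 7 v332 (.c 8 v333 .e)
noncomputable def v334 : Tr := .l 0x2cb2cb2cb24b2c92c82c92c8
noncomputable def q745 : Tr := .c 1 v333 (.c 2 v334 (.c 7 v332 (.c 8 v333 .e)))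
noncomputable def r579 : Tr := .c 0 q744 (.c 2 q739 (.c 3 q745 (.c 4 q740 (.c 5 q741 (.c 9 q743 .e)))))
noncomputable def q746 : Tr := .c 7 v326 (.c 8 v325 .e)
noncomputable def q747 : Tr := .c 6 v326 (.c 7 v326 (.c 8 v325 .e))
noncomputable def r580 : Tr := .c 0 q746 (.c 2 q747 (.c 3 q737 (.c 4 q732 (.c 5 q733 (.c 6 q738 .e)))))
noncomputable def v335 : Tr := .l 0x2cb2cb2cb24a2c82c82c92c9
noncomputable def q748 : Tr := .c 6 v335 .e
noncomputable def q749 : Tr := .c 0 v331 (.c 2 v331 .e)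
noncomputable def r581 : Tr := .c 0 q746 (.c 1 q748 (.c 2 q747 (.c 3 q737 (.c 4 q732 (.c 6 q738 (.c 7 q749 .e))))))
noncomputable def t151 : Tr := .c 0 r576 (.c 1 r577 (.c 6 r578 (.c 7 r579 (.c 8 r580 (.c 9 r581 .e)))))
noncomputable def v336 : Tr := .l 0x2ca2cb2ca2c8287289207205
noncomputable def q750 : Tr := .c 0 v2 (.c 1 v2 (.c 6 v336 (.c 7 v336 (.c 8 v2 .e))))
noncomputable def q751 : Tr := .c 0 v0 (.c 1 v0 (.c 6 v14 (.c 7 v14 (.c 8 v0 .e))))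
noncomputable def q752 : Tr := .c 0 v3 .e
noncomputable def q753 : Tr := .c 0 v0 (.c 6 v14 .e)
noncomputable def q754 : Tr := .c 0 v0 (.c 1 v0 (.c 6 v14 (.c 7 v14 .e)))
noncomputable def r582 : Tr := .c 4 q750 (.c 5 q751 (.c 7 q752 (.c 8 q753 (.c 9 q754 .e))))
noncomputable def q755 : Tr := .c 1 v2 (.c 7 v336 (.c 8 v2 .e))
noncomputable def v337 : Tr := .l 0x2ca2ca2ca2c8287287207205
noncomputable def q756 : Tr := .c 1 v337 (.c 8 v337 .e)
noncomputable def r583 : Tr := .c 3 q755 (.c 4 q750 (.c 5 q751 (.c 6 q756 (.c 9 q754 .e))))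
noncomputable def q757 : Tr := .c 6 v100 (.c 7 v100 (.c 8 v100 .e))
noncomputable def q758 : Tr := .c 0 v100 (.c 1 v100 (.c 6 v100 (.c 7 v100 (.c 8 v100 .e))))
noncomputable def q759 : Tr := .c 0 v14 (.c 1 v14 (.c 6 v136 (.c 7 v136 (.c 8 v14 .e))))
noncomputable def q760 : Tr := .c 0 v14 (.c 6 v136 .e)
noncomputable def q761 : Tr := .c 0 v14 (.c 1 v14 (.c 6 v136 (.c 7 v136 .e)))
noncomputable def r584 : Tr := .c 1 q182 (.c 2 q757 (.c 4 q758 (.c 5 q759 (.c 8 q760 (.c 9 q761 .e)))))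
noncomputable def q762 : Tr := .c 7 v100 (.c 8 v100 .e)
noncomputable def q763 : Tr := .c 1 v100 (.c 7 v100 (.c 8 v100 .e))
noncomputable def r585 : Tr := .c 0 q762 (.c 2 q757 (.c 3 q763 (.c 4 q758 (.c 5 q759 (.c 9 q761 .e)))))
noncomputable def q764 : Tr := .c 7 v336 (.c 8 v2 .e)
noncomputable def q765 : Tr := .c 6 v336 (.c 7 v336 (.c 8 v2 .e))
noncomputable def r586 : Tr := .c 0 q764 (.c 2 q765 (.c 3 q755 (.c 4 q750 (.c 5 q751 (.c 6 q756 .e)))))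
noncomputable def t152 : Tr := .c 0 r582 (.c 1 r583 (.c 6 r584 (.c 7 r585 (.c 8 r586 .e))))
noncomputable def q766 : Tr := .c 0 v328 (.c 1 v328 (.c 6 v146 (.c 7 v146 .e)))
noncomputable def q767 : Tr := .c 0 v23 (.c 1 v23 (.c 2 v23 (.c 6 v147 (.c 7 v147 .e))))
noncomputable def q768 : Tr := .c 0 v21 (.c 2 v21 .e)
noncomputable def q769 : Tr := .c 0 v23 (.c 2 v23 (.c 6 v147 .e))
noncomputable def r587 : Tr := .c 4 q766 (.c 5 q767 (.c 7 q768 (.c 8 q769 (.c 9 q767 .e))))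
noncomputable def q770 : Tr := .c 6 v25 (.c 7 v25 .e)
noncomputable def r588 : Tr := .c 1 q203 (.c 2 q770 (.c 7 q768 (.c 8 q769 (.c 9 q767 .e))))
noncomputable def q771 : Tr := .c 7 v151 .e
noncomputable def q772 : Tr := .c 6 v149 .e
noncomputable def q773 : Tr := .c 6 v151 (.c 7 v151 .e)
noncomputable def v338 : Tr := .l 0x2872052872c91c41421c4246
noncomputable def q774 : Tr := .c 1 v338 (.c 2 v18 .e)
noncomputable def q775 : Tr := .c 0 v18 (.c 2 v18 .e)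
noncomputable def q776 : Tr := .c 0 v26 (.c 2 v26 (.c 6 v149 .e))
noncomputable def r589 : Tr := .c 0 q771 (.c 1 q772 (.c 2 q773 (.c 6 q774 (.c 7 q775 (.c 8 q776 .e)))))
noncomputable def v339 : Tr := .l 0x2c82872c924a2051c4246287
noncomputable def v340 : Tr := .l 0x2872462c82891c4183205246
noncomputable def q777 : Tr := .c 1 v339 (.c 2 v340 (.c 7 v151 .e))
noncomputable def q778 : Tr := .c 0 v339 (.c 1 v339 (.c 6 v151 (.c 7 v151 .e)))
noncomputable def r590 : Tr := .c 0 q771 (.c 1 q772 (.c 2 q773 (.c 3 q777 (.c 4 q778 (.c 6 q774 (.c 7 q775 .e))))))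
noncomputable def t153 : Tr := .c 0 r587 (.c 3 r588 (.c 5 r589 (.c 9 r590 .e)))
noncomputable def q779 : Tr := .c 0 v0 (.c 1 v0 (.c 2 v0 (.c 8 v0 .e)))
noncomputable def q780 : Tr := .c 0 v3 (.c 2 v3 .e)
noncomputable def q781 : Tr := .c 0 v0 (.c 2 v0 .e)
noncomputable def q782 : Tr := .c 0 v0 (.c 1 v0 (.c 2 v0 .e))
noncomputable def r591 : Tr := .c 4 q663 (.c 5 q779 (.c 7 q780 (.c 8 q781 (.c 9 q782 .e))))
noncomputable def v341 : Tr := .l 0x2cb2cb2cb2ca2892c9289207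
noncomputable def q783 : Tr := .c 8 v341 .e
noncomputable def r592 : Tr := .c 2 q783 (.c 7 q780 (.c 8 q781 (.c 9 q782 .e)))
noncomputable def v342 : Tr := .l 0x2cb2c92c92cb2c8246246288
noncomputable def q784 : Tr := .c 8 v342 .e
noncomputable def v343 : Tr := .l 0x2c92872872c92461c41c4246
noncomputable def q785 : Tr := .c 1 v343 (.c 2 v8 (.c 8 v343 .e))
noncomputable def q786 : Tr := .c 0 v8 (.c 2 v8 .e)
noncomputable def q787 : Tr := .c 0 v5 (.c 2 v5 .e)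
noncomputable def r593 : Tr := .c 0 q784 (.c 2 q784 (.c 6 q785 (.c 7 q786 (.c 8 q787 .e))))
noncomputable def q788 : Tr := .c 8 v100 .e
noncomputable def q789 : Tr := .c 0 v14 (.c 1 v14 (.c 2 v14 (.c 8 v14 .e)))
noncomputable def q790 : Tr := .c 0 v14 (.c 2 v14 .e)
noncomputable def q791 : Tr := .c 0 v14 (.c 1 v14 (.c 2 v14 .e))
noncomputable def r594 : Tr := .c 2 q788 (.c 4 q667 (.c 5 q789 (.c 8 q790 (.c 9 q791 .e))))
noncomputable def t154 : Tr := .c 0 r591 (.c 3 r592 (.c 5 r593 (.c 6 r594 .e)))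
noncomputable def q792 : Tr := .c 0 v0 (.c 1 v0 (.c 8 v0 .e))
noncomputable def q793 : Tr := .c 0 v0 .e
noncomputable def q794 : Tr := .c 0 v0 (.c 1 v0 .e)
noncomputable def r595 : Tr := .c 4 q663 (.c 5 q792 (.c 7 q752 (.c 8 q793 (.c 9 q794 .e))))
noncomputable def r596 : Tr := .c 3 q524 (.c 4 q663 (.c 5 q792 (.c 6 q756 (.c 9 q794 .e))))
noncomputable def r597 : Tr := .c 2 q783 (.c 7 q752 (.c 8 q793 (.c 9 q794 .e)))
noncomputable def q795 : Tr := .c 0 v14 (.c 1 v14 (.c 8 v14 .e))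
noncomputable def q796 : Tr := .c 0 v14 .e
noncomputable def q797 : Tr := .c 0 v14 (.c 1 v14 .e)
noncomputable def r598 : Tr := .c 2 q788 (.c 4 q667 (.c 5 q795 (.c 8 q796 (.c 9 q797 .e))))
noncomputable def r599 : Tr := .c 0 q788 (.c 2 q788 (.c 3 q532 (.c 4 q667 (.c 5 q795 (.c 9 q797 .e)))))
noncomputable def t155 : Tr := .c 0 r595 (.c 1 r596 (.c 3 r597 (.c 6 r598 (.c 7 r599 .e))))
noncomputable def t156 : Tr := .c 1 r577 (.c 7 r579 (.c 8 r580 (.c 9 r581 .e)))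
noncomputable def v344 : Tr := .l 0x28928828a20b2462052872c8
noncomputable def v345 : Tr := .l 0x2ca2ca2cb28b2472472c92c9
noncomputable def q798 : Tr := .c 1 v344 (.c 2 v339 (.c 7 v345 .e))
noncomputable def q799 : Tr := .c 0 v344 (.c 1 v344 (.c 6 v345 (.c 7 v345 .e)))
noncomputable def v346 : Tr := .l 0x2c82ca2ca2c8287287287205
noncomputable def v347 : Tr := .l 0x2472c92cb2c92c92c92c9287
noncomputable def q800 : Tr := .c 0 v346 (.c 1 v346 (.c 2 v346 (.c 6 v347 (.c 7 v347 .e))))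
noncomputable def v348 : Tr := .l 0x2c82462c828a205183205287
noncomputable def q801 : Tr := .c 1 v348 (.c 2 v338 .e)
noncomputable def r600 : Tr := .c 3 q798 (.c 4 q799 (.c 5 q800 (.c 6 q801 (.c 9 q800 .e))))
noncomputable def q802 : Tr := .c 7 v345 .e
noncomputable def v349 : Tr := .l 0x2c92c92cb2cb2462462c82c8
noncomputable def q803 : Tr := .c 6 v349 .e
noncomputable def q804 : Tr := .c 6 v345 (.c 7 v345 .e)
noncomputable def q805 : Tr := .c 0 v338 (.c 2 v338 .e)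
noncomputable def v350 : Tr := .l 0x2872872c92c91c41c4246246
noncomputable def q806 : Tr := .c 0 v350 (.c 2 v350 (.c 6 v349 .e))
noncomputable def r601 : Tr := .c 0 q802 (.c 1 q803 (.c 2 q804 (.c 6 q801 (.c 7 q805 (.c 8 q806 .e)))))
noncomputable def r602 : Tr := .c 0 q802 (.c 2 q804 (.c 3 q798 (.c 4 q799 (.c 5 q800 (.c 6 q801 .e)))))
noncomputable def r603 : Tr := .c 0 q802 (.c 1 q803 (.c 2 q804 (.c 3 q798 (.c 4 q799 (.c 6 q801 (.c 7 q805 .e))))))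
noncomputable def t157 : Tr := .c 1 r600 (.c 5 r601 (.c 8 r602 (.c 9 r603 .e)))
noncomputable def v351 : Tr := .l 0x28928828920a246205246287
noncomputable def v352 : Tr := .l 0x2cb2cb2cb24b2882882c92c8
noncomputable def q807 : Tr := .c 1 v329 (.c 2 v351 (.c 7 v352 (.c 8 v329 .e)))
noncomputable def q808 : Tr := .c 0 v329 (.c 1 v329 (.c 6 v352 (.c 7 v352 (.c 8 v329 .e))))
noncomputable def v353 : Tr := .l 0x2c82462872892051831c4246
noncomputable def q809 : Tr := .c 1 v331 (.c 2 v353 (.c 8 v331 .e))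
noncomputable def r604 : Tr := .c 3 q807 (.c 4 q808 (.c 6 q809 .e))
noncomputable def v354 : Tr := .l 0x2cb2cb2cb2cb2ca2ca2ca2c8
noncomputable def q810 : Tr := .c 7 v354 (.c 8 v334 .e)
noncomputable def q811 : Tr := .c 6 v354 (.c 7 v354 (.c 8 v334 .e))
noncomputable def v355 : Tr := .l 0x2cb2ca2cb28b2c82872c82c9
noncomputable def q812 : Tr := .c 1 v334 (.c 2 v355 (.c 7 v354 (.c 8 v334 .e)))
noncomputable def q813 : Tr := .c 0 v334 (.c 1 v334 (.c 6 v354 (.c 7 v354 (.c 8 v334 .e))))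
noncomputable def r605 : Tr := .c 0 q810 (.c 2 q811 (.c 3 q812 (.c 4 q813 .e)))
noncomputable def q814 : Tr := .c 7 v352 (.c 8 v329 .e)
noncomputable def q815 : Tr := .c 6 v352 (.c 7 v352 (.c 8 v329 .e))
noncomputable def r606 : Tr := .c 0 q814 (.c 2 q815 (.c 3 q807 (.c 4 q808 (.c 6 q809 .e))))
noncomputable def v356 : Tr := .l 0x2ca2ca2cb28b2872872c82c9
noncomputable def q816 : Tr := .c 6 v356 .e
noncomputable def q817 : Tr := .c 0 v353 (.c 2 v353 .e)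
noncomputable def r607 : Tr := .c 0 q814 (.c 1 q816 (.c 2 q815 (.c 3 q807 (.c 4 q808 (.c 6 q809 (.c 7 q817 .e))))))
noncomputable def t158 : Tr := .c 1 r604 (.c 7 r605 (.c 8 r606 (.c 9 r607 .e)))
noncomputable def r608 : Tr := .c 4 q750 (.c 7 q752 (.c 8 q753 .e))
noncomputable def r609 : Tr := .c 3 q755 (.c 4 q750 (.c 6 q756 .e))
noncomputable def r610 : Tr := .c 1 q182 (.c 2 q757 (.c 4 q758 (.c 8 q760 .e)))
noncomputable def r611 : Tr := .c 0 q762 (.c 2 q757 (.c 3 q763 (.c 4 q758 .e)))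
noncomputable def r612 : Tr := .c 0 q764 (.c 2 q765 (.c 3 q755 (.c 4 q750 (.c 6 q756 .e))))
noncomputable def t159 : Tr := .c 0 r608 (.c 1 r609 (.c 6 r610 (.c 7 r611 (.c 8 r612 .e))))
noncomputable def r613 : Tr := .c 3 q777 (.c 4 q778 (.c 6 q774 .e))
noncomputable def r614 : Tr := .c 0 q771 (.c 2 q773 (.c 3 q777 (.c 4 q778 (.c 6 q774 .e))))
noncomputable def t160 : Tr := .c 1 r613 (.c 5 r589 (.c 8 r614 (.c 9 r590 .e)))
noncomputable def r615 : Tr := .c 4 q766 (.c 7 q768 (.c 8 q769 .e))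
noncomputable def r616 : Tr := .c 1 q203 (.c 2 q770 (.c 7 q768 (.c 8 q769 .e)))
noncomputable def t161 : Tr := .c 0 r615 (.c 3 r616 (.c 5 r589 (.c 9 r590 .e)))
noncomputable def r617 : Tr := .c 4 q663 (.c 7 q780 (.c 8 q781 .e))
noncomputable def r618 : Tr := .c 2 q783 (.c 7 q780 (.c 8 q781 .e))
noncomputable def r619 : Tr := .c 2 q788 (.c 4 q667 (.c 8 q790 .e))
noncomputable def t162 : Tr := .c 0 r617 (.c 3 r618 (.c 5 r593 (.c 6 r619 .e)))
noncomputable def r620 : Tr := .c 4 q663 (.c 7 q752 (.c 8 q793 .e))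
noncomputable def r621 : Tr := .c 3 q524 (.c 4 q663 (.c 6 q756 .e))
noncomputable def r622 : Tr := .c 2 q783 (.c 7 q752 (.c 8 q793 .e))
noncomputable def r623 : Tr := .c 2 q788 (.c 4 q667 (.c 8 q796 .e))
noncomputable def r624 : Tr := .c 0 q788 (.c 2 q788 (.c 3 q532 (.c 4 q667 .e)))
noncomputable def t163 : Tr := .c 0 r620 (.c 1 r621 (.c 3 r622 (.c 6 r623 (.c 7 r624 .e))))
noncomputable def v357 : Tr := .l 0x2cb2cb2cb24b24b2cb24b1c9
noncomputable def q818 : Tr := .c 6 v100 (.c 7 v100 (.c 8 v357 .e))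
noncomputable def q819 : Tr := .c 0 v159 (.c 2 v159 .e)
noncomputable def r625 : Tr := .c 1 q182 (.c 2 q818 (.c 7 q819 .e))
noncomputable def v358 : Tr := .l 0x2cb2cb2cb24b2c92c82c8289
noncomputable def q820 : Tr := .c 7 v162 (.c 8 v358 .e)
noncomputable def q821 : Tr := .c 6 v161 .e
noncomputable def q822 : Tr := .c 6 v162 (.c 7 v162 (.c 8 v358 .e))
noncomputable def v359 : Tr := .l 0x2cb2c92c92cb2c82462462c8
noncomputable def q823 : Tr := .c 1 v359 (.c 2 v163 (.c 8 v359 .e))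
noncomputable def q824 : Tr := .c 0 v163 (.c 2 v163 .e)
noncomputable def r626 : Tr := .c 0 q820 (.c 1 q821 (.c 2 q822 (.c 6 q823 (.c 7 q824 .e))))
noncomputable def q825 : Tr := .c 6 v109 (.c 7 v109 (.c 8 v167 .e))
noncomputable def q826 : Tr := .c 0 v167 (.c 1 v167 (.c 6 v109 (.c 7 v109 (.c 8 v167 .e))))
noncomputable def q827 : Tr := .c 0 v136 (.c 1 v136 (.c 2 v136 (.c 6 v143 (.c 7 v143 (.c 8 v136 .e)))))
noncomputable def r627 : Tr := .c 1 q197 (.c 2 q825 (.c 4 q826 (.c 5 q827 .e)))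
noncomputable def v360 : Tr := .l 0x2cb2ca2ca28b2c82872872c9
noncomputable def q828 : Tr := .c 1 v358 (.c 2 v360 (.c 7 v162 (.c 8 v358 .e)))
noncomputable def q829 : Tr := .c 0 v358 (.c 1 v358 (.c 6 v162 (.c 7 v162 (.c 8 v358 .e))))
noncomputable def r628 : Tr := .c 0 q820 (.c 1 q821 (.c 2 q822 (.c 3 q828 (.c 4 q829 (.c 6 q823 (.c 7 q824 .e))))))
noncomputable def t164 : Tr := .c 3 r625 (.c 5 r626 (.c 6 r627 (.c 9 r628 .e)))
noncomputable def v361 : Tr := .l 0x2cb2cb2cb28b28b2cb28b20a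
noncomputable def q830 : Tr := .c 6 v143 (.c 7 v143 (.c 8 v361 .e))
noncomputable def q831 : Tr := .c 0 v76 (.c 2 v76 .e)
noncomputable def r629 : Tr := .c 1 q198 (.c 2 q830 (.c 7 q831 .e))
noncomputable def v362 : Tr := .l 0x28b28b28b20b2ca2c92c92c8
noncomputable def q832 : Tr := .c 7 v169 (.c 8 v362 .e)
noncomputable def q833 : Tr := .c 6 v168 .e
noncomputable def q834 : Tr := .c 6 v169 (.c 7 v169 (.c 8 v362 .e))
noncomputable def v363 : Tr := .l 0x2cb2c92c928b2c92872872c9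
noncomputable def q835 : Tr := .c 1 v363 (.c 2 v170 (.c 8 v363 .e))
noncomputable def q836 : Tr := .c 0 v170 (.c 2 v170 .e)
noncomputable def r630 : Tr := .c 0 q832 (.c 1 q833 (.c 2 q834 (.c 6 q835 (.c 7 q836 .e))))
noncomputable def q837 : Tr := .c 6 v109 .e
noncomputable def v364 : Tr := .l 0x2cb2cb2cb28b2ca2cb2ca2c8
noncomputable def v365 : Tr := .l 0x2cb2cb2cb28b2ca2cb2ca288
noncomputable def q838 : Tr := .c 6 v364 (.c 7 v364 (.c 8 v365 .e))
noncomputable def q839 : Tr := .c 0 v365 (.c 1 v365 (.c 6 v364 (.c 7 v364 (.c 8 v365 .e))))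
noncomputable def q840 : Tr := .c 0 v100 (.c 1 v100 (.c 2 v100 (.c 6 v109 (.c 7 v109 (.c 8 v100 .e)))))
noncomputable def r631 : Tr := .c 1 q837 (.c 2 q838 (.c 4 q839 (.c 5 q840 .e)))
noncomputable def q841 : Tr := .c 7 v364 (.c 8 v365 .e)
noncomputable def q842 : Tr := .c 1 v365 (.c 2 v354 (.c 7 v364 (.c 8 v365 .e)))
noncomputable def r632 : Tr := .c 0 q841 (.c 2 q838 (.c 3 q842 (.c 4 q839 (.c 5 q840 .e))))
noncomputable def v366 : Tr := .l 0x2cb2ca2ca24b2c92c82c82c8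
noncomputable def q843 : Tr := .c 1 v362 (.c 2 v366 (.c 7 v169 (.c 8 v362 .e)))
noncomputable def q844 : Tr := .c 0 v362 (.c 1 v362 (.c 6 v169 (.c 7 v169 (.c 8 v362 .e))))
noncomputable def v367 : Tr := .l 0x2c82ca2ca2c82872c9287205
noncomputable def q845 : Tr := .c 0 v367 (.c 1 v367 (.c 2 v367 (.c 6 v174 (.c 7 v174 (.c 8 v367 .e)))))
noncomputable def r633 : Tr := .c 0 q832 (.c 2 q834 (.c 3 q843 (.c 4 q844 (.c 5 q845 (.c 6 q835 .e)))))
noncomputable def r634 : Tr := .c 0 q832 (.c 1 q833 (.c 2 q834 (.c 3 q843 (.c 4 q844 (.c 6 q835 (.c 7 q836 .e))))))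
noncomputable def t165 : Tr := .c 3 r629 (.c 5 r630 (.c 6 r631 (.c 7 r632 (.c 8 r633 (.c 9 r634 .e)))))
noncomputable def q846 : Tr := .c 0 v146 (.c 2 v146 .e)
noncomputable def r635 : Tr := .c 4 q844 (.c 5 q845 (.c 7 q846 .e))
noncomputable def r636 : Tr := .c 3 q843 (.c 4 q844 (.c 5 q845 (.c 6 q835 .e)))
noncomputable def t166 : Tr := .c 0 r635 (.c 1 r636 (.c 6 r631 (.c 7 r632 (.c 8 r633 (.c 9 r634 .e)))))
noncomputable def v368 : Tr := .l 0x2ca2cb2ca2c82872c9247205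
noncomputable def q847 : Tr := .c 0 v368 (.c 1 v368 (.c 6 v175 (.c 7 v175 (.c 8 v368 .e))))
noncomputable def q848 : Tr := .c 0 v159 .e
noncomputable def r637 : Tr := .c 4 q847 (.c 5 q759 (.c 7 q848 .e))
noncomputable def q849 : Tr := .c 1 v368 (.c 7 v175 (.c 8 v368 .e))
noncomputable def v369 : Tr := .l 0x2cb2cb24b2ca2c92491c9247
noncomputable def q850 : Tr := .c 1 v369 (.c 8 v369 .e)
noncomputable def r638 : Tr := .c 3 q849 (.c 4 q847 (.c 5 q759 (.c 6 q850 .e)))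
noncomputable def q851 : Tr := .c 0 v136 (.c 1 v136 (.c 6 v143 (.c 7 v143 (.c 8 v136 .e))))
noncomputable def r639 : Tr := .c 1 q197 (.c 2 q825 (.c 4 q826 (.c 5 q851 .e)))
noncomputable def q852 : Tr := .c 7 v109 (.c 8 v167 .e)
noncomputable def q853 : Tr := .c 1 v167 (.c 7 v109 (.c 8 v167 .e))
noncomputable def r640 : Tr := .c 0 q852 (.c 2 q825 (.c 3 q853 (.c 4 q826 (.c 5 q851 .e))))
noncomputable def q854 : Tr := .c 7 v175 (.c 8 v368 .e)
noncomputable def q855 : Tr := .c 6 v175 (.c 7 v175 (.c 8 v368 .e))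
noncomputable def r641 : Tr := .c 0 q854 (.c 2 q855 (.c 3 q849 (.c 4 q847 (.c 5 q759 (.c 6 q850 .e)))))
noncomputable def t167 : Tr := .c 0 r637 (.c 1 r638 (.c 6 r639 (.c 7 r640 (.c 8 r641 .e))))
noncomputable def q856 : Tr := .c 0 v368 (.c 1 v368 (.c 8 v368 .e))
noncomputable def r642 : Tr := .c 4 q856 (.c 5 q789 (.c 7 q819 .e))
noncomputable def q857 : Tr := .c 8 v357 .e
noncomputable def r643 : Tr := .c 2 q857 (.c 7 q819 .e)
noncomputable def q858 : Tr := .c 8 v358 .e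
noncomputable def r644 : Tr := .c 0 q858 (.c 2 q858 (.c 6 q823 (.c 7 q824 .e)))
noncomputable def q859 : Tr := .c 8 v167 .e
noncomputable def q860 : Tr := .c 0 v167 (.c 1 v167 (.c 8 v167 .e))
noncomputable def q861 : Tr := .c 0 v136 (.c 1 v136 (.c 2 v136 (.c 8 v136 .e)))
noncomputable def r645 : Tr := .c 2 q859 (.c 4 q860 (.c 5 q861 .e))
noncomputable def t168 : Tr := .c 0 r642 (.c 3 r643 (.c 5 r644 (.c 6 r645 .e)))
noncomputable def r646 : Tr := .c 4 q856 (.c 5 q795 (.c 7 q848 .e))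
noncomputable def q862 : Tr := .c 1 v368 (.c 8 v368 .e)
noncomputable def r647 : Tr := .c 3 q862 (.c 4 q856 (.c 5 q795 (.c 6 q850 .e)))
noncomputable def r648 : Tr := .c 2 q857 (.c 7 q848 .e)
noncomputable def q863 : Tr := .c 0 v136 (.c 1 v136 (.c 8 v136 .e))
noncomputable def r649 : Tr := .c 2 q859 (.c 4 q860 (.c 5 q863 .e))
noncomputable def q864 : Tr := .c 1 v167 (.c 8 v167 .e)
noncomputable def r650 : Tr := .c 0 q859 (.c 2 q859 (.c 3 q864 (.c 4 q860 (.c 5 q863 .e))))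
noncomputable def t169 : Tr := .c 0 r646 (.c 1 r647 (.c 3 r648 (.c 6 r649 (.c 7 r650 .e))))
noncomputable def t170 : Tr := .c 5 r630 (.c 7 r632 (.c 8 r633 (.c 9 r634 .e)))
noncomputable def t171 : Tr := .c 1 r636 (.c 7 r632 (.c 8 r633 (.c 9 r634 .e)))
noncomputable def v370 : Tr := .l 0x2c92c92cb2ca2462462c82c8
noncomputable def q865 : Tr := .c 0 v370 (.c 2 v370 (.c 6 v335 .e))
noncomputable def r651 : Tr := .c 0 q746 (.c 1 q748 (.c 2 q747 (.c 8 q865 .e)))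
noncomputable def r652 : Tr := .c 0 q746 (.c 2 q747 (.c 3 q737 (.c 4 q732 (.c 5 q733 .e))))
noncomputable def r653 : Tr := .c 0 q746 (.c 1 q748 (.c 2 q747 (.c 3 q737 (.c 4 q732 .e))))
noncomputable def t172 : Tr := .c 5 r651 (.c 7 r579 (.c 8 r652 (.c 9 r653 .e)))
noncomputable def v371 : Tr := .l 0x2c92cb2c92472cb2cb2cb2c9
noncomputable def q866 : Tr := .c 6 v371 .e
noncomputable def v372 : Tr := .l 0x2ca2cb2ca2882cb2cb2cb2ca
noncomputable def v373 : Tr := .l 0x2cb2cb2cb24b2cb2ca2cb2c9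
noncomputable def q867 : Tr := .c 6 v372 (.c 7 v372 (.c 8 v373 .e))
noncomputable def v374 : Tr := .l 0x2ca2cb2ca2c82c92c92c9287
noncomputable def q868 : Tr := .c 0 v374 (.c 2 v374 (.c 6 v371 .e))
noncomputable def q869 : Tr := .c 0 v374 (.c 1 v374 (.c 2 v374 (.c 6 v371 (.c 7 v371 .e))))
noncomputable def r654 : Tr := .c 1 q866 (.c 2 q867 (.c 8 q868 (.c 9 q869 .e)))
noncomputable def t173 : Tr := .c 3 r654 (.c 5 r651 (.c 6 r578 (.c 7 r579 (.c 8 r652 (.c 9 r653 .e)))))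
noncomputable def r655 : Tr := .c 3 q737 (.c 4 q732 (.c 5 q733 (.c 9 q736 .e)))
noncomputable def t174 : Tr := .c 1 r655 (.c 7 r579 (.c 8 r652 (.c 9 r653 .e)))
noncomputable def r656 : Tr := .c 4 q732 (.c 5 q733 (.c 8 q735 (.c 9 q736 .e)))
noncomputable def t175 : Tr := .c 0 r656 (.c 1 r655 (.c 6 r578 (.c 7 r579 (.c 8 r652 (.c 9 r653 .e)))))
noncomputable def r657 : Tr := .c 4 q750 (.c 5 q751 (.c 8 q753 (.c 9 q754 .e)))
noncomputable def r658 : Tr := .c 3 q755 (.c 4 q750 (.c 5 q751 (.c 9 q754 .e)))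
noncomputable def r659 : Tr := .c 0 q764 (.c 2 q765 (.c 3 q755 (.c 4 q750 (.c 5 q751 .e))))
noncomputable def t176 : Tr := .c 0 r657 (.c 1 r658 (.c 6 r584 (.c 7 r585 (.c 8 r659 .e))))
noncomputable def r660 : Tr := .c 3 q798 (.c 4 q799 (.c 5 q800 (.c 9 q800 .e)))
noncomputable def r661 : Tr := .c 0 q802 (.c 1 q803 (.c 2 q804 (.c 8 q806 .e)))
noncomputable def r662 : Tr := .c 0 q802 (.c 2 q804 (.c 3 q798 (.c 4 q799 (.c 5 q800 .e))))
noncomputable def r663 : Tr := .c 0 q802 (.c 1 q803 (.c 2 q804 (.c 3 q798 (.c 4 q799 .e))))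
noncomputable def t177 : Tr := .c 1 r660 (.c 5 r661 (.c 8 r662 (.c 9 r663 .e)))
noncomputable def v375 : Tr := .l 0x1c91c81ca14828a20924a20b
noncomputable def v376 : Tr := .l 0x2082072091892c924828924a
noncomputable def q870 : Tr := .c 1 v375 (.c 2 v376 (.c 8 v375 (.c 9 v375 .e)))
noncomputable def q871 : Tr := .c 1 v375 (.c 8 v375 (.c 9 v375 .e))
noncomputable def v377 : Tr := .l 0x24628828a2082872c92ca2c8
noncomputable def v378 : Tr := .l 0x2052872892472462c8289287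
noncomputable def q872 : Tr := .c 1 v377 (.c 2 v378 (.c 8 v377 .e))
noncomputable def v379 : Tr := .l 0x1c824a24b1ca2091871c824a
noncomputable def v380 : Tr := .l 0x20728928a2092481c6207289
noncomputable def q873 : Tr := .c 1 v379 (.c 2 v380 (.c 4 v380 (.c 5 v379 (.c 8 v379 (.c 9 v379 .e)))))
noncomputable def q874 : Tr := .c 1 v377 (.c 2 v378 (.c 4 v378 .e))
noncomputable def r664 : Tr := .c 3 q870 (.c 4 q871 (.c 5 q872 (.c 6 q873 (.c 9 q874 .e))))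
noncomputable def v381 : Tr := .l 0x2082072091892491c820924a
noncomputable def v382 : Tr := .l 0x2472462481c9288207248289
noncomputable def q875 : Tr := .c 1 v381 (.c 2 v382 (.c 8 v381 (.c 9 v381 .e)))
noncomputable def v383 : Tr := .l 0x205287289247246288289287
noncomputable def v384 : Tr := .l 0x1c4246248246205287248246
noncomputable def q876 : Tr := .c 1 v383 (.c 2 v384 (.c 8 v383 .e))
noncomputable def v385 : Tr := .l 0x18720924a2091c8146187209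
noncomputable def v386 : Tr := .l 0x1c62482892482071851c6248
noncomputable def q877 : Tr := .c 1 v385 (.c 2 v386 (.c 4 v386 (.c 5 v385 (.c 8 v385 (.c 9 v385 .e)))))
noncomputable def q878 : Tr := .c 2 v386 (.c 4 v386 (.c 5 v385 (.c 9 v385 .e)))
noncomputable def v387 : Tr := .l 0x1071892091891481ca209189
noncomputable def q879 : Tr := .c 2 v384 (.c 4 v384 (.c 5 v387 .e))
noncomputable def q880 : Tr := .c 1 v383 (.c 2 v384 (.c 4 v384 .e))
noncomputable def r665 : Tr := .c 3 q875 (.c 5 q876 (.c 6 q877 (.c 7 q878 (.c 8 q879 (.c 9 q880 .e)))))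
noncomputable def v388 : Tr := .l 0x2872c92cb2c92c82ca2cb2c9
noncomputable def v389 : Tr := .l 0x24b24a24b1c92cb28b2cb24b
noncomputable def q881 : Tr := .c 4 v388 (.c 5 v389 (.c 8 v389 (.c 9 v389 .e)))
noncomputable def q882 : Tr := .c 5 v389 (.c 8 v389 (.c 9 v389 .e))
noncomputable def v390 : Tr := .l 0x28a28928a2082cb2ca2cb28b
noncomputable def q883 : Tr := .c 1 v389 (.c 2 v390 (.c 8 v389 (.c 9 v389 .e)))
noncomputable def q884 : Tr := .c 1 v389 (.c 8 v389 (.c 9 v389 .e))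
noncomputable def v391 : Tr := .l 0x2c82ca2482462c92cb2cb2c9
noncomputable def v392 : Tr := .l 0x2872892072052c82ca2ca2c8
noncomputable def q885 : Tr := .c 1 v391 (.c 2 v392 (.c 8 v391 .e))
noncomputable def q886 : Tr := .c 1 v391 (.c 2 v392 (.c 4 v392 .e))
noncomputable def r666 : Tr := .c 0 q881 (.c 2 q882 (.c 3 q883 (.c 4 q884 (.c 5 q885 (.c 9 q886 .e)))))
noncomputable def t178 : Tr := .c 1 r664 (.c 2 r665 (.c 7 r666 .e))
noncomputable def q887 : Tr := .c 1 v375 (.c 8 v375 .e)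
noncomputable def v393 : Tr := .l 0x2cb2cb2cb2cb2cb2c92cb2cb
noncomputable def q888 : Tr := .c 2 v393 (.c 4 v393 .e)
noncomputable def q889 : Tr := .c 2 v378 (.c 4 v378 .e)
noncomputable def r667 : Tr := .c 4 q887 (.c 5 q872 (.c 7 q888 (.c 8 q889 (.c 9 q874 .e))))
noncomputable def q890 : Tr := .c 1 v375 (.c 2 v376 (.c 8 v375 .e))
noncomputable def q891 : Tr := .c 1 v379 (.c 2 v380 (.c 4 v380 (.c 8 v379 .e)))
noncomputable def r668 : Tr := .c 3 q890 (.c 4 q887 (.c 5 q872 (.c 6 q891 (.c 9 q874 .e))))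
noncomputable def q892 : Tr := .c 4 v392 .e
noncomputable def q893 : Tr := .c 8 v389 .e
noncomputable def q894 : Tr := .c 1 v389 (.c 8 v389 .e)
noncomputable def q895 : Tr := .c 2 v392 (.c 4 v392 .e)
noncomputable def r669 : Tr := .c 1 q892 (.c 2 q893 (.c 4 q894 (.c 5 q885 (.c 8 q895 (.c 9 q886 .e)))))
noncomputable def q896 : Tr := .c 4 v388 (.c 8 v389 .e)
noncomputable def q897 : Tr := .c 1 v389 (.c 2 v390 (.c 8 v389 .e))
noncomputable def r670 : Tr := .c 0 q896 (.c 2 q893 (.c 3 q897 (.c 4 q894 (.c 5 q885 (.c 9 q886 .e)))))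
noncomputable def t179 : Tr := .c 0 r667 (.c 1 r668 (.c 6 r669 (.c 7 r670 .e)))
noncomputable def v394 : Tr := .l 0x28b28b24a20b28a209187208
noncomputable def q898 : Tr := .c 1 v394 (.c 8 v394 (.c 9 v394 .e))
noncomputable def v395 : Tr := .l 0x2c82ca2ca2c8287289207205
noncomputable def q899 : Tr := .c 1 v395 (.c 8 v395 .e)
noncomputable def v396 : Tr := .l 0x2092091872091c81460c4146
noncomputable def q900 : Tr := .c 5 v396 (.c 9 v396 .e)
noncomputable def v397 : Tr := .l 0x18920b2091891481c81460c6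
noncomputable def q901 : Tr := .c 5 v397 .e
noncomputable def q902 : Tr := .c 1 v395 .e
noncomputable def r671 : Tr := .c 4 q898 (.c 5 q899 (.c 7 q900 (.c 8 q901 (.c 9 q902 .e))))
noncomputable def v398 : Tr := .l 0x24a24a1c824a209187105187
noncomputable def q903 : Tr := .c 1 v398 (.c 5 v398 (.c 8 v398 (.c 9 v398 .e)))
noncomputable def r672 : Tr := .c 3 q898 (.c 4 q898 (.c 5 q899 (.c 6 q903 (.c 9 q902 .e))))
noncomputable def v399 : Tr := .l 0x28a28a20924a2491c81461c7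
noncomputable def q904 : Tr := .c 1 v399 (.c 8 v399 (.c 9 v399 .e))
noncomputable def q905 : Tr := .c 1 v396 (.c 5 v396 (.c 8 v396 (.c 9 v396 .e)))
noncomputable def r673 : Tr := .c 3 q904 (.c 5 q899 (.c 6 q905 (.c 7 q900 (.c 8 q901 (.c 9 q902 .e)))))
noncomputable def v400 : Tr := .l 0x20b28b28b20b1ca24a1c8148
noncomputable def q906 : Tr := .c 5 v400 (.c 9 v400 .e)
noncomputable def v401 : Tr := .l 0x24b2cb2cb24b20b28b209189
noncomputable def q907 : Tr := .c 5 v401 (.c 8 v401 (.c 9 v401 .e))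
noncomputable def q908 : Tr := .c 1 v401 (.c 8 v401 (.c 9 v401 .e))
noncomputable def v402 : Tr := .l 0x2ca2cb2cb2c92c92cb289247
noncomputable def q909 : Tr := .c 1 v402 (.c 8 v402 .e)
noncomputable def q910 : Tr := .c 5 v400 .e
noncomputable def q911 : Tr := .c 1 v402 .e
noncomputable def r674 : Tr := .c 1 q906 (.c 2 q907 (.c 4 q908 (.c 5 q909 (.c 8 q910 (.c 9 q911 .e)))))
noncomputable def r675 : Tr := .c 0 q907 (.c 2 q907 (.c 3 q908 (.c 4 q908 (.c 5 q909 (.c 9 q911 .e)))))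
noncomputable def t180 : Tr := .c 0 r671 (.c 1 r672 (.c 2 r673 (.c 6 r674 (.c 7 r675 .e))))
noncomputable def v403 : Tr := .l 0x2472461c81c92c828720928a
noncomputable def v404 : Tr := .l 0x2462052072082872462482c9
noncomputable def q912 : Tr := .c 1 v403 (.c 2 v404 .e)
noncomputable def q913 : Tr := .c 1 v403 .e
noncomputable def v405 : Tr := .l 0x1c4246248246205287289287
noncomputable def v406 : Tr := .l 0x1832052072051c4246248246
noncomputable def q914 : Tr := .c 1 v405 (.c 2 v406 .e)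
noncomputable def v407 : Tr := .l 0x2462c824a248287205187209
noncomputable def v408 : Tr := .l 0x2052872892872461c41c6248
noncomputable def v409 : Tr := .l 0x1481ca24a1ca189107187209
noncomputable def q915 : Tr := .c 1 v407 (.c 2 v408 (.c 4 v408 (.c 5 v409 .e)))
noncomputable def q916 : Tr := .c 1 v405 (.c 2 v406 (.c 4 v406 .e))
noncomputable def r676 : Tr := .c 3 q912 (.c 4 q913 (.c 5 q914 (.c 6 q915 (.c 9 q916 .e))))
noncomputable def v410 : Tr := .l 0x2462051872082872461c8249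
noncomputable def v411 : Tr := .l 0x2051c41c6247246205207288
noncomputable def q917 : Tr := .c 1 v410 (.c 2 v411 .e)
noncomputable def v412 : Tr := .l 0x1421c41c61c4183205207205
noncomputable def q918 : Tr := .c 1 v406 (.c 2 v412 .e)
noncomputable def v413 : Tr := .l 0x2052872092872461c41461c8
noncomputable def v414 : Tr := .l 0x1c4246248246205183185207
noncomputable def v415 : Tr := .l 0x1071892091891480c61461c8
noncomputable def q919 : Tr := .c 1 v413 (.c 2 v414 (.c 4 v414 (.c 5 v415 .e)))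
noncomputable def q920 : Tr := .c 2 v414 (.c 4 v414 (.c 5 v415 .e))
noncomputable def v416 : Tr := .l 0x851071871070c61481c8148
noncomputable def q921 : Tr := .c 2 v412 (.c 4 v412 (.c 5 v416 .e))
noncomputable def q922 : Tr := .c 1 v406 (.c 2 v412 (.c 4 v412 .e))
noncomputable def r677 : Tr := .c 3 q917 (.c 5 q918 (.c 6 q919 (.c 7 q920 (.c 8 q921 (.c 9 q922 .e)))))
noncomputable def q923 : Tr := .c 4 v412 (.c 5 v416 .e)
noncomputable def r678 : Tr := .c 0 q923 (.c 1 q923 (.c 6 q919 (.c 7 q920 (.c 8 q921 (.c 9 q922 .e)))))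
noncomputable def v417 : Tr := .l 0x2052052872872462462c82c8
noncomputable def v418 : Tr := .l 0x1481481ca1ca18918920b20b
noncomputable def q924 : Tr := .c 4 v417 (.c 5 v418 .e)
noncomputable def q925 : Tr := .c 5 v418 .e
noncomputable def v419 : Tr := .l 0x2c82c82ca24a287205207289
noncomputable def v420 : Tr := .l 0x2872872c92892461c42462c8
noncomputable def v421 : Tr := .l 0x1ca1ca24b24b18910718920b
noncomputable def q926 : Tr := .c 1 v419 (.c 2 v420 (.c 4 v420 (.c 5 v421 .e)))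
noncomputable def q927 : Tr := .c 2 v420 (.c 4 v420 (.c 5 v421 .e))
noncomputable def q928 : Tr := .c 2 v417 (.c 4 v417 (.c 5 v418 .e))
noncomputable def r679 : Tr := .c 0 q924 (.c 1 q924 (.c 2 q925 (.c 6 q926 (.c 7 q927 (.c 8 q928 .e)))))
noncomputable def t181 : Tr := .c 1 r676 (.c 2 r677 (.c 4 r678 (.c 5 r679 .e)))
noncomputable def q929 : Tr := .c 5 v397 (.c 9 v397 .e)
noncomputable def v422 : Tr := .l 0x1ca24b24a1ca189209187107
noncomputable def q930 : Tr := .c 5 v422 (.c 8 v422 (.c 9 v422 .e))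
noncomputable def r680 : Tr := .c 1 q929 (.c 2 q930 (.c 7 q900 (.c 8 q901 (.c 9 q902 .e))))
noncomputable def q931 : Tr := .c 5 v397 (.c 8 v397 (.c 9 v397 .e))
noncomputable def r681 : Tr := .c 0 q931 (.c 1 q929 (.c 6 q905 (.c 7 q900 (.c 8 q901 (.c 9 q902 .e)))))
noncomputable def t182 : Tr := .c 0 r671 (.c 1 r672 (.c 2 r673 (.c 3 r680 (.c 4 r681 (.c 6 r674 (.c 7 r675 .e))))))
noncomputable def v423 : Tr := .l 0x20a20920b1892491c820924a
noncomputable def v424 : Tr := .l 0x24924824a1ca28820724828a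
noncomputable def q932 : Tr := .c 1 v423 (.c 2 v424 (.c 8 v423 (.c 9 v423 .e)))
noncomputable def q933 : Tr := .c 1 v423 (.c 8 v423 (.c 9 v423 .e))
noncomputable def v425 : Tr := .l 0x20920924a20b1c8146187209
noncomputable def v426 : Tr := .l 0x24824828924a2071851c6248
noncomputable def q934 : Tr := .c 1 v425 (.c 2 v426 (.c 4 v426 (.c 5 v425 (.c 8 v425 (.c 9 v425 .e)))))
noncomputable def r682 : Tr := .c 3 q932 (.c 4 q933 (.c 6 q934 .e))
noncomputable def v427 : Tr := .l 0x24924824a1ca2081871c8249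
noncomputable def v428 : Tr := .l 0x28828728920a2471c6207289
noncomputable def q935 : Tr := .c 1 v427 (.c 2 v428 (.c 8 v427 (.c 9 v427 .e)))
noncomputable def v429 : Tr := .l 0x1c81c820924a1871051461c8
noncomputable def v430 : Tr := .l 0x2072072482891c6144185207
noncomputable def q936 : Tr := .c 1 v429 (.c 2 v430 (.c 4 v430 (.c 5 v429 (.c 8 v429 (.c 9 v429 .e)))))
noncomputable def q937 : Tr := .c 2 v430 (.c 4 v430 (.c 5 v429 (.c 9 v429 .e)))
noncomputable def v431 : Tr := .l 0x2052872892871c4246207205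
noncomputable def v432 : Tr := .l 0x1481ca24a1ca1071891c8148
noncomputable def q938 : Tr := .c 2 v431 (.c 4 v431 (.c 5 v432 .e))
noncomputable def r683 : Tr := .c 3 q935 (.c 6 q936 (.c 7 q937 (.c 8 q938 .e)))
noncomputable def v433 : Tr := .l 0x2c82ca2cb2ca2872c92ca2c8
noncomputable def v434 : Tr := .l 0x28b28b28b20a28b24a28b20b
noncomputable def q939 : Tr := .c 4 v433 (.c 5 v434 (.c 8 v434 (.c 9 v434 .e)))
noncomputable def q940 : Tr := .c 5 v434 (.c 8 v434 (.c 9 v434 .e))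
noncomputable def v435 : Tr := .l 0x2cb2ca2cb2492ca2892ca24b
noncomputable def q941 : Tr := .c 1 v434 (.c 2 v435 (.c 8 v434 (.c 9 v434 .e)))
noncomputable def q942 : Tr := .c 1 v434 (.c 8 v434 (.c 9 v434 .e))
noncomputable def r684 : Tr := .c 0 q939 (.c 2 q940 (.c 3 q941 (.c 4 q942 .e)))
noncomputable def t183 : Tr := .c 1 r682 (.c 2 r683 (.c 7 r684 .e))
noncomputable def v436 : Tr := .l 0x28a28b20924a2491c81461c7
noncomputable def q943 : Tr := .c 1 v436 (.c 8 v436 (.c 9 v436 .e))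
noncomputable def v437 : Tr := .l 0x1c81c81461c8187105083105
noncomputable def q944 : Tr := .c 5 v437 (.c 9 v437 .e)
noncomputable def v438 : Tr := .l 0x1481ca1c8148107187105085
noncomputable def q945 : Tr := .c 5 v438 .e
noncomputable def r685 : Tr := .c 4 q943 (.c 7 q944 (.c 8 q945 .e))
noncomputable def r686 : Tr := .c 3 q943 (.c 4 q943 (.c 6 q905 .e))
noncomputable def v439 : Tr := .l 0x24924a1c8249208187105186
noncomputable def q946 : Tr := .c 1 v439 (.c 8 v439 (.c 9 v439 .e))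
noncomputable def q947 : Tr := .c 1 v437 (.c 5 v437 (.c 8 v437 (.c 9 v437 .e)))
noncomputable def r687 : Tr := .c 3 q946 (.c 6 q947 (.c 7 q944 (.c 8 q945 .e)))
noncomputable def q948 : Tr := .c 5 v422 (.c 9 v422 .e)
noncomputable def q949 : Tr := .c 5 v400 (.c 8 v400 (.c 9 v400 .e))
noncomputable def q950 : Tr := .c 1 v400 (.c 8 v400 (.c 9 v400 .e))
noncomputable def q951 : Tr := .c 5 v422 .e
noncomputable def r688 : Tr := .c 1 q948 (.c 2 q949 (.c 4 q950 (.c 8 q951 .e)))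
noncomputable def r689 : Tr := .c 0 q949 (.c 2 q949 (.c 3 q950 (.c 4 q950 .e)))
noncomputable def t184 : Tr := .c 0 r685 (.c 1 r686 (.c 2 r687 (.c 6 r688 (.c 7 r689 .e))))
noncomputable def v440 : Tr := .l 0x28828720920a2872461c8249
noncomputable def v441 : Tr := .l 0x287246248249246205207288
noncomputable def q952 : Tr := .c 1 v440 (.c 2 v441 .e)
noncomputable def q953 : Tr := .c 1 v440 .e
noncomputable def v442 : Tr := .l 0x2872872092892461c41461c8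
noncomputable def v443 : Tr := .l 0x2462462482c8205183185207
noncomputable def v444 : Tr := .l 0x18918920920b1480c61461c8
noncomputable def q954 : Tr := .c 1 v442 (.c 2 v443 (.c 4 v443 (.c 5 v444 .e)))
noncomputable def r690 : Tr := .c 3 q952 (.c 4 q953 (.c 6 q954 .e))
noncomputable def v445 : Tr := .l 0x2872461c8249246205187208
noncomputable def v446 : Tr := .l 0x2462052072882051c41c6247
noncomputable def q955 : Tr := .c 1 v445 (.c 2 v446 .e)
noncomputable def v447 : Tr := .l 0x2462461c8248205183105187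
noncomputable def v448 : Tr := .l 0x2052052072871c41421441c6
noncomputable def v449 : Tr := .l 0x1481481c81ca107085105187
noncomputable def q956 : Tr := .c 1 v447 (.c 2 v448 (.c 4 v448 (.c 5 v449 .e)))
noncomputable def q957 : Tr := .c 2 v448 (.c 4 v448 (.c 5 v449 .e))
noncomputable def v450 : Tr := .l 0x1832052072051421c41c61c4
noncomputable def v451 : Tr := .l 0xc61481c8148085107187107
noncomputable def q958 : Tr := .c 2 v450 (.c 4 v450 (.c 5 v451 .e))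
noncomputable def r691 : Tr := .c 3 q955 (.c 6 q956 (.c 7 q957 (.c 8 q958 .e)))
noncomputable def q959 : Tr := .c 4 v450 (.c 5 v451 .e)
noncomputable def r692 : Tr := .c 0 q959 (.c 1 q959 (.c 6 q956 (.c 7 q957 (.c 8 q958 .e))))
noncomputable def v452 : Tr := .l 0x2462462c82c8205205287287
noncomputable def v453 : Tr := .l 0x18918920b20b1481481ca1ca
noncomputable def q960 : Tr := .c 4 v452 (.c 5 v453 .e)
noncomputable def q961 : Tr := .c 5 v453 .e
noncomputable def v454 : Tr := .l 0x2c928728928b2461c41c6248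
noncomputable def v455 : Tr := .l 0x2c82462c82ca205183205287
noncomputable def v456 : Tr := .l 0x20b18920b28b1480c61481ca
noncomputable def q962 : Tr := .c 1 v454 (.c 2 v455 (.c 4 v455 (.c 5 v456 .e)))
noncomputable def q963 : Tr := .c 2 v455 (.c 4 v455 (.c 5 v456 .e))
noncomputable def q964 : Tr := .c 2 v452 (.c 4 v452 (.c 5 v453 .e))
noncomputable def r693 : Tr := .c 0 q960 (.c 1 q960 (.c 2 q961 (.c 6 q962 (.c 7 q963 (.c 8 q964 .e)))))
noncomputable def t185 : Tr := .c 1 r690 (.c 2 r691 (.c 4 r692 (.c 5 r693 .e)))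
noncomputable def q965 : Tr := .c 1 v393 .e
noncomputable def r694 : Tr := .c 4 q965 (.c 7 q957 (.c 8 q958 .e))
noncomputable def v457 : Tr := .l 0x1071892091890c61481c8148
noncomputable def q966 : Tr := .c 5 v457 .e
noncomputable def r695 : Tr := .c 1 q959 (.c 2 q966 (.c 7 q957 (.c 8 q958 .e)))
noncomputable def t186 : Tr := .c 0 r694 (.c 2 r691 (.c 3 r695 (.c 4 r692 (.c 5 r693 .e))))
noncomputable def v458 : Tr := .l 0x2072071852071c61440c2144
noncomputable def q967 : Tr := .c 2 v458 (.c 4 v458 (.c 5 v437 (.c 9 v437 .e)))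
noncomputable def v459 : Tr := .l 0x2052872072051c41c6144142
noncomputable def q968 : Tr := .c 2 v459 (.c 4 v459 (.c 5 v438 .e))
noncomputable def r696 : Tr := .c 4 q943 (.c 7 q967 (.c 8 q968 .e))
noncomputable def v460 : Tr := .l 0x2882892072882471c61441c5
noncomputable def q969 : Tr := .c 1 v439 (.c 2 v460 (.c 8 v439 (.c 9 v439 .e)))
noncomputable def q970 : Tr := .c 1 v437 (.c 2 v458 (.c 4 v458 (.c 5 v437 (.c 8 v437 (.c 9 v437 .e)))))
noncomputable def r697 : Tr := .c 3 q969 (.c 6 q970 (.c 7 q967 (.c 8 q968 .e)))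
noncomputable def q971 : Tr := .c 4 v459 (.c 5 v438 (.c 9 v438 .e))
noncomputable def r698 : Tr := .c 1 q971 (.c 2 q931 (.c 7 q967 (.c 8 q968 .e)))
noncomputable def q972 : Tr := .c 4 v459 (.c 5 v438 (.c 8 v438 (.c 9 v438 .e)))
noncomputable def r699 : Tr := .c 0 q972 (.c 1 q971 (.c 6 q970 (.c 7 q967 (.c 8 q968 .e))))
noncomputable def v461 : Tr := .l 0x2c82c82ca2c8287207207205
noncomputable def v462 : Tr := .l 0x20b20b28b20b1ca1c81c8148
noncomputable def q973 : Tr := .c 4 v461 (.c 5 v462 (.c 8 v462 (.c 9 v462 .e)))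
noncomputable def q974 : Tr := .c 4 v461 (.c 5 v462 (.c 9 v462 .e))
noncomputable def q975 : Tr := .c 5 v462 (.c 8 v462 (.c 9 v462 .e))
noncomputable def v463 : Tr := .l 0x28b20920928b1c81461461c8
noncomputable def v464 : Tr := .l 0x2ca2482482ca207185185207
noncomputable def q976 : Tr := .c 1 v463 (.c 2 v464 (.c 4 v464 (.c 5 v463 (.c 8 v463 (.c 9 v463 .e)))))
noncomputable def q977 : Tr := .c 2 v464 (.c 4 v464 (.c 5 v463 (.c 9 v463 .e)))
noncomputable def q978 : Tr := .c 2 v461 (.c 4 v461 (.c 5 v462 .e))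
noncomputable def r700 : Tr := .c 0 q973 (.c 1 q974 (.c 2 q975 (.c 6 q976 (.c 7 q977 (.c 8 q978 .e)))))
noncomputable def v465 : Tr := .l 0x2872c92892872462481c61c4
noncomputable def q979 : Tr := .c 4 v465 (.c 5 v422 (.c 9 v422 .e))
noncomputable def q980 : Tr := .c 2 v465 (.c 4 v465 (.c 5 v422 .e))
noncomputable def r701 : Tr := .c 1 q979 (.c 2 q949 (.c 4 q950 (.c 8 q980 .e)))
noncomputable def t187 : Tr := .c 0 r696 (.c 2 r697 (.c 3 r698 (.c 4 r699 (.c 5 r700 (.c 6 r701 .e)))))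
noncomputable def q981 : Tr := .c 5 v438 (.c 9 v438 .e)
noncomputable def r702 : Tr := .c 1 q981 (.c 2 q931 (.c 7 q944 (.c 8 q945 .e)))
noncomputable def q982 : Tr := .c 5 v438 (.c 8 v438 (.c 9 v438 .e))
noncomputable def r703 : Tr := .c 0 q982 (.c 1 q981 (.c 6 q947 (.c 7 q944 (.c 8 q945 .e))))
noncomputable def t188 : Tr := .c 0 r685 (.c 1 r686 (.c 2 r687 (.c 3 r702 (.c 4 r703 (.c 6 r688 (.c 7 r689 .e))))))
noncomputable def v466 : Tr := .l 0x2cb2cb28b2cb2cb24a1c8249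
noncomputable def q983 : Tr := .c 4 v395 (.c 5 v466 (.c 8 v466 (.c 9 v466 .e)))
noncomputable def q984 : Tr := .c 5 v466 (.c 8 v466 (.c 9 v466 .e))
noncomputable def v467 : Tr := .l 0x2cb2cb2ca2cb2ca289207288
noncomputable def q985 : Tr := .c 1 v466 (.c 2 v467 (.c 8 v466 (.c 9 v466 .e)))
noncomputable def q986 : Tr := .c 1 v466 (.c 8 v466 (.c 9 v466 .e))
noncomputable def r704 : Tr := .c 0 q983 (.c 2 q984 (.c 3 q985 (.c 4 q986 .e)))
noncomputable def t189 : Tr := .c 4 r699 (.c 5 r700 (.c 7 r704 .e))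
noncomputable def t190 : Tr := .c 3 r698 (.c 4 r699 (.c 5 r700 (.c 6 r701 .e)))
noncomputable def v468 : Tr := .l 0x1c41c6144142205287207205
noncomputable def v469 : Tr := .l 0x1071871050851481ca1c8148
noncomputable def q987 : Tr := .c 4 v468 (.c 5 v469 (.c 8 v469 (.c 9 v469 .e)))
noncomputable def q988 : Tr := .c 4 v468 (.c 5 v469 (.c 9 v469 .e))
noncomputable def v470 : Tr := .l 0x1871050831051c81c81461c8
noncomputable def v471 : Tr := .l 0x1c61440c2144207207185207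
noncomputable def q989 : Tr := .c 1 v470 (.c 2 v471 (.c 4 v471 (.c 5 v470 (.c 8 v470 (.c 9 v470 .e)))))
noncomputable def q990 : Tr := .c 2 v471 (.c 4 v471 (.c 5 v470 (.c 9 v470 .e)))
noncomputable def q991 : Tr := .c 2 v468 (.c 4 v468 (.c 5 v469 .e))
noncomputable def v472 : Tr := .l 0x2052071851832462c8248246
noncomputable def q992 : Tr := .c 1 v472 (.c 2 v468 (.c 4 v468 .e))
noncomputable def r705 : Tr := .c 0 q987 (.c 1 q988 (.c 6 q989 (.c 7 q990 (.c 8 q991 (.c 9 q992 .e)))))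
noncomputable def v473 : Tr := .l 0x2872072072052c82c82ca2c8
noncomputable def v474 : Tr := .l 0x1ca1c81c814820b20b28b20b
noncomputable def q993 : Tr := .c 4 v473 (.c 5 v474 (.c 8 v474 (.c 9 v474 .e)))
noncomputable def q994 : Tr := .c 4 v473 (.c 5 v474 (.c 9 v474 .e))
noncomputable def v475 : Tr := .l 0x1c81461461c828b20920928b
noncomputable def v476 : Tr := .l 0x2071851852072ca2482482ca
noncomputable def q995 : Tr := .c 1 v475 (.c 2 v476 (.c 4 v476 (.c 5 v475 (.c 8 v475 (.c 9 v475 .e)))))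
noncomputable def q996 : Tr := .c 2 v476 (.c 4 v476 (.c 5 v475 (.c 9 v475 .e)))
noncomputable def q997 : Tr := .c 2 v473 (.c 4 v473 (.c 5 v474 .e))
noncomputable def r706 : Tr := .c 0 q993 (.c 1 q994 (.c 6 q995 (.c 7 q996 (.c 8 q997 .e))))
noncomputable def r707 : Tr := .c 0 q881 (.c 3 q883 (.c 5 q885 (.c 9 q886 .e)))
noncomputable def t191 : Tr := .c 4 r705 (.c 5 r706 (.c 7 r707 .e))
noncomputable def r708 : Tr := .c 1 q988 (.c 7 q990 (.c 8 q991 (.c 9 q992 .e)))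
noncomputable def v477 : Tr := .l 0x2462481c61c42872c9289287
noncomputable def v478 : Tr := .l 0x1892091871071ca24b24a1ca
noncomputable def q998 : Tr := .c 4 v477 (.c 5 v478 (.c 9 v478 .e))
noncomputable def q999 : Tr := .c 1 v392 (.c 2 v477 (.c 8 v392 .e))
noncomputable def q1000 : Tr := .c 2 v477 (.c 4 v477 (.c 5 v478 .e))
noncomputable def q1001 : Tr := .c 1 v392 (.c 2 v477 (.c 4 v477 .e))
noncomputable def r709 : Tr := .c 1 q998 (.c 5 q999 (.c 8 q1000 (.c 9 q1001 .e)))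
noncomputable def t192 : Tr := .c 3 r708 (.c 4 r705 (.c 5 r706 (.c 6 r709 .e)))
noncomputable def q1002 : Tr := .c 4 v472 .e
noncomputable def v479 : Tr := .l 0x2071851031852482481c6248
noncomputable def q1003 : Tr := .c 2 v479 (.c 4 v479 .e)
noncomputable def q1004 : Tr := .c 2 v472 (.c 4 v472 .e)
noncomputable def q1005 : Tr := .c 1 v477 (.c 2 v472 (.c 4 v472 .e))
noncomputable def r710 : Tr := .c 1 q1002 (.c 7 q1003 (.c 8 q1004 (.c 9 q1005 .e)))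
noncomputable def q1006 : Tr := .c 4 v473 (.c 8 v474 .e)
noncomputable def q1007 : Tr := .c 4 v473 .e
noncomputable def q1008 : Tr := .c 1 v475 (.c 2 v476 (.c 4 v476 (.c 8 v475 .e)))
noncomputable def q1009 : Tr := .c 2 v476 (.c 4 v476 .e)
noncomputable def q1010 : Tr := .c 2 v473 (.c 4 v473 .e)
noncomputable def r711 : Tr := .c 0 q1006 (.c 1 q1007 (.c 6 q1008 (.c 7 q1009 (.c 8 q1010 .e))))
noncomputable def r712 : Tr := .c 1 q892 (.c 5 q885 (.c 8 q895 (.c 9 q886 .e)))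
noncomputable def r713 : Tr := .c 0 q896 (.c 3 q897 (.c 5 q885 (.c 9 q886 .e)))
noncomputable def t193 : Tr := .c 3 r710 (.c 5 r711 (.c 6 r712 (.c 7 r713 .e)))
noncomputable def v480 : Tr := .l 0x2461c41461c8287287209289
noncomputable def v481 : Tr := .l 0x2051831852072462462482c8
noncomputable def v482 : Tr := .l 0x1480c61461c818918920920b
noncomputable def q1011 : Tr := .c 1 v480 (.c 2 v481 (.c 4 v481 (.c 5 v482 .e)))
noncomputable def r714 : Tr := .c 3 q912 (.c 5 q914 (.c 6 q1011 (.c 9 q916 .e)))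
noncomputable def v483 : Tr := .l 0x2051831051872462461c8248
noncomputable def v484 : Tr := .l 0x1c41421441c6205205207287
noncomputable def v485 : Tr := .l 0x1070851051871481481c81ca
noncomputable def q1012 : Tr := .c 1 v483 (.c 2 v484 (.c 4 v484 (.c 5 v485 .e)))
noncomputable def q1013 : Tr := .c 2 v484 (.c 4 v484 (.c 5 v485 .e))
noncomputable def r715 : Tr := .c 3 q917 (.c 5 q918 (.c 6 q1012 (.c 7 q1013 (.c 8 q921 (.c 9 q922 .e)))))
noncomputable def r716 : Tr := .c 0 q923 (.c 1 q923 (.c 6 q1012 (.c 7 q1013 (.c 8 q921 (.c 9 q922 .e)))))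
noncomputable def v486 : Tr := .l 0x2461c41c62482c92872892cb
noncomputable def v487 : Tr := .l 0x2051832052872c82462c82ca
noncomputable def v488 : Tr := .l 0x1480c61481ca20b18920b28b
noncomputable def q1014 : Tr := .c 1 v486 (.c 2 v487 (.c 4 v487 (.c 5 v488 .e)))
noncomputable def q1015 : Tr := .c 2 v487 (.c 4 v487 (.c 5 v488 .e))
noncomputable def r717 : Tr := .c 0 q924 (.c 1 q924 (.c 6 q1014 (.c 7 q1015 (.c 8 q928 .e))))
noncomputable def t194 : Tr := .c 1 r714 (.c 2 r715 (.c 4 r716 (.c 5 r717 .e)))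
noncomputable def r718 : Tr := .c 5 q918 (.c 7 q1013 (.c 8 q921 (.c 9 q922 .e)))
noncomputable def r719 : Tr := .c 1 q923 (.c 7 q1013 (.c 8 q921 (.c 9 q922 .e)))
noncomputable def t195 : Tr := .c 0 r718 (.c 2 r715 (.c 3 r719 (.c 4 r716 (.c 5 r717 .e))))
noncomputable def q1016 : Tr := .c 1 v472 (.c 2 v468 (.c 8 v472 .e))
noncomputable def r720 : Tr := .c 5 q1016 (.c 7 q990 (.c 8 q991 (.c 9 q992 .e)))
noncomputable def v489 : Tr := .l 0x20818710518624924a1c8249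
noncomputable def v490 : Tr := .l 0x2471c61441c5288289207288
noncomputable def q1017 : Tr := .c 1 v489 (.c 2 v490 (.c 8 v489 (.c 9 v489 .e)))
noncomputable def r721 : Tr := .c 3 q1017 (.c 5 q1016 (.c 6 q989 (.c 7 q990 (.c 8 q991 (.c 9 q992 .e)))))
noncomputable def t196 : Tr := .c 0 r720 (.c 2 r721 (.c 3 r708 (.c 4 r705 (.c 5 r706 (.c 6 r709 .e)))))
noncomputable def r722 : Tr := .c 0 q987 (.c 1 q988 (.c 8 q991 (.c 9 q992 .e)))
noncomputable def q1018 : Tr := .c 5 v474 (.c 8 v474 (.c 9 v474 .e))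
noncomputable def r723 : Tr := .c 0 q993 (.c 1 q994 (.c 2 q1018 (.c 8 q997 .e)))
noncomputable def t197 : Tr := .c 4 r722 (.c 5 r723 (.c 7 r666 .e))
noncomputable def q1019 : Tr := .c 8 v312 .e
noncomputable def r724 : Tr := .c 1 q1002 (.c 2 q1019 (.c 8 q1004 (.c 9 q1005 .e)))
noncomputable def q1020 : Tr := .c 8 v474 .e
noncomputable def r725 : Tr := .c 0 q1006 (.c 1 q1007 (.c 2 q1020 (.c 8 q1010 .e)))
noncomputable def t198 : Tr := .c 3 r724 (.c 5 r725 (.c 6 r669 (.c 7 r670 .e)))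
noncomputable def r726 : Tr := .c 3 q870 (.c 4 q871 (.c 5 q872 (.c 9 q874 .e)))
noncomputable def r727 : Tr := .c 3 q875 (.c 5 q876 (.c 8 q879 (.c 9 q880 .e)))
noncomputable def t199 : Tr := .c 1 r726 (.c 2 r727 (.c 7 r666 .e))
noncomputable def r728 : Tr := .c 4 q887 (.c 5 q872 (.c 8 q889 (.c 9 q874 .e)))
noncomputable def r729 : Tr := .c 3 q890 (.c 4 q887 (.c 5 q872 (.c 9 q874 .e)))
noncomputable def t200 : Tr := .c 0 r728 (.c 1 r729 (.c 6 r669 (.c 7 r670 .e)))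
noncomputable def r730 : Tr := .c 4 q898 (.c 5 q899 (.c 8 q901 (.c 9 q902 .e)))
noncomputable def r731 : Tr := .c 3 q898 (.c 4 q898 (.c 5 q899 (.c 9 q902 .e)))
noncomputable def r732 : Tr := .c 3 q904 (.c 5 q899 (.c 8 q901 (.c 9 q902 .e)))
noncomputable def t201 : Tr := .c 0 r730 (.c 1 r731 (.c 2 r732 (.c 6 r674 (.c 7 r675 .e))))
noncomputable def r733 : Tr := .c 3 q912 (.c 4 q913 (.c 5 q914 (.c 9 q916 .e)))
noncomputable def r734 : Tr := .c 3 q917 (.c 5 q918 (.c 8 q921 (.c 9 q922 .e)))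
noncomputable def r735 : Tr := .c 0 q923 (.c 1 q923 (.c 8 q921 (.c 9 q922 .e)))
noncomputable def r736 : Tr := .c 0 q924 (.c 1 q924 (.c 2 q925 (.c 8 q928 .e)))
noncomputable def t202 : Tr := .c 1 r733 (.c 2 r734 (.c 4 r735 (.c 5 r736 .e)))
noncomputable def r737 : Tr := .c 0 q993 (.c 1 q994 (.c 8 q997 .e))
noncomputable def t203 : Tr := .c 4 r722 (.c 5 r737 (.c 7 r707 .e))
noncomputable def r738 : Tr := .c 1 q988 (.c 8 q991 (.c 9 q992 .e))
noncomputable def t204 : Tr := .c 3 r738 (.c 4 r722 (.c 5 r737 (.c 6 r709 .e)))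
noncomputable def r739 : Tr := .c 1 q1002 (.c 8 q1004 (.c 9 q1005 .e))
noncomputable def r740 : Tr := .c 0 q1006 (.c 1 q1007 (.c 8 q1010 .e))
noncomputable def t205 : Tr := .c 3 r739 (.c 5 r740 (.c 6 r712 (.c 7 r713 .e)))
noncomputable def r741 : Tr := .c 3 q870 (.c 5 q872 (.c 9 q874 .e))
noncomputable def t206 : Tr := .c 1 r741 (.c 2 r727 (.c 7 r707 .e))
noncomputable def r742 : Tr := .c 5 q872 (.c 8 q889 (.c 9 q874 .e))
noncomputable def r743 : Tr := .c 3 q890 (.c 5 q872 (.c 9 q874 .e))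
noncomputable def t207 : Tr := .c 0 r742 (.c 1 r743 (.c 6 r712 (.c 7 r713 .e)))
noncomputable def r744 : Tr := .c 3 q912 (.c 5 q914 (.c 9 q916 .e))
noncomputable def r745 : Tr := .c 0 q924 (.c 1 q924 (.c 8 q928 .e))
noncomputable def t208 : Tr := .c 1 r744 (.c 2 r734 (.c 4 r735 (.c 5 r745 .e)))
noncomputable def r746 : Tr := .c 5 q918 (.c 8 q921 (.c 9 q922 .e))
noncomputable def r747 : Tr := .c 1 q923 (.c 8 q921 (.c 9 q922 .e))
noncomputable def t209 : Tr := .c 0 r746 (.c 2 r734 (.c 3 r747 (.c 4 r735 (.c 5 r745 .e))))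
noncomputable def v491 : Tr := .l 0x2472c92cb2c92c92cb2cb2cb
noncomputable def q1021 : Tr := .c 0 v491 (.c 2 v491 .e)
noncomputable def q1022 : Tr := .c 0 v11 (.c 2 v11 (.c 3 v11 (.c 4 v11 .e)))
noncomputable def q1023 : Tr := .c 0 v491 (.c 2 v491 (.c 3 v491 (.c 4 v491 .e)))
noncomputable def r748 : Tr := .c 4 q635 (.c 5 q1021 (.c 7 q1022 (.c 8 q1023 (.c 9 q1023 .e))))
noncomputable def v492 : Tr := .l 0x2ca2ca2cb2cb2cb2cb2cb2cb
noncomputable def q1024 : Tr := .c 2 v492 .e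
noncomputable def v493 : Tr := .l 0x2ca2c82ca2cb2cb2cb2cb2cb
noncomputable def q1025 : Tr := .c 2 v493 (.c 4 v493 .e)
noncomputable def r749 : Tr := .c 3 q1024 (.c 4 q635 (.c 5 q1021 (.c 6 q1025 (.c 9 q1023 .e))))
noncomputable def q1026 : Tr := .c 3 v314 (.c 4 v314 .e)
noncomputable def q1027 : Tr := .c 3 v319 .e
noncomputable def q1028 : Tr := .c 0 v314 (.c 2 v314 .e)
noncomputable def q1029 : Tr := .c 0 v314 (.c 2 v314 (.c 3 v314 (.c 4 v314 .e)))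
noncomputable def r750 : Tr := .c 1 q1026 (.c 2 q1027 (.c 4 q701 (.c 5 q1028 (.c 8 q1029 (.c 9 q1029 .e)))))
noncomputable def q1030 : Tr := .c 2 v317 .e
noncomputable def r751 : Tr := .c 0 q121 (.c 2 q1027 (.c 3 q1030 (.c 4 q701 (.c 5 q1028 (.c 9 q1029 .e)))))
noncomputable def t210 : Tr := .c 0 r748 (.c 1 r749 (.c 6 r750 (.c 7 r751 .e)))
noncomputable def v494 : Tr := .l 0x2cb2cb24b2cb2cb24b1c924b
noncomputable def q1031 : Tr := .c 0 v494 (.c 9 v436 .e)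
noncomputable def q1032 : Tr := .c 0 v459 .e
noncomputable def q1033 : Tr := .c 0 v458 (.c 3 v458 (.c 5 v437 (.c 9 v437 .e)))
noncomputable def q1034 : Tr := .c 0 v459 (.c 3 v459 (.c 5 v438 .e))
noncomputable def q1035 : Tr := .c 0 v459 (.c 3 v459 .e)
noncomputable def r752 : Tr := .c 4 q1031 (.c 5 q1032 (.c 7 q1033 (.c 8 q1034 (.c 9 q1035 .e))))
noncomputable def q1036 : Tr := .c 9 v436 .e
noncomputable def r753 : Tr := .c 3 q1036 (.c 4 q1031 (.c 5 q1032 (.c 6 q900 (.c 9 q1035 .e))))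
noncomputable def q1037 : Tr := .c 9 v439 .e
noncomputable def r754 : Tr := .c 3 q1037 (.c 5 q1032 (.c 6 q944 (.c 7 q1033 (.c 8 q1034 (.c 9 q1035 .e)))))
noncomputable def q1038 : Tr := .c 3 v465 (.c 5 v422 (.c 9 v422 .e))
noncomputable def q1039 : Tr := .c 3 v395 (.c 5 v400 (.c 9 v400 .e))
noncomputable def q1040 : Tr := .c 0 v322 (.c 9 v400 .e)
noncomputable def q1041 : Tr := .c 0 v465 .e
noncomputable def q1042 : Tr := .c 0 v465 (.c 3 v465 (.c 5 v422 .e))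
noncomputable def q1043 : Tr := .c 0 v465 (.c 3 v465 .e)
noncomputable def r755 : Tr := .c 1 q1038 (.c 2 q1039 (.c 4 q1040 (.c 5 q1041 (.c 8 q1042 (.c 9 q1043 .e)))))
noncomputable def q1044 : Tr := .c 9 v400 .e
noncomputable def r756 : Tr := .c 0 q906 (.c 2 q1039 (.c 3 q1044 (.c 4 q1040 (.c 5 q1041 (.c 9 q1043 .e)))))
noncomputable def t211 : Tr := .c 0 r752 (.c 1 r753 (.c 2 r754 (.c 6 r755 (.c 7 r756 .e))))
noncomputable def q1045 : Tr := .c 0 v11 .e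
noncomputable def q1046 : Tr := .c 0 v450 (.c 2 v450 .e)
noncomputable def q1047 : Tr := .c 0 v448 (.c 2 v448 (.c 3 v448 (.c 4 v448 (.c 5 v449 .e))))
noncomputable def q1048 : Tr := .c 0 v450 (.c 2 v450 (.c 3 v450 (.c 4 v450 (.c 5 v451 .e))))
noncomputable def q1049 : Tr := .c 0 v450 (.c 2 v450 (.c 3 v450 (.c 4 v450 .e)))
noncomputable def r757 : Tr := .c 4 q1045 (.c 5 q1046 (.c 7 q1047 (.c 8 q1048 (.c 9 q1049 .e))))
noncomputable def q1050 : Tr := .c 2 v446 .e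
noncomputable def r758 : Tr := .c 3 q1050 (.c 5 q1046 (.c 6 q957 (.c 7 q1047 (.c 8 q1048 (.c 9 q1049 .e)))))
noncomputable def q1051 : Tr := .c 3 v450 (.c 4 v450 (.c 5 v451 .e))
noncomputable def v495 : Tr := .l 0x1c4246248246183205207205
noncomputable def q1052 : Tr := .c 3 v495 (.c 5 v457 .e)
noncomputable def r759 : Tr := .c 1 q1051 (.c 2 q1052 (.c 7 q1047 (.c 8 q1048 (.c 9 q1049 .e))))
noncomputable def r760 : Tr := .c 0 q959 (.c 1 q1051 (.c 6 q957 (.c 7 q1047 (.c 8 q1048 (.c 9 q1049 .e)))))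
noncomputable def q1053 : Tr := .c 3 v452 (.c 4 v452 (.c 5 v453 .e))
noncomputable def v496 : Tr := .l 0x2472472c92c9206206288288
noncomputable def q1054 : Tr := .c 3 v496 (.c 5 v453 .e)
noncomputable def q1055 : Tr := .c 0 v455 (.c 2 v455 (.c 3 v455 (.c 4 v455 (.c 5 v456 .e))))
noncomputable def q1056 : Tr := .c 0 v452 (.c 2 v452 (.c 3 v452 (.c 4 v452 (.c 5 v453 .e))))
noncomputable def r761 : Tr := .c 0 q960 (.c 1 q1053 (.c 2 q1054 (.c 6 q963 (.c 7 q1055 (.c 8 q1056 .e)))))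
noncomputable def t212 : Tr := .c 0 r757 (.c 2 r758 (.c 3 r759 (.c 4 r760 (.c 5 r761 .e))))
noncomputable def q1057 : Tr := .c 0 v459 (.c 2 v459 .e)
noncomputable def q1058 : Tr := .c 0 v458 (.c 2 v458 (.c 3 v458 (.c 4 v458 (.c 5 v437 (.c 9 v437 .e)))))
noncomputable def q1059 : Tr := .c 0 v459 (.c 2 v459 (.c 3 v459 (.c 4 v459 (.c 5 v438 .e))))
noncomputable def q1060 : Tr := .c 0 v459 (.c 2 v459 (.c 3 v459 (.c 4 v459 .e)))
noncomputable def r762 : Tr := .c 4 q1031 (.c 5 q1057 (.c 7 q1058 (.c 8 q1059 (.c 9 q1060 .e))))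
noncomputable def q1061 : Tr := .c 2 v460 (.c 9 v439 .e)
noncomputable def r763 : Tr := .c 3 q1061 (.c 5 q1057 (.c 6 q967 (.c 7 q1058 (.c 8 q1059 (.c 9 q1060 .e)))))
noncomputable def q1062 : Tr := .c 3 v459 (.c 4 v459 (.c 5 v438 (.c 9 v438 .e)))
noncomputable def v497 : Tr := .l 0x2462c8248246205207185183
noncomputable def q1063 : Tr := .c 3 v497 (.c 5 v397 (.c 9 v397 .e))
noncomputable def r764 : Tr := .c 1 q1062 (.c 2 q1063 (.c 7 q1058 (.c 8 q1059 (.c 9 q1060 .e))))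
noncomputable def r765 : Tr := .c 0 q971 (.c 1 q1062 (.c 6 q967 (.c 7 q1058 (.c 8 q1059 (.c 9 q1060 .e)))))
noncomputable def q1064 : Tr := .c 3 v461 (.c 4 v461 (.c 5 v462 (.c 9 v462 .e)))
noncomputable def v498 : Tr := .l 0x2c92c92cb2c9288248248206
noncomputable def q1065 : Tr := .c 3 v498 (.c 5 v462 (.c 9 v462 .e))
noncomputable def q1066 : Tr := .c 0 v464 (.c 2 v464 (.c 3 v464 (.c 4 v464 (.c 5 v463 (.c 9 v463 .e)))))
noncomputable def q1067 : Tr := .c 0 v461 (.c 2 v461 (.c 3 v461 (.c 4 v461 (.c 5 v462 .e))))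
noncomputable def r766 : Tr := .c 0 q974 (.c 1 q1064 (.c 2 q1065 (.c 6 q977 (.c 7 q1066 (.c 8 q1067 .e)))))
noncomputable def q1068 : Tr := .c 3 v465 (.c 4 v465 (.c 5 v422 (.c 9 v422 .e)))
noncomputable def q1069 : Tr := .c 0 v465 (.c 2 v465 .e)
noncomputable def q1070 : Tr := .c 0 v465 (.c 2 v465 (.c 3 v465 (.c 4 v465 (.c 5 v422 .e))))
noncomputable def q1071 : Tr := .c 0 v465 (.c 2 v465 (.c 3 v465 (.c 4 v465 .e)))
noncomputable def r767 : Tr := .c 1 q1068 (.c 2 q1039 (.c 4 q1040 (.c 5 q1069 (.c 8 q1070 (.c 9 q1071 .e)))))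
noncomputable def t213 : Tr := .c 0 r762 (.c 2 r763 (.c 3 r764 (.c 4 r765 (.c 5 r766 (.c 6 r767 .e)))))
noncomputable def q1072 : Tr := .c 3 v459 (.c 5 v438 (.c 9 v438 .e))
noncomputable def r768 : Tr := .c 1 q1072 (.c 2 q1063 (.c 7 q1033 (.c 8 q1034 (.c 9 q1035 .e))))
noncomputable def r769 : Tr := .c 0 q981 (.c 1 q1072 (.c 6 q944 (.c 7 q1033 (.c 8 q1034 (.c 9 q1035 .e)))))
noncomputable def t214 : Tr := .c 0 r752 (.c 1 r753 (.c 2 r754 (.c 3 r768 (.c 4 r769 (.c 6 r755 (.c 7 r756 .e))))))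
noncomputable def q1073 : Tr := .c 2 v424 (.c 9 v423 .e)
noncomputable def v499 : Tr := .l 0x2cb2cb2cb2cb2cb28b28b2cb
noncomputable def q1074 : Tr := .c 0 v499 (.c 9 v423 .e)
noncomputable def q1075 : Tr := .c 2 v426 (.c 4 v426 (.c 5 v425 (.c 9 v425 .e)))
noncomputable def r770 : Tr := .c 3 q1073 (.c 4 q1074 (.c 6 q1075 .e))
noncomputable def q1076 : Tr := .c 2 v428 (.c 9 v427 .e)
noncomputable def q1077 : Tr := .c 0 v430 (.c 2 v430 (.c 3 v430 (.c 4 v430 (.c 5 v429 (.c 9 v429 .e)))))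
noncomputable def q1078 : Tr := .c 0 v431 (.c 2 v431 (.c 3 v431 (.c 4 v431 (.c 5 v432 .e))))
noncomputable def r771 : Tr := .c 3 q1076 (.c 6 q937 (.c 7 q1077 (.c 8 q1078 .e)))
noncomputable def q1079 : Tr := .c 4 v433 (.c 5 v434 (.c 9 v434 .e))
noncomputable def v500 : Tr := .l 0x2cb2cb2cb2cb2ca2cb2ca2c8
noncomputable def q1080 : Tr := .c 3 v500 (.c 5 v434 (.c 9 v434 .e))
noncomputable def q1081 : Tr := .c 2 v435 (.c 9 v434 .e)
noncomputable def q1082 : Tr := .c 0 v324 (.c 9 v434 .e)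
noncomputable def r772 : Tr := .c 0 q1079 (.c 2 q1080 (.c 3 q1081 (.c 4 q1082 .e)))
noncomputable def t215 : Tr := .c 1 r770 (.c 2 r771 (.c 7 r772 .e))
noncomputable def r773 : Tr := .c 4 q1031 (.c 7 q1033 (.c 8 q1034 .e))
noncomputable def r774 : Tr := .c 3 q1036 (.c 4 q1031 (.c 6 q900 .e))
noncomputable def r775 : Tr := .c 3 q1037 (.c 6 q944 (.c 7 q1033 (.c 8 q1034 .e)))
noncomputable def r776 : Tr := .c 1 q1038 (.c 2 q1039 (.c 4 q1040 (.c 8 q1042 .e)))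
noncomputable def r777 : Tr := .c 0 q906 (.c 2 q1039 (.c 3 q1044 (.c 4 q1040 .e)))
noncomputable def t216 : Tr := .c 0 r773 (.c 1 r774 (.c 2 r775 (.c 6 r776 (.c 7 r777 .e))))
noncomputable def q1083 : Tr := .c 2 v441 .e
noncomputable def v501 : Tr := .l 0x2cb2cb2cb2cb28b20b28b2cb
noncomputable def q1084 : Tr := .c 0 v501 .e
noncomputable def q1085 : Tr := .c 2 v443 (.c 4 v443 (.c 5 v444 .e))
noncomputable def r778 : Tr := .c 3 q1083 (.c 4 q1084 (.c 6 q1085 .e))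
noncomputable def r779 : Tr := .c 3 q1050 (.c 6 q957 (.c 7 q1047 (.c 8 q1048 .e)))
noncomputable def r780 : Tr := .c 0 q959 (.c 1 q1051 (.c 6 q957 (.c 7 q1047 (.c 8 q1048 .e))))
noncomputable def t217 : Tr := .c 1 r778 (.c 2 r779 (.c 4 r780 (.c 5 r761 .e)))
noncomputable def r781 : Tr := .c 4 q1045 (.c 7 q1047 (.c 8 q1048 .e))
noncomputable def r782 : Tr := .c 1 q1051 (.c 2 q1052 (.c 7 q1047 (.c 8 q1048 .e)))
noncomputable def t218 : Tr := .c 0 r781 (.c 2 r779 (.c 3 r782 (.c 4 r780 (.c 5 r761 .e))))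
noncomputable def r783 : Tr := .c 4 q1031 (.c 7 q1058 (.c 8 q1059 .e))
noncomputable def r784 : Tr := .c 3 q1061 (.c 6 q967 (.c 7 q1058 (.c 8 q1059 .e)))
noncomputable def r785 : Tr := .c 1 q1062 (.c 2 q1063 (.c 7 q1058 (.c 8 q1059 .e)))
noncomputable def r786 : Tr := .c 0 q971 (.c 1 q1062 (.c 6 q967 (.c 7 q1058 (.c 8 q1059 .e))))
noncomputable def r787 : Tr := .c 1 q1068 (.c 2 q1039 (.c 4 q1040 (.c 8 q1070 .e)))
noncomputable def t219 : Tr := .c 0 r783 (.c 2 r784 (.c 3 r785 (.c 4 r786 (.c 5 r766 (.c 6 r787 .e)))))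
noncomputable def r788 : Tr := .c 1 q1072 (.c 2 q1063 (.c 7 q1033 (.c 8 q1034 .e)))
noncomputable def r789 : Tr := .c 0 q981 (.c 1 q1072 (.c 6 q944 (.c 7 q1033 (.c 8 q1034 .e))))
noncomputable def t220 : Tr := .c 0 r773 (.c 1 r774 (.c 2 r775 (.c 3 r788 (.c 4 r789 (.c 6 r776 (.c 7 r777 .e))))))
noncomputable def t221 : Tr := .c 3 r764 (.c 4 r765 (.c 5 r766 (.c 6 r767 .e)))
noncomputable def q1086 : Tr := .c 3 v497 (.c 4 v497 .e)
noncomputable def q1087 : Tr := .c 3 v465 .e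
noncomputable def v502 : Tr := .l 0x2482481c6248207185103185
noncomputable def q1088 : Tr := .c 0 v502 (.c 2 v502 (.c 3 v502 (.c 4 v502 .e)))
noncomputable def q1089 : Tr := .c 0 v497 (.c 2 v497 (.c 3 v497 (.c 4 v497 .e)))
noncomputable def r790 : Tr := .c 1 q1086 (.c 2 q1087 (.c 7 q1088 (.c 8 q1089 (.c 9 q1089 .e))))
noncomputable def v503 : Tr := .l 0x2c92c92ca2c82c8248248246
noncomputable def q1090 : Tr := .c 4 v503 .e
noncomputable def q1091 : Tr := .c 3 v503 (.c 4 v503 .e)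
noncomputable def v504 : Tr := .l 0x2ca2ca2cb2c92c9288289247
noncomputable def q1092 : Tr := .c 3 v504 .e
noncomputable def v505 : Tr := .l 0x2ca2482482ca2481c61c6248
noncomputable def q1093 : Tr := .c 2 v505 (.c 4 v505 .e)
noncomputable def q1094 : Tr := .c 0 v505 (.c 2 v505 (.c 3 v505 (.c 4 v505 .e)))
noncomputable def q1095 : Tr := .c 0 v503 (.c 2 v503 (.c 3 v503 (.c 4 v503 .e)))
noncomputable def r791 : Tr := .c 0 q1090 (.c 1 q1091 (.c 2 q1092 (.c 6 q1093 (.c 7 q1094 (.c 8 q1095 .e)))))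
noncomputable def q1096 : Tr := .c 3 v395 (.c 4 v395 .e)
noncomputable def v506 : Tr := .l 0x2c92cb2cb2c92c82ca248246
noncomputable def q1097 : Tr := .c 3 v506 .e
noncomputable def q1098 : Tr := .c 0 v395 (.c 2 v395 .e)
noncomputable def q1099 : Tr := .c 0 v395 (.c 2 v395 (.c 3 v395 (.c 4 v395 .e)))
noncomputable def r792 : Tr := .c 1 q1096 (.c 2 q1097 (.c 4 q694 (.c 5 q1098 (.c 8 q1099 (.c 9 q1099 .e)))))
noncomputable def q1100 : Tr := .c 2 v500 .e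
noncomputable def r793 : Tr := .c 0 q300 (.c 2 q1097 (.c 3 q1100 (.c 4 q694 (.c 5 q1098 (.c 9 q1099 .e)))))
noncomputable def t222 : Tr := .c 3 r790 (.c 5 r791 (.c 6 r792 (.c 7 r793 .e)))
noncomputable def q1101 : Tr := .c 4 v395 (.c 5 v466 (.c 9 v466 .e))
noncomputable def q1102 : Tr := .c 3 v153 (.c 5 v466 (.c 9 v466 .e))
noncomputable def q1103 : Tr := .c 2 v467 (.c 9 v466 .e)
noncomputable def q1104 : Tr := .c 0 v11 (.c 9 v466 .e)
noncomputable def r794 : Tr := .c 0 q1101 (.c 2 q1102 (.c 3 q1103 (.c 4 q1104 .e)))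
noncomputable def t223 : Tr := .c 4 r786 (.c 5 r766 (.c 7 r794 .e))
noncomputable def t224 : Tr := .c 3 r785 (.c 4 r786 (.c 5 r766 (.c 6 r787 .e)))
noncomputable def q1105 : Tr := .c 3 v468 (.c 4 v468 (.c 5 v469 (.c 9 v469 .e)))
noncomputable def q1106 : Tr := .c 0 v471 (.c 2 v471 (.c 3 v471 (.c 4 v471 (.c 5 v470 (.c 9 v470 .e)))))
noncomputable def q1107 : Tr := .c 0 v468 (.c 2 v468 (.c 3 v468 (.c 4 v468 (.c 5 v469 .e))))
noncomputable def q1108 : Tr := .c 0 v468 (.c 2 v468 (.c 3 v468 (.c 4 v468 .e)))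
noncomputable def r795 : Tr := .c 0 q988 (.c 1 q1105 (.c 6 q990 (.c 7 q1106 (.c 8 q1107 (.c 9 q1108 .e)))))
noncomputable def q1109 : Tr := .c 3 v473 (.c 4 v473 (.c 5 v474 (.c 9 v474 .e)))
noncomputable def q1110 : Tr := .c 0 v476 (.c 2 v476 (.c 3 v476 (.c 4 v476 (.c 5 v475 (.c 9 v475 .e)))))
noncomputable def q1111 : Tr := .c 0 v473 (.c 2 v473 (.c 3 v473 (.c 4 v473 (.c 5 v474 .e))))
noncomputable def r796 : Tr := .c 0 q994 (.c 1 q1109 (.c 6 q996 (.c 7 q1110 (.c 8 q1111 .e))))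
noncomputable def q1112 : Tr := .c 4 v388 (.c 5 v389 (.c 9 v389 .e))
noncomputable def q1113 : Tr := .c 2 v390 (.c 9 v389 .e)
noncomputable def q1114 : Tr := .c 0 v392 (.c 2 v392 .e)
noncomputable def q1115 : Tr := .c 0 v392 (.c 2 v392 (.c 3 v392 (.c 4 v392 .e)))
noncomputable def r797 : Tr := .c 0 q1112 (.c 3 q1113 (.c 5 q1114 (.c 9 q1115 .e)))
noncomputable def t225 : Tr := .c 4 r795 (.c 5 r796 (.c 7 r797 .e))
noncomputable def r798 : Tr := .c 1 q1105 (.c 7 q1106 (.c 8 q1107 (.c 9 q1108 .e)))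
noncomputable def q1116 : Tr := .c 3 v477 (.c 4 v477 (.c 5 v478 (.c 9 v478 .e)))
noncomputable def q1117 : Tr := .c 0 v477 (.c 2 v477 .e)
noncomputable def q1118 : Tr := .c 0 v477 (.c 2 v477 (.c 3 v477 (.c 4 v477 (.c 5 v478 .e))))
noncomputable def q1119 : Tr := .c 0 v477 (.c 2 v477 (.c 3 v477 (.c 4 v477 .e)))
noncomputable def r799 : Tr := .c 1 q1116 (.c 5 q1117 (.c 8 q1118 (.c 9 q1119 .e)))
noncomputable def t226 : Tr := .c 3 r798 (.c 4 r795 (.c 5 r796 (.c 6 r799 .e)))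
noncomputable def q1120 : Tr := .c 3 v472 (.c 4 v472 .e)
noncomputable def q1121 : Tr := .c 0 v479 (.c 2 v479 (.c 3 v479 (.c 4 v479 .e)))
noncomputable def q1122 : Tr := .c 0 v472 (.c 2 v472 (.c 3 v472 (.c 4 v472 .e)))
noncomputable def r800 : Tr := .c 1 q1120 (.c 7 q1121 (.c 8 q1122 (.c 9 q1122 .e)))
noncomputable def q1123 : Tr := .c 3 v473 (.c 4 v473 .e)
noncomputable def q1124 : Tr := .c 0 v476 (.c 2 v476 (.c 3 v476 (.c 4 v476 .e)))
noncomputable def q1125 : Tr := .c 0 v473 (.c 2 v473 (.c 3 v473 (.c 4 v473 .e)))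
noncomputable def r801 : Tr := .c 0 q1007 (.c 1 q1123 (.c 6 q1009 (.c 7 q1124 (.c 8 q1125 .e))))
noncomputable def q1126 : Tr := .c 3 v392 (.c 4 v392 .e)
noncomputable def r802 : Tr := .c 1 q1126 (.c 5 q1114 (.c 8 q1115 (.c 9 q1115 .e)))
noncomputable def q1127 : Tr := .c 4 v388 .e
noncomputable def q1128 : Tr := .c 2 v390 .e
noncomputable def r803 : Tr := .c 0 q1127 (.c 3 q1128 (.c 5 q1114 (.c 9 q1115 .e)))
noncomputable def t227 : Tr := .c 3 r800 (.c 5 r801 (.c 6 r802 (.c 7 r803 .e)))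
noncomputable def q1129 : Tr := .c 2 v404 .e
noncomputable def q1130 : Tr := .c 0 v406 (.c 2 v406 .e)
noncomputable def q1131 : Tr := .c 2 v481 (.c 4 v481 (.c 5 v482 .e))
noncomputable def q1132 : Tr := .c 0 v406 (.c 2 v406 (.c 3 v406 (.c 4 v406 .e)))
noncomputable def r804 : Tr := .c 3 q1129 (.c 5 q1130 (.c 6 q1131 (.c 9 q1132 .e)))
noncomputable def q1133 : Tr := .c 2 v411 .e
noncomputable def q1134 : Tr := .c 0 v412 (.c 2 v412 .e)
noncomputable def q1135 : Tr := .c 0 v484 (.c 2 v484 (.c 3 v484 (.c 4 v484 (.c 5 v485 .e))))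
noncomputable def q1136 : Tr := .c 0 v412 (.c 2 v412 (.c 3 v412 (.c 4 v412 (.c 5 v416 .e))))
noncomputable def q1137 : Tr := .c 0 v412 (.c 2 v412 (.c 3 v412 (.c 4 v412 .e)))
noncomputable def r805 : Tr := .c 3 q1133 (.c 5 q1134 (.c 6 q1013 (.c 7 q1135 (.c 8 q1136 (.c 9 q1137 .e)))))
noncomputable def q1138 : Tr := .c 3 v412 (.c 4 v412 (.c 5 v416 .e))
noncomputable def r806 : Tr := .c 0 q923 (.c 1 q1138 (.c 6 q1013 (.c 7 q1135 (.c 8 q1136 (.c 9 q1137 .e)))))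
noncomputable def q1139 : Tr := .c 3 v417 (.c 4 v417 (.c 5 v418 .e))
noncomputable def q1140 : Tr := .c 0 v487 (.c 2 v487 (.c 3 v487 (.c 4 v487 (.c 5 v488 .e))))
noncomputable def q1141 : Tr := .c 0 v417 (.c 2 v417 (.c 3 v417 (.c 4 v417 (.c 5 v418 .e))))
noncomputable def r807 : Tr := .c 0 q924 (.c 1 q1139 (.c 6 q1015 (.c 7 q1140 (.c 8 q1141 .e))))
noncomputable def t228 : Tr := .c 1 r804 (.c 2 r805 (.c 4 r806 (.c 5 r807 .e)))
noncomputable def r808 : Tr := .c 5 q1134 (.c 7 q1135 (.c 8 q1136 (.c 9 q1137 .e)))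
noncomputable def r809 : Tr := .c 1 q1138 (.c 7 q1135 (.c 8 q1136 (.c 9 q1137 .e)))
noncomputable def t229 : Tr := .c 0 r808 (.c 2 r805 (.c 3 r809 (.c 4 r806 (.c 5 r807 .e))))
noncomputable def q1142 : Tr := .c 0 v468 (.c 2 v468 .e)
noncomputable def r810 : Tr := .c 5 q1142 (.c 7 q1106 (.c 8 q1107 (.c 9 q1108 .e)))
noncomputable def q1143 : Tr := .c 2 v490 (.c 9 v489 .e)
noncomputable def r811 : Tr := .c 3 q1143 (.c 5 q1142 (.c 6 q990 (.c 7 q1106 (.c 8 q1107 (.c 9 q1108 .e)))))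
noncomputable def t230 : Tr := .c 0 r810 (.c 2 r811 (.c 3 r798 (.c 4 r795 (.c 5 r796 (.c 6 r799 .e)))))
noncomputable def r812 : Tr := .c 0 q988 (.c 1 q1105 (.c 8 q1107 (.c 9 q1108 .e)))
noncomputable def r813 : Tr := .c 0 q994 (.c 1 q1109 (.c 8 q1111 .e))
noncomputable def t231 : Tr := .c 4 r812 (.c 5 r813 (.c 7 r797 .e))
noncomputable def r814 : Tr := .c 1 q1105 (.c 8 q1107 (.c 9 q1108 .e))
noncomputable def t232 : Tr := .c 3 r814 (.c 4 r812 (.c 5 r813 (.c 6 r799 .e)))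
noncomputable def r815 : Tr := .c 1 q1120 (.c 8 q1122 (.c 9 q1122 .e))
noncomputable def r816 : Tr := .c 0 q1007 (.c 1 q1123 (.c 8 q1125 .e))
noncomputable def t233 : Tr := .c 3 r815 (.c 5 r816 (.c 6 r802 (.c 7 r803 .e)))
noncomputable def q1144 : Tr := .c 2 v376 (.c 9 v375 .e)
noncomputable def q1145 : Tr := .c 0 v378 (.c 2 v378 .e)
noncomputable def q1146 : Tr := .c 0 v378 (.c 2 v378 (.c 3 v378 (.c 4 v378 .e)))
noncomputable def r817 : Tr := .c 3 q1144 (.c 5 q1145 (.c 9 q1146 .e))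
noncomputable def q1147 : Tr := .c 2 v382 (.c 9 v381 .e)
noncomputable def q1148 : Tr := .c 0 v384 (.c 2 v384 .e)
noncomputable def q1149 : Tr := .c 0 v384 (.c 2 v384 (.c 3 v384 (.c 4 v384 (.c 5 v387 .e))))
noncomputable def q1150 : Tr := .c 0 v384 (.c 2 v384 (.c 3 v384 (.c 4 v384 .e)))
noncomputable def r818 : Tr := .c 3 q1147 (.c 5 q1148 (.c 8 q1149 (.c 9 q1150 .e)))
noncomputable def t234 : Tr := .c 1 r817 (.c 2 r818 (.c 7 r797 .e))
noncomputable def r819 : Tr := .c 5 q1145 (.c 8 q1146 (.c 9 q1146 .e))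
noncomputable def q1151 : Tr := .c 2 v376 .e
noncomputable def r820 : Tr := .c 3 q1151 (.c 5 q1145 (.c 9 q1146 .e))
noncomputable def t235 : Tr := .c 0 r819 (.c 1 r820 (.c 6 r802 (.c 7 r803 .e)))
noncomputable def r821 : Tr := .c 3 q1129 (.c 5 q1130 (.c 9 q1132 .e))
noncomputable def r822 : Tr := .c 3 q1133 (.c 5 q1134 (.c 8 q1136 (.c 9 q1137 .e)))
noncomputable def r823 : Tr := .c 0 q923 (.c 1 q1138 (.c 8 q1136 (.c 9 q1137 .e)))
noncomputable def r824 : Tr := .c 0 q924 (.c 1 q1139 (.c 8 q1141 .e))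
noncomputable def t236 : Tr := .c 1 r821 (.c 2 r822 (.c 4 r823 (.c 5 r824 .e)))
noncomputable def r825 : Tr := .c 5 q1134 (.c 8 q1136 (.c 9 q1137 .e))
noncomputable def r826 : Tr := .c 1 q1138 (.c 8 q1136 (.c 9 q1137 .e))
noncomputable def t237 : Tr := .c 0 r825 (.c 2 r822 (.c 3 r826 (.c 4 r823 (.c 5 r824 .e))))
noncomputable def q1152 : Tr := .c 0 v325 (.c 6 v326 .e)
noncomputable def q1153 : Tr := .c 0 v328 (.c 2 v328 (.c 3 v328 (.c 4 v328 .e)))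
noncomputable def q1154 : Tr := .c 0 v2 (.c 2 v2 (.c 3 v2 (.c 4 v2 (.c 6 v327 .e))))
noncomputable def r827 : Tr := .c 4 q1152 (.c 5 q735 (.c 7 q1153 (.c 8 q1154 (.c 9 q1154 .e))))
noncomputable def q1155 : Tr := .c 2 v329 .e
noncomputable def q1156 : Tr := .c 2 v331 (.c 4 v331 .e)
noncomputable def r828 : Tr := .c 3 q1155 (.c 4 q1152 (.c 5 q735 (.c 6 q1156 (.c 9 q1154 .e))))
noncomputable def v507 : Tr := .l 0x2c92c92ca2ca2462462872c8
noncomputable def q1157 : Tr := .c 4 v507 .e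
noncomputable def v508 : Tr := .l 0x2ca2ca2cb28b2472472482c9
noncomputable def q1158 : Tr := .c 3 v508 (.c 6 v326 .e)
noncomputable def r829 : Tr := .c 0 q1157 (.c 2 q1158 (.c 3 q1155 (.c 4 q1152 (.c 5 q735 (.c 6 q1156 .e)))))
noncomputable def q1159 : Tr := .c 3 v507 (.c 4 v507 (.c 6 v335 .e))
noncomputable def q1160 : Tr := .c 0 v331 (.c 2 v331 (.c 3 v331 (.c 4 v331 .e)))
noncomputable def r830 : Tr := .c 0 q1157 (.c 1 q1159 (.c 2 q1158 (.c 3 q1155 (.c 4 q1152 (.c 6 q1156 (.c 7 q1160 .e))))))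
noncomputable def t238 : Tr := .c 0 r827 (.c 1 r828 (.c 8 r829 (.c 9 r830 .e)))
noncomputable def q1161 : Tr := .c 0 v2 (.c 6 v336 .e)
noncomputable def q1162 : Tr := .c 0 v3 (.c 3 v3 (.c 5 v4 .e))
noncomputable def q1163 : Tr := .c 0 v0 (.c 3 v0 (.c 5 v1 (.c 6 v14 .e)))
noncomputable def q1164 : Tr := .c 0 v0 (.c 3 v0 (.c 6 v14 .e))
noncomputable def r831 : Tr := .c 4 q1161 (.c 5 q753 (.c 7 q1162 (.c 8 q1163 (.c 9 q1164 .e))))
noncomputable def q1165 : Tr := .c 5 v32 .e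
noncomputable def r832 : Tr := .c 4 q1161 (.c 5 q753 (.c 6 q1165 (.c 9 q1164 .e)))
noncomputable def q1166 : Tr := .c 5 v4 .e
noncomputable def r833 : Tr := .c 5 q753 (.c 6 q1166 (.c 7 q1162 (.c 8 q1163 (.c 9 q1164 .e))))
noncomputable def q1167 : Tr := .c 5 v30 .e
noncomputable def v509 : Tr := .l 0x2cb2cb24b2ca289209189207
noncomputable def q1168 : Tr := .c 3 v509 (.c 5 v30 (.c 6 v336 .e))
noncomputable def r834 : Tr := .c 0 q1167 (.c 2 q1168 (.c 4 q1161 (.c 5 q753 (.c 6 q1165 .e))))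
noncomputable def t239 : Tr := .c 0 r831 (.c 1 r832 (.c 2 r833 (.c 8 r834 .e)))
noncomputable def q1169 : Tr := .c 0 v328 (.c 6 v146 .e)
noncomputable def q1170 : Tr := .c 0 v21 (.c 2 v21 (.c 3 v21 (.c 4 v21 (.c 5 v22 .e))))
noncomputable def q1171 : Tr := .c 0 v23 (.c 2 v23 (.c 3 v23 (.c 4 v23 (.c 5 v24 (.c 6 v147 .e)))))
noncomputable def q1172 : Tr := .c 0 v23 (.c 2 v23 (.c 3 v23 (.c 4 v23 (.c 6 v147 .e))))
noncomputable def r835 : Tr := .c 4 q1169 (.c 5 q769 (.c 7 q1170 (.c 8 q1171 (.c 9 q1172 .e))))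
noncomputable def v510 : Tr := .l 0x2462052872c81831421c4205
noncomputable def q1173 : Tr := .c 2 v510 .e
noncomputable def q1174 : Tr := .c 2 v21 (.c 4 v21 (.c 5 v22 .e))
noncomputable def r836 : Tr := .c 3 q1173 (.c 5 q769 (.c 6 q1174 (.c 7 q1170 (.c 8 q1171 (.c 9 q1172 .e)))))
noncomputable def r837 : Tr := .c 1 q205 (.c 2 q207 (.c 7 q1170 (.c 8 q1171 (.c 9 q1172 .e))))
noncomputable def r838 : Tr := .c 0 q24 (.c 1 q205 (.c 6 q1174 (.c 7 q1170 (.c 8 q1171 (.c 9 q1172 .e)))))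
noncomputable def q1175 : Tr := .c 2 v18 (.c 4 v18 (.c 5 v19 .e))
noncomputable def q1176 : Tr := .c 0 v18 (.c 2 v18 (.c 3 v18 (.c 4 v18 (.c 5 v19 .e))))
noncomputable def q1177 : Tr := .c 0 v26 (.c 2 v26 (.c 3 v26 (.c 4 v26 (.c 5 v27 (.c 6 v149 .e)))))
noncomputable def r839 : Tr := .c 0 q27 (.c 1 q208 (.c 2 q209 (.c 6 q1175 (.c 7 q1176 (.c 8 q1177 .e)))))
noncomputable def q1178 : Tr := .c 2 v340 .e
noncomputable def q1179 : Tr := .c 0 v339 (.c 6 v151 .e)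
noncomputable def r840 : Tr := .c 0 q27 (.c 1 q208 (.c 2 q209 (.c 3 q1178 (.c 4 q1179 (.c 6 q1175 (.c 7 q1176 .e))))))
noncomputable def t240 : Tr := .c 0 r835 (.c 2 r836 (.c 3 r837 (.c 4 r838 (.c 5 r839 (.c 9 r840 .e)))))
noncomputable def q1180 : Tr := .c 0 v3 (.c 2 v3 (.c 3 v3 (.c 4 v3 (.c 5 v4 .e))))
noncomputable def q1181 : Tr := .c 0 v0 (.c 2 v0 (.c 3 v0 (.c 4 v0 (.c 5 v1 .e))))
noncomputable def q1182 : Tr := .c 0 v0 (.c 2 v0 (.c 3 v0 (.c 4 v0 .e)))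
noncomputable def r841 : Tr := .c 4 q664 (.c 5 q781 (.c 7 q1180 (.c 8 q1181 (.c 9 q1182 .e))))
noncomputable def v511 : Tr := .l 0x2c82872052462051c4142183
noncomputable def q1183 : Tr := .c 2 v511 .e
noncomputable def q1184 : Tr := .c 2 v3 (.c 4 v3 (.c 5 v4 .e))
noncomputable def r842 : Tr := .c 3 q1183 (.c 5 q781 (.c 6 q1184 (.c 7 q1180 (.c 8 q1181 (.c 9 q1182 .e)))))
noncomputable def q1185 : Tr := .c 3 v132 (.c 5 v12 .e)
noncomputable def r843 : Tr := .c 1 q213 (.c 2 q1185 (.c 7 q1180 (.c 8 q1181 (.c 9 q1182 .e))))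
noncomputable def r844 : Tr := .c 0 q4 (.c 1 q213 (.c 6 q1184 (.c 7 q1180 (.c 8 q1181 (.c 9 q1182 .e)))))
noncomputable def q1186 : Tr := .c 3 v134 (.c 5 v6 .e)
noncomputable def q1187 : Tr := .c 2 v8 (.c 4 v8 (.c 5 v9 .e))
noncomputable def q1188 : Tr := .c 0 v8 (.c 2 v8 (.c 3 v8 (.c 4 v8 (.c 5 v9 .e))))
noncomputable def q1189 : Tr := .c 0 v5 (.c 2 v5 (.c 3 v5 (.c 4 v5 (.c 5 v6 .e))))
noncomputable def r845 : Tr := .c 0 q10 (.c 1 q220 (.c 2 q1186 (.c 6 q1187 (.c 7 q1188 (.c 8 q1189 .e)))))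
noncomputable def t241 : Tr := .c 0 r841 (.c 2 r842 (.c 3 r843 (.c 4 r844 (.c 5 r845 .e))))
noncomputable def q1190 : Tr := .c 0 v0 (.c 3 v0 (.c 5 v1 .e))
noncomputable def q1191 : Tr := .c 0 v0 (.c 3 v0 .e)
noncomputable def r846 : Tr := .c 4 q664 (.c 5 q793 (.c 7 q1162 (.c 8 q1190 (.c 9 q1191 .e))))
noncomputable def r847 : Tr := .c 4 q664 (.c 5 q793 (.c 6 q1165 (.c 9 q1191 .e)))
noncomputable def r848 : Tr := .c 5 q793 (.c 6 q1166 (.c 7 q1162 (.c 8 q1190 (.c 9 q1191 .e))))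
noncomputable def r849 : Tr := .c 1 q227 (.c 2 q1185 (.c 7 q1162 (.c 8 q1190 (.c 9 q1191 .e))))
noncomputable def r850 : Tr := .c 0 q40 (.c 1 q227 (.c 6 q1166 (.c 7 q1162 (.c 8 q1190 (.c 9 q1191 .e)))))
noncomputable def t242 : Tr := .c 0 r846 (.c 1 r847 (.c 2 r848 (.c 3 r849 (.c 4 r850 .e))))
noncomputable def q1192 : Tr := .c 2 v351 .e
noncomputable def q1193 : Tr := .c 0 v329 (.c 6 v352 .e)
noncomputable def v512 : Tr := .l 0x20b1891ca24b1480c6107189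
noncomputable def q1194 : Tr := .c 2 v353 (.c 4 v353 (.c 5 v512 .e))
noncomputable def r851 : Tr := .c 3 q1192 (.c 4 q1193 (.c 6 q1194 .e))
noncomputable def v513 : Tr := .l 0x2c82872c824a2051c4205287
noncomputable def q1195 : Tr := .c 2 v513 .e
noncomputable def v514 : Tr := .l 0x2872052462c81c4142183205
noncomputable def v515 : Tr := .l 0x1ca14818920b1070850c6148
noncomputable def q1196 : Tr := .c 2 v514 (.c 4 v514 (.c 5 v515 .e))
noncomputable def q1197 : Tr := .c 0 v514 (.c 2 v514 (.c 3 v514 (.c 4 v514 (.c 5 v515 .e))))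
noncomputable def v516 : Tr := .l 0x2052872c82461421c4205183
noncomputable def v517 : Tr := .l 0x1481ca20b1890851071480c6
noncomputable def v518 : Tr := .l 0x2872c92ca2c81c4246287205
noncomputable def q1198 : Tr := .c 0 v516 (.c 2 v516 (.c 3 v516 (.c 4 v516 (.c 5 v517 (.c 6 v518 .e)))))
noncomputable def r852 : Tr := .c 3 q1195 (.c 6 q1196 (.c 7 q1197 (.c 8 q1198 .e)))
noncomputable def v519 : Tr := .l 0x2c82c82c92ca205205246287
noncomputable def v520 : Tr := .l 0x20b20b24b28b1481481891ca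
noncomputable def q1199 : Tr := .c 4 v519 (.c 5 v520 .e)
noncomputable def v521 : Tr := .l 0x2c92c92ca2cb206206247288
noncomputable def q1200 : Tr := .c 3 v521 (.c 5 v520 (.c 6 v352 .e))
noncomputable def r853 : Tr := .c 0 q1199 (.c 2 q1200 (.c 3 q1192 (.c 4 q1193 (.c 6 q1194 .e))))
noncomputable def q1201 : Tr := .c 3 v519 (.c 4 v519 (.c 5 v520 (.c 6 v356 .e)))
noncomputable def q1202 : Tr := .c 0 v353 (.c 2 v353 (.c 3 v353 (.c 4 v353 (.c 5 v512 .e))))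
noncomputable def r854 : Tr := .c 0 q1199 (.c 1 q1201 (.c 2 q1200 (.c 3 q1192 (.c 4 q1193 (.c 6 q1194 (.c 7 q1202 .e))))))
noncomputable def t243 : Tr := .c 1 r851 (.c 2 r852 (.c 8 r853 (.c 9 r854 .e)))
noncomputable def r855 : Tr := .c 4 q1161 (.c 7 q1162 (.c 8 q1163 .e))
noncomputable def r856 : Tr := .c 4 q1161 (.c 6 q1165 .e)
noncomputable def r857 : Tr := .c 6 q1166 (.c 7 q1162 (.c 8 q1163 .e))
noncomputable def r858 : Tr := .c 0 q1167 (.c 2 q1168 (.c 4 q1161 (.c 6 q1165 .e)))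
noncomputable def t244 : Tr := .c 0 r855 (.c 1 r856 (.c 2 r857 (.c 8 r858 .e)))
noncomputable def r859 : Tr := .c 3 q1178 (.c 4 q1179 (.c 6 q1175 .e))
noncomputable def r860 : Tr := .c 3 q1173 (.c 6 q1174 (.c 7 q1170 (.c 8 q1171 .e)))
noncomputable def r861 : Tr := .c 0 q24 (.c 1 q205 (.c 6 q1174 (.c 7 q1170 (.c 8 q1171 .e))))
noncomputable def r862 : Tr := .c 0 q27 (.c 2 q209 (.c 3 q1178 (.c 4 q1179 (.c 6 q1175 .e))))
noncomputable def t245 : Tr := .c 1 r859 (.c 2 r860 (.c 4 r861 (.c 5 r839 (.c 8 r862 (.c 9 r840 .e)))))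
noncomputable def r863 : Tr := .c 4 q1169 (.c 7 q1170 (.c 8 q1171 .e))
noncomputable def r864 : Tr := .c 1 q205 (.c 2 q207 (.c 7 q1170 (.c 8 q1171 .e)))
noncomputable def t246 : Tr := .c 0 r863 (.c 2 r860 (.c 3 r864 (.c 4 r861 (.c 5 r839 (.c 9 r840 .e)))))
noncomputable def r865 : Tr := .c 4 q664 (.c 7 q1180 (.c 8 q1181 .e))
noncomputable def r866 : Tr := .c 3 q1183 (.c 6 q1184 (.c 7 q1180 (.c 8 q1181 .e)))
noncomputable def r867 : Tr := .c 1 q213 (.c 2 q1185 (.c 7 q1180 (.c 8 q1181 .e)))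
noncomputable def r868 : Tr := .c 0 q4 (.c 1 q213 (.c 6 q1184 (.c 7 q1180 (.c 8 q1181 .e))))
noncomputable def t247 : Tr := .c 0 r865 (.c 2 r866 (.c 3 r867 (.c 4 r868 (.c 5 r845 .e))))
noncomputable def r869 : Tr := .c 4 q664 (.c 7 q1162 (.c 8 q1190 .e))
noncomputable def r870 : Tr := .c 4 q664 (.c 6 q1165 .e)
noncomputable def r871 : Tr := .c 6 q1166 (.c 7 q1162 (.c 8 q1190 .e))
noncomputable def r872 : Tr := .c 1 q227 (.c 2 q1185 (.c 7 q1162 (.c 8 q1190 .e)))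
noncomputable def r873 : Tr := .c 0 q40 (.c 1 q227 (.c 6 q1166 (.c 7 q1162 (.c 8 q1190 .e))))
noncomputable def t248 : Tr := .c 0 r869 (.c 1 r870 (.c 2 r871 (.c 3 r872 (.c 4 r873 .e))))
noncomputable def q1203 : Tr := .c 3 v132 (.c 5 v12 (.c 6 v2 .e))
noncomputable def q1204 : Tr := .c 0 v0 (.c 2 v0 (.c 3 v0 (.c 4 v0 (.c 5 v1 (.c 6 v14 .e)))))
noncomputable def q1205 : Tr := .c 0 v0 (.c 2 v0 (.c 3 v0 (.c 4 v0 (.c 6 v14 .e))))
noncomputable def r874 : Tr := .c 1 q173 (.c 2 q1203 (.c 7 q1180 (.c 8 q1204 (.c 9 q1205 .e))))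
noncomputable def r875 : Tr := .c 0 q4 (.c 1 q173 (.c 6 q1184 (.c 7 q1180 (.c 8 q1204 (.c 9 q1205 .e)))))
noncomputable def q1206 : Tr := .c 3 v134 (.c 5 v6 (.c 6 v135 .e))
noncomputable def q1207 : Tr := .c 0 v5 (.c 2 v5 (.c 3 v5 (.c 4 v5 (.c 5 v6 (.c 6 v133 .e)))))
noncomputable def r876 : Tr := .c 0 q10 (.c 1 q178 (.c 2 q1206 (.c 6 q1187 (.c 7 q1188 (.c 8 q1207 .e)))))
noncomputable def v522 : Tr := .l 0x2c92c82c82ca246205205287
noncomputable def q1208 : Tr := .c 2 v522 .e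
noncomputable def v523 : Tr := .l 0x2ca2c92c92cb287246246288
noncomputable def q1209 : Tr := .c 0 v523 (.c 6 v135 .e)
noncomputable def r877 : Tr := .c 0 q10 (.c 1 q178 (.c 2 q1206 (.c 3 q1208 (.c 4 q1209 (.c 6 q1187 (.c 7 q1188 .e))))))
noncomputable def t249 : Tr := .c 3 r874 (.c 4 r875 (.c 5 r876 (.c 9 r877 .e)))
noncomputable def q1210 : Tr := .c 0 v137 (.c 2 v137 (.c 3 v137 (.c 4 v137 .e)))
noncomputable def q1211 : Tr := .c 0 v132 (.c 2 v132 (.c 3 v132 (.c 4 v132 (.c 6 v2 .e))))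
noncomputable def r878 : Tr := .c 1 q187 (.c 2 q188 (.c 7 q1210 (.c 8 q1211 (.c 9 q1211 .e))))
noncomputable def q1212 : Tr := .c 2 v142 (.c 4 v142 .e)
noncomputable def q1213 : Tr := .c 0 v142 (.c 2 v142 (.c 3 v142 (.c 4 v142 .e)))
noncomputable def q1214 : Tr := .c 0 v138 (.c 2 v138 (.c 3 v138 (.c 4 v138 (.c 6 v139 .e))))
noncomputable def r879 : Tr := .c 0 q190 (.c 1 q191 (.c 2 q192 (.c 6 q1212 (.c 7 q1213 (.c 8 q1214 .e)))))
noncomputable def v524 : Tr := .l 0x2c92c82c82ca2872462462c8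
noncomputable def q1215 : Tr := .c 2 v524 .e
noncomputable def v525 : Tr := .l 0x2c92c92c928b2c82872872c9
noncomputable def q1216 : Tr := .c 0 v525 (.c 6 v141 .e)
noncomputable def v526 : Tr := .l 0x2462c82ca2c82c92c92c9287
noncomputable def q1217 : Tr := .c 0 v526 (.c 2 v526 (.c 6 v145 .e))
noncomputable def r880 : Tr := .c 0 q190 (.c 2 q192 (.c 3 q1215 (.c 4 q1216 (.c 5 q1217 (.c 6 q1212 .e)))))
noncomputable def r881 : Tr := .c 0 q190 (.c 1 q191 (.c 2 q192 (.c 3 q1215 (.c 4 q1216 (.c 6 q1212 (.c 7 q1213 .e))))))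
noncomputable def t250 : Tr := .c 3 r878 (.c 5 r879 (.c 8 r880 (.c 9 r881 .e)))
noncomputable def r882 : Tr := .c 0 q4 (.c 1 q173 (.c 6 q1184 (.c 7 q1180 (.c 8 q1204 .e))))
noncomputable def r883 : Tr := .c 0 q10 (.c 2 q1206 (.c 3 q1208 (.c 4 q1209 (.c 6 q1187 .e))))
noncomputable def t251 : Tr := .c 4 r882 (.c 5 r876 (.c 8 r883 (.c 9 r877 .e)))
noncomputable def r884 : Tr := .c 1 q173 (.c 2 q1203 (.c 7 q1180 (.c 8 q1204 .e)))
noncomputable def t252 : Tr := .c 3 r884 (.c 4 r882 (.c 5 r876 (.c 9 r877 .e)))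
noncomputable def q1218 : Tr := .c 2 v36 (.c 4 v36 (.c 5 v37 .e))
noncomputable def q1219 : Tr := .c 0 v36 (.c 2 v36 (.c 3 v36 (.c 4 v36 (.c 5 v37 .e))))
noncomputable def q1220 : Tr := .c 0 v33 (.c 2 v33 (.c 3 v33 (.c 4 v33 (.c 5 v34 (.c 6 v52 .e)))))
noncomputable def q1221 : Tr := .c 0 v33 (.c 2 v33 (.c 3 v33 (.c 4 v33 (.c 6 v52 .e))))
noncomputable def r885 : Tr := .c 0 q51 (.c 1 q241 (.c 6 q1218 (.c 7 q1219 (.c 8 q1220 (.c 9 q1221 .e)))))
noncomputable def q1222 : Tr := .c 2 v42 (.c 4 v42 (.c 5 v43 .e))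
noncomputable def q1223 : Tr := .c 0 v42 (.c 2 v42 (.c 3 v42 (.c 4 v42 (.c 5 v43 .e))))
noncomputable def q1224 : Tr := .c 0 v39 (.c 2 v39 (.c 3 v39 (.c 4 v39 (.c 5 v40 (.c 6 v154 .e)))))
noncomputable def r886 : Tr := .c 0 q57 (.c 1 q245 (.c 6 q1222 (.c 7 q1223 (.c 8 q1224 .e))))
noncomputable def v527 : Tr := .l 0x2462052052872c92c82c82ca
noncomputable def q1225 : Tr := .c 2 v527 .e
noncomputable def q1226 : Tr := .c 0 v115 (.c 2 v115 (.c 6 v156 .e))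
noncomputable def r887 : Tr := .c 0 q57 (.c 3 q1225 (.c 5 q1226 (.c 6 q1222 .e)))
noncomputable def r888 : Tr := .c 0 q57 (.c 1 q245 (.c 3 q1225 (.c 6 q1222 (.c 7 q1223 .e))))
noncomputable def t253 : Tr := .c 4 r885 (.c 5 r886 (.c 8 r887 (.c 9 r888 .e)))
noncomputable def r889 : Tr := .c 1 q241 (.c 7 q1219 (.c 8 q1220 (.c 9 q1221 .e)))
noncomputable def t254 : Tr := .c 3 r889 (.c 4 r885 (.c 5 r886 (.c 9 r888 .e)))
noncomputable def q1227 : Tr := .c 0 v57 (.c 2 v57 (.c 3 v57 (.c 4 v57 .e)))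
noncomputable def q1228 : Tr := .c 0 v56 (.c 2 v56 (.c 3 v56 (.c 4 v56 (.c 6 v49 .e))))
noncomputable def r890 : Tr := .c 1 q256 (.c 7 q1227 (.c 8 q1228 (.c 9 q1228 .e)))
noncomputable def q1229 : Tr := .c 2 v42 (.c 4 v42 .e)
noncomputable def q1230 : Tr := .c 0 v42 (.c 2 v42 (.c 3 v42 (.c 4 v42 .e)))
noncomputable def q1231 : Tr := .c 0 v39 (.c 2 v39 (.c 3 v39 (.c 4 v39 (.c 6 v154 .e))))
noncomputable def r891 : Tr := .c 0 q72 (.c 1 q258 (.c 6 q1229 (.c 7 q1230 (.c 8 q1231 .e))))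
noncomputable def r892 : Tr := .c 0 q72 (.c 3 q1225 (.c 5 q1226 (.c 6 q1229 .e)))
noncomputable def r893 : Tr := .c 0 q72 (.c 1 q258 (.c 3 q1225 (.c 6 q1229 (.c 7 q1230 .e))))
noncomputable def t255 : Tr := .c 3 r890 (.c 5 r891 (.c 8 r892 (.c 9 r893 .e)))
noncomputable def v528 : Tr := .l 0x1c41832052462872462c82c9
noncomputable def q1232 : Tr := .c 2 v528 .e
noncomputable def q1233 : Tr := .c 0 v63 (.c 2 v63 (.c 6 v115 .e))
noncomputable def q1234 : Tr := .c 2 v61 (.c 4 v61 (.c 5 v62 .e))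
noncomputable def q1235 : Tr := .c 0 v63 (.c 2 v63 (.c 3 v63 (.c 4 v63 (.c 6 v115 .e))))
noncomputable def r894 : Tr := .c 3 q1232 (.c 5 q1233 (.c 6 q1234 (.c 9 q1235 .e)))
noncomputable def v529 : Tr := .l 0x1831421c42052462052872c8
noncomputable def q1236 : Tr := .c 2 v529 .e
noncomputable def q1237 : Tr := .c 0 v68 (.c 2 v68 (.c 6 v120 .e))
noncomputable def q1238 : Tr := .c 2 v66 (.c 4 v66 (.c 5 v67 .e))
noncomputable def q1239 : Tr := .c 0 v66 (.c 2 v66 (.c 3 v66 (.c 4 v66 (.c 5 v67 .e))))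
noncomputable def q1240 : Tr := .c 0 v68 (.c 2 v68 (.c 3 v68 (.c 4 v68 (.c 5 v69 (.c 6 v120 .e)))))
noncomputable def q1241 : Tr := .c 0 v68 (.c 2 v68 (.c 3 v68 (.c 4 v68 (.c 6 v120 .e))))
noncomputable def r895 : Tr := .c 3 q1236 (.c 5 q1237 (.c 6 q1238 (.c 7 q1239 (.c 8 q1240 (.c 9 q1241 .e)))))
noncomputable def r896 : Tr := .c 0 q86 (.c 1 q265 (.c 6 q1238 (.c 7 q1239 (.c 8 q1240 (.c 9 q1241 .e)))))
noncomputable def q1242 : Tr := .c 0 v61 (.c 2 v61 (.c 3 v61 (.c 4 v61 (.c 5 v62 .e))))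
noncomputable def q1243 : Tr := .c 0 v71 (.c 2 v71 (.c 3 v71 (.c 4 v71 (.c 5 v72 (.c 6 v158 .e)))))
noncomputable def r897 : Tr := .c 0 q90 (.c 1 q267 (.c 6 q1234 (.c 7 q1242 (.c 8 q1243 .e))))
noncomputable def r898 : Tr := .c 0 q90 (.c 3 q1232 (.c 5 q1233 (.c 6 q1234 .e)))
noncomputable def r899 : Tr := .c 0 q90 (.c 1 q267 (.c 3 q1232 (.c 6 q1234 (.c 7 q1242 .e))))
noncomputable def t256 : Tr := .c 1 r894 (.c 2 r895 (.c 4 r896 (.c 5 r897 (.c 8 r898 (.c 9 r899 .e)))))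
noncomputable def r900 : Tr := .c 5 q1237 (.c 7 q1239 (.c 8 q1240 (.c 9 q1241 .e)))
noncomputable def r901 : Tr := .c 1 q265 (.c 7 q1239 (.c 8 q1240 (.c 9 q1241 .e)))
noncomputable def t257 : Tr := .c 0 r900 (.c 2 r895 (.c 3 r901 (.c 4 r896 (.c 5 r897 (.c 9 r899 .e)))))
noncomputable def q1244 : Tr := .c 0 v33 (.c 2 v33 .e)
noncomputable def q1245 : Tr := .c 0 v33 (.c 2 v33 (.c 3 v33 (.c 4 v33 (.c 5 v34 .e))))
noncomputable def q1246 : Tr := .c 0 v33 (.c 2 v33 (.c 3 v33 (.c 4 v33 .e)))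
noncomputable def r902 : Tr := .c 5 q1244 (.c 7 q1219 (.c 8 q1245 (.c 9 q1246 .e)))
noncomputable def v530 : Tr := .l 0x2051c41421832c8287205246
noncomputable def q1247 : Tr := .c 2 v530 .e
noncomputable def r903 : Tr := .c 3 q1247 (.c 5 q1244 (.c 6 q1218 (.c 7 q1219 (.c 8 q1245 (.c 9 q1246 .e)))))
noncomputable def r904 : Tr := .c 1 q269 (.c 7 q1219 (.c 8 q1245 (.c 9 q1246 .e)))
noncomputable def r905 : Tr := .c 0 q51 (.c 1 q269 (.c 6 q1218 (.c 7 q1219 (.c 8 q1245 (.c 9 q1246 .e)))))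
noncomputable def q1248 : Tr := .c 0 v39 (.c 2 v39 (.c 3 v39 (.c 4 v39 (.c 5 v40 .e))))
noncomputable def r906 : Tr := .c 0 q57 (.c 1 q274 (.c 6 q1222 (.c 7 q1223 (.c 8 q1248 .e))))
noncomputable def t258 : Tr := .c 0 r902 (.c 2 r903 (.c 3 r904 (.c 4 r905 (.c 5 r906 .e))))
noncomputable def q1249 : Tr := .c 3 v2 (.c 5 v16 (.c 6 v100 .e))
noncomputable def q1250 : Tr := .c 0 v159 (.c 2 v159 (.c 3 v159 (.c 4 v159 (.c 5 v31 .e))))
noncomputable def r907 : Tr := .c 1 q183 (.c 2 q1249 (.c 7 q1250 .e))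
noncomputable def q1251 : Tr := .c 2 v159 (.c 4 v159 (.c 5 v31 .e))
noncomputable def r908 : Tr := .c 0 q19 (.c 1 q183 (.c 6 q1251 (.c 7 q1250 .e)))
noncomputable def q1252 : Tr := .c 4 v133 (.c 5 v160 .e)
noncomputable def q1253 : Tr := .c 3 v133 (.c 4 v133 (.c 5 v160 (.c 6 v161 .e)))
noncomputable def q1254 : Tr := .c 3 v135 (.c 5 v160 (.c 6 v162 .e))
noncomputable def q1255 : Tr := .c 2 v163 (.c 4 v163 (.c 5 v164 .e))
noncomputable def q1256 : Tr := .c 0 v163 (.c 2 v163 (.c 3 v163 (.c 4 v163 (.c 5 v164 .e))))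
noncomputable def r909 : Tr := .c 0 q1252 (.c 1 q1253 (.c 2 q1254 (.c 6 q1255 (.c 7 q1256 .e))))
noncomputable def q1257 : Tr := .c 2 v360 .e
noncomputable def q1258 : Tr := .c 0 v358 (.c 6 v162 .e)
noncomputable def r910 : Tr := .c 0 q1252 (.c 1 q1253 (.c 2 q1254 (.c 3 q1257 (.c 4 q1258 (.c 6 q1255 (.c 7 q1256 .e))))))
noncomputable def t259 : Tr := .c 3 r907 (.c 4 r908 (.c 5 r909 (.c 9 r910 .e)))
noncomputable def q1259 : Tr := .c 0 v76 (.c 2 v76 (.c 3 v76 (.c 4 v76 .e)))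
noncomputable def r911 : Tr := .c 1 q195 (.c 2 q196 (.c 7 q1259 .e))
noncomputable def q1260 : Tr := .c 2 v170 (.c 4 v170 .e)
noncomputable def q1261 : Tr := .c 0 v170 (.c 2 v170 (.c 3 v170 (.c 4 v170 .e)))
noncomputable def r912 : Tr := .c 0 q291 (.c 1 q292 (.c 2 q293 (.c 6 q1260 (.c 7 q1261 .e))))
noncomputable def q1262 : Tr := .c 2 v366 .e
noncomputable def q1263 : Tr := .c 0 v362 (.c 6 v169 .e)
noncomputable def q1264 : Tr := .c 0 v367 (.c 2 v367 (.c 6 v174 .e))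
noncomputable def r913 : Tr := .c 0 q291 (.c 2 q293 (.c 3 q1262 (.c 4 q1263 (.c 5 q1264 (.c 6 q1260 .e)))))
noncomputable def r914 : Tr := .c 0 q291 (.c 1 q292 (.c 2 q293 (.c 3 q1262 (.c 4 q1263 (.c 6 q1260 (.c 7 q1261 .e))))))
noncomputable def t260 : Tr := .c 3 r911 (.c 5 r912 (.c 8 r913 (.c 9 r914 .e)))
noncomputable def q1265 : Tr := .c 0 v146 (.c 2 v146 (.c 3 v146 (.c 4 v146 .e)))
noncomputable def r915 : Tr := .c 4 q1263 (.c 5 q1264 (.c 7 q1265 .e))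
noncomputable def r916 : Tr := .c 3 q1262 (.c 4 q1263 (.c 5 q1264 (.c 6 q1260 .e)))
noncomputable def t261 : Tr := .c 0 r915 (.c 1 r916 (.c 8 r913 (.c 9 r914 .e)))
noncomputable def q1266 : Tr := .c 0 v368 (.c 6 v175 .e)
noncomputable def q1267 : Tr := .c 0 v159 (.c 3 v159 (.c 5 v31 .e))
noncomputable def r917 : Tr := .c 4 q1266 (.c 5 q760 (.c 7 q1267 .e))
noncomputable def r918 : Tr := .c 4 q1266 (.c 5 q760 (.c 6 q1167 .e))
noncomputable def q1268 : Tr := .c 5 v31 .e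
noncomputable def r919 : Tr := .c 5 q760 (.c 6 q1268 (.c 7 q1267 .e))
noncomputable def q1269 : Tr := .c 5 v176 .e
noncomputable def q1270 : Tr := .c 3 v178 (.c 5 v176 (.c 6 v175 .e))
noncomputable def r920 : Tr := .c 0 q1269 (.c 2 q1270 (.c 4 q1266 (.c 5 q760 (.c 6 q1167 .e))))
noncomputable def t262 : Tr := .c 0 r917 (.c 1 r918 (.c 2 r919 (.c 8 r920 .e)))
noncomputable def q1271 : Tr := .c 0 v368 .e
noncomputable def r921 : Tr := .c 4 q1271 (.c 5 q790 (.c 7 q1250 .e))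
noncomputable def v531 : Tr := .l 0x2ca2c92872c82872461c4205
noncomputable def q1272 : Tr := .c 2 v531 .e
noncomputable def r922 : Tr := .c 3 q1272 (.c 5 q790 (.c 6 q1251 (.c 7 q1250 .e)))
noncomputable def q1273 : Tr := .c 3 v2 (.c 5 v16 .e)
noncomputable def r923 : Tr := .c 1 q224 (.c 2 q1273 (.c 7 q1250 .e))
noncomputable def r924 : Tr := .c 0 q19 (.c 1 q224 (.c 6 q1251 (.c 7 q1250 .e)))
noncomputable def q1274 : Tr := .c 3 v133 (.c 4 v133 (.c 5 v160 .e))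
noncomputable def q1275 : Tr := .c 3 v135 (.c 5 v160 .e)
noncomputable def r925 : Tr := .c 0 q1252 (.c 1 q1274 (.c 2 q1275 (.c 6 q1255 (.c 7 q1256 .e))))
noncomputable def t263 : Tr := .c 0 r921 (.c 2 r922 (.c 3 r923 (.c 4 r924 (.c 5 r925 .e))))
noncomputable def r926 : Tr := .c 4 q1271 (.c 5 q796 (.c 7 q1267 .e))
noncomputable def r927 : Tr := .c 4 q1271 (.c 5 q796 (.c 6 q1167 .e))
noncomputable def r928 : Tr := .c 5 q796 (.c 6 q1268 (.c 7 q1267 .e))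
noncomputable def r929 : Tr := .c 1 q232 (.c 2 q1273 (.c 7 q1267 .e))
noncomputable def r930 : Tr := .c 0 q46 (.c 1 q232 (.c 6 q1268 (.c 7 q1267 .e)))
noncomputable def t264 : Tr := .c 0 r926 (.c 1 r927 (.c 2 r928 (.c 3 r929 (.c 4 r930 .e))))
noncomputable def q1276 : Tr := .c 0 v325 (.c 1 v325 (.c 6 v326 (.c 7 v326 .e)))
noncomputable def q1277 : Tr := .c 0 v2 (.c 1 v2 (.c 2 v2 (.c 3 v2 (.c 4 v2 (.c 6 v327 (.c 7 v327 .e))))))
noncomputable def r931 : Tr := .c 4 q1276 (.c 5 q736 (.c 7 q1153 (.c 8 q1154 (.c 9 q1277 .e))))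
noncomputable def q1278 : Tr := .c 1 v325 (.c 2 v329 (.c 7 v326 .e))
noncomputable def q1279 : Tr := .c 1 v330 (.c 2 v331 (.c 4 v331 .e))
noncomputable def r932 : Tr := .c 3 q1278 (.c 4 q1276 (.c 5 q736 (.c 6 q1279 (.c 9 q1277 .e))))
noncomputable def q1280 : Tr := .c 4 v507 (.c 7 v326 .e)
noncomputable def q1281 : Tr := .c 3 v508 (.c 6 v326 (.c 7 v326 .e))
noncomputable def r933 : Tr := .c 0 q1280 (.c 2 q1281 (.c 3 q1278 (.c 4 q1276 (.c 5 q736 (.c 6 q1279 .e)))))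
noncomputable def r934 : Tr := .c 0 q1280 (.c 1 q1159 (.c 2 q1281 (.c 3 q1278 (.c 4 q1276 (.c 6 q1279 (.c 7 q1160 .e))))))
noncomputable def t265 : Tr := .c 0 r931 (.c 1 r932 (.c 8 r933 (.c 9 r934 .e)))
noncomputable def q1282 : Tr := .c 0 v2 (.c 1 v2 (.c 6 v336 (.c 7 v336 .e)))
noncomputable def q1283 : Tr := .c 0 v3 (.c 3 v3 .e)
noncomputable def q1284 : Tr := .c 0 v0 (.c 1 v0 (.c 3 v0 (.c 6 v14 (.c 7 v14 .e))))
noncomputable def r935 : Tr := .c 4 q1282 (.c 5 q754 (.c 7 q1283 (.c 8 q1164 (.c 9 q1284 .e))))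
noncomputable def q1285 : Tr := .c 1 v2 (.c 7 v336 .e)
noncomputable def q1286 : Tr := .c 1 v337 .e
noncomputable def r936 : Tr := .c 3 q1285 (.c 4 q1282 (.c 5 q754 (.c 6 q1286 (.c 9 q1284 .e))))
noncomputable def q1287 : Tr := .c 7 v336 .e
noncomputable def q1288 : Tr := .c 3 v509 (.c 6 v336 (.c 7 v336 .e))
noncomputable def r937 : Tr := .c 0 q1287 (.c 2 q1288 (.c 3 q1285 (.c 4 q1282 (.c 5 q754 (.c 6 q1286 .e)))))
noncomputable def t266 : Tr := .c 0 r935 (.c 1 r936 (.c 8 r937 .e))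
noncomputable def q1289 : Tr := .c 0 v21 (.c 2 v21 (.c 3 v21 (.c 4 v21 .e)))
noncomputable def q1290 : Tr := .c 0 v23 (.c 1 v23 (.c 2 v23 (.c 3 v23 (.c 4 v23 (.c 6 v147 (.c 7 v147 .e))))))
noncomputable def r938 : Tr := .c 4 q766 (.c 5 q767 (.c 7 q1289 (.c 8 q1172 (.c 9 q1290 .e))))
noncomputable def q1291 : Tr := .c 3 v148 (.c 6 v25 (.c 7 v25 .e))
noncomputable def r939 : Tr := .c 1 q206 (.c 2 q1291 (.c 7 q1289 (.c 8 q1172 (.c 9 q1290 .e))))
noncomputable def q1292 : Tr := .c 4 v26 (.c 7 v151 .e)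
noncomputable def q1293 : Tr := .c 3 v26 (.c 4 v26 (.c 6 v149 .e))
noncomputable def q1294 : Tr := .c 3 v150 (.c 6 v151 (.c 7 v151 .e))
noncomputable def q1295 : Tr := .c 1 v338 (.c 2 v18 (.c 4 v18 .e))
noncomputable def q1296 : Tr := .c 0 v18 (.c 2 v18 (.c 3 v18 (.c 4 v18 .e)))
noncomputable def q1297 : Tr := .c 0 v26 (.c 2 v26 (.c 3 v26 (.c 4 v26 (.c 6 v149 .e))))
noncomputable def r940 : Tr := .c 0 q1292 (.c 1 q1293 (.c 2 q1294 (.c 6 q1295 (.c 7 q1296 (.c 8 q1297 .e)))))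
noncomputable def r941 : Tr := .c 0 q1292 (.c 1 q1293 (.c 2 q1294 (.c 3 q777 (.c 4 q778 (.c 6 q1295 (.c 7 q1296 .e))))))
noncomputable def t267 : Tr := .c 0 r938 (.c 3 r939 (.c 5 r940 (.c 9 r941 .e)))
noncomputable def q1298 : Tr := .c 0 v3 (.c 2 v3 (.c 3 v3 (.c 4 v3 .e)))
noncomputable def q1299 : Tr := .c 0 v0 (.c 1 v0 (.c 2 v0 (.c 3 v0 (.c 4 v0 .e))))
noncomputable def r942 : Tr := .c 4 q665 (.c 5 q782 (.c 7 q1298 (.c 8 q1182 (.c 9 q1299 .e))))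
noncomputable def q1300 : Tr := .c 3 v132 .e
noncomputable def r943 : Tr := .c 1 q214 (.c 2 q1300 (.c 7 q1298 (.c 8 q1182 (.c 9 q1299 .e))))
noncomputable def q1301 : Tr := .c 4 v5 .e
noncomputable def q1302 : Tr := .c 3 v5 (.c 4 v5 .e)
noncomputable def q1303 : Tr := .c 3 v134 .e
noncomputable def q1304 : Tr := .c 1 v343 (.c 2 v8 (.c 4 v8 .e))
noncomputable def q1305 : Tr := .c 0 v8 (.c 2 v8 (.c 3 v8 (.c 4 v8 .e)))
noncomputable def q1306 : Tr := .c 0 v5 (.c 2 v5 (.c 3 v5 (.c 4 v5 .e)))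
noncomputable def r944 : Tr := .c 0 q1301 (.c 1 q1302 (.c 2 q1303 (.c 6 q1304 (.c 7 q1305 (.c 8 q1306 .e)))))
noncomputable def t268 : Tr := .c 0 r942 (.c 3 r943 (.c 5 r944 .e))
noncomputable def q1307 : Tr := .c 0 v0 (.c 1 v0 (.c 3 v0 .e))
noncomputable def r945 : Tr := .c 4 q665 (.c 5 q794 (.c 7 q1283 (.c 8 q1191 (.c 9 q1307 .e))))
noncomputable def r946 : Tr := .c 3 q525 (.c 4 q665 (.c 5 q794 (.c 6 q1286 (.c 9 q1307 .e))))
noncomputable def r947 : Tr := .c 1 q228 (.c 2 q1300 (.c 7 q1283 (.c 8 q1191 (.c 9 q1307 .e))))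
noncomputable def t269 : Tr := .c 0 r945 (.c 1 r946 (.c 3 r947 .e))
noncomputable def t270 : Tr := .c 1 r932 (.c 8 r933 (.c 9 r934 .e))
noncomputable def q1308 : Tr := .c 1 v348 (.c 2 v338 (.c 4 v338 .e))
noncomputable def q1309 : Tr := .c 0 v346 (.c 1 v346 (.c 2 v346 (.c 3 v346 (.c 4 v346 (.c 6 v347 (.c 7 v347 .e))))))
noncomputable def r948 : Tr := .c 3 q798 (.c 4 q799 (.c 5 q800 (.c 6 q1308 (.c 9 q1309 .e))))
noncomputable def q1310 : Tr := .c 4 v350 (.c 7 v345 .e)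
noncomputable def q1311 : Tr := .c 3 v350 (.c 4 v350 (.c 6 v349 .e))
noncomputable def v532 : Tr := .l 0x2882882ca2ca1c51c5247247
noncomputable def q1312 : Tr := .c 3 v532 (.c 6 v345 (.c 7 v345 .e))
noncomputable def q1313 : Tr := .c 0 v338 (.c 2 v338 (.c 3 v338 (.c 4 v338 .e)))
noncomputable def q1314 : Tr := .c 0 v350 (.c 2 v350 (.c 3 v350 (.c 4 v350 (.c 6 v349 .e))))
noncomputable def r949 : Tr := .c 0 q1310 (.c 1 q1311 (.c 2 q1312 (.c 6 q1308 (.c 7 q1313 (.c 8 q1314 .e)))))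
noncomputable def r950 : Tr := .c 0 q1310 (.c 2 q1312 (.c 3 q798 (.c 4 q799 (.c 5 q800 (.c 6 q1308 .e)))))
noncomputable def r951 : Tr := .c 0 q1310 (.c 1 q1311 (.c 2 q1312 (.c 3 q798 (.c 4 q799 (.c 6 q1308 (.c 7 q1313 .e))))))
noncomputable def t271 : Tr := .c 1 r948 (.c 5 r949 (.c 8 r950 (.c 9 r951 .e)))
noncomputable def q1315 : Tr := .c 1 v329 (.c 2 v351 (.c 7 v352 .e))
noncomputable def q1316 : Tr := .c 0 v329 (.c 1 v329 (.c 6 v352 (.c 7 v352 .e)))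
noncomputable def q1317 : Tr := .c 1 v331 (.c 2 v353 (.c 4 v353 .e))
noncomputable def r952 : Tr := .c 3 q1315 (.c 4 q1316 (.c 6 q1317 .e))
noncomputable def q1318 : Tr := .c 4 v519 (.c 7 v352 .e)
noncomputable def q1319 : Tr := .c 3 v521 (.c 6 v352 (.c 7 v352 .e))
noncomputable def r953 : Tr := .c 0 q1318 (.c 2 q1319 (.c 3 q1315 (.c 4 q1316 (.c 6 q1317 .e))))
noncomputable def q1320 : Tr := .c 3 v519 (.c 4 v519 (.c 6 v356 .e))
noncomputable def q1321 : Tr := .c 0 v353 (.c 2 v353 (.c 3 v353 (.c 4 v353 .e)))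
noncomputable def r954 : Tr := .c 0 q1318 (.c 1 q1320 (.c 2 q1319 (.c 3 q1315 (.c 4 q1316 (.c 6 q1317 (.c 7 q1321 .e))))))
noncomputable def t272 : Tr := .c 1 r952 (.c 8 r953 (.c 9 r954 .e))
noncomputable def r955 : Tr := .c 4 q1282 (.c 7 q1283 (.c 8 q1164 .e))
noncomputable def r956 : Tr := .c 3 q1285 (.c 4 q1282 (.c 6 q1286 .e))
noncomputable def r957 : Tr := .c 0 q1287 (.c 2 q1288 (.c 3 q1285 (.c 4 q1282 (.c 6 q1286 .e))))
noncomputable def t273 : Tr := .c 0 r955 (.c 1 r956 (.c 8 r957 .e))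
noncomputable def r958 : Tr := .c 3 q777 (.c 4 q778 (.c 6 q1295 .e))
noncomputable def r959 : Tr := .c 0 q1292 (.c 2 q1294 (.c 3 q777 (.c 4 q778 (.c 6 q1295 .e))))
noncomputable def t274 : Tr := .c 1 r958 (.c 5 r940 (.c 8 r959 (.c 9 r941 .e)))
noncomputable def r960 : Tr := .c 4 q766 (.c 7 q1289 (.c 8 q1172 .e))
noncomputable def r961 : Tr := .c 1 q206 (.c 2 q1291 (.c 7 q1289 (.c 8 q1172 .e)))
noncomputable def t275 : Tr := .c 0 r960 (.c 3 r961 (.c 5 r940 (.c 9 r941 .e)))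
noncomputable def r962 : Tr := .c 4 q665 (.c 7 q1298 (.c 8 q1182 .e))
noncomputable def r963 : Tr := .c 1 q214 (.c 2 q1300 (.c 7 q1298 (.c 8 q1182 .e)))
noncomputable def t276 : Tr := .c 0 r962 (.c 3 r963 (.c 5 r944 .e))
noncomputable def r964 : Tr := .c 4 q665 (.c 7 q1283 (.c 8 q1191 .e))
noncomputable def r965 : Tr := .c 3 q525 (.c 4 q665 (.c 6 q1286 .e))
noncomputable def r966 : Tr := .c 1 q228 (.c 2 q1300 (.c 7 q1283 (.c 8 q1191 .e)))
noncomputable def t277 : Tr := .c 0 r964 (.c 1 r965 (.c 3 r966 .e))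
noncomputable def q1322 : Tr := .c 3 v132 (.c 6 v2 (.c 7 v2 .e))
noncomputable def q1323 : Tr := .c 0 v0 (.c 1 v0 (.c 2 v0 (.c 3 v0 (.c 4 v0 (.c 6 v14 (.c 7 v14 .e))))))
noncomputable def r967 : Tr := .c 1 q174 (.c 2 q1322 (.c 7 q1298 (.c 8 q1205 (.c 9 q1323 .e))))
noncomputable def q1324 : Tr := .c 4 v5 (.c 7 v135 .e)
noncomputable def q1325 : Tr := .c 3 v5 (.c 4 v5 (.c 6 v133 .e))
noncomputable def q1326 : Tr := .c 3 v134 (.c 6 v135 (.c 7 v135 .e))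
noncomputable def q1327 : Tr := .c 0 v5 (.c 2 v5 (.c 3 v5 (.c 4 v5 (.c 6 v133 .e))))
noncomputable def r968 : Tr := .c 0 q1324 (.c 1 q1325 (.c 2 q1326 (.c 6 q1304 (.c 7 q1305 (.c 8 q1327 .e)))))
noncomputable def q1328 : Tr := .c 1 v523 (.c 2 v522 (.c 7 v135 .e))
noncomputable def q1329 : Tr := .c 0 v523 (.c 1 v523 (.c 6 v135 (.c 7 v135 .e)))
noncomputable def r969 : Tr := .c 0 q1324 (.c 1 q1325 (.c 2 q1326 (.c 3 q1328 (.c 4 q1329 (.c 6 q1304 (.c 7 q1305 .e))))))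
noncomputable def t278 : Tr := .c 3 r967 (.c 5 r968 (.c 9 r969 .e))
noncomputable def q1330 : Tr := .c 3 v14 (.c 6 v136 (.c 7 v136 .e))
noncomputable def q1331 : Tr := .c 0 v132 (.c 1 v132 (.c 2 v132 (.c 3 v132 (.c 4 v132 (.c 6 v2 (.c 7 v2 .e))))))
noncomputable def r970 : Tr := .c 1 q187 (.c 2 q1330 (.c 7 q1210 (.c 8 q1211 (.c 9 q1331 .e))))
noncomputable def q1332 : Tr := .c 4 v138 (.c 7 v141 .e)
noncomputable def q1333 : Tr := .c 3 v140 (.c 6 v141 (.c 7 v141 .e))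
noncomputable def v533 : Tr := .l 0x2c92872872c9287205205287
noncomputable def q1334 : Tr := .c 1 v533 (.c 2 v142 (.c 4 v142 .e))
noncomputable def r971 : Tr := .c 0 q1332 (.c 1 q191 (.c 2 q1333 (.c 6 q1334 (.c 7 q1213 (.c 8 q1214 .e)))))
noncomputable def q1335 : Tr := .c 1 v525 (.c 2 v524 (.c 7 v141 .e))
noncomputable def q1336 : Tr := .c 0 v525 (.c 1 v525 (.c 6 v141 (.c 7 v141 .e)))
noncomputable def q1337 : Tr := .c 0 v526 (.c 1 v526 (.c 2 v526 (.c 6 v145 (.c 7 v145 .e))))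
noncomputable def r972 : Tr := .c 0 q1332 (.c 2 q1333 (.c 3 q1335 (.c 4 q1336 (.c 5 q1337 (.c 6 q1334 .e)))))
noncomputable def r973 : Tr := .c 0 q1332 (.c 1 q191 (.c 2 q1333 (.c 3 q1335 (.c 4 q1336 (.c 6 q1334 (.c 7 q1213 .e))))))
noncomputable def t279 : Tr := .c 3 r970 (.c 5 r971 (.c 8 r972 (.c 9 r973 .e)))
noncomputable def r974 : Tr := .c 0 q1324 (.c 2 q1326 (.c 3 q1328 (.c 4 q1329 (.c 6 q1304 .e))))
noncomputable def t280 : Tr := .c 5 r968 (.c 8 r974 (.c 9 r969 .e))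
noncomputable def r975 : Tr := .c 1 q174 (.c 2 q1322 (.c 7 q1298 (.c 8 q1205 .e)))
noncomputable def t281 : Tr := .c 3 r975 (.c 5 r968 (.c 9 r969 .e))
noncomputable def q1338 : Tr := .c 3 v2 (.c 6 v100 (.c 7 v100 .e))
noncomputable def q1339 : Tr := .c 0 v159 (.c 2 v159 (.c 3 v159 (.c 4 v159 .e)))
noncomputable def r976 : Tr := .c 1 q184 (.c 2 q1338 (.c 7 q1339 .e))
noncomputable def q1340 : Tr := .c 4 v133 (.c 7 v162 .e)
noncomputable def q1341 : Tr := .c 3 v133 (.c 4 v133 (.c 6 v161 .e))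
noncomputable def q1342 : Tr := .c 3 v135 (.c 6 v162 (.c 7 v162 .e))
noncomputable def q1343 : Tr := .c 1 v359 (.c 2 v163 (.c 4 v163 .e))
noncomputable def q1344 : Tr := .c 0 v163 (.c 2 v163 (.c 3 v163 (.c 4 v163 .e)))
noncomputable def r977 : Tr := .c 0 q1340 (.c 1 q1341 (.c 2 q1342 (.c 6 q1343 (.c 7 q1344 .e))))
noncomputable def q1345 : Tr := .c 1 v358 (.c 2 v360 (.c 7 v162 .e))
noncomputable def q1346 : Tr := .c 0 v358 (.c 1 v358 (.c 6 v162 (.c 7 v162 .e)))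
noncomputable def r978 : Tr := .c 0 q1340 (.c 1 q1341 (.c 2 q1342 (.c 3 q1345 (.c 4 q1346 (.c 6 q1343 (.c 7 q1344 .e))))))
noncomputable def t282 : Tr := .c 3 r976 (.c 5 r977 (.c 9 r978 .e))
noncomputable def q1347 : Tr := .c 3 v136 (.c 6 v143 (.c 7 v143 .e))
noncomputable def r979 : Tr := .c 1 q195 (.c 2 q1347 (.c 7 q1259 .e))
noncomputable def q1348 : Tr := .c 4 v139 (.c 7 v169 .e)
noncomputable def q1349 : Tr := .c 3 v141 (.c 6 v169 (.c 7 v169 .e))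
noncomputable def q1350 : Tr := .c 1 v363 (.c 2 v170 (.c 4 v170 .e))
noncomputable def r980 : Tr := .c 0 q1348 (.c 1 q292 (.c 2 q1349 (.c 6 q1350 (.c 7 q1261 .e))))
noncomputable def q1351 : Tr := .c 1 v362 (.c 2 v366 (.c 7 v169 .e))
noncomputable def q1352 : Tr := .c 0 v362 (.c 1 v362 (.c 6 v169 (.c 7 v169 .e)))
noncomputable def q1353 : Tr := .c 0 v367 (.c 1 v367 (.c 2 v367 (.c 6 v174 (.c 7 v174 .e))))
noncomputable def r981 : Tr := .c 0 q1348 (.c 2 q1349 (.c 3 q1351 (.c 4 q1352 (.c 5 q1353 (.c 6 q1350 .e)))))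
noncomputable def r982 : Tr := .c 0 q1348 (.c 1 q292 (.c 2 q1349 (.c 3 q1351 (.c 4 q1352 (.c 6 q1350 (.c 7 q1261 .e))))))
noncomputable def t283 : Tr := .c 3 r979 (.c 5 r980 (.c 8 r981 (.c 9 r982 .e)))
noncomputable def r983 : Tr := .c 4 q1352 (.c 5 q1353 (.c 7 q1265 .e))
noncomputable def r984 : Tr := .c 3 q1351 (.c 4 q1352 (.c 5 q1353 (.c 6 q1350 .e)))
noncomputable def t284 : Tr := .c 0 r983 (.c 1 r984 (.c 8 r981 (.c 9 r982 .e)))
noncomputable def q1354 : Tr := .c 0 v368 (.c 1 v368 (.c 6 v175 (.c 7 v175 .e)))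
noncomputable def q1355 : Tr := .c 0 v159 (.c 3 v159 .e)
noncomputable def r985 : Tr := .c 4 q1354 (.c 5 q761 (.c 7 q1355 .e))
noncomputable def q1356 : Tr := .c 1 v368 (.c 7 v175 .e)
noncomputable def q1357 : Tr := .c 1 v369 .e
noncomputable def r986 : Tr := .c 3 q1356 (.c 4 q1354 (.c 5 q761 (.c 6 q1357 .e)))
noncomputable def q1358 : Tr := .c 7 v175 .e
noncomputable def q1359 : Tr := .c 3 v178 (.c 6 v175 (.c 7 v175 .e))
noncomputable def r987 : Tr := .c 0 q1358 (.c 2 q1359 (.c 3 q1356 (.c 4 q1354 (.c 5 q761 (.c 6 q1357 .e)))))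
noncomputable def t285 : Tr := .c 0 r985 (.c 1 r986 (.c 8 r987 .e))
noncomputable def q1360 : Tr := .c 0 v368 (.c 1 v368 .e)
noncomputable def r988 : Tr := .c 4 q1360 (.c 5 q791 (.c 7 q1339 .e))
noncomputable def q1361 : Tr := .c 3 v2 .e
noncomputable def r989 : Tr := .c 1 q225 (.c 2 q1361 (.c 7 q1339 .e))
noncomputable def q1362 : Tr := .c 4 v133 .e
noncomputable def q1363 : Tr := .c 3 v133 (.c 4 v133 .e)
noncomputable def q1364 : Tr := .c 3 v135 .e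
noncomputable def r990 : Tr := .c 0 q1362 (.c 1 q1363 (.c 2 q1364 (.c 6 q1343 (.c 7 q1344 .e))))
noncomputable def t286 : Tr := .c 0 r988 (.c 3 r989 (.c 5 r990 .e))
noncomputable def r991 : Tr := .c 4 q1360 (.c 5 q797 (.c 7 q1355 .e))
noncomputable def q1365 : Tr := .c 1 v368 .e
noncomputable def r992 : Tr := .c 3 q1365 (.c 4 q1360 (.c 5 q797 (.c 6 q1357 .e)))
noncomputable def r993 : Tr := .c 1 q233 (.c 2 q1361 (.c 7 q1355 .e))
noncomputable def t287 : Tr := .c 0 r991 (.c 1 r992 (.c 3 r993 .e))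
noncomputable def t288 : Tr := .c 5 r980 (.c 8 r981 (.c 9 r982 .e))
noncomputable def t289 : Tr := .c 1 r984 (.c 8 r981 (.c 9 r982 .e))

/-- the diagram -/
noncomputable def T : Tr := (.c 0 (.c 4 (.c 0 t0 (.c 1 t1 (.c 6 t2 (.c 7 t3 (.c 8 t4 (.c 9 t5 .e)))))) (.c 5 (.c 0 t6 (.c 1
t7 (.c 2 t8 (.c 6 t9 (.c 7 t10 (.c 8 t11 .e)))))) (.c 7 (.c 0 t12 (.c 2 t13 (.c 3 t14 (.c 4 t15
(.c 5 t16 (.c 9 t17 .e)))))) (.c 8 (.c 0 t18 (.c 2 t19 (.c 3 t20 (.c 4 t21 (.c 5 t22 (.c 6 t23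
.e)))))) (.c 9 (.c 0 t24 (.c 1 t25 (.c 2 t26 (.c 3 t27 (.c 4 t28 (.c 6 t29 (.c 7 t30 .e)))))))
.e))))) (.c 1 (.c 3 (.c 1 t31 (.c 2 t32 (.c 7 t33 (.c 8 t34 (.c 9 t35 .e))))) (.c 4 (.c 0 t36
(.c 1 t37 (.c 6 t38 (.c 7 t39 (.c 8 t40 (.c 9 t41 .e)))))) (.c 5 (.c 0 t42 (.c 1 t43 (.c 2 t44
(.c 6 t45 (.c 7 t46 (.c 8 t47 .e)))))) (.c 6 (.c 1 t48 (.c 2 t49 (.c 4 t50 (.c 5 t51 (.c 8 t52
(.c 9 t53 .e)))))) (.c 9 (.c 0 t54 (.c 1 t55 (.c 2 t56 (.c 3 t57 (.c 4 t58 (.c 6 t59 (.c 7 t60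
.e))))))) .e))))) (.c 2 (.c 3 (.c 1 t61 (.c 2 t62 (.c 7 t63 (.c 8 t64 (.c 9 t65 .e))))) (.c 5
(.c 0 t66 (.c 1 t67 (.c 2 t68 (.c 6 t69 (.c 7 t70 (.c 8 t71 .e)))))) (.c 6 (.c 1 t72 (.c 2 t73
(.c 4 t74 (.c 5 t75 (.c 8 t76 (.c 9 t77 .e)))))) (.c 7 (.c 0 t78 (.c 2 t73 (.c 3 t79 (.c 4 t74
(.c 5 t75 (.c 9 t77 .e)))))) (.c 8 (.c 0 t80 (.c 2 t81 (.c 3 t82 (.c 4 t83 (.c 5 t84 (.c 6 t85
.e)))))) (.c 9 (.c 0 t86 (.c 1 t87 (.c 2 t88 (.c 3 t89 (.c 4 t90 (.c 6 t91 (.c 7 t92 .e)))))))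
.e)))))) (.c 3 (.c 1 (.c 3 t93 (.c 4 t94 (.c 5 t95 (.c 6 t96 (.c 9 t97 .e))))) (.c 2 (.c 3 t98
(.c 5 t99 (.c 6 t100 (.c 7 t101 (.c 8 t102 (.c 9 t103 .e)))))) (.c 7 (.c 0 t104 (.c 2 t105 (.c
3 t106 (.c 4 t107 (.c 5 t108 (.c 9 t109 .e)))))) (.c 8 (.c 0 t110 (.c 2 t111 (.c 3 t112 (.c 4
t113 (.c 5 t114 (.c 6 t115 .e)))))) (.c 9 (.c 0 t116 (.c 1 t117 (.c 2 t118 (.c 3 t119 (.c 4
t120 (.c 6 t121 (.c 7 t122 .e))))))) .e))))) (.c 4 (.c 0 (.c 4 t123 (.c 5 t124 (.c 7 t125 (.c 8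
t126 (.c 9 t127 .e))))) (.c 1 (.c 3 t128 (.c 4 t123 (.c 5 t124 (.c 6 t129 (.c 9 t127 .e)))))
(.c 6 (.c 1 t130 (.c 2 t131 (.c 4 t132 (.c 5 t133 (.c 8 t134 (.c 9 t135 .e)))))) (.c 7 (.c 0
t136 (.c 2 t131 (.c 3 t137 (.c 4 t132 (.c 5 t133 (.c 9 t135 .e)))))) (.c 8 (.c 0 t138 (.c 2
t139 (.c 3 t140 (.c 4 t141 (.c 5 t142 (.c 6 t143 .e)))))) (.c 9 (.c 0 t144 (.c 1 t145 (.c 2
t146 (.c 3 t147 (.c 4 t148 (.c 6 t149 (.c 7 t150 .e))))))) .e)))))) (.c 5 (.c 0 (.c 4 t151 (.c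
5 t152 (.c 7 t153 (.c 8 t154 (.c 9 t155 .e))))) (.c 1 (.c 3 t156 (.c 4 t151 (.c 5 t152 (.c 6
t157 (.c 9 t155 .e))))) (.c 2 (.c 3 t158 (.c 5 t159 (.c 6 t160 (.c 7 t161 (.c 8 t162 (.c 9 t163
.e)))))) (.c 6 (.c 1 t164 (.c 2 t165 (.c 4 t166 (.c 5 t167 (.c 8 t168 (.c 9 t169 .e)))))) (.c 7
(.c 0 t170 (.c 2 t165 (.c 3 t171 (.c 4 t166 (.c 5 t167 (.c 9 t169 .e)))))) (.c 8 (.c 0 t172 (.c
2 t173 (.c 3 t174 (.c 4 t175 (.c 5 t176 (.c 6 t177 .e)))))) .e)))))) (.c 6 (.c 1 (.c 3 t178 (.c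
4 t179 (.c 5 t180 (.c 6 t181 (.c 9 t182 .e))))) (.c 2 (.c 3 t183 (.c 5 t184 (.c 6 t185 (.c 7
t186 (.c 8 t187 (.c 9 t188 .e)))))) (.c 4 (.c 0 t189 (.c 1 t190 (.c 6 t185 (.c 7 t186 (.c 8
t187 (.c 9 t188 .e)))))) (.c 5 (.c 0 t191 (.c 1 t192 (.c 2 t193 (.c 6 t194 (.c 7 t195 (.c 8
t196 .e)))))) (.c 8 (.c 0 t197 (.c 2 t198 (.c 3 t199 (.c 4 t200 (.c 5 t201 (.c 6 t202 .e))))))
(.c 9 (.c 0 t203 (.c 1 t204 (.c 2 t205 (.c 3 t206 (.c 4 t207 (.c 6 t208 (.c 7 t209 .e)))))))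
.e)))))) (.c 7 (.c 0 (.c 4 t210 (.c 5 t211 (.c 7 t212 (.c 8 t213 (.c 9 t214 .e))))) (.c 2 (.c 3
t215 (.c 5 t216 (.c 6 t217 (.c 7 t218 (.c 8 t219 (.c 9 t220 .e)))))) (.c 3 (.c 1 t221 (.c 2
t222 (.c 7 t212 (.c 8 t213 (.c 9 t214 .e))))) (.c 4 (.c 0 t223 (.c 1 t224 (.c 6 t217 (.c 7 t218
(.c 8 t219 (.c 9 t220 .e)))))) (.c 5 (.c 0 t225 (.c 1 t226 (.c 2 t227 (.c 6 t228 (.c 7 t229 (.c
8 t230 .e)))))) (.c 9 (.c 0 t231 (.c 1 t232 (.c 2 t233 (.c 3 t234 (.c 4 t235 (.c 6 t236 (.c 7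
t237 .e))))))) .e)))))) (.c 8 (.c 0 (.c 4 t238 (.c 5 t239 (.c 7 t240 (.c 8 t241 (.c 9 t242
.e))))) (.c 2 (.c 3 t243 (.c 5 t244 (.c 6 t245 (.c 7 t246 (.c 8 t247 (.c 9 t248 .e)))))) (.c 3
(.c 1 t249 (.c 2 t250 (.c 7 t240 (.c 8 t241 (.c 9 t242 .e))))) (.c 4 (.c 0 t251 (.c 1 t252 (.c
6 t245 (.c 7 t246 (.c 8 t247 (.c 9 t248 .e)))))) (.c 5 (.c 0 t253 (.c 1 t254 (.c 2 t255 (.c 6
t256 (.c 7 t257 (.c 8 t258 .e)))))) (.c 6 (.c 1 t259 (.c 2 t260 (.c 4 t261 (.c 5 t262 (.c 8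
t263 (.c 9 t264 .e)))))) .e)))))) (.c 9 (.c 0 (.c 4 t265 (.c 5 t266 (.c 7 t267 (.c 8 t268 (.c 9
t269 .e))))) (.c 1 (.c 3 t270 (.c 4 t265 (.c 5 t266 (.c 6 t271 (.c 9 t269 .e))))) (.c 2 (.c 3
t272 (.c 5 t273 (.c 6 t274 (.c 7 t275 (.c 8 t276 (.c 9 t277 .e)))))) (.c 3 (.c 1 t278 (.c 2
t279 (.c 7 t267 (.c 8 t268 (.c 9 t269 .e))))) (.c 4 (.c 0 t280 (.c 1 t281 (.c 6 t274 (.c 7 t275
(.c 8 t276 (.c 9 t277 .e)))))) (.c 6 (.c 1 t282 (.c 2 t283 (.c 4 t284 (.c 5 t285 (.c 8 t286 (.c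
9 t287 .e)))))) (.c 7 (.c 0 t288 (.c 2 t283 (.c 3 t289 (.c 4 t284 (.c 5 t285 (.c 9 t287
.e)))))) .e))))))) .e))))))))))

theorem chk : chk [2, 0, 2, 0, 0, 0, 1, 3] 16 11 2 0 T = true := by decide +kernel

end Vale.Agent.P032.Words.Trie.BetaF2
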