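import Vale.Agent.P032.Words.H151.Beta

/-!
# BETA pair, special end far: Ae+2Cf+Pd+Pf ≥ 7

Decision diagram of 16 potentials.
-/

namespace Vale.Agent.P032.Words.Trie.BetaF4

noncomputable def v0 : Tr := .l 0x1441031030c21030c20c2081
noncomputable def v1 : Tr := .l 0x1050c40c40830c4083083042
noncomputable def v2 : Tr := .l 0x1c6185185144185144144103
noncomputable def v3 : Tr := .l 0x1871461461051461051050c4
noncomputable def q0 : Tr := .c 4 v0 (.c 5 v1 (.c 7 v2 (.c 8 v3 (.c 9 v3 .e))))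
noncomputable def q1 : Tr := .c 4 v0 (.c 5 v1 (.c 9 v3 .e))
noncomputable def v4 : Tr := .l 0x1031440c21030c21030810c2
noncomputable def v5 : Tr := .l 0xc41050830c40830c4042083
noncomputable def v6 : Tr := .l 0x1461871051461051460c4105
noncomputable def q2 : Tr := .c 4 v4 (.c 5 v5 (.c 8 v6 (.c 9 v6 .e)))
noncomputable def q3 : Tr := .c 4 v4 (.c 5 v5 (.c 9 v6 .e))
noncomputable def q4 : Tr := .c 4 v0 (.c 5 v1 .e)
noncomputable def r0 : Tr := .c 0 q0 (.c 1 q1 (.c 6 q2 (.c 7 q3 (.c 8 q4 .e))))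
noncomputable def v7 : Tr := .l 0x1030c20c20810c2081081040
noncomputable def v8 : Tr := .l 0xc4083083042083042042001
noncomputable def v9 : Tr := .l 0x1c71871871461c71c61c6185
noncomputable def v10 : Tr := .l 0x1461051050c41050c40c4083
noncomputable def q5 : Tr := .c 4 v7 (.c 5 v8 (.c 7 v9 (.c 8 v10 (.c 9 v10 .e))))
noncomputable def q6 : Tr := .c 4 v7 (.c 5 v8 (.c 9 v10 .e))
noncomputable def v11 : Tr := .l 0x1871461461051c6185185144
noncomputable def q7 : Tr := .c 5 v1 (.c 7 v11 (.c 8 v3 (.c 9 v3 .e)))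
noncomputable def v12 : Tr := .l 0xc21030810c20810c2040081
noncomputable def v13 : Tr := .l 0x830c4042083042083001042
noncomputable def v14 : Tr := .l 0x1051460c41050c41050830c4
noncomputable def q8 : Tr := .c 4 v12 (.c 5 v13 (.c 8 v14 (.c 9 v14 .e)))
noncomputable def q9 : Tr := .c 4 v12 (.c 5 v13 (.c 9 v14 .e))
noncomputable def q10 : Tr := .c 4 v7 (.c 5 v8 .e)
noncomputable def r1 : Tr := .c 0 q5 (.c 1 q6 (.c 2 q7 (.c 6 q8 (.c 7 q9 (.c 8 q10 .e)))))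
noncomputable def v15 : Tr := .l 0x1c71871871461c71c71c7187
noncomputable def v16 : Tr := .l 0x1c71c71c71c71c71c71c71c7
noncomputable def v17 : Tr := .l 0x1c71c71871c71871c7146187
noncomputable def q11 : Tr := .c 4 v2 (.c 5 v15 (.c 7 v16 (.c 8 v17 (.c 9 v17 .e))))
noncomputable def v18 : Tr := .l 0x1871461461051c7187187146
noncomputable def v19 : Tr := .l 0x1c71c71c71871c71c71c71c6
noncomputable def v20 : Tr := .l 0x1c71c71c71871c71c71871c7
noncomputable def q12 : Tr := .c 5 v18 (.c 7 v19 (.c 8 v20 (.c 9 v20 .e)))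
noncomputable def q13 : Tr := .c 7 v16 (.c 8 v17 (.c 9 v17 .e))
noncomputable def q14 : Tr := .c 7 v19 (.c 8 v20 (.c 9 v20 .e))
noncomputable def r2 : Tr := .c 0 q11 (.c 2 q12 (.c 3 q13 (.c 4 q14 .e)))
noncomputable def v21 : Tr := .l 0x1851441441031441031030c2
noncomputable def v22 : Tr := .l 0x1c61c71851c61851c6144185
noncomputable def v23 : Tr := .l 0x187187146146146146105105
noncomputable def q15 : Tr := .c 4 v21 (.c 5 v10 (.c 7 v22 (.c 8 v23 (.c 9 v23 .e))))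
noncomputable def v24 : Tr := .l 0x1c71c71c61871c61c71851c6
noncomputable def v25 : Tr := .l 0x1c71c7187187187187146146
noncomputable def q16 : Tr := .c 5 v3 (.c 7 v24 (.c 8 v25 (.c 9 v25 .e)))
noncomputable def q17 : Tr := .c 7 v22 (.c 8 v23 (.c 9 v23 .e))
noncomputable def q18 : Tr := .c 7 v24 (.c 8 v25 (.c 9 v25 .e))
noncomputable def v26 : Tr := .l 0x1441851031441031440c2103
noncomputable def q19 : Tr := .c 4 v26 (.c 5 v14 (.c 8 v23 (.c 9 v23 .e)))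
noncomputable def r3 : Tr := .c 0 q15 (.c 2 q16 (.c 3 q17 (.c 4 q18 (.c 6 q19 .e))))
noncomputable def q20 : Tr := .c 4 v21 (.c 5 v10 (.c 9 v23 .e))
noncomputable def q21 : Tr := .c 4 v26 (.c 5 v14 (.c 9 v23 .e))
noncomputable def r4 : Tr := .c 0 q15 (.c 1 q20 (.c 2 q16 (.c 3 q17 (.c 4 q18 (.c 6 q19 (.c 7 q21 .e))))))
noncomputable def t0 : Tr := .c 4 r0 (.c 5 r1 (.c 7 r2 (.c 8 r3 (.c 9 r4 .e))))
noncomputable def r5 : Tr := .c 1 q6 (.c 2 q7 (.c 7 q9 (.c 8 q10 .e)))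
noncomputable def q22 : Tr := .c 7 v11 (.c 8 v3 (.c 9 v3 .e))
noncomputable def r6 : Tr := .c 1 q6 (.c 2 q7 (.c 4 q22 (.c 8 q10 .e)))
noncomputable def t1 : Tr := .c 3 r5 (.c 4 r0 (.c 5 r1 (.c 6 r6 (.c 9 r4 .e))))
noncomputable def v27 : Tr := .l 0x1851c61c61c71441851851c6
noncomputable def q23 : Tr := .c 7 v27 .e
noncomputable def v28 : Tr := .l 0x1c61c71c71c71851c61c61c7
noncomputable def q24 : Tr := .c 7 v28 .e
noncomputable def v29 : Tr := .l 0x1031441441850c2103103144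
noncomputable def v30 : Tr := .l 0xc41051051460830c40c4105
noncomputable def q25 : Tr := .c 4 v29 (.c 5 v30 .e)
noncomputable def r7 : Tr := .c 3 q23 (.c 4 q24 (.c 6 q25 .e))
noncomputable def v31 : Tr := .l 0x1441851851c6103144144185
noncomputable def q26 : Tr := .c 7 v31 .e
noncomputable def v32 : Tr := .l 0xc21031031440810c20c2103
noncomputable def v33 : Tr := .l 0x830c40c41050420830830c4
noncomputable def q27 : Tr := .c 4 v32 (.c 5 v33 .e)
noncomputable def v34 : Tr := .l 0x1030c21441030c20811030c2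
noncomputable def v35 : Tr := .l 0xc40831050c40830420c4083
noncomputable def q28 : Tr := .c 4 v34 (.c 5 v35 .e)
noncomputable def r8 : Tr := .c 3 q26 (.c 6 q27 (.c 7 q27 (.c 8 q28 .e)))
noncomputable def v36 : Tr := .l 0x1851441c6185144103185144
noncomputable def q29 : Tr := .c 4 v34 (.c 5 v35 (.c 7 v36 .e))
noncomputable def r9 : Tr := .c 0 q29 (.c 1 q28 (.c 6 q27 (.c 7 q27 (.c 8 q28 .e))))
noncomputable def v37 : Tr := .l 0xc20811030c20810400c2081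
noncomputable def v38 : Tr := .l 0x830420c4083042001083042
noncomputable def v39 : Tr := .l 0x1c71c71c71871c61c71c71c6
noncomputable def q30 : Tr := .c 4 v37 (.c 5 v38 (.c 7 v39 .e))
noncomputable def q31 : Tr := .c 4 v37 (.c 5 v38 .e)
noncomputable def q32 : Tr := .c 5 v35 (.c 7 v9 .e)
noncomputable def v40 : Tr := .l 0x810c20c21030400810810c2
noncomputable def v41 : Tr := .l 0x420830830c4001042042083
noncomputable def q33 : Tr := .c 4 v40 (.c 5 v41 .e)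
noncomputable def r10 : Tr := .c 0 q30 (.c 1 q31 (.c 2 q32 (.c 6 q33 (.c 7 q33 (.c 8 q31 .e)))))
noncomputable def v42 : Tr := .l 0x1441031851441030c2144103
noncomputable def v43 : Tr := .l 0x1050c41461050c40831050c4
noncomputable def q34 : Tr := .c 4 v42 (.c 5 v43 (.c 7 v27 .e))
noncomputable def v44 : Tr := .l 0x1461051871461050c4146105
noncomputable def q35 : Tr := .c 5 v44 (.c 7 v28 .e)
noncomputable def r11 : Tr := .c 0 q34 (.c 2 q35 (.c 3 q23 (.c 4 q24 (.c 6 q25 .e))))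
noncomputable def q36 : Tr := .c 4 v42 (.c 5 v43 .e)
noncomputable def r12 : Tr := .c 0 q34 (.c 1 q36 (.c 2 q35 (.c 3 q23 (.c 4 q24 (.c 6 q25 (.c 7 q25 .e))))))
noncomputable def t2 : Tr := .c 1 r7 (.c 2 r8 (.c 4 r9 (.c 5 r10 (.c 8 r11 (.c 9 r12 .e)))))
noncomputable def q37 : Tr := .c 7 v16 .e
noncomputable def r13 : Tr := .c 4 q37 (.c 7 q33 (.c 8 q31 .e))
noncomputable def r14 : Tr := .c 1 q31 (.c 2 q32 (.c 7 q33 (.c 8 q31 .e)))
noncomputable def t3 : Tr := .c 0 r13 (.c 2 r8 (.c 3 r14 (.c 4 r9 (.c 5 r10 (.c 9 r12 .e)))))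
noncomputable def v45 : Tr := .l 0x1c7187187146187146146105
noncomputable def q38 : Tr := .c 8 v45 (.c 9 v45 .e)
noncomputable def r15 : Tr := .c 4 q38 (.c 7 q9 (.c 8 q10 .e))
noncomputable def q39 : Tr := .c 8 v6 (.c 9 v6 .e)
noncomputable def r16 : Tr := .c 3 q39 (.c 6 q2 (.c 7 q3 (.c 8 q4 .e)))
noncomputable def q40 : Tr := .c 5 v1 (.c 8 v3 (.c 9 v3 .e))
noncomputable def r17 : Tr := .c 1 q6 (.c 2 q40 (.c 7 q9 (.c 8 q10 .e)))
noncomputable def q41 : Tr := .c 4 v0 (.c 5 v1 (.c 8 v3 (.c 9 v3 .e)))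
noncomputable def r18 : Tr := .c 0 q41 (.c 1 q1 (.c 6 q2 (.c 7 q3 (.c 8 q4 .e))))
noncomputable def q42 : Tr := .c 4 v7 (.c 5 v8 (.c 8 v10 (.c 9 v10 .e)))
noncomputable def r19 : Tr := .c 0 q42 (.c 1 q6 (.c 2 q40 (.c 6 q8 (.c 7 q9 (.c 8 q10 .e)))))
noncomputable def q43 : Tr := .c 8 v3 (.c 9 v3 .e)
noncomputable def r20 : Tr := .c 1 q6 (.c 2 q40 (.c 4 q43 (.c 8 q10 .e)))
noncomputable def t4 : Tr := .c 0 r15 (.c 2 r16 (.c 3 r17 (.c 4 r18 (.c 5 r19 (.c 6 r20 .e)))))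
noncomputable def q44 : Tr := .c 5 v13 (.c 9 v14 .e)
noncomputable def q45 : Tr := .c 5 v8 .e
noncomputable def r21 : Tr := .c 4 q38 (.c 7 q44 (.c 8 q45 .e))
noncomputable def v46 : Tr := .l 0x1871c7146187146187105146
noncomputable def q46 : Tr := .c 8 v46 (.c 9 v46 .e)
noncomputable def q47 : Tr := .c 5 v14 (.c 8 v46 (.c 9 v46 .e))
noncomputable def r22 : Tr := .c 3 q46 (.c 4 q38 (.c 6 q47 .e))
noncomputable def q48 : Tr := .c 5 v5 (.c 8 v6 (.c 9 v6 .e))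
noncomputable def q49 : Tr := .c 5 v5 (.c 9 v6 .e)
noncomputable def q50 : Tr := .c 5 v1 .e
noncomputable def r23 : Tr := .c 3 q39 (.c 6 q48 (.c 7 q49 (.c 8 q50 .e)))
noncomputable def q51 : Tr := .c 5 v8 (.c 9 v10 .e)
noncomputable def r24 : Tr := .c 1 q51 (.c 2 q40 (.c 7 q44 (.c 8 q45 .e)))
noncomputable def q52 : Tr := .c 5 v1 (.c 9 v3 .e)
noncomputable def r25 : Tr := .c 0 q40 (.c 1 q52 (.c 6 q48 (.c 7 q49 (.c 8 q50 .e))))
noncomputable def r26 : Tr := .c 1 q51 (.c 2 q40 (.c 4 q43 (.c 8 q45 .e)))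
noncomputable def q53 : Tr := .c 5 v10 (.c 8 v45 (.c 9 v45 .e))
noncomputable def r27 : Tr := .c 0 q53 (.c 2 q40 (.c 3 q38 (.c 4 q43 .e)))
noncomputable def t5 : Tr := .c 0 r21 (.c 1 r22 (.c 2 r23 (.c 3 r24 (.c 4 r25 (.c 6 r26 (.c 7 r27 .e))))))
noncomputable def v47 : Tr := .l 0x1030c20c20811441031030c2
noncomputable def v48 : Tr := .l 0xc40830830421050c40c4083
noncomputable def v49 : Tr := .l 0x1461051050c4187146146105
noncomputable def q54 : Tr := .c 4 v47 (.c 5 v48 (.c 7 v15 (.c 8 v49 (.c 9 v49 .e))))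
noncomputable def q55 : Tr := .c 4 v47 (.c 5 v48 (.c 9 v49 .e))
noncomputable def v50 : Tr := .l 0xc21030810c21031440c2103
noncomputable def v51 : Tr := .l 0x830c40420830c41050830c4
noncomputable def v52 : Tr := .l 0x1051460c4105146187105146
noncomputable def q56 : Tr := .c 4 v50 (.c 5 v51 (.c 8 v52 (.c 9 v52 .e)))
noncomputable def q57 : Tr := .c 4 v50 (.c 5 v51 (.c 9 v52 .e))
noncomputable def q58 : Tr := .c 4 v47 (.c 5 v48 .e)
noncomputable def q59 : Tr := .c 4 v47 (.c 7 v49 .e)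
noncomputable def r28 : Tr := .c 0 q54 (.c 1 q55 (.c 6 q56 (.c 7 q57 (.c 8 q58 (.c 9 q59 .e)))))
noncomputable def v53 : Tr := .l 0xc20810810401030c20c2081
noncomputable def v54 : Tr := .l 0x830420420010c4083083042
noncomputable def v55 : Tr := .l 0x1050c40c40831461051050c4
noncomputable def q60 : Tr := .c 4 v53 (.c 5 v54 (.c 7 v16 (.c 8 v55 (.c 9 v55 .e))))
noncomputable def q61 : Tr := .c 4 v53 (.c 5 v54 (.c 9 v55 .e))
noncomputable def v56 : Tr := .l 0x810c20400810c21030810c2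
noncomputable def v57 : Tr := .l 0x420830010420830c4042083
noncomputable def v58 : Tr := .l 0xc41050830c41051460c4105
noncomputable def q62 : Tr := .c 4 v56 (.c 5 v57 (.c 8 v58 (.c 9 v58 .e)))
noncomputable def q63 : Tr := .c 4 v56 (.c 5 v57 (.c 9 v58 .e))
noncomputable def q64 : Tr := .c 4 v53 (.c 5 v54 .e)
noncomputable def r29 : Tr := .c 0 q60 (.c 1 q61 (.c 6 q62 (.c 7 q63 (.c 8 q64 .e))))
noncomputable def v59 : Tr := .l 0x1c71c71c71871c71c71c71c7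
noncomputable def q65 : Tr := .c 4 v15 (.c 5 v16 (.c 7 v59 (.c 8 v16 (.c 9 v16 .e))))
noncomputable def q66 : Tr := .c 7 v59 (.c 8 v16 (.c 9 v16 .e))
noncomputable def q67 : Tr := .c 7 v59 (.c 8 v16 .e)
noncomputable def v60 : Tr := .l 0x1441031030c2185144144103
noncomputable def q68 : Tr := .c 4 v60 (.c 7 v18 .e)
noncomputable def r30 : Tr := .c 0 q65 (.c 3 q66 (.c 5 q67 (.c 9 q68 .e)))
noncomputable def v61 : Tr := .l 0x1c71c71c61c71c71c71c71c7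
noncomputable def v62 : Tr := .l 0x146146105105187187146146
noncomputable def q69 : Tr := .c 4 v60 (.c 5 v55 (.c 7 v61 (.c 8 v62 (.c 9 v62 .e))))
noncomputable def q70 : Tr := .c 7 v61 (.c 8 v62 (.c 9 v62 .e))
noncomputable def q71 : Tr := .c 7 v61 (.c 8 v62 .e)
noncomputable def v63 : Tr := .l 0x1031440c2103144185103144
noncomputable def q72 : Tr := .c 4 v63 (.c 5 v58 (.c 8 v62 (.c 9 v62 .e)))
noncomputable def r31 : Tr := .c 0 q69 (.c 3 q70 (.c 5 q71 (.c 6 q72 .e)))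
noncomputable def q73 : Tr := .c 4 v60 (.c 5 v55 (.c 9 v62 .e))
noncomputable def q74 : Tr := .c 4 v63 (.c 5 v58 (.c 9 v62 .e))
noncomputable def r32 : Tr := .c 0 q69 (.c 1 q73 (.c 3 q70 (.c 6 q72 (.c 7 q74 .e))))
noncomputable def t6 : Tr := .c 4 r28 (.c 5 r29 (.c 7 r30 (.c 8 r31 (.c 9 r32 .e))))
noncomputable def q75 : Tr := .c 4 v53 (.c 7 v55 .e)
noncomputable def r33 : Tr := .c 1 q61 (.c 7 q63 (.c 8 q64 (.c 9 q75 .e)))
noncomputable def v64 : Tr := .l 0x1871861461451c71c7187186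
noncomputable def q76 : Tr := .c 7 v18 (.c 8 v64 .e)
noncomputable def r34 : Tr := .c 1 q61 (.c 5 q76 (.c 8 q64 (.c 9 q75 .e)))
noncomputable def t7 : Tr := .c 3 r33 (.c 4 r28 (.c 5 r29 (.c 6 r34 (.c 9 r32 .e))))
noncomputable def q77 : Tr := .c 4 v47 .e
noncomputable def q78 : Tr := .c 4 v50 .e
noncomputable def r35 : Tr := .c 1 q77 (.c 7 q78 (.c 8 q77 (.c 9 q59 .e)))
noncomputable def q79 : Tr := .c 4 v47 (.c 7 v16 (.c 8 v49 .e))
noncomputable def q80 : Tr := .c 4 v50 (.c 8 v52 .e)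
noncomputable def r36 : Tr := .c 0 q79 (.c 1 q77 (.c 6 q80 (.c 7 q78 (.c 8 q77 .e))))
noncomputable def v65 : Tr := .l 0x1c71c71871861c71c71c71c7
noncomputable def q81 : Tr := .c 7 v15 (.c 8 v65 .e)
noncomputable def r37 : Tr := .c 1 q77 (.c 5 q81 (.c 8 q77 (.c 9 q59 .e)))
noncomputable def q82 : Tr := .c 4 v18 (.c 7 v15 (.c 8 v65 .e))
noncomputable def r38 : Tr := .c 0 q82 (.c 3 q81 (.c 5 q81 (.c 9 q59 .e)))
noncomputable def v66 : Tr := .l 0x1851441441031c6185185144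
noncomputable def v67 : Tr := .l 0x1871871461461c71c7187187
noncomputable def q83 : Tr := .c 4 v66 (.c 7 v59 (.c 8 v67 .e))
noncomputable def q84 : Tr := .c 7 v59 (.c 8 v67 .e)
noncomputable def v68 : Tr := .l 0x1441851031441851c6144185
noncomputable def q85 : Tr := .c 4 v68 (.c 8 v67 .e)
noncomputable def r39 : Tr := .c 0 q83 (.c 3 q84 (.c 5 q84 (.c 6 q85 .e)))
noncomputable def q86 : Tr := .c 4 v66 .e
noncomputable def q87 : Tr := .c 4 v68 .e
noncomputable def r40 : Tr := .c 0 q83 (.c 1 q86 (.c 3 q84 (.c 6 q85 (.c 7 q87 .e))))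
noncomputable def t8 : Tr := .c 3 r35 (.c 5 r36 (.c 6 r37 (.c 7 r38 (.c 8 r39 (.c 9 r40 .e)))))
noncomputable def v69 : Tr := .l 0x1c61871c71c71c71c71c71c7
noncomputable def q88 : Tr := .c 7 v69 .e
noncomputable def v70 : Tr := .l 0xc2103103144103144144185
noncomputable def v71 : Tr := .l 0x830c40c41050c4105105146
noncomputable def q89 : Tr := .c 4 v70 (.c 5 v71 .e)
noncomputable def v72 : Tr := .l 0x1030c2144103144103185144
noncomputable def v73 : Tr := .l 0x1461051871461871461c7187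
noncomputable def q90 : Tr := .c 4 v72 (.c 7 v73 .e)
noncomputable def r41 : Tr := .c 3 q88 (.c 5 q88 (.c 6 q89 (.c 9 q90 .e)))
noncomputable def v74 : Tr := .l 0x1851461c61871c61871c71c7
noncomputable def q91 : Tr := .c 7 v74 .e
noncomputable def v75 : Tr := .l 0x810c20c21030c2103103144
noncomputable def v76 : Tr := .l 0x420830830c40830c40c4105
noncomputable def q92 : Tr := .c 4 v75 (.c 5 v76 .e)
noncomputable def v77 : Tr := .l 0xc20811030c21030c2144103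
noncomputable def v78 : Tr := .l 0x830420c40830c40831050c4
noncomputable def q93 : Tr := .c 4 v77 (.c 5 v78 .e)
noncomputable def v79 : Tr := .l 0x1050c4146105146105187146
noncomputable def q94 : Tr := .c 4 v77 (.c 7 v79 .e)
noncomputable def r42 : Tr := .c 3 q91 (.c 5 q91 (.c 6 q92 (.c 7 q92 (.c 8 q93 (.c 9 q94 .e)))))
noncomputable def q95 : Tr := .c 4 v77 (.c 5 v78 (.c 7 v59 .e))
noncomputable def r43 : Tr := .c 0 q95 (.c 1 q93 (.c 6 q92 (.c 7 q92 (.c 8 q93 (.c 9 q94 .e)))))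
noncomputable def v80 : Tr := .l 0x810400c20810c20811030c2
noncomputable def v81 : Tr := .l 0x420010830420830420c4083
noncomputable def q96 : Tr := .c 4 v80 (.c 5 v81 (.c 7 v16 .e))
noncomputable def q97 : Tr := .c 4 v80 (.c 5 v81 .e)
noncomputable def v82 : Tr := .l 0x400810810c20810c20c2103
noncomputable def v83 : Tr := .l 0x10420420830420830830c4
noncomputable def q98 : Tr := .c 4 v82 (.c 5 v83 .e)
noncomputable def r44 : Tr := .c 0 q96 (.c 1 q97 (.c 6 q98 (.c 7 q98 (.c 8 q97 .e))))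
noncomputable def v84 : Tr := .l 0xc40831050c41050c4146105
noncomputable def q99 : Tr := .c 4 v72 (.c 5 v84 (.c 7 v69 .e))
noncomputable def r45 : Tr := .c 0 q99 (.c 3 q88 (.c 5 q88 (.c 6 q89 .e)))
noncomputable def q100 : Tr := .c 4 v72 (.c 5 v84 .e)
noncomputable def r46 : Tr := .c 0 q99 (.c 1 q100 (.c 3 q88 (.c 6 q89 (.c 7 q89 .e))))
noncomputable def t9 : Tr := .c 1 r41 (.c 2 r42 (.c 4 r43 (.c 5 r44 (.c 8 r45 (.c 9 r46 .e)))))
noncomputable def q101 : Tr := .c 7 v73 .e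
noncomputable def q102 : Tr := .c 4 v80 (.c 7 v84 .e)
noncomputable def r47 : Tr := .c 5 q101 (.c 7 q98 (.c 8 q97 (.c 9 q102 .e)))
noncomputable def r48 : Tr := .c 1 q97 (.c 7 q98 (.c 8 q97 (.c 9 q102 .e)))
noncomputable def t10 : Tr := .c 0 r47 (.c 2 r42 (.c 3 r48 (.c 4 r43 (.c 5 r44 (.c 9 r46 .e)))))
noncomputable def v85 : Tr := .l 0x1461861051451871c7146186
noncomputable def q103 : Tr := .c 8 v85 .e
noncomputable def q104 : Tr := .c 4 v53 .e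
noncomputable def r49 : Tr := .c 5 q103 (.c 7 q63 (.c 8 q64 (.c 9 q104 .e)))
noncomputable def q105 : Tr := .c 8 v52 (.c 9 v52 .e)
noncomputable def q106 : Tr := .c 8 v52 .e
noncomputable def r50 : Tr := .c 3 q105 (.c 5 q106 (.c 6 q56 (.c 7 q57 (.c 8 q58 (.c 9 q77 .e)))))
noncomputable def r51 : Tr := .c 1 q61 (.c 7 q63 (.c 8 q64 (.c 9 q104 .e)))
noncomputable def q107 : Tr := .c 4 v47 (.c 5 v48 (.c 8 v49 (.c 9 v49 .e)))
noncomputable def r52 : Tr := .c 0 q107 (.c 1 q55 (.c 6 q56 (.c 7 q57 (.c 8 q58 (.c 9 q77 .e)))))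
noncomputable def q108 : Tr := .c 4 v53 (.c 5 v54 (.c 8 v55 (.c 9 v55 .e)))
noncomputable def r53 : Tr := .c 0 q108 (.c 1 q61 (.c 6 q62 (.c 7 q63 (.c 8 q64 .e))))
noncomputable def q109 : Tr := .c 8 v64 .e
noncomputable def r54 : Tr := .c 1 q61 (.c 5 q109 (.c 8 q64 (.c 9 q104 .e)))
noncomputable def t11 : Tr := .c 0 r49 (.c 2 r50 (.c 3 r51 (.c 4 r52 (.c 5 r53 (.c 6 r54 .e)))))
noncomputable def v86 : Tr := .l 0x1c71c71c71c71c71c71c6187
noncomputable def q110 : Tr := .c 4 v2 (.c 5 v15 (.c 7 v16 (.c 8 v86 (.c 9 v86 .e))))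
noncomputable def q111 : Tr := .c 4 v2 (.c 5 v15 (.c 9 v86 .e))
noncomputable def v87 : Tr := .l 0x1851c6144185144185103144
noncomputable def v88 : Tr := .l 0x1c71c71c61c71c61c71851c6
noncomputable def q112 : Tr := .c 4 v87 (.c 5 v59 (.c 8 v88 (.c 9 v88 .e)))
noncomputable def q113 : Tr := .c 4 v87 (.c 5 v59 (.c 9 v88 .e))
noncomputable def r55 : Tr := .c 0 q110 (.c 1 q111 (.c 6 q112 (.c 7 q113 .e)))
noncomputable def q114 : Tr := .c 4 v9 (.c 5 v16 (.c 7 v19 (.c 8 v61 (.c 9 v61 .e))))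
noncomputable def q115 : Tr := .c 4 v9 (.c 5 v16 (.c 9 v61 .e))
noncomputable def q116 : Tr := .c 5 v16 (.c 7 v9 (.c 8 v19 (.c 9 v19 .e)))
noncomputable def v89 : Tr := .l 0x1c61c71851c61c71c71c61c7
noncomputable def q117 : Tr := .c 4 v39 (.c 5 v16 (.c 8 v89 (.c 9 v89 .e)))
noncomputable def q118 : Tr := .c 4 v39 (.c 5 v16 (.c 9 v89 .e))
noncomputable def r56 : Tr := .c 0 q114 (.c 1 q115 (.c 2 q116 (.c 6 q117 (.c 7 q118 .e))))
noncomputable def q119 : Tr := .c 4 v16 (.c 5 v59 (.c 7 v19 (.c 8 v16 (.c 9 v16 .e))))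
noncomputable def q120 : Tr := .c 5 v15 (.c 7 v9 (.c 8 v19 (.c 9 v19 .e)))
noncomputable def q121 : Tr := .c 7 v19 (.c 8 v16 (.c 9 v16 .e))
noncomputable def q122 : Tr := .c 7 v9 (.c 8 v19 (.c 9 v19 .e))
noncomputable def q123 : Tr := .c 7 v19 (.c 8 v16 .e)
noncomputable def r57 : Tr := .c 0 q119 (.c 2 q120 (.c 3 q121 (.c 4 q122 (.c 5 q123 .e))))
noncomputable def v90 : Tr := .l 0x1c61851c71c61851441c6185
noncomputable def v91 : Tr := .l 0x1c71c71c71c71c71871c71c7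
noncomputable def v92 : Tr := .l 0x1c71c71c71c71c61c71c71c7
noncomputable def v93 : Tr := .l 0x1c71c71c71871c61c71c71c7
noncomputable def q124 : Tr := .c 4 v90 (.c 5 v91 (.c 7 v92 (.c 8 v93 (.c 9 v93 .e))))
noncomputable def v94 : Tr := .l 0x1c71c71c71871c71c61c71c6
noncomputable def q125 : Tr := .c 5 v59 (.c 7 v94 (.c 8 v16 (.c 9 v16 .e)))
noncomputable def q126 : Tr := .c 7 v92 (.c 8 v93 (.c 9 v93 .e))
noncomputable def q127 : Tr := .c 7 v94 (.c 8 v16 (.c 9 v16 .e))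
noncomputable def q128 : Tr := .c 7 v92 (.c 8 v93 .e)
noncomputable def v95 : Tr := .l 0x1c71c71871c71871c71c71c7
noncomputable def q129 : Tr := .c 4 v27 (.c 5 v95 (.c 8 v93 (.c 9 v93 .e)))
noncomputable def r58 : Tr := .c 0 q124 (.c 2 q125 (.c 3 q126 (.c 4 q127 (.c 5 q128 (.c 6 q129 .e)))))
noncomputable def q130 : Tr := .c 4 v90 (.c 5 v91 (.c 9 v93 .e))
noncomputable def q131 : Tr := .c 4 v27 (.c 5 v95 (.c 9 v93 .e))
noncomputable def r59 : Tr := .c 0 q124 (.c 1 q130 (.c 2 q125 (.c 3 q126 (.c 4 q127 (.c 6 q129 (.c 7 q131 .e))))))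
noncomputable def t12 : Tr := .c 4 r55 (.c 5 r56 (.c 7 r57 (.c 8 r58 (.c 9 r59 .e))))
noncomputable def q132 : Tr := .c 4 v11 .e
noncomputable def v96 : Tr := .l 0x1c71871861461c71c61c6185
noncomputable def q133 : Tr := .c 7 v11 (.c 8 v96 .e)
noncomputable def q134 : Tr := .c 4 v9 .e
noncomputable def r60 : Tr := .c 1 q132 (.c 2 q133 (.c 7 q134 .e))
noncomputable def v97 : Tr := .l 0x1c61c71851861c71c71c6186
noncomputable def q135 : Tr := .c 4 v11 (.c 7 v9 (.c 8 v97 .e))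
noncomputable def v98 : Tr := .l 0x1851c61441851c61c71851c6
noncomputable def q136 : Tr := .c 4 v9 (.c 8 v98 .e)
noncomputable def r61 : Tr := .c 0 q135 (.c 1 q132 (.c 2 q133 (.c 6 q136 (.c 7 q134 .e))))
noncomputable def q137 : Tr := .c 7 v9 (.c 8 v19 .e)
noncomputable def r62 : Tr := .c 1 q132 (.c 2 q133 (.c 4 q133 (.c 5 q137 .e)))
noncomputable def q138 : Tr := .c 4 v19 (.c 7 v9 (.c 8 v19 .e))
noncomputable def r63 : Tr := .c 0 q138 (.c 2 q133 (.c 3 q137 (.c 4 q133 (.c 5 q137 .e))))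
noncomputable def v99 : Tr := .l 0x1c71c61c71871c61851c71c6
noncomputable def v100 : Tr := .l 0x1c71c71c71871c71c71c61c6
noncomputable def q139 : Tr := .c 4 v99 (.c 7 v100 (.c 8 v61 .e))
noncomputable def v101 : Tr := .l 0x1871871871461c71c61c6185
noncomputable def v102 : Tr := .l 0x1c61c71c71871c61c71c71c6
noncomputable def q140 : Tr := .c 7 v101 (.c 8 v102 .e)
noncomputable def q141 : Tr := .c 7 v100 (.c 8 v61 .e)
noncomputable def q142 : Tr := .c 4 v28 (.c 8 v61 .e)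
noncomputable def r64 : Tr := .c 0 q139 (.c 2 q140 (.c 3 q141 (.c 4 q140 (.c 5 q141 (.c 6 q142 .e)))))
noncomputable def q143 : Tr := .c 4 v99 .e
noncomputable def q144 : Tr := .c 4 v28 .e
noncomputable def r65 : Tr := .c 0 q139 (.c 1 q143 (.c 2 q140 (.c 3 q141 (.c 4 q140 (.c 6 q142 (.c 7 q144 .e))))))
noncomputable def t13 : Tr := .c 3 r60 (.c 5 r61 (.c 6 r62 (.c 7 r63 (.c 8 r64 (.c 9 r65 .e)))))
noncomputable def r66 : Tr := .c 3 q126 (.c 4 q127 (.c 5 q128 (.c 6 q129 .e)))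
noncomputable def q145 : Tr := .c 7 v28 (.c 8 v28 (.c 9 v28 .e))
noncomputable def q146 : Tr := .c 7 v28 (.c 8 v28 .e)
noncomputable def v103 : Tr := .l 0x1871c71461871461871871c7
noncomputable def q147 : Tr := .c 4 v31 (.c 5 v103 (.c 8 v28 (.c 9 v28 .e)))
noncomputable def q148 : Tr := .c 4 v31 (.c 5 v103 (.c 9 v28 .e))
noncomputable def r67 : Tr := .c 3 q145 (.c 5 q146 (.c 6 q147 (.c 7 q148 .e)))
noncomputable def t14 : Tr := .c 1 r66 (.c 2 r67 (.c 7 r57 (.c 8 r58 (.c 9 r59 .e))))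
noncomputable def q149 : Tr := .c 4 v16 .e
noncomputable def r68 : Tr := .c 4 q140 (.c 5 q141 (.c 7 q149 .e))
noncomputable def r69 : Tr := .c 3 q141 (.c 4 q140 (.c 5 q141 (.c 6 q142 .e)))
noncomputable def t15 : Tr := .c 0 r68 (.c 1 r69 (.c 6 r62 (.c 7 r63 (.c 8 r64 (.c 9 r65 .e)))))
noncomputable def v104 : Tr := .l 0x1461871051461871c7146187
noncomputable def v105 : Tr := .l 0x1c71c71871c71c61c71c61c7
noncomputable def q150 : Tr := .c 5 v104 (.c 9 v105 .e)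
noncomputable def r70 : Tr := .c 4 q127 (.c 5 q128 (.c 7 q150 .e))
noncomputable def q151 : Tr := .c 5 v95 (.c 8 v93 (.c 9 v93 .e))
noncomputable def r71 : Tr := .c 3 q126 (.c 4 q127 (.c 5 q128 (.c 6 q151 .e)))
noncomputable def q152 : Tr := .c 5 v103 (.c 8 v28 (.c 9 v28 .e))
noncomputable def q153 : Tr := .c 5 v103 (.c 9 v28 .e)
noncomputable def r72 : Tr := .c 3 q145 (.c 5 q146 (.c 6 q152 (.c 7 q153 .e)))
noncomputable def q154 : Tr := .c 5 v18 (.c 9 v59 .e)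
noncomputable def r73 : Tr := .c 1 q154 (.c 2 q120 (.c 4 q122 (.c 5 q123 .e)))
noncomputable def q155 : Tr := .c 5 v59 (.c 7 v19 (.c 8 v16 (.c 9 v16 .e)))
noncomputable def r74 : Tr := .c 0 q155 (.c 2 q120 (.c 3 q121 (.c 4 q122 (.c 5 q123 .e))))
noncomputable def q156 : Tr := .c 5 v91 (.c 7 v92 (.c 8 v93 (.c 9 v93 .e)))
noncomputable def r75 : Tr := .c 0 q156 (.c 2 q125 (.c 3 q126 (.c 4 q127 (.c 5 q128 (.c 6 q151 .e)))))
noncomputable def t16 : Tr := .c 0 r70 (.c 1 r71 (.c 2 r72 (.c 6 r73 (.c 7 r74 (.c 8 r75 .e)))))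
noncomputable def q157 : Tr := .c 8 v96 (.c 9 v96 .e)
noncomputable def v106 : Tr := .l 0x1861461451051c7187186146
noncomputable def q158 : Tr := .c 8 v106 .e
noncomputable def v107 : Tr := .l 0x1461871051461851c6144185
noncomputable def q159 : Tr := .c 5 v58 (.c 9 v107 .e)
noncomputable def r76 : Tr := .c 4 q157 (.c 5 q158 (.c 7 q159 .e))
noncomputable def q160 : Tr := .c 8 v106 (.c 9 v106 .e)
noncomputable def q161 : Tr := .c 5 v104 (.c 8 v106 (.c 9 v106 .e))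
noncomputable def r77 : Tr := .c 3 q160 (.c 4 q157 (.c 5 q158 (.c 6 q161 .e)))
noncomputable def v108 : Tr := .l 0x1871871461461c61c7185186
noncomputable def q162 : Tr := .c 8 v108 (.c 9 v108 .e)
noncomputable def q163 : Tr := .c 8 v108 .e
noncomputable def q164 : Tr := .c 5 v52 (.c 8 v108 (.c 9 v108 .e))
noncomputable def q165 : Tr := .c 5 v52 (.c 9 v108 .e)
noncomputable def r78 : Tr := .c 3 q162 (.c 5 q163 (.c 6 q164 (.c 7 q165 .e)))
noncomputable def v109 : Tr := .l 0x1871461461051c6186185145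
noncomputable def q166 : Tr := .c 5 v55 (.c 9 v109 .e)
noncomputable def v110 : Tr := .l 0x1861461451051c6185185144
noncomputable def q167 : Tr := .c 5 v49 (.c 8 v110 (.c 9 v110 .e))
noncomputable def r79 : Tr := .c 1 q166 (.c 2 q167 (.c 7 q159 .e))
noncomputable def v111 : Tr := .l 0x1c71871871461c71c71c6186
noncomputable def q168 : Tr := .c 5 v49 (.c 8 v111 (.c 9 v111 .e))
noncomputable def q169 : Tr := .c 5 v49 (.c 9 v111 .e)
noncomputable def r80 : Tr := .c 0 q168 (.c 1 q169 (.c 6 q164 (.c 7 q165 .e)))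
noncomputable def q170 : Tr := .c 8 v110 (.c 9 v110 .e)
noncomputable def q171 : Tr := .c 8 v96 .e
noncomputable def r81 : Tr := .c 1 q166 (.c 2 q167 (.c 4 q170 (.c 5 q171 .e)))
noncomputable def q172 : Tr := .c 5 v18 (.c 8 v96 (.c 9 v96 .e))
noncomputable def r82 : Tr := .c 0 q172 (.c 2 q167 (.c 3 q157 (.c 4 q170 (.c 5 q171 .e))))
noncomputable def t17 : Tr := .c 0 r76 (.c 1 r77 (.c 2 r78 (.c 3 r79 (.c 4 r80 (.c 6 r81 (.c 7 r82 .e))))))
noncomputable def v112 : Tr := .l 0x1c71c71c71c61c71c61c71c7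
noncomputable def v113 : Tr := .l 0x1c71871861461c71871c7187
noncomputable def q173 : Tr := .c 4 v66 (.c 5 v49 (.c 7 v112 (.c 8 v113 (.c 9 v113 .e))))
noncomputable def q174 : Tr := .c 4 v66 (.c 5 v49 (.c 9 v113 .e))
noncomputable def q175 : Tr := .c 4 v66 (.c 5 v49 .e)
noncomputable def v114 : Tr := .l 0x1c71871871461c71c61c7186
noncomputable def q176 : Tr := .c 4 v66 (.c 7 v114 .e)
noncomputable def r83 : Tr := .c 0 q173 (.c 1 q174 (.c 8 q175 (.c 9 q176 .e)))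
noncomputable def v115 : Tr := .l 0x186146145105187146186146
noncomputable def q177 : Tr := .c 4 v60 (.c 5 v55 (.c 7 v91 (.c 8 v115 (.c 9 v115 .e))))
noncomputable def q178 : Tr := .c 4 v60 (.c 5 v55 (.c 9 v115 .e))
noncomputable def v116 : Tr := .l 0x1c71871c71861871461c7186
noncomputable def q179 : Tr := .c 5 v49 (.c 7 v116 (.c 8 v113 (.c 9 v113 .e)))
noncomputable def q180 : Tr := .c 4 v60 (.c 5 v55 .e)
noncomputable def r84 : Tr := .c 0 q177 (.c 1 q178 (.c 2 q179 (.c 8 q180 .e)))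
noncomputable def v117 : Tr := .l 0x1c61851c71c61c71c61c71c7
noncomputable def q181 : Tr := .c 4 v117 (.c 5 v16 (.c 7 v16 (.c 8 v93 (.c 9 v93 .e))))
noncomputable def v118 : Tr := .l 0x1c71871c71871c71c71c7187
noncomputable def q182 : Tr := .c 5 v118 (.c 7 v19 (.c 8 v16 (.c 9 v16 .e)))
noncomputable def q183 : Tr := .c 7 v16 (.c 8 v93 (.c 9 v93 .e))
noncomputable def q184 : Tr := .c 7 v16 (.c 8 v93 .e)
noncomputable def v119 : Tr := .l 0x1c61851851441c71c61c6185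
noncomputable def v120 : Tr := .l 0x1c71871871461c71861c6185
noncomputable def q185 : Tr := .c 4 v119 (.c 7 v120 .e)
noncomputable def r85 : Tr := .c 0 q181 (.c 2 q182 (.c 3 q183 (.c 4 q121 (.c 5 q184 (.c 9 q185 .e)))))
noncomputable def v121 : Tr := .l 0x1851441851441c61851c6185
noncomputable def v122 : Tr := .l 0x146105146105187146187146
noncomputable def v123 : Tr := .l 0x1c61871871871851c61c61c7
noncomputable def q186 : Tr := .c 4 v121 (.c 5 v122 (.c 7 v93 (.c 8 v123 (.c 9 v123 .e))))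
noncomputable def v124 : Tr := .l 0x1871461871461c71871c7187
noncomputable def q187 : Tr := .c 5 v124 (.c 7 v91 (.c 8 v92 (.c 9 v92 .e)))
noncomputable def q188 : Tr := .c 7 v93 (.c 8 v123 (.c 9 v123 .e))
noncomputable def q189 : Tr := .c 7 v91 (.c 8 v92 (.c 9 v92 .e))
noncomputable def q190 : Tr := .c 7 v93 (.c 8 v123 .e)
noncomputable def r86 : Tr := .c 0 q186 (.c 2 q187 (.c 3 q188 (.c 4 q189 (.c 5 q190 .e))))
noncomputable def q191 : Tr := .c 4 v121 (.c 5 v122 (.c 9 v123 .e))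
noncomputable def r87 : Tr := .c 0 q186 (.c 1 q191 (.c 2 q187 (.c 3 q188 (.c 4 q189 .e))))
noncomputable def t18 : Tr := .c 4 r83 (.c 5 r84 (.c 7 r85 (.c 8 r86 (.c 9 r87 .e))))
noncomputable def q192 : Tr := .c 7 v120 (.c 8 v39 .e)
noncomputable def v125 : Tr := .l 0x187146146105186145185144
noncomputable def q193 : Tr := .c 4 v66 (.c 7 v125 .e)
noncomputable def r88 : Tr := .c 1 q86 (.c 2 q192 (.c 8 q86 (.c 9 q193 .e)))
noncomputable def q194 : Tr := .c 4 v66 (.c 7 v19 (.c 8 v113 .e))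
noncomputable def r89 : Tr := .c 0 q194 (.c 1 q86 (.c 2 q192 (.c 8 q86 .e)))
noncomputable def r90 : Tr := .c 1 q86 (.c 2 q192 (.c 4 q192 (.c 5 q123 (.c 8 q86 (.c 9 q193 .e)))))
noncomputable def v126 : Tr := .l 0x1c71c61c71871c71c71c71c7
noncomputable def q195 : Tr := .c 4 v126 (.c 7 v19 (.c 8 v16 .e))
noncomputable def r91 : Tr := .c 0 q195 (.c 2 q192 (.c 3 q123 (.c 4 q192 (.c 5 q123 (.c 9 q193 .e)))))
noncomputable def v127 : Tr := .l 0x1c61851c61851c71c61c71c6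
noncomputable def q196 : Tr := .c 4 v127 (.c 7 v16 (.c 8 v92 .e))
noncomputable def v128 : Tr := .l 0x1c71c71c71871861c71c71c6
noncomputable def q197 : Tr := .c 7 v128 (.c 8 v28 .e)
noncomputable def q198 : Tr := .c 7 v16 (.c 8 v92 .e)
noncomputable def r92 : Tr := .c 0 q196 (.c 2 q197 (.c 3 q198 (.c 4 q197 (.c 5 q198 .e))))
noncomputable def q199 : Tr := .c 4 v127 .e
noncomputable def r93 : Tr := .c 0 q196 (.c 1 q199 (.c 2 q197 (.c 3 q198 (.c 4 q197 .e))))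
noncomputable def t19 : Tr := .c 3 r88 (.c 5 r89 (.c 6 r90 (.c 7 r91 (.c 8 r92 (.c 9 r93 .e)))))
noncomputable def v129 : Tr := .l 0x1851441c61851c61851c71c6
noncomputable def v130 : Tr := .l 0x187146146105187146187146
noncomputable def q200 : Tr := .c 4 v129 (.c 7 v130 .e)
noncomputable def r94 : Tr := .c 3 q188 (.c 4 q189 (.c 5 q190 (.c 9 q200 .e)))
noncomputable def q201 : Tr := .c 7 v28 (.c 8 v27 (.c 9 v27 .e))
noncomputable def q202 : Tr := .c 7 v28 (.c 8 v27 .e)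
noncomputable def v131 : Tr := .l 0x1441031851441851441c6185
noncomputable def q203 : Tr := .c 4 v131 (.c 5 v79 .e)
noncomputable def v132 : Tr := .l 0x1871461871461c61851c7186
noncomputable def q204 : Tr := .c 4 v131 (.c 7 v132 .e)
noncomputable def r95 : Tr := .c 3 q201 (.c 5 q202 (.c 8 q203 (.c 9 q204 .e)))
noncomputable def t20 : Tr := .c 1 r94 (.c 2 r95 (.c 7 r85 (.c 8 r86 (.c 9 r87 .e))))
noncomputable def q205 : Tr := .c 4 v119 .e
noncomputable def r96 : Tr := .c 4 q197 (.c 5 q198 (.c 8 q205 (.c 9 q185 .e)))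
noncomputable def r97 : Tr := .c 3 q198 (.c 4 q197 (.c 5 q198 (.c 9 q185 .e)))
noncomputable def t21 : Tr := .c 0 r96 (.c 1 r97 (.c 6 r90 (.c 7 r91 (.c 8 r92 (.c 9 r93 .e)))))
noncomputable def v133 : Tr := .l 0x146105187146187146187146
noncomputable def q206 : Tr := .c 5 v133 .e
noncomputable def q207 : Tr := .c 7 v130 .e
noncomputable def r98 : Tr := .c 4 q189 (.c 5 q190 (.c 8 q206 (.c 9 q207 .e)))
noncomputable def r99 : Tr := .c 3 q188 (.c 4 q189 (.c 5 q190 (.c 9 q207 .e)))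
noncomputable def q208 : Tr := .c 5 v79 .e
noncomputable def q209 : Tr := .c 7 v132 .e
noncomputable def r100 : Tr := .c 3 q201 (.c 5 q202 (.c 8 q208 (.c 9 q209 .e)))
noncomputable def v134 : Tr := .l 0x1871461871461c7187187146
noncomputable def q210 : Tr := .c 5 v134 (.c 9 v86 .e)
noncomputable def q211 : Tr := .c 5 v134 .e
noncomputable def q212 : Tr := .c 7 v120 .e
noncomputable def r101 : Tr := .c 1 q210 (.c 2 q182 (.c 4 q121 (.c 5 q184 (.c 8 q211 (.c 9 q212 .e)))))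
noncomputable def q213 : Tr := .c 5 v16 (.c 7 v16 (.c 8 v93 (.c 9 v93 .e)))
noncomputable def r102 : Tr := .c 0 q213 (.c 2 q182 (.c 3 q183 (.c 4 q121 (.c 5 q184 (.c 9 q212 .e)))))
noncomputable def q214 : Tr := .c 5 v122 (.c 7 v93 (.c 8 v123 (.c 9 v123 .e)))
noncomputable def r103 : Tr := .c 0 q214 (.c 2 q187 (.c 3 q188 (.c 4 q189 (.c 5 q190 .e))))
noncomputable def t22 : Tr := .c 0 r98 (.c 1 r99 (.c 2 r100 (.c 6 r101 (.c 7 r102 (.c 8 r103 .e)))))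
noncomputable def q215 : Tr := .c 7 v93 .e
noncomputable def q216 : Tr := .c 7 v91 .e
noncomputable def r104 : Tr := .c 3 q215 (.c 4 q216 (.c 5 q215 (.c 9 q200 .e)))
noncomputable def r105 : Tr := .c 3 q24 (.c 5 q24 (.c 8 q203 (.c 9 q204 .e)))
noncomputable def v135 : Tr := .l 0x1c71c61c71c71c61851c71c6
noncomputable def q217 : Tr := .c 4 v131 (.c 5 v79 (.c 7 v135 .e))
noncomputable def r106 : Tr := .c 0 q217 (.c 1 q203 (.c 8 q203 (.c 9 q204 .e)))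
noncomputable def v136 : Tr := .l 0x1c71871c71c71871461c7187
noncomputable def q218 : Tr := .c 4 v72 (.c 5 v84 (.c 7 v136 .e))
noncomputable def v137 : Tr := .l 0x1871461c7187146105187146
noncomputable def q219 : Tr := .c 5 v79 (.c 7 v137 .e)
noncomputable def r107 : Tr := .c 0 q218 (.c 1 q100 (.c 2 q219 (.c 8 q100 .e)))
noncomputable def q220 : Tr := .c 4 v121 (.c 5 v122 (.c 7 v93 .e))
noncomputable def q221 : Tr := .c 5 v124 (.c 7 v91 .e)
noncomputable def r108 : Tr := .c 0 q220 (.c 2 q221 (.c 3 q215 (.c 4 q216 (.c 5 q215 .e))))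
noncomputable def q222 : Tr := .c 4 v121 (.c 5 v122 .e)
noncomputable def r109 : Tr := .c 0 q220 (.c 1 q222 (.c 2 q221 (.c 3 q215 (.c 4 q216 .e))))
noncomputable def t23 : Tr := .c 1 r104 (.c 2 r105 (.c 4 r106 (.c 5 r107 (.c 8 r108 (.c 9 r109 .e)))))
noncomputable def r110 : Tr := .c 0 q177 (.c 1 q178 (.c 8 q180 .e))
noncomputable def r111 : Tr := .c 0 q181 (.c 3 q183 (.c 5 q184 (.c 9 q185 .e)))
noncomputable def r112 : Tr := .c 0 q186 (.c 3 q188 (.c 5 q190 .e))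
noncomputable def r113 : Tr := .c 0 q186 (.c 1 q191 (.c 3 q188 .e))
noncomputable def t24 : Tr := .c 4 r83 (.c 5 r110 (.c 7 r111 (.c 8 r112 (.c 9 r113 .e))))
noncomputable def v138 : Tr := .l 0x1871461461051c6185186145
noncomputable def q223 : Tr := .c 4 v60 (.c 7 v138 .e)
noncomputable def r114 : Tr := .c 1 q178 (.c 8 q180 (.c 9 q223 .e))
noncomputable def q224 : Tr := .c 7 v59 (.c 8 v112 .e)
noncomputable def r115 : Tr := .c 1 q178 (.c 5 q224 (.c 8 q180 (.c 9 q223 .e)))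
noncomputable def t25 : Tr := .c 3 r114 (.c 4 r83 (.c 5 r110 (.c 6 r115 (.c 9 r113 .e))))
noncomputable def r116 : Tr := .c 1 q86 (.c 8 q86 (.c 9 q193 .e))
noncomputable def r117 : Tr := .c 0 q194 (.c 1 q86 (.c 8 q86 .e))
noncomputable def r118 : Tr := .c 1 q86 (.c 5 q123 (.c 8 q86 (.c 9 q193 .e)))
noncomputable def r119 : Tr := .c 0 q195 (.c 3 q123 (.c 5 q123 (.c 9 q193 .e)))
noncomputable def r120 : Tr := .c 0 q196 (.c 3 q198 (.c 5 q198 .e))
noncomputable def r121 : Tr := .c 0 q196 (.c 1 q199 (.c 3 q198 .e))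
noncomputable def t26 : Tr := .c 3 r116 (.c 5 r117 (.c 6 r118 (.c 7 r119 (.c 8 r120 (.c 9 r121 .e)))))
noncomputable def r122 : Tr := .c 3 q188 (.c 5 q190 (.c 9 q200 .e))
noncomputable def t27 : Tr := .c 1 r122 (.c 2 r95 (.c 7 r111 (.c 8 r112 (.c 9 r113 .e))))
noncomputable def r123 : Tr := .c 5 q198 (.c 8 q205 (.c 9 q185 .e))
noncomputable def r124 : Tr := .c 3 q198 (.c 5 q198 (.c 9 q185 .e))
noncomputable def t28 : Tr := .c 0 r123 (.c 1 r124 (.c 6 r118 (.c 7 r119 (.c 8 r120 (.c 9 r121 .e)))))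
noncomputable def r125 : Tr := .c 3 q215 (.c 5 q215 (.c 9 q200 .e))
noncomputable def r126 : Tr := .c 0 q218 (.c 1 q100 (.c 8 q100 .e))
noncomputable def r127 : Tr := .c 0 q220 (.c 3 q215 (.c 5 q215 .e))
noncomputable def r128 : Tr := .c 0 q220 (.c 1 q222 (.c 3 q215 .e))
noncomputable def t29 : Tr := .c 1 r125 (.c 2 r105 (.c 4 r106 (.c 5 r126 (.c 8 r127 (.c 9 r128 .e)))))
noncomputable def v139 : Tr := .l 0x1c71871c71c71c61c61c71c7
noncomputable def q225 : Tr := .c 7 v139 .e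
noncomputable def v140 : Tr := .l 0x1461051871461851441c6185
noncomputable def q226 : Tr := .c 4 v72 (.c 7 v140 .e)
noncomputable def r129 : Tr := .c 5 q225 (.c 8 q100 (.c 9 q226 .e))
noncomputable def r130 : Tr := .c 1 q100 (.c 8 q100 (.c 9 q226 .e))
noncomputable def t30 : Tr := .c 0 r129 (.c 2 r105 (.c 3 r130 (.c 4 r106 (.c 5 r126 (.c 9 r128 .e)))))
noncomputable def q227 : Tr := .c 3 v54 (.c 4 v53 (.c 5 v54 (.c 6 v54 (.c 9 v55 .e))))
noncomputable def q228 : Tr := .c 3 v48 (.c 5 v48 (.c 6 v48 (.c 9 v49 .e)))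
noncomputable def q229 : Tr := .c 3 v57 (.c 4 v56 (.c 5 v57 (.c 9 v58 .e)))
noncomputable def q230 : Tr := .c 3 v54 (.c 4 v53 (.c 5 v54 (.c 6 v54 .e)))
noncomputable def q231 : Tr := .c 3 v54 (.c 4 v53 (.c 6 v54 .e))
noncomputable def r131 : Tr := .c 1 q227 (.c 2 q228 (.c 7 q229 (.c 8 q230 (.c 9 q231 .e))))
noncomputable def q232 : Tr := .c 3 v48 (.c 4 v47 (.c 5 v48 (.c 6 v48 (.c 9 v49 .e))))
noncomputable def q233 : Tr := .c 3 v51 (.c 4 v50 (.c 5 v51 (.c 9 v52 .e)))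
noncomputable def q234 : Tr := .c 3 v48 (.c 4 v47 (.c 5 v48 (.c 6 v48 .e)))
noncomputable def q235 : Tr := .c 3 v48 (.c 4 v47 (.c 6 v48 .e))
noncomputable def r132 : Tr := .c 0 q55 (.c 1 q232 (.c 6 q57 (.c 7 q233 (.c 8 q234 (.c 9 q235 .e)))))
noncomputable def r133 : Tr := .c 0 q61 (.c 1 q227 (.c 2 q228 (.c 6 q63 (.c 7 q229 (.c 8 q230 .e)))))
noncomputable def q236 : Tr := .c 6 v48 (.c 9 v49 .e)
noncomputable def q237 : Tr := .c 6 v55 .e
noncomputable def r134 : Tr := .c 1 q227 (.c 2 q228 (.c 4 q236 (.c 5 q237 (.c 8 q230 (.c 9 q231 .e)))))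
noncomputable def q238 : Tr := .c 3 v55 (.c 4 v60 (.c 5 v55 (.c 6 v55 (.c 9 v62 .e))))
noncomputable def q239 : Tr := .c 3 v49 (.c 5 v49 (.c 6 v49 (.c 9 v67 .e)))
noncomputable def q240 : Tr := .c 9 v62 .e
noncomputable def q241 : Tr := .c 6 v49 (.c 9 v67 .e)
noncomputable def q242 : Tr := .c 3 v58 (.c 4 v63 (.c 5 v58 (.c 9 v62 .e)))
noncomputable def r135 : Tr := .c 0 q73 (.c 1 q238 (.c 2 q239 (.c 3 q240 (.c 4 q241 (.c 6 q74 (.c 7 q242 .e))))))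
noncomputable def t31 : Tr := .c 3 r131 (.c 4 r132 (.c 5 r133 (.c 6 r134 (.c 9 r135 .e))))
noncomputable def q243 : Tr := .c 3 v55 (.c 6 v55 .e)
noncomputable def q244 : Tr := .c 3 v51 (.c 4 v50 .e)
noncomputable def r136 : Tr := .c 1 q235 (.c 2 q243 (.c 7 q244 (.c 8 q235 (.c 9 q235 .e))))
noncomputable def r137 : Tr := .c 0 q77 (.c 1 q235 (.c 2 q243 (.c 6 q78 (.c 7 q244 (.c 8 q235 .e)))))
noncomputable def q245 : Tr := .c 6 v49 .e
noncomputable def r138 : Tr := .c 1 q235 (.c 2 q243 (.c 4 q237 (.c 5 q245 (.c 8 q235 (.c 9 q235 .e)))))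
noncomputable def q246 : Tr := .c 4 v18 .e
noncomputable def r139 : Tr := .c 0 q246 (.c 2 q243 (.c 4 q237 (.c 5 q245 (.c 9 q235 .e))))
noncomputable def v141 : Tr := .l 0x1051051050c4146146146105
noncomputable def q247 : Tr := .c 3 v141 (.c 6 v141 .e)
noncomputable def q248 : Tr := .c 6 v141 .e
noncomputable def v142 : Tr := .l 0x146146145105187187186146
noncomputable def q249 : Tr := .c 6 v142 .e
noncomputable def r140 : Tr := .c 0 q86 (.c 2 q247 (.c 4 q248 (.c 5 q249 (.c 6 q87 .e))))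
noncomputable def q250 : Tr := .c 3 v49 (.c 4 v66 (.c 6 v49 .e))
noncomputable def q251 : Tr := .c 3 v52 (.c 4 v68 .e)
noncomputable def r141 : Tr := .c 0 q86 (.c 1 q250 (.c 2 q247 (.c 4 q248 (.c 6 q87 (.c 7 q251 .e)))))
noncomputable def t32 : Tr := .c 3 r136 (.c 5 r137 (.c 6 r138 (.c 7 r139 (.c 8 r140 (.c 9 r141 .e)))))
noncomputable def v143 : Tr := .l 0x103144144145144185185186
noncomputable def q252 : Tr := .c 6 v143 .e
noncomputable def q253 : Tr := .c 6 v84 .e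
noncomputable def q254 : Tr := .c 3 v83 (.c 4 v82 (.c 5 v83 .e))
noncomputable def q255 : Tr := .c 3 v81 (.c 4 v80 (.c 5 v81 (.c 6 v81 .e)))
noncomputable def q256 : Tr := .c 3 v81 (.c 4 v80 (.c 6 v81 .e))
noncomputable def r142 : Tr := .c 4 q252 (.c 5 q253 (.c 7 q254 (.c 8 q255 (.c 9 q256 .e))))
noncomputable def v144 : Tr := .l 0x1030c4144105144105185146
noncomputable def q257 : Tr := .c 6 v144 .e
noncomputable def q258 : Tr := .c 3 v76 (.c 4 v75 (.c 5 v76 .e))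
noncomputable def q259 : Tr := .c 3 v78 (.c 4 v77 (.c 5 v78 (.c 6 v78 .e)))
noncomputable def q260 : Tr := .c 3 v78 (.c 4 v77 (.c 6 v78 .e))
noncomputable def r143 : Tr := .c 5 q257 (.c 6 q92 (.c 7 q258 (.c 8 q259 (.c 9 q260 .e))))
noncomputable def q261 : Tr := .c 3 v78 (.c 5 v78 (.c 6 v78 .e))
noncomputable def r144 : Tr := .c 1 q255 (.c 2 q261 (.c 7 q254 (.c 8 q255 (.c 9 q256 .e))))
noncomputable def r145 : Tr := .c 0 q93 (.c 1 q259 (.c 6 q92 (.c 7 q258 (.c 8 q259 (.c 9 q260 .e)))))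
noncomputable def r146 : Tr := .c 0 q97 (.c 1 q255 (.c 2 q261 (.c 6 q98 (.c 7 q254 (.c 8 q255 .e)))))
noncomputable def q262 : Tr := .c 3 v84 (.c 4 v72 (.c 5 v84 (.c 6 v84 .e)))
noncomputable def q263 : Tr := .c 3 v79 (.c 5 v79 (.c 6 v79 .e))
noncomputable def q264 : Tr := .c 6 v79 .e
noncomputable def q265 : Tr := .c 3 v71 (.c 4 v70 (.c 5 v71 .e))
noncomputable def r147 : Tr := .c 0 q100 (.c 1 q262 (.c 2 q263 (.c 4 q264 (.c 6 q89 (.c 7 q265 .e)))))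
noncomputable def t33 : Tr := .c 0 r142 (.c 2 r143 (.c 3 r144 (.c 4 r145 (.c 5 r146 (.c 9 r147 .e)))))
noncomputable def q266 : Tr := .c 9 v18 .e
noncomputable def q267 : Tr := .c 3 v54 (.c 4 v53 (.c 5 v54 .e))
noncomputable def q268 : Tr := .c 3 v54 (.c 4 v53 .e)
noncomputable def r148 : Tr := .c 4 q266 (.c 7 q229 (.c 8 q267 (.c 9 q268 .e)))
noncomputable def q269 : Tr := .c 9 v52 .e
noncomputable def q270 : Tr := .c 3 v48 (.c 4 v47 (.c 5 v48 .e))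
noncomputable def q271 : Tr := .c 3 v48 (.c 4 v47 .e)
noncomputable def r149 : Tr := .c 3 q269 (.c 6 q57 (.c 7 q233 (.c 8 q270 (.c 9 q271 .e))))
noncomputable def q272 : Tr := .c 3 v54 (.c 4 v53 (.c 5 v54 (.c 9 v55 .e)))
noncomputable def q273 : Tr := .c 3 v48 (.c 5 v48 (.c 9 v49 .e))
noncomputable def r150 : Tr := .c 1 q272 (.c 2 q273 (.c 7 q229 (.c 8 q267 (.c 9 q268 .e))))
noncomputable def q274 : Tr := .c 3 v48 (.c 4 v47 (.c 5 v48 (.c 9 v49 .e)))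
noncomputable def r151 : Tr := .c 0 q55 (.c 1 q274 (.c 6 q57 (.c 7 q233 (.c 8 q270 (.c 9 q271 .e)))))
noncomputable def r152 : Tr := .c 0 q61 (.c 1 q272 (.c 2 q273 (.c 6 q63 (.c 7 q229 (.c 8 q267 .e)))))
noncomputable def q275 : Tr := .c 9 v49 .e
noncomputable def r153 : Tr := .c 1 q272 (.c 2 q273 (.c 4 q275 (.c 8 q267 (.c 9 q268 .e))))
noncomputable def t34 : Tr := .c 0 r148 (.c 2 r149 (.c 3 r150 (.c 4 r151 (.c 5 r152 (.c 6 r153 .e)))))
noncomputable def q276 : Tr := .c 3 v57 (.c 5 v57 (.c 9 v58 .e))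
noncomputable def q277 : Tr := .c 3 v54 (.c 5 v54 .e)
noncomputable def q278 : Tr := .c 3 v54 .e
noncomputable def r154 : Tr := .c 4 q266 (.c 7 q276 (.c 8 q277 (.c 9 q278 .e)))
noncomputable def q279 : Tr := .c 9 v104 .e
noncomputable def q280 : Tr := .c 5 v58 (.c 9 v104 .e)
noncomputable def r155 : Tr := .c 3 q279 (.c 4 q266 (.c 6 q280 (.c 9 q278 .e)))
noncomputable def q281 : Tr := .c 5 v51 (.c 9 v52 .e)
noncomputable def q282 : Tr := .c 3 v51 (.c 5 v51 (.c 9 v52 .e))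
noncomputable def q283 : Tr := .c 3 v48 (.c 5 v48 .e)
noncomputable def q284 : Tr := .c 3 v48 .e
noncomputable def r156 : Tr := .c 3 q269 (.c 6 q281 (.c 7 q282 (.c 8 q283 (.c 9 q284 .e))))
noncomputable def q285 : Tr := .c 3 v54 (.c 5 v54 (.c 9 v55 .e))
noncomputable def r157 : Tr := .c 1 q285 (.c 2 q273 (.c 7 q276 (.c 8 q277 (.c 9 q278 .e))))
noncomputable def q286 : Tr := .c 5 v48 (.c 9 v49 .e)
noncomputable def r158 : Tr := .c 0 q286 (.c 1 q273 (.c 6 q281 (.c 7 q282 (.c 8 q283 (.c 9 q284 .e)))))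
noncomputable def r159 : Tr := .c 1 q285 (.c 2 q273 (.c 4 q275 (.c 8 q277 (.c 9 q278 .e))))
noncomputable def q287 : Tr := .c 5 v55 (.c 9 v18 .e)
noncomputable def r160 : Tr := .c 0 q287 (.c 2 q273 (.c 3 q266 (.c 4 q275 (.c 9 q278 .e))))
noncomputable def t35 : Tr := .c 0 r154 (.c 1 r155 (.c 2 r156 (.c 3 r157 (.c 4 r158 (.c 6 r159 (.c 7 r160 .e))))))
noncomputable def q288 : Tr := .c 3 v1 (.c 4 v0 (.c 5 v1 (.c 6 v1 (.c 9 v3 .e))))
noncomputable def q289 : Tr := .c 3 v5 (.c 4 v4 (.c 5 v5 (.c 9 v6 .e)))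
noncomputable def q290 : Tr := .c 3 v1 (.c 4 v0 (.c 5 v1 (.c 6 v1 .e)))
noncomputable def r161 : Tr := .c 0 q1 (.c 1 q288 (.c 6 q3 (.c 7 q289 (.c 8 q290 .e))))
noncomputable def q291 : Tr := .c 3 v8 (.c 4 v7 (.c 5 v8 (.c 6 v8 (.c 9 v10 .e))))
noncomputable def q292 : Tr := .c 3 v1 (.c 5 v1 (.c 6 v1 (.c 9 v3 .e)))
noncomputable def q293 : Tr := .c 3 v13 (.c 4 v12 (.c 5 v13 (.c 9 v14 .e)))
noncomputable def q294 : Tr := .c 3 v8 (.c 4 v7 (.c 5 v8 (.c 6 v8 .e)))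
noncomputable def r162 : Tr := .c 0 q6 (.c 1 q291 (.c 2 q292 (.c 6 q9 (.c 7 q293 (.c 8 q294 .e)))))
noncomputable def q295 : Tr := .c 4 v2 (.c 5 v15 (.c 9 v17 .e))
noncomputable def q296 : Tr := .c 3 v18 (.c 5 v18 (.c 6 v18 (.c 9 v20 .e)))
noncomputable def q297 : Tr := .c 9 v17 .e
noncomputable def q298 : Tr := .c 6 v18 (.c 9 v20 .e)
noncomputable def r163 : Tr := .c 0 q295 (.c 2 q296 (.c 3 q297 (.c 4 q298 .e)))
noncomputable def q299 : Tr := .c 3 v3 (.c 5 v3 (.c 6 v3 (.c 9 v25 .e)))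
noncomputable def q300 : Tr := .c 9 v23 .e
noncomputable def q301 : Tr := .c 6 v3 (.c 9 v25 .e)
noncomputable def r164 : Tr := .c 0 q20 (.c 2 q299 (.c 3 q300 (.c 4 q301 (.c 6 q21 .e))))
noncomputable def q302 : Tr := .c 3 v10 (.c 4 v21 (.c 5 v10 (.c 6 v10 (.c 9 v23 .e))))
noncomputable def q303 : Tr := .c 3 v14 (.c 4 v26 (.c 5 v14 (.c 9 v23 .e)))
noncomputable def r165 : Tr := .c 0 q20 (.c 1 q302 (.c 2 q299 (.c 3 q300 (.c 4 q301 (.c 6 q21 (.c 7 q303 .e))))))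
noncomputable def t36 : Tr := .c 4 r161 (.c 5 r162 (.c 7 r163 (.c 8 r164 (.c 9 r165 .e))))
noncomputable def r166 : Tr := .c 1 q291 (.c 2 q292 (.c 7 q293 (.c 8 q294 .e)))
noncomputable def q304 : Tr := .c 6 v1 (.c 9 v3 .e)
noncomputable def r167 : Tr := .c 1 q291 (.c 2 q292 (.c 4 q304 (.c 8 q294 .e)))
noncomputable def t37 : Tr := .c 3 r166 (.c 4 r161 (.c 5 r162 (.c 6 r167 (.c 9 r165 .e))))
noncomputable def q305 : Tr := .c 6 v44 .e
noncomputable def r168 : Tr := .c 4 q305 (.c 6 q25 .e)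
noncomputable def q306 : Tr := .c 3 v33 (.c 4 v32 (.c 5 v33 .e))
noncomputable def q307 : Tr := .c 3 v35 (.c 4 v34 (.c 5 v35 (.c 6 v35 .e)))
noncomputable def r169 : Tr := .c 6 q27 (.c 7 q306 (.c 8 q307 .e))
noncomputable def r170 : Tr := .c 0 q28 (.c 1 q307 (.c 6 q27 (.c 7 q306 (.c 8 q307 .e))))
noncomputable def q308 : Tr := .c 3 v38 (.c 4 v37 (.c 5 v38 (.c 6 v38 .e)))
noncomputable def q309 : Tr := .c 3 v35 (.c 5 v35 (.c 6 v35 .e))
noncomputable def q310 : Tr := .c 3 v41 (.c 4 v40 (.c 5 v41 .e))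
noncomputable def r171 : Tr := .c 0 q31 (.c 1 q308 (.c 2 q309 (.c 6 q33 (.c 7 q310 (.c 8 q308 .e)))))
noncomputable def q311 : Tr := .c 3 v44 (.c 5 v44 (.c 6 v44 .e))
noncomputable def r172 : Tr := .c 0 q36 (.c 2 q311 (.c 4 q305 (.c 6 q25 .e)))
noncomputable def q312 : Tr := .c 3 v43 (.c 4 v42 (.c 5 v43 (.c 6 v43 .e)))
noncomputable def q313 : Tr := .c 3 v30 (.c 4 v29 (.c 5 v30 .e))
noncomputable def r173 : Tr := .c 0 q36 (.c 1 q312 (.c 2 q311 (.c 4 q305 (.c 6 q25 (.c 7 q313 .e)))))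
noncomputable def t38 : Tr := .c 1 r168 (.c 2 r169 (.c 4 r170 (.c 5 r171 (.c 8 r172 (.c 9 r173 .e)))))
noncomputable def v145 : Tr := .l 0x144185185186103144144185
noncomputable def q314 : Tr := .c 6 v145 .e
noncomputable def r174 : Tr := .c 4 q314 (.c 7 q310 (.c 8 q308 .e))
noncomputable def r175 : Tr := .c 1 q308 (.c 2 q309 (.c 7 q310 (.c 8 q308 .e)))
noncomputable def t39 : Tr := .c 0 r174 (.c 2 r169 (.c 3 r175 (.c 4 r170 (.c 5 r171 (.c 9 r173 .e)))))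
noncomputable def q315 : Tr := .c 9 v45 .e
noncomputable def q316 : Tr := .c 3 v8 (.c 4 v7 (.c 5 v8 .e))
noncomputable def r176 : Tr := .c 4 q315 (.c 7 q293 (.c 8 q316 .e))
noncomputable def q317 : Tr := .c 9 v6 .e
noncomputable def q318 : Tr := .c 3 v1 (.c 4 v0 (.c 5 v1 .e))
noncomputable def r177 : Tr := .c 3 q317 (.c 6 q3 (.c 7 q289 (.c 8 q318 .e)))
noncomputable def q319 : Tr := .c 3 v8 (.c 4 v7 (.c 5 v8 (.c 9 v10 .e)))
noncomputable def q320 : Tr := .c 3 v1 (.c 5 v1 (.c 9 v3 .e))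
noncomputable def r178 : Tr := .c 1 q319 (.c 2 q320 (.c 7 q293 (.c 8 q316 .e)))
noncomputable def q321 : Tr := .c 3 v1 (.c 4 v0 (.c 5 v1 (.c 9 v3 .e)))
noncomputable def r179 : Tr := .c 0 q1 (.c 1 q321 (.c 6 q3 (.c 7 q289 (.c 8 q318 .e))))
noncomputable def r180 : Tr := .c 0 q6 (.c 1 q319 (.c 2 q320 (.c 6 q9 (.c 7 q293 (.c 8 q316 .e)))))
noncomputable def q322 : Tr := .c 9 v3 .e
noncomputable def r181 : Tr := .c 1 q319 (.c 2 q320 (.c 4 q322 (.c 8 q316 .e)))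
noncomputable def t40 : Tr := .c 0 r176 (.c 2 r177 (.c 3 r178 (.c 4 r179 (.c 5 r180 (.c 6 r181 .e)))))
noncomputable def q323 : Tr := .c 3 v13 (.c 5 v13 (.c 9 v14 .e))
noncomputable def q324 : Tr := .c 3 v8 (.c 5 v8 .e)
noncomputable def r182 : Tr := .c 4 q315 (.c 7 q323 (.c 8 q324 .e))
noncomputable def q325 : Tr := .c 9 v46 .e
noncomputable def q326 : Tr := .c 5 v14 (.c 9 v46 .e)
noncomputable def r183 : Tr := .c 3 q325 (.c 4 q315 (.c 6 q326 .e))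
noncomputable def q327 : Tr := .c 3 v5 (.c 5 v5 (.c 9 v6 .e))
noncomputable def q328 : Tr := .c 3 v1 (.c 5 v1 .e)
noncomputable def r184 : Tr := .c 3 q317 (.c 6 q49 (.c 7 q327 (.c 8 q328 .e)))
noncomputable def q329 : Tr := .c 3 v8 (.c 5 v8 (.c 9 v10 .e))
noncomputable def r185 : Tr := .c 1 q329 (.c 2 q320 (.c 7 q323 (.c 8 q324 .e)))
noncomputable def r186 : Tr := .c 0 q52 (.c 1 q320 (.c 6 q49 (.c 7 q327 (.c 8 q328 .e))))
noncomputable def r187 : Tr := .c 1 q329 (.c 2 q320 (.c 4 q322 (.c 8 q324 .e)))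
noncomputable def q330 : Tr := .c 5 v10 (.c 9 v45 .e)
noncomputable def r188 : Tr := .c 0 q330 (.c 2 q320 (.c 3 q315 (.c 4 q322 .e)))
noncomputable def t41 : Tr := .c 0 r182 (.c 1 r183 (.c 2 r184 (.c 3 r185 (.c 4 r186 (.c 6 r187 (.c 7 r188 .e))))))
noncomputable def r189 : Tr := .c 0 q61 (.c 1 q227 (.c 6 q63 (.c 7 q229 (.c 8 q230 .e))))
noncomputable def q331 : Tr := .c 4 v15 (.c 5 v16 (.c 9 v16 .e))
noncomputable def q332 : Tr := .c 9 v16 .e
noncomputable def q333 : Tr := .c 6 v18 .e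
noncomputable def q334 : Tr := .c 3 v55 (.c 4 v60 (.c 6 v55 .e))
noncomputable def r190 : Tr := .c 0 q331 (.c 3 q332 (.c 5 q333 (.c 9 q334 .e)))
noncomputable def v146 : Tr := .l 0x1851461441451c6187185186
noncomputable def q335 : Tr := .c 6 v146 .e
noncomputable def r191 : Tr := .c 0 q73 (.c 3 q240 (.c 5 q335 (.c 6 q74 .e)))
noncomputable def r192 : Tr := .c 0 q73 (.c 1 q238 (.c 3 q240 (.c 6 q74 (.c 7 q242 .e))))
noncomputable def t42 : Tr := .c 4 r132 (.c 5 r189 (.c 7 r190 (.c 8 r191 (.c 9 r192 .e))))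
noncomputable def r193 : Tr := .c 1 q227 (.c 7 q229 (.c 8 q230 (.c 9 q231 .e)))
noncomputable def r194 : Tr := .c 1 q227 (.c 5 q237 (.c 8 q230 (.c 9 q231 .e)))
noncomputable def t43 : Tr := .c 3 r193 (.c 4 r132 (.c 5 r189 (.c 6 r194 (.c 9 r192 .e))))
noncomputable def r195 : Tr := .c 1 q235 (.c 7 q244 (.c 8 q235 (.c 9 q235 .e)))
noncomputable def r196 : Tr := .c 0 q77 (.c 1 q235 (.c 6 q78 (.c 7 q244 (.c 8 q235 .e))))
noncomputable def r197 : Tr := .c 1 q235 (.c 5 q245 (.c 8 q235 (.c 9 q235 .e)))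
noncomputable def r198 : Tr := .c 0 q246 (.c 5 q245 (.c 9 q235 .e))
noncomputable def r199 : Tr := .c 0 q86 (.c 5 q249 (.c 6 q87 .e))
noncomputable def r200 : Tr := .c 0 q86 (.c 1 q250 (.c 6 q87 (.c 7 q251 .e)))
noncomputable def t44 : Tr := .c 3 r195 (.c 5 r196 (.c 6 r197 (.c 7 r198 (.c 8 r199 (.c 9 r200 .e)))))
noncomputable def v147 : Tr := .l 0x1441051851461851461c6187
noncomputable def q336 : Tr := .c 6 v147 .e
noncomputable def q337 : Tr := .c 3 v84 (.c 4 v72 (.c 6 v84 .e))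
noncomputable def r201 : Tr := .c 5 q336 (.c 6 q89 (.c 9 q337 .e))
noncomputable def r202 : Tr := .c 0 q97 (.c 1 q255 (.c 6 q98 (.c 7 q254 (.c 8 q255 .e))))
noncomputable def r203 : Tr := .c 0 q100 (.c 5 q336 (.c 6 q89 .e))
noncomputable def r204 : Tr := .c 0 q100 (.c 1 q262 (.c 6 q89 (.c 7 q265 .e)))
noncomputable def t45 : Tr := .c 1 r201 (.c 2 r143 (.c 4 r145 (.c 5 r202 (.c 8 r203 (.c 9 r204 .e)))))
noncomputable def r205 : Tr := .c 5 q253 (.c 7 q254 (.c 8 q255 (.c 9 q256 .e)))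
noncomputable def r206 : Tr := .c 1 q255 (.c 7 q254 (.c 8 q255 (.c 9 q256 .e)))
noncomputable def t46 : Tr := .c 0 r205 (.c 2 r143 (.c 3 r206 (.c 4 r145 (.c 5 r202 (.c 9 r204 .e)))))
noncomputable def r207 : Tr := .c 7 q229 (.c 8 q267 (.c 9 q268 .e))
noncomputable def r208 : Tr := .c 1 q272 (.c 7 q229 (.c 8 q267 (.c 9 q268 .e)))
noncomputable def r209 : Tr := .c 0 q61 (.c 1 q272 (.c 6 q63 (.c 7 q229 (.c 8 q267 .e))))
noncomputable def r210 : Tr := .c 1 q272 (.c 8 q267 (.c 9 q268 .e))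
noncomputable def t47 : Tr := .c 0 r207 (.c 2 r149 (.c 3 r208 (.c 4 r151 (.c 5 r209 (.c 6 r210 .e)))))
noncomputable def r211 : Tr := .c 1 q227 (.c 2 q228 (.c 7 q229 .e))
noncomputable def r212 : Tr := .c 0 q55 (.c 1 q232 (.c 6 q57 (.c 7 q233 .e)))
noncomputable def r213 : Tr := .c 0 q61 (.c 1 q227 (.c 2 q228 (.c 6 q63 (.c 7 q229 .e))))
noncomputable def r214 : Tr := .c 1 q227 (.c 2 q228 (.c 4 q236 (.c 5 q237 .e)))
noncomputable def t48 : Tr := .c 3 r211 (.c 4 r212 (.c 5 r213 (.c 6 r214 (.c 9 r135 .e))))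
noncomputable def r215 : Tr := .c 1 q235 (.c 2 q243 (.c 7 q244 .e))
noncomputable def r216 : Tr := .c 0 q77 (.c 1 q235 (.c 2 q243 (.c 6 q78 (.c 7 q244 .e))))
noncomputable def r217 : Tr := .c 1 q235 (.c 2 q243 (.c 4 q237 (.c 5 q245 .e)))
noncomputable def r218 : Tr := .c 0 q246 (.c 2 q243 (.c 4 q237 (.c 5 q245 .e)))
noncomputable def t49 : Tr := .c 3 r215 (.c 5 r216 (.c 6 r217 (.c 7 r218 (.c 8 r140 (.c 9 r141 .e)))))
noncomputable def v148 : Tr := .l 0x1051461461460c4105105146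
noncomputable def q338 : Tr := .c 3 v148 (.c 4 v145 .e)
noncomputable def r219 : Tr := .c 4 q248 (.c 5 q249 (.c 7 q338 .e))
noncomputable def r220 : Tr := .c 4 q248 (.c 5 q249 (.c 6 q87 .e))
noncomputable def t50 : Tr := .c 0 r219 (.c 1 r220 (.c 6 r217 (.c 7 r218 (.c 8 r140 (.c 9 r141 .e)))))
noncomputable def v149 : Tr := .l 0x146146146105187146187146
noncomputable def q339 : Tr := .c 6 v149 (.c 9 v59 .e)
noncomputable def v150 : Tr := .l 0x1871871861461c61871c7187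
noncomputable def q340 : Tr := .c 6 v150 .e
noncomputable def q341 : Tr := .c 3 v58 (.c 5 v58 (.c 9 v104 .e))
noncomputable def r221 : Tr := .c 4 q339 (.c 5 q340 (.c 7 q341 .e))
noncomputable def v151 : Tr := .l 0x1c71c71871c71871871c71c7
noncomputable def q342 : Tr := .c 9 v151 .e
noncomputable def v152 : Tr := .l 0x146187105146105146146187
noncomputable def q343 : Tr := .c 5 v152 (.c 9 v151 .e)
noncomputable def r222 : Tr := .c 3 q342 (.c 4 q339 (.c 5 q340 (.c 6 q343 .e)))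
noncomputable def q344 : Tr := .c 9 v103 .e
noncomputable def v153 : Tr := .l 0x1c61871851861871461c6187
noncomputable def q345 : Tr := .c 6 v153 .e
noncomputable def v154 : Tr := .l 0x1051460c41050c4105105146
noncomputable def q346 : Tr := .c 5 v154 (.c 9 v103 .e)
noncomputable def q347 : Tr := .c 3 v154 (.c 5 v154 (.c 9 v103 .e))
noncomputable def r223 : Tr := .c 3 q344 (.c 5 q345 (.c 6 q346 (.c 7 q347 .e)))
noncomputable def q348 : Tr := .c 3 v55 (.c 5 v55 (.c 6 v55 (.c 9 v18 .e)))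
noncomputable def q349 : Tr := .c 3 v49 (.c 5 v49 (.c 6 v49 (.c 9 v15 .e)))
noncomputable def q350 : Tr := .c 6 v49 (.c 9 v15 .e)
noncomputable def q351 : Tr := .c 6 v59 .e
noncomputable def r224 : Tr := .c 1 q348 (.c 2 q349 (.c 4 q350 (.c 5 q351 .e)))
noncomputable def q352 : Tr := .c 5 v18 (.c 9 v20 .e)
noncomputable def q353 : Tr := .c 9 v20 .e
noncomputable def r225 : Tr := .c 0 q352 (.c 2 q349 (.c 3 q353 (.c 4 q350 (.c 5 q351 .e))))
noncomputable def v155 : Tr := .l 0x187146146146146105187146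
noncomputable def q354 : Tr := .c 5 v155 (.c 9 v151 .e)
noncomputable def q355 : Tr := .c 3 v149 (.c 5 v149 (.c 6 v149 (.c 9 v59 .e)))
noncomputable def r226 : Tr := .c 0 q354 (.c 2 q355 (.c 3 q342 (.c 4 q339 (.c 5 q340 (.c 6 q343 .e)))))
noncomputable def t51 : Tr := .c 0 r221 (.c 1 r222 (.c 2 r223 (.c 6 r224 (.c 7 r225 (.c 8 r226 .e)))))
noncomputable def r227 : Tr := .c 4 q266 (.c 7 q229 .e)
noncomputable def r228 : Tr := .c 3 q269 (.c 6 q57 (.c 7 q233 .e))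
noncomputable def r229 : Tr := .c 1 q272 (.c 2 q273 (.c 7 q229 .e))
noncomputable def r230 : Tr := .c 0 q55 (.c 1 q274 (.c 6 q57 (.c 7 q233 .e)))
noncomputable def r231 : Tr := .c 0 q61 (.c 1 q272 (.c 2 q273 (.c 6 q63 (.c 7 q229 .e))))
noncomputable def r232 : Tr := .c 1 q272 (.c 2 q273 (.c 4 q275 .e))
noncomputable def t52 : Tr := .c 0 r227 (.c 2 r228 (.c 3 r229 (.c 4 r230 (.c 5 r231 (.c 6 r232 .e)))))
noncomputable def r233 : Tr := .c 4 q266 (.c 7 q276 .e)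
noncomputable def r234 : Tr := .c 3 q279 (.c 4 q266 (.c 6 q280 .e))
noncomputable def r235 : Tr := .c 3 q269 (.c 6 q281 (.c 7 q282 .e))
noncomputable def r236 : Tr := .c 1 q285 (.c 2 q273 (.c 7 q276 .e))
noncomputable def r237 : Tr := .c 0 q286 (.c 1 q273 (.c 6 q281 (.c 7 q282 .e)))
noncomputable def r238 : Tr := .c 1 q285 (.c 2 q273 (.c 4 q275 .e))
noncomputable def r239 : Tr := .c 0 q287 (.c 2 q273 (.c 3 q266 (.c 4 q275 .e)))
noncomputable def t53 : Tr := .c 0 r233 (.c 1 r234 (.c 2 r235 (.c 3 r236 (.c 4 r237 (.c 6 r238 (.c 7 r239 .e))))))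
noncomputable def q356 : Tr := .c 3 v49 (.c 4 v66 (.c 5 v49 (.c 6 v49 (.c 9 v113 .e))))
noncomputable def q357 : Tr := .c 3 v49 (.c 4 v66 (.c 5 v49 (.c 6 v49 .e)))
noncomputable def r240 : Tr := .c 0 q174 (.c 1 q356 (.c 8 q357 (.c 9 q250 .e)))
noncomputable def q358 : Tr := .c 3 v55 (.c 4 v60 (.c 5 v55 (.c 6 v55 (.c 9 v115 .e))))
noncomputable def q359 : Tr := .c 3 v55 (.c 4 v60 (.c 5 v55 (.c 6 v55 .e)))
noncomputable def r241 : Tr := .c 0 q178 (.c 1 q358 (.c 8 q359 .e))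
noncomputable def q360 : Tr := .c 4 v117 (.c 5 v16 (.c 9 v93 .e))
noncomputable def q361 : Tr := .c 9 v93 .e
noncomputable def q362 : Tr := .c 6 v126 .e
noncomputable def q363 : Tr := .c 3 v18 (.c 4 v119 (.c 6 v18 .e))
noncomputable def r242 : Tr := .c 0 q360 (.c 3 q361 (.c 5 q362 (.c 9 q363 .e)))
noncomputable def q364 : Tr := .c 9 v123 .e
noncomputable def v156 : Tr := .l 0x1c61871c61c71c71c71c71c7
noncomputable def q365 : Tr := .c 6 v156 .e
noncomputable def r243 : Tr := .c 0 q191 (.c 3 q364 (.c 5 q365 .e))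
noncomputable def q366 : Tr := .c 3 v122 (.c 4 v121 (.c 5 v122 (.c 6 v122 (.c 9 v123 .e))))
noncomputable def r244 : Tr := .c 0 q191 (.c 1 q366 (.c 3 q364 .e))
noncomputable def t54 : Tr := .c 4 r240 (.c 5 r241 (.c 7 r242 (.c 8 r243 (.c 9 r244 .e))))
noncomputable def r245 : Tr := .c 1 q358 (.c 8 q359 (.c 9 q334 .e))
noncomputable def r246 : Tr := .c 1 q358 (.c 5 q333 (.c 8 q359 (.c 9 q334 .e)))
noncomputable def t55 : Tr := .c 3 r245 (.c 4 r240 (.c 5 r241 (.c 6 r246 (.c 9 r244 .e))))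
noncomputable def r247 : Tr := .c 1 q250 (.c 8 q250 (.c 9 q250 .e))
noncomputable def r248 : Tr := .c 0 q86 (.c 1 q250 (.c 8 q250 .e))
noncomputable def q367 : Tr := .c 6 v15 .e
noncomputable def r249 : Tr := .c 1 q250 (.c 5 q367 (.c 8 q250 (.c 9 q250 .e)))
noncomputable def q368 : Tr := .c 4 v126 .e
noncomputable def r250 : Tr := .c 0 q368 (.c 5 q367 (.c 9 q250 .e))
noncomputable def r251 : Tr := .c 0 q199 (.c 5 q351 .e)
noncomputable def q369 : Tr := .c 3 v124 (.c 4 v127 (.c 6 v124 .e))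
noncomputable def r252 : Tr := .c 0 q199 (.c 1 q369 .e)
noncomputable def t56 : Tr := .c 3 r247 (.c 5 r248 (.c 6 r249 (.c 7 r250 (.c 8 r251 (.c 9 r252 .e)))))
noncomputable def q370 : Tr := .c 3 v73 (.c 4 v129 (.c 6 v73 .e))
noncomputable def r253 : Tr := .c 3 q364 (.c 5 q365 (.c 9 q370 .e))
noncomputable def q371 : Tr := .c 9 v27 .e
noncomputable def q372 : Tr := .c 6 v74 .e
noncomputable def q373 : Tr := .c 3 v79 (.c 4 v131 (.c 5 v79 (.c 6 v79 .e)))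
noncomputable def q374 : Tr := .c 3 v79 (.c 4 v131 (.c 6 v79 .e))
noncomputable def r254 : Tr := .c 3 q371 (.c 5 q372 (.c 8 q373 (.c 9 q374 .e)))
noncomputable def t57 : Tr := .c 1 r253 (.c 2 r254 (.c 7 r242 (.c 8 r243 (.c 9 r244 .e))))
noncomputable def r255 : Tr := .c 5 q351 (.c 8 q363 (.c 9 q363 .e))
noncomputable def r256 : Tr := .c 5 q351 (.c 9 q363 .e)
noncomputable def t58 : Tr := .c 0 r255 (.c 1 r256 (.c 6 r249 (.c 7 r250 (.c 8 r251 (.c 9 r252 .e)))))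
noncomputable def r257 : Tr := .c 5 q365 (.c 9 q370 .e)
noncomputable def r258 : Tr := .c 5 q372 (.c 8 q373 (.c 9 q374 .e))
noncomputable def r259 : Tr := .c 0 q203 (.c 1 q373 (.c 8 q373 (.c 9 q374 .e)))
noncomputable def r260 : Tr := .c 0 q100 (.c 1 q262 (.c 8 q262 .e))
noncomputable def r261 : Tr := .c 0 q222 (.c 5 q365 .e)
noncomputable def q375 : Tr := .c 3 v122 (.c 4 v121 (.c 5 v122 (.c 6 v122 .e)))
noncomputable def r262 : Tr := .c 0 q222 (.c 1 q375 .e)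
noncomputable def t59 : Tr := .c 1 r257 (.c 2 r258 (.c 4 r259 (.c 5 r260 (.c 8 r261 (.c 9 r262 .e)))))
noncomputable def q376 : Tr := .c 6 v73 .e
noncomputable def r263 : Tr := .c 5 q376 (.c 8 q262 (.c 9 q337 .e))
noncomputable def r264 : Tr := .c 1 q262 (.c 8 q262 (.c 9 q337 .e))
noncomputable def t60 : Tr := .c 0 r263 (.c 2 r258 (.c 3 r264 (.c 4 r259 (.c 5 r260 (.c 9 r262 .e)))))
noncomputable def q377 : Tr := .c 3 v55 (.c 5 v55 (.c 6 v55 (.c 7 v55 (.c 8 v49 (.c 9 v49 .e)))))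
noncomputable def q378 : Tr := .c 3 v48 (.c 5 v48 (.c 6 v48 .e))
noncomputable def q379 : Tr := .c 3 v48 (.c 6 v48 (.c 7 v48 .e))
noncomputable def r265 : Tr := .c 1 q228 (.c 2 q377 (.c 7 q282 (.c 8 q378 (.c 9 q379 .e))))
noncomputable def q380 : Tr := .c 5 v55 (.c 7 v18 (.c 8 v18 (.c 9 v18 .e)))
noncomputable def q381 : Tr := .c 5 v58 (.c 8 v104 (.c 9 v104 .e))
noncomputable def q382 : Tr := .c 3 v55 (.c 5 v55 (.c 6 v55 .e))
noncomputable def q383 : Tr := .c 3 v55 (.c 6 v55 (.c 7 v55 .e))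
noncomputable def r266 : Tr := .c 0 q380 (.c 1 q348 (.c 6 q381 (.c 7 q341 (.c 8 q382 (.c 9 q383 .e)))))
noncomputable def q384 : Tr := .c 6 v55 (.c 7 v55 (.c 8 v49 (.c 9 v49 .e)))
noncomputable def q385 : Tr := .c 6 v49 (.c 7 v49 (.c 8 v18 .e))
noncomputable def r267 : Tr := .c 1 q228 (.c 2 q377 (.c 4 q384 (.c 5 q385 (.c 8 q378 (.c 9 q379 .e)))))
noncomputable def t61 : Tr := .c 3 r265 (.c 4 r266 (.c 6 r267 .e))
noncomputable def q386 : Tr := .c 3 v49 (.c 6 v49 (.c 7 v49 (.c 8 v18 .e)))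
noncomputable def q387 : Tr := .c 3 v58 .e
noncomputable def r268 : Tr := .c 1 q243 (.c 2 q386 (.c 7 q387 (.c 8 q243 (.c 9 q383 .e))))
noncomputable def q388 : Tr := .c 6 v18 (.c 7 v18 (.c 8 v15 .e))
noncomputable def r269 : Tr := .c 1 q243 (.c 2 q386 (.c 4 q385 (.c 5 q388 (.c 8 q243 (.c 9 q383 .e)))))
noncomputable def q389 : Tr := .c 7 v18 (.c 8 v15 .e)
noncomputable def r270 : Tr := .c 0 q389 (.c 2 q386 (.c 3 q389 (.c 4 q385 (.c 5 q388 (.c 9 q383 .e)))))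
noncomputable def v157 : Tr := .l 0x1871871861461c71c71c7187
noncomputable def v158 : Tr := .l 0x1c71c71871871c71c71c71c7
noncomputable def q390 : Tr := .c 7 v157 (.c 8 v158 .e)
noncomputable def v159 : Tr := .l 0x146146146105187187187146
noncomputable def v160 : Tr := .l 0x1871871871461c71c71c7187
noncomputable def q391 : Tr := .c 3 v159 (.c 6 v159 (.c 7 v159 (.c 8 v160 .e)))
noncomputable def q392 : Tr := .c 6 v159 (.c 7 v159 (.c 8 v160 .e))
noncomputable def q393 : Tr := .c 6 v157 (.c 7 v157 (.c 8 v158 .e))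
noncomputable def q394 : Tr := .c 8 v158 .e
noncomputable def r271 : Tr := .c 0 q390 (.c 2 q391 (.c 3 q390 (.c 4 q392 (.c 5 q393 (.c 6 q394 .e)))))
noncomputable def t62 : Tr := .c 3 r268 (.c 6 r269 (.c 7 r270 (.c 8 r271 .e)))
noncomputable def v161 : Tr := .l 0x1441851851861851c61c61c7
noncomputable def q395 : Tr := .c 6 v161 (.c 7 v161 .e)
noncomputable def q396 : Tr := .c 6 v79 (.c 7 v79 .e)
noncomputable def q397 : Tr := .c 3 v76 (.c 5 v76 .e)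
noncomputable def q398 : Tr := .c 3 v78 (.c 6 v78 (.c 7 v78 .e))
noncomputable def r272 : Tr := .c 4 q395 (.c 5 q396 (.c 7 q397 (.c 8 q261 (.c 9 q398 .e))))
noncomputable def q399 : Tr := .c 7 v147 .e
noncomputable def q400 : Tr := .c 6 v147 (.c 7 v147 .e)
noncomputable def q401 : Tr := .c 5 v71 .e
noncomputable def q402 : Tr := .c 3 v71 (.c 5 v71 .e)
noncomputable def q403 : Tr := .c 3 v84 (.c 5 v84 (.c 6 v84 .e))
noncomputable def q404 : Tr := .c 3 v84 (.c 6 v84 (.c 7 v84 .e))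
noncomputable def r273 : Tr := .c 3 q399 (.c 5 q400 (.c 6 q401 (.c 7 q402 (.c 8 q403 (.c 9 q404 .e)))))
noncomputable def q405 : Tr := .c 3 v84 (.c 5 v84 (.c 6 v84 (.c 7 v84 .e)))
noncomputable def r274 : Tr := .c 1 q261 (.c 2 q405 (.c 7 q397 (.c 8 q261 (.c 9 q398 .e))))
noncomputable def q406 : Tr := .c 5 v84 (.c 7 v15 .e)
noncomputable def r275 : Tr := .c 0 q406 (.c 1 q403 (.c 6 q401 (.c 7 q402 (.c 8 q403 (.c 9 q404 .e)))))
noncomputable def t63 : Tr := .c 0 r272 (.c 2 r273 (.c 3 r274 (.c 4 r275 .e)))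
noncomputable def q407 : Tr := .c 8 v18 (.c 9 v18 .e)
noncomputable def q408 : Tr := .c 8 v67 .e
noncomputable def r276 : Tr := .c 4 q407 (.c 5 q408 (.c 7 q282 (.c 8 q283 (.c 9 q284 .e))))
noncomputable def q409 : Tr := .c 8 v104 (.c 9 v104 .e)
noncomputable def q410 : Tr := .c 8 v104 .e
noncomputable def q411 : Tr := .c 3 v55 (.c 5 v55 .e)
noncomputable def q412 : Tr := .c 3 v55 .e
noncomputable def r277 : Tr := .c 3 q409 (.c 5 q410 (.c 6 q381 (.c 7 q341 (.c 8 q411 (.c 9 q412 .e)))))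
noncomputable def q413 : Tr := .c 3 v55 (.c 5 v55 (.c 8 v49 (.c 9 v49 .e)))
noncomputable def r278 : Tr := .c 1 q273 (.c 2 q413 (.c 7 q282 (.c 8 q283 (.c 9 q284 .e))))
noncomputable def q414 : Tr := .c 5 v55 (.c 8 v18 (.c 9 v18 .e))
noncomputable def q415 : Tr := .c 3 v55 (.c 5 v55 (.c 9 v18 .e))
noncomputable def r279 : Tr := .c 0 q414 (.c 1 q415 (.c 6 q381 (.c 7 q341 (.c 8 q411 (.c 9 q412 .e)))))
noncomputable def q416 : Tr := .c 8 v49 (.c 9 v49 .e)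
noncomputable def q417 : Tr := .c 8 v18 .e
noncomputable def r280 : Tr := .c 1 q273 (.c 2 q413 (.c 4 q416 (.c 5 q417 (.c 8 q283 (.c 9 q284 .e)))))
noncomputable def t64 : Tr := .c 0 r276 (.c 2 r277 (.c 3 r278 (.c 4 r279 (.c 6 r280 .e))))
noncomputable def q418 : Tr := .c 8 v67 (.c 9 v67 .e)
noncomputable def q419 : Tr := .c 5 v52 (.c 8 v67 (.c 9 v67 .e))
noncomputable def r281 : Tr := .c 3 q418 (.c 4 q407 (.c 5 q408 (.c 6 q419 (.c 9 q284 .e))))
noncomputable def q420 : Tr := .c 5 v49 (.c 8 v18 (.c 9 v18 .e))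
noncomputable def r282 : Tr := .c 0 q420 (.c 2 q413 (.c 3 q407 (.c 4 q416 (.c 5 q417 (.c 9 q284 .e)))))
noncomputable def t65 : Tr := .c 0 r276 (.c 1 r281 (.c 2 r277 (.c 3 r278 (.c 4 r279 (.c 6 r280 (.c 7 r282 .e))))))
noncomputable def q421 : Tr := .c 5 v16 (.c 7 v15 (.c 8 v59 (.c 9 v59 .e)))
noncomputable def q422 : Tr := .c 7 v15 (.c 8 v59 (.c 9 v59 .e))
noncomputable def q423 : Tr := .c 6 v15 (.c 7 v15 (.c 8 v59 .e))
noncomputable def q424 : Tr := .c 3 v49 (.c 6 v49 (.c 7 v49 .e))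
noncomputable def r283 : Tr := .c 0 q421 (.c 3 q422 (.c 5 q423 (.c 9 q424 .e)))
noncomputable def v162 : Tr := .l 0x1c61871851861c71c71c61c7
noncomputable def q425 : Tr := .c 5 v49 (.c 7 v162 (.c 8 v67 (.c 9 v67 .e)))
noncomputable def q426 : Tr := .c 7 v162 (.c 8 v67 (.c 9 v67 .e))
noncomputable def q427 : Tr := .c 6 v162 (.c 7 v162 (.c 8 v67 .e))
noncomputable def r284 : Tr := .c 0 q425 (.c 3 q426 (.c 5 q427 (.c 6 q419 .e)))
noncomputable def t66 : Tr := .c 4 r266 (.c 7 r283 (.c 8 r284 .e))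
noncomputable def r285 : Tr := .c 1 q228 (.c 7 q282 (.c 8 q378 (.c 9 q379 .e)))
noncomputable def r286 : Tr := .c 1 q228 (.c 5 q385 (.c 8 q378 (.c 9 q379 .e)))
noncomputable def t67 : Tr := .c 3 r285 (.c 4 r266 (.c 6 r286 .e))
noncomputable def r287 : Tr := .c 1 q243 (.c 7 q387 (.c 8 q243 (.c 9 q383 .e)))
noncomputable def r288 : Tr := .c 1 q243 (.c 5 q388 (.c 8 q243 (.c 9 q383 .e)))
noncomputable def r289 : Tr := .c 0 q389 (.c 3 q389 (.c 5 q388 (.c 9 q383 .e)))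
noncomputable def r290 : Tr := .c 0 q390 (.c 3 q390 (.c 5 q393 (.c 6 q394 .e)))
noncomputable def t68 : Tr := .c 3 r287 (.c 6 r288 (.c 7 r289 (.c 8 r290 .e)))
noncomputable def q428 : Tr := .c 6 v74 (.c 7 v74 .e)
noncomputable def v163 : Tr := .l 0xc4105105146105146146187
noncomputable def q429 : Tr := .c 5 v163 .e
noncomputable def q430 : Tr := .c 3 v79 (.c 6 v79 (.c 7 v79 .e))
noncomputable def r291 : Tr := .c 3 q91 (.c 5 q428 (.c 6 q429 (.c 9 q430 .e)))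
noncomputable def q431 : Tr := .c 5 v79 (.c 7 v74 .e)
noncomputable def r292 : Tr := .c 0 q431 (.c 3 q91 (.c 5 q428 (.c 6 q429 .e)))
noncomputable def t69 : Tr := .c 1 r291 (.c 2 r273 (.c 4 r275 (.c 8 r292 .e)))
noncomputable def r293 : Tr := .c 5 q396 (.c 7 q397 (.c 8 q261 (.c 9 q398 .e)))
noncomputable def r294 : Tr := .c 1 q261 (.c 7 q397 (.c 8 q261 (.c 9 q398 .e)))
noncomputable def t70 : Tr := .c 0 r293 (.c 2 r273 (.c 3 r294 (.c 4 r275 .e)))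
noncomputable def r295 : Tr := .c 5 q408 (.c 7 q282 (.c 8 q283 (.c 9 q284 .e)))
noncomputable def r296 : Tr := .c 1 q273 (.c 7 q282 (.c 8 q283 (.c 9 q284 .e)))
noncomputable def r297 : Tr := .c 1 q273 (.c 5 q417 (.c 8 q283 (.c 9 q284 .e)))
noncomputable def t71 : Tr := .c 0 r295 (.c 2 r277 (.c 3 r296 (.c 4 r279 (.c 6 r297 .e))))
noncomputable def r298 : Tr := .c 1 q228 (.c 2 q377 (.c 7 q282 .e))
noncomputable def r299 : Tr := .c 0 q380 (.c 1 q348 (.c 6 q381 (.c 7 q341 .e)))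
noncomputable def r300 : Tr := .c 1 q228 (.c 2 q377 (.c 4 q384 (.c 5 q385 .e)))
noncomputable def t72 : Tr := .c 3 r298 (.c 4 r299 (.c 6 r300 .e))
noncomputable def r301 : Tr := .c 1 q243 (.c 2 q386 (.c 7 q387 .e))
noncomputable def r302 : Tr := .c 1 q243 (.c 2 q386 (.c 4 q385 (.c 5 q388 .e)))
noncomputable def r303 : Tr := .c 0 q389 (.c 2 q386 (.c 3 q389 (.c 4 q385 (.c 5 q388 .e))))
noncomputable def t73 : Tr := .c 3 r301 (.c 6 r302 (.c 7 r303 (.c 8 r271 .e)))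
noncomputable def v164 : Tr := .l 0x146187187187105146146187
noncomputable def q432 : Tr := .c 3 v164 .e
noncomputable def r304 : Tr := .c 4 q392 (.c 5 q393 (.c 7 q432 .e))
noncomputable def r305 : Tr := .c 3 q390 (.c 4 q392 (.c 5 q393 (.c 6 q394 .e)))
noncomputable def t74 : Tr := .c 0 r304 (.c 1 r305 (.c 6 r302 (.c 7 r303 (.c 8 r271 .e))))
noncomputable def v165 : Tr := .l 0x1871871871461c71871c7187
noncomputable def q433 : Tr := .c 6 v165 (.c 7 v165 (.c 8 v59 (.c 9 v59 .e)))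
noncomputable def q434 : Tr := .c 6 v59 (.c 7 v59 (.c 8 v16 .e))
noncomputable def v166 : Tr := .l 0x1871c71461871c71c71871c7
noncomputable def q435 : Tr := .c 3 v52 (.c 5 v52 (.c 9 v166 .e))
noncomputable def r306 : Tr := .c 4 q433 (.c 5 q434 (.c 7 q435 .e))
noncomputable def q436 : Tr := .c 5 v103 (.c 8 v16 (.c 9 v16 .e))
noncomputable def r307 : Tr := .c 3 q66 (.c 4 q433 (.c 5 q434 (.c 6 q436 .e)))
noncomputable def v167 : Tr := .l 0x1c71c71c61c71c61871c71c7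
noncomputable def v168 : Tr := .l 0x1c71c71871c71861c71c71c7
noncomputable def q437 : Tr := .c 7 v167 (.c 8 v168 (.c 9 v168 .e))
noncomputable def q438 : Tr := .c 6 v167 (.c 7 v167 (.c 8 v168 .e))
noncomputable def q439 : Tr := .c 5 v152 (.c 8 v168 (.c 9 v168 .e))
noncomputable def q440 : Tr := .c 3 v152 (.c 5 v152 (.c 9 v168 .e))
noncomputable def r308 : Tr := .c 3 q437 (.c 5 q438 (.c 6 q439 (.c 7 q440 .e)))
noncomputable def q441 : Tr := .c 3 v18 (.c 5 v18 (.c 6 v18 (.c 7 v18 (.c 8 v15 (.c 9 v15 .e)))))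
noncomputable def q442 : Tr := .c 6 v18 (.c 7 v18 (.c 8 v15 (.c 9 v15 .e)))
noncomputable def r309 : Tr := .c 1 q349 (.c 2 q441 (.c 4 q442 (.c 5 q423 .e)))
noncomputable def q443 : Tr := .c 5 v15 (.c 7 v15 (.c 8 v59 (.c 9 v59 .e)))
noncomputable def r310 : Tr := .c 0 q443 (.c 2 q441 (.c 3 q422 (.c 4 q442 (.c 5 q423 .e))))
noncomputable def v169 : Tr := .l 0x1c71871871871871461c7187
noncomputable def q444 : Tr := .c 5 v169 (.c 7 v59 (.c 8 v16 (.c 9 v16 .e)))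
noncomputable def q445 : Tr := .c 3 v165 (.c 5 v165 (.c 6 v165 (.c 7 v165 (.c 8 v59 (.c 9 v59 .e)))))
noncomputable def r311 : Tr := .c 0 q444 (.c 2 q445 (.c 3 q66 (.c 4 q433 (.c 5 q434 (.c 6 q436 .e)))))
noncomputable def t75 : Tr := .c 0 r306 (.c 1 r307 (.c 2 r308 (.c 6 r309 (.c 7 r310 (.c 8 r311 .e)))))
noncomputable def r312 : Tr := .c 4 q407 (.c 5 q408 (.c 7 q282 .e))
noncomputable def r313 : Tr := .c 3 q409 (.c 5 q410 (.c 6 q381 (.c 7 q341 .e)))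
noncomputable def r314 : Tr := .c 1 q273 (.c 2 q413 (.c 7 q282 .e))
noncomputable def r315 : Tr := .c 0 q414 (.c 1 q415 (.c 6 q381 (.c 7 q341 .e)))
noncomputable def r316 : Tr := .c 1 q273 (.c 2 q413 (.c 4 q416 (.c 5 q417 .e)))
noncomputable def t76 : Tr := .c 0 r312 (.c 2 r313 (.c 3 r314 (.c 4 r315 (.c 6 r316 .e))))
noncomputable def r317 : Tr := .c 3 q418 (.c 4 q407 (.c 5 q408 (.c 6 q419 .e)))
noncomputable def r318 : Tr := .c 0 q420 (.c 2 q413 (.c 3 q407 (.c 4 q416 (.c 5 q417 .e))))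
noncomputable def t77 : Tr := .c 0 r312 (.c 1 r317 (.c 2 r313 (.c 3 r314 (.c 4 r315 (.c 6 r316 (.c 7 r318 .e))))))
noncomputable def q446 : Tr := .c 5 v18 (.c 7 v59 (.c 8 v59 (.c 9 v59 .e)))
noncomputable def q447 : Tr := .c 3 v18 (.c 5 v18 (.c 6 v18 (.c 9 v59 .e)))
noncomputable def v170 : Tr := .l 0x1c71c71c71c71c71c71c61c7
noncomputable def q448 : Tr := .c 5 v15 (.c 8 v170 (.c 9 v170 .e))
noncomputable def q449 : Tr := .c 3 v15 (.c 5 v15 (.c 9 v170 .e))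
noncomputable def r319 : Tr := .c 0 q446 (.c 1 q447 (.c 6 q448 (.c 7 q449 .e)))
noncomputable def t78 : Tr := .c 4 r319 (.c 7 r310 (.c 8 r311 .e))
noncomputable def t79 : Tr := .c 1 r307 (.c 2 r308 (.c 7 r310 (.c 8 r311 .e)))
noncomputable def q450 : Tr := .c 3 v18 (.c 5 v18 (.c 6 v18 .e))
noncomputable def q451 : Tr := .c 3 v18 (.c 6 v18 (.c 7 v18 .e))
noncomputable def r320 : Tr := .c 0 q446 (.c 1 q447 (.c 8 q450 (.c 9 q451 .e)))
noncomputable def q452 : Tr := .c 5 v59 (.c 7 v59 (.c 8 v16 (.c 9 v16 .e)))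
noncomputable def q453 : Tr := .c 3 v15 (.c 5 v15 (.c 6 v15 (.c 7 v15 (.c 8 v59 (.c 9 v59 .e)))))
noncomputable def q454 : Tr := .c 6 v15 (.c 7 v15 (.c 8 v59 (.c 9 v59 .e)))
noncomputable def r321 : Tr := .c 0 q452 (.c 2 q453 (.c 3 q66 (.c 4 q454 (.c 5 q434 (.c 9 q451 .e)))))
noncomputable def q455 : Tr := .c 5 v124 (.c 7 v16 (.c 8 v92 (.c 9 v92 .e)))
noncomputable def v171 : Tr := .l 0x1c71871c71871c71c71c71c7
noncomputable def v172 : Tr := .l 0x1c71c71c71c71871c71c71c7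
noncomputable def q456 : Tr := .c 3 v171 (.c 5 v171 (.c 6 v171 (.c 7 v171 (.c 8 v172 (.c 9 v172 .e)))))
noncomputable def q457 : Tr := .c 7 v16 (.c 8 v92 (.c 9 v92 .e))
noncomputable def q458 : Tr := .c 6 v171 (.c 7 v171 (.c 8 v172 (.c 9 v172 .e)))
noncomputable def q459 : Tr := .c 6 v16 (.c 7 v16 (.c 8 v92 .e))
noncomputable def r322 : Tr := .c 0 q455 (.c 2 q456 (.c 3 q457 (.c 4 q458 (.c 5 q459 .e))))
noncomputable def t80 : Tr := .c 4 r320 (.c 7 r321 (.c 8 r322 .e))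
noncomputable def q460 : Tr := .c 3 v49 (.c 6 v49 .e)
noncomputable def q461 : Tr := .c 3 v18 (.c 6 v18 (.c 7 v18 (.c 8 v15 .e)))
noncomputable def r323 : Tr := .c 1 q460 (.c 2 q461 (.c 8 q460 (.c 9 q424 .e)))
noncomputable def r324 : Tr := .c 1 q460 (.c 2 q461 (.c 4 q388 (.c 5 q423 (.c 8 q460 (.c 9 q424 .e)))))
noncomputable def q462 : Tr := .c 7 v15 (.c 8 v59 .e)
noncomputable def r325 : Tr := .c 0 q462 (.c 2 q461 (.c 3 q462 (.c 4 q388 (.c 5 q423 (.c 9 q424 .e)))))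
noncomputable def v173 : Tr := .l 0x1c61c71c71c71c71c71c71c7
noncomputable def q463 : Tr := .c 7 v59 (.c 8 v173 .e)
noncomputable def q464 : Tr := .c 3 v160 (.c 6 v160 (.c 7 v160 (.c 8 v93 .e)))
noncomputable def q465 : Tr := .c 6 v160 (.c 7 v160 (.c 8 v93 .e))
noncomputable def q466 : Tr := .c 6 v59 (.c 7 v59 (.c 8 v173 .e))
noncomputable def r326 : Tr := .c 0 q463 (.c 2 q464 (.c 3 q463 (.c 4 q465 (.c 5 q466 .e))))
noncomputable def t81 : Tr := .c 3 r323 (.c 6 r324 (.c 7 r325 (.c 8 r326 .e)))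
noncomputable def q467 : Tr := .c 3 v124 (.c 6 v124 (.c 7 v124 .e))
noncomputable def r327 : Tr := .c 3 q457 (.c 4 q458 (.c 5 q459 (.c 9 q467 .e)))
noncomputable def v174 : Tr := .l 0x1c61871c71c71c61c71c71c7
noncomputable def q468 : Tr := .c 7 v174 (.c 8 v28 (.c 9 v28 .e))
noncomputable def q469 : Tr := .c 6 v174 (.c 7 v174 (.c 8 v28 .e))
noncomputable def q470 : Tr := .c 3 v73 (.c 5 v73 (.c 6 v73 .e))
noncomputable def q471 : Tr := .c 3 v73 (.c 6 v73 (.c 7 v73 .e))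
noncomputable def r328 : Tr := .c 3 q468 (.c 5 q469 (.c 8 q470 (.c 9 q471 .e)))
noncomputable def t82 : Tr := .c 1 r327 (.c 2 r328 (.c 7 r321 (.c 8 r322 .e)))
noncomputable def q472 : Tr := .c 3 v18 (.c 6 v18 .e)
noncomputable def r329 : Tr := .c 4 q465 (.c 5 q466 (.c 8 q472 (.c 9 q451 .e)))
noncomputable def r330 : Tr := .c 3 q463 (.c 4 q465 (.c 5 q466 (.c 9 q451 .e)))
noncomputable def t83 : Tr := .c 0 r329 (.c 1 r330 (.c 6 r324 (.c 7 r325 (.c 8 r326 .e))))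
noncomputable def q473 : Tr := .c 3 v124 (.c 5 v124 (.c 6 v124 .e))
noncomputable def r331 : Tr := .c 4 q458 (.c 5 q459 (.c 8 q473 (.c 9 q467 .e)))
noncomputable def r332 : Tr := .c 1 q447 (.c 2 q453 (.c 4 q454 (.c 5 q434 (.c 8 q450 (.c 9 q451 .e)))))
noncomputable def t84 : Tr := .c 0 r331 (.c 1 r327 (.c 2 r328 (.c 6 r332 (.c 7 r321 (.c 8 r322 .e)))))
noncomputable def q474 : Tr := .c 6 v171 (.c 7 v171 .e)
noncomputable def q475 : Tr := .c 6 v16 (.c 7 v16 .e)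
noncomputable def r333 : Tr := .c 3 q37 (.c 4 q474 (.c 5 q475 (.c 9 q467 .e)))
noncomputable def q476 : Tr := .c 7 v174 .e
noncomputable def q477 : Tr := .c 6 v174 (.c 7 v174 .e)
noncomputable def r334 : Tr := .c 3 q476 (.c 5 q477 (.c 8 q470 (.c 9 q471 .e)))
noncomputable def v175 : Tr := .l 0x1c71c71c71c71c71c61c71c7
noncomputable def q478 : Tr := .c 5 v73 (.c 7 v175 .e)
noncomputable def r335 : Tr := .c 0 q478 (.c 1 q470 (.c 8 q470 (.c 9 q471 .e)))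
noncomputable def q479 : Tr := .c 5 v124 (.c 7 v16 .e)
noncomputable def q480 : Tr := .c 3 v171 (.c 5 v171 (.c 6 v171 (.c 7 v171 .e)))
noncomputable def r336 : Tr := .c 0 q479 (.c 2 q480 (.c 3 q37 (.c 4 q474 (.c 5 q475 .e))))
noncomputable def t85 : Tr := .c 1 r333 (.c 2 r334 (.c 4 r335 (.c 8 r336 .e)))
noncomputable def r337 : Tr := .c 0 q452 (.c 3 q66 (.c 5 q434 (.c 9 q451 .e)))
noncomputable def r338 : Tr := .c 0 q455 (.c 3 q457 (.c 5 q459 .e))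
noncomputable def t86 : Tr := .c 4 r320 (.c 7 r337 (.c 8 r338 .e))
noncomputable def q481 : Tr := .c 3 v49 (.c 5 v49 (.c 6 v49 (.c 9 v113 .e)))
noncomputable def q482 : Tr := .c 3 v49 (.c 5 v49 (.c 6 v49 .e))
noncomputable def r339 : Tr := .c 1 q481 (.c 8 q482 (.c 9 q424 .e))
noncomputable def r340 : Tr := .c 1 q481 (.c 5 q423 (.c 8 q482 (.c 9 q424 .e)))
noncomputable def t87 : Tr := .c 3 r339 (.c 4 r320 (.c 6 r340 .e))
noncomputable def r341 : Tr := .c 1 q460 (.c 8 q460 (.c 9 q424 .e))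
noncomputable def r342 : Tr := .c 1 q460 (.c 5 q423 (.c 8 q460 (.c 9 q424 .e)))
noncomputable def r343 : Tr := .c 0 q462 (.c 3 q462 (.c 5 q423 (.c 9 q424 .e)))
noncomputable def r344 : Tr := .c 0 q463 (.c 3 q463 (.c 5 q466 .e))
noncomputable def t88 : Tr := .c 3 r341 (.c 6 r342 (.c 7 r343 (.c 8 r344 .e)))
noncomputable def r345 : Tr := .c 3 q457 (.c 5 q459 (.c 9 q467 .e))
noncomputable def t89 : Tr := .c 1 r345 (.c 2 r328 (.c 7 r337 (.c 8 r338 .e)))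
noncomputable def r346 : Tr := .c 5 q466 (.c 8 q472 (.c 9 q451 .e))
noncomputable def r347 : Tr := .c 3 q463 (.c 5 q466 (.c 9 q451 .e))
noncomputable def t90 : Tr := .c 0 r346 (.c 1 r347 (.c 6 r342 (.c 7 r343 (.c 8 r344 .e))))
noncomputable def r348 : Tr := .c 3 q37 (.c 5 q475 (.c 9 q467 .e))
noncomputable def r349 : Tr := .c 0 q479 (.c 3 q37 (.c 5 q475 .e))
noncomputable def t91 : Tr := .c 1 r348 (.c 2 r334 (.c 4 r335 (.c 8 r349 .e)))
noncomputable def v176 : Tr := .l 0x1871461c71871c71871c71c7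
noncomputable def q483 : Tr := .c 6 v176 (.c 7 v176 .e)
noncomputable def r350 : Tr := .c 5 q483 (.c 8 q263 (.c 9 q430 .e))
noncomputable def r351 : Tr := .c 1 q263 (.c 8 q263 (.c 9 q430 .e))
noncomputable def t92 : Tr := .c 0 r350 (.c 2 r334 (.c 3 r351 (.c 4 r335 .e)))
noncomputable def q484 : Tr := .c 1 v123 (.c 2 v27 (.c 7 v93 (.c 8 v123 (.c 9 v123 .e))))
noncomputable def q485 : Tr := .c 1 v92 (.c 7 v91 (.c 8 v92 (.c 9 v92 .e)))
noncomputable def q486 : Tr := .c 1 v123 (.c 2 v27 (.c 7 v93 (.c 8 v123 .e)))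
noncomputable def q487 : Tr := .c 1 v123 (.c 2 v27 (.c 8 v123 (.c 9 v123 .e)))
noncomputable def v177 : Tr := .l 0x187146146105186145186145
noncomputable def v178 : Tr := .l 0x1c61851871461851441c6185
noncomputable def q488 : Tr := .c 1 v177 (.c 2 v178 (.c 7 v130 .e))
noncomputable def r352 : Tr := .c 3 q484 (.c 4 q485 (.c 5 q486 (.c 6 q487 (.c 9 q488 .e))))
noncomputable def q489 : Tr := .c 1 v27 (.c 2 v31 (.c 7 v28 (.c 8 v27 (.c 9 v27 .e))))
noncomputable def q490 : Tr := .c 1 v27 (.c 2 v31 (.c 7 v28 (.c 8 v27 .e)))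
noncomputable def q491 : Tr := .c 1 v27 (.c 2 v31 (.c 8 v27 (.c 9 v27 .e)))
noncomputable def q492 : Tr := .c 2 v31 (.c 9 v27 .e)
noncomputable def q493 : Tr := .c 2 v36 .e
noncomputable def q494 : Tr := .c 1 v178 (.c 2 v36 (.c 7 v132 .e))
noncomputable def r353 : Tr := .c 3 q489 (.c 5 q490 (.c 6 q491 (.c 7 q492 (.c 8 q493 (.c 9 q494 .e)))))
noncomputable def q495 : Tr := .c 1 v93 (.c 2 v28 (.c 7 v16 (.c 8 v93 (.c 9 v93 .e))))
noncomputable def q496 : Tr := .c 1 v16 (.c 7 v19 (.c 8 v16 (.c 9 v16 .e)))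
noncomputable def q497 : Tr := .c 1 v93 (.c 2 v28 (.c 7 v16 (.c 8 v93 .e)))
noncomputable def v179 : Tr := .l 0x1871461461051c7186186145
noncomputable def v180 : Tr := .l 0x1c71861861451c61851c7186
noncomputable def q498 : Tr := .c 1 v179 (.c 2 v180 (.c 7 v120 .e))
noncomputable def r354 : Tr := .c 0 q183 (.c 2 q121 (.c 3 q495 (.c 4 q496 (.c 5 q497 (.c 9 q498 .e)))))
noncomputable def r355 : Tr := .c 0 q188 (.c 2 q189 (.c 3 q484 (.c 4 q485 (.c 5 q486 (.c 6 q487 .e)))))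
noncomputable def q499 : Tr := .c 2 v27 (.c 9 v123 .e)
noncomputable def r356 : Tr := .c 0 q188 (.c 1 q364 (.c 2 q189 (.c 3 q484 (.c 4 q485 (.c 6 q487 (.c 7 q499 .e))))))
noncomputable def t93 : Tr := .c 1 r352 (.c 2 r353 (.c 7 r354 (.c 8 r355 (.c 9 r356 .e))))
noncomputable def q500 : Tr := .c 1 v28 (.c 7 v128 (.c 8 v28 .e))
noncomputable def v181 : Tr := .l 0x1c61c71c61c71851c61c61c7
noncomputable def q501 : Tr := .c 1 v92 (.c 2 v181 (.c 7 v16 (.c 8 v92 .e)))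
noncomputable def q502 : Tr := .c 2 v31 .e
noncomputable def v182 : Tr := .l 0x1c71c61c61851c61851c71c6
noncomputable def q503 : Tr := .c 2 v182 .e
noncomputable def v183 : Tr := .l 0x1c71871871461c71861c7186
noncomputable def q504 : Tr := .c 1 v183 (.c 2 v182 (.c 7 v120 .e))
noncomputable def r357 : Tr := .c 4 q500 (.c 5 q501 (.c 7 q502 (.c 8 q503 (.c 9 q504 .e))))
noncomputable def q505 : Tr := .c 1 v92 (.c 2 v181 (.c 8 v92 .e))
noncomputable def r358 : Tr := .c 3 q501 (.c 4 q500 (.c 5 q501 (.c 6 q505 (.c 9 q504 .e))))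
noncomputable def q506 : Tr := .c 1 v39 (.c 7 v120 (.c 8 v39 .e))
noncomputable def v184 : Tr := .l 0x1c71c71c71c61c61c61c71c7
noncomputable def q507 : Tr := .c 1 v16 (.c 2 v184 (.c 7 v19 (.c 8 v16 .e)))
noncomputable def v185 : Tr := .l 0x1c61851851441851441c6185
noncomputable def q508 : Tr := .c 2 v185 .e
noncomputable def v186 : Tr := .l 0x1c71861861451861451c6185
noncomputable def q509 : Tr := .c 1 v186 (.c 2 v185 (.c 7 v125 .e))
noncomputable def r359 : Tr := .c 2 q192 (.c 4 q506 (.c 5 q507 (.c 8 q508 (.c 9 q509 .e))))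
noncomputable def r360 : Tr := .c 0 q123 (.c 2 q192 (.c 3 q507 (.c 4 q506 (.c 5 q507 (.c 9 q509 .e)))))
noncomputable def r361 : Tr := .c 0 q198 (.c 2 q197 (.c 3 q501 (.c 4 q500 (.c 5 q501 (.c 6 q505 .e)))))
noncomputable def q510 : Tr := .c 2 v181 .e
noncomputable def r362 : Tr := .c 0 q198 (.c 2 q197 (.c 3 q501 (.c 4 q500 (.c 6 q505 (.c 7 q510 .e)))))
noncomputable def t94 : Tr := .c 0 r357 (.c 1 r358 (.c 6 r359 (.c 7 r360 (.c 8 r361 (.c 9 r362 .e)))))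
noncomputable def q511 : Tr := .c 1 v123 (.c 7 v93 (.c 8 v123 .e))
noncomputable def v187 : Tr := .l 0x1c61c71c61c71851c61851c6
noncomputable def q512 : Tr := .c 9 v187 .e
noncomputable def q513 : Tr := .c 1 v177 (.c 7 v130 .e)
noncomputable def r363 : Tr := .c 4 q485 (.c 5 q511 (.c 7 q512 (.c 9 q513 .e)))
noncomputable def q514 : Tr := .c 1 v123 (.c 7 v93 (.c 8 v123 (.c 9 v123 .e)))
noncomputable def q515 : Tr := .c 1 v123 (.c 8 v123 (.c 9 v123 .e))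
noncomputable def r364 : Tr := .c 3 q514 (.c 4 q485 (.c 5 q511 (.c 6 q515 (.c 9 q513 .e))))
noncomputable def q516 : Tr := .c 1 v27 (.c 7 v28 (.c 8 v27 (.c 9 v27 .e)))
noncomputable def q517 : Tr := .c 1 v27 (.c 7 v28 (.c 8 v27 .e))
noncomputable def q518 : Tr := .c 1 v27 (.c 8 v27 (.c 9 v27 .e))
noncomputable def q519 : Tr := .c 1 v178 (.c 7 v132 .e)
noncomputable def r365 : Tr := .c 3 q516 (.c 5 q517 (.c 6 q518 (.c 7 q371 (.c 9 q519 .e))))
noncomputable def q520 : Tr := .c 9 v86 .e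
noncomputable def q521 : Tr := .c 1 v93 (.c 7 v16 (.c 8 v93 .e))
noncomputable def q522 : Tr := .c 1 v179 (.c 7 v120 .e)
noncomputable def r366 : Tr := .c 1 q520 (.c 2 q121 (.c 4 q496 (.c 5 q521 (.c 9 q522 .e))))
noncomputable def q523 : Tr := .c 1 v93 (.c 7 v16 (.c 8 v93 (.c 9 v93 .e)))
noncomputable def r367 : Tr := .c 0 q183 (.c 2 q121 (.c 3 q523 (.c 4 q496 (.c 5 q521 (.c 9 q522 .e)))))
noncomputable def r368 : Tr := .c 0 q188 (.c 2 q189 (.c 3 q514 (.c 4 q485 (.c 5 q511 (.c 6 q515 .e)))))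
noncomputable def t95 : Tr := .c 0 r363 (.c 1 r364 (.c 2 r365 (.c 6 r366 (.c 7 r367 (.c 8 r368 .e)))))
noncomputable def q524 : Tr := .c 1 v123 (.c 2 v27 (.c 7 v93 .e))
noncomputable def q525 : Tr := .c 1 v92 (.c 7 v91 .e)
noncomputable def q526 : Tr := .c 1 v123 (.c 2 v27 .e)
noncomputable def r369 : Tr := .c 3 q524 (.c 4 q525 (.c 5 q524 (.c 6 q526 (.c 9 q488 .e))))
noncomputable def q527 : Tr := .c 1 v27 (.c 2 v31 (.c 7 v28 .e))
noncomputable def q528 : Tr := .c 1 v27 (.c 2 v31 .e)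
noncomputable def r370 : Tr := .c 3 q527 (.c 5 q527 (.c 6 q528 (.c 7 q502 (.c 8 q493 (.c 9 q494 .e)))))
noncomputable def q529 : Tr := .c 7 v135 .e
noncomputable def r371 : Tr := .c 0 q529 (.c 6 q528 (.c 7 q502 (.c 8 q493 (.c 9 q494 .e))))
noncomputable def q530 : Tr := .c 7 v136 .e
noncomputable def q531 : Tr := .c 7 v137 .e
noncomputable def q532 : Tr := .c 1 v31 (.c 2 v29 .e)
noncomputable def q533 : Tr := .c 2 v29 .e
noncomputable def q534 : Tr := .c 2 v42 .e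
noncomputable def r372 : Tr := .c 0 q530 (.c 2 q531 (.c 6 q532 (.c 7 q533 (.c 8 q534 .e))))
noncomputable def r373 : Tr := .c 0 q215 (.c 2 q216 (.c 3 q524 (.c 4 q525 (.c 5 q524 (.c 6 q526 .e)))))
noncomputable def q535 : Tr := .c 2 v27 .e
noncomputable def r374 : Tr := .c 0 q215 (.c 2 q216 (.c 3 q524 (.c 4 q525 (.c 6 q526 (.c 7 q535 .e)))))
noncomputable def t96 : Tr := .c 1 r369 (.c 2 r370 (.c 4 r371 (.c 5 r372 (.c 8 r373 (.c 9 r374 .e)))))
noncomputable def v188 : Tr := .l 0x1c71871861461c71c71c6186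
noncomputable def q536 : Tr := .c 1 v188 (.c 8 v188 (.c 9 v188 .e))
noncomputable def v189 : Tr := .l 0x1861461451051c6186185145
noncomputable def q537 : Tr := .c 1 v189 (.c 8 v189 .e)
noncomputable def q538 : Tr := .c 9 v87 .e
noncomputable def v190 : Tr := .l 0x1050c40c40831451041040c3
noncomputable def q539 : Tr := .c 1 v190 .e
noncomputable def r375 : Tr := .c 4 q536 (.c 5 q537 (.c 7 q538 (.c 9 q539 .e)))
noncomputable def q540 : Tr := .c 1 v189 (.c 8 v189 (.c 9 v189 .e))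
noncomputable def r376 : Tr := .c 3 q540 (.c 4 q536 (.c 5 q537 (.c 6 q540 (.c 9 q539 .e))))
noncomputable def v191 : Tr := .l 0x1c61871851461851c6144185
noncomputable def q541 : Tr := .c 1 v191 (.c 8 v191 (.c 9 v191 .e))
noncomputable def q542 : Tr := .c 1 v191 (.c 8 v191 .e)
noncomputable def q543 : Tr := .c 9 v191 .e
noncomputable def v192 : Tr := .l 0x1461051050c4186145145104
noncomputable def q544 : Tr := .c 1 v192 .e
noncomputable def r377 : Tr := .c 3 q541 (.c 5 q542 (.c 6 q541 (.c 7 q543 (.c 9 q544 .e))))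
noncomputable def v193 : Tr := .l 0x1c6187185146185146144105
noncomputable def q545 : Tr := .c 9 v193 .e
noncomputable def v194 : Tr := .l 0x1c61871851461c6186185145
noncomputable def q546 : Tr := .c 8 v194 (.c 9 v194 .e)
noncomputable def r378 : Tr := .c 1 q545 (.c 2 q546 (.c 7 q538 (.c 9 q539 .e)))
noncomputable def v195 : Tr := .l 0x1c71c71c61871c6187185146
noncomputable def q547 : Tr := .c 8 v195 (.c 9 v195 .e)
noncomputable def q548 : Tr := .c 9 v195 .e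
noncomputable def r379 : Tr := .c 0 q547 (.c 1 q548 (.c 6 q541 (.c 7 q543 (.c 9 q544 .e))))
noncomputable def q549 : Tr := .c 1 v194 (.c 8 v194 (.c 9 v194 .e))
noncomputable def q550 : Tr := .c 1 v179 (.c 8 v179 .e)
noncomputable def r380 : Tr := .c 1 q545 (.c 2 q546 (.c 4 q549 (.c 5 q550 (.c 9 q539 .e))))
noncomputable def q551 : Tr := .c 8 v179 (.c 9 v179 .e)
noncomputable def q552 : Tr := .c 1 v179 (.c 8 v179 (.c 9 v179 .e))
noncomputable def r381 : Tr := .c 0 q551 (.c 2 q546 (.c 3 q552 (.c 4 q549 (.c 5 q550 (.c 9 q539 .e)))))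
noncomputable def t97 : Tr := .c 0 r375 (.c 1 r376 (.c 2 r377 (.c 3 r378 (.c 4 r379 (.c 6 r380 (.c 7 r381 .e))))))
noncomputable def v196 : Tr := .l 0x1c61c71c71c71851861c61c7
noncomputable def q553 : Tr := .c 1 v27 (.c 2 v31 (.c 7 v196 (.c 8 v27 (.c 9 v27 .e))))
noncomputable def v197 : Tr := .l 0x1c71871c71c71861461c7187
noncomputable def q554 : Tr := .c 1 v196 (.c 7 v197 (.c 8 v196 (.c 9 v196 .e)))
noncomputable def r382 : Tr := .c 3 q553 (.c 4 q554 (.c 6 q491 .e))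
noncomputable def q555 : Tr := .c 1 v31 (.c 2 v29 (.c 7 v27 (.c 8 v31 (.c 9 v31 .e))))
noncomputable def q556 : Tr := .c 1 v31 (.c 2 v29 (.c 8 v31 (.c 9 v31 .e)))
noncomputable def q557 : Tr := .c 2 v29 (.c 9 v31 .e)
noncomputable def r383 : Tr := .c 3 q555 (.c 6 q556 (.c 7 q557 (.c 8 q534 .e)))
noncomputable def v198 : Tr := .l 0x1c71c71c71c71c61c61c71c7
noncomputable def q558 : Tr := .c 7 v198 (.c 8 v28 (.c 9 v28 .e))
noncomputable def v199 : Tr := .l 0x1c71c71c71c71c71871c7186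
noncomputable def v200 : Tr := .l 0x1c71c71c71c71c61c71c6187
noncomputable def q559 : Tr := .c 7 v199 (.c 8 v200 (.c 9 v200 .e))
noncomputable def q560 : Tr := .c 1 v28 (.c 2 v27 (.c 7 v198 (.c 8 v28 (.c 9 v28 .e))))
noncomputable def q561 : Tr := .c 1 v200 (.c 7 v199 (.c 8 v200 (.c 9 v200 .e)))
noncomputable def r384 : Tr := .c 0 q558 (.c 2 q559 (.c 3 q560 (.c 4 q561 .e)))
noncomputable def q562 : Tr := .c 7 v196 (.c 8 v27 (.c 9 v27 .e))
noncomputable def q563 : Tr := .c 7 v197 (.c 8 v196 (.c 9 v196 .e))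
noncomputable def r385 : Tr := .c 0 q562 (.c 2 q563 (.c 3 q553 (.c 4 q554 (.c 6 q491 .e))))
noncomputable def r386 : Tr := .c 0 q562 (.c 1 q371 (.c 2 q563 (.c 3 q553 (.c 4 q554 (.c 6 q491 (.c 7 q492 .e))))))
noncomputable def t98 : Tr := .c 1 r382 (.c 2 r383 (.c 7 r384 (.c 8 r385 (.c 9 r386 .e))))
noncomputable def v201 : Tr := .l 0x1851c61851c6144185144185
noncomputable def q564 : Tr := .c 9 v201 .e
noncomputable def r387 : Tr := .c 4 q554 (.c 7 q564 .e)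
noncomputable def q565 : Tr := .c 1 v27 (.c 7 v196 (.c 8 v27 (.c 9 v27 .e)))
noncomputable def r388 : Tr := .c 3 q565 (.c 4 q554 (.c 6 q518 .e))
noncomputable def q566 : Tr := .c 1 v31 (.c 7 v27 (.c 8 v31 (.c 9 v31 .e)))
noncomputable def q567 : Tr := .c 1 v31 (.c 8 v31 (.c 9 v31 .e))
noncomputable def q568 : Tr := .c 9 v31 .e
noncomputable def r389 : Tr := .c 3 q566 (.c 6 q567 (.c 7 q568 .e))
noncomputable def r390 : Tr := .c 1 q548 (.c 2 q559 (.c 4 q561 .e))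
noncomputable def q569 : Tr := .c 1 v28 (.c 7 v198 (.c 8 v28 (.c 9 v28 .e)))
noncomputable def r391 : Tr := .c 0 q558 (.c 2 q559 (.c 3 q569 (.c 4 q561 .e)))
noncomputable def r392 : Tr := .c 0 q562 (.c 2 q563 (.c 3 q565 (.c 4 q554 (.c 6 q518 .e))))
noncomputable def t99 : Tr := .c 0 r387 (.c 1 r388 (.c 2 r389 (.c 6 r390 (.c 7 r391 (.c 8 r392 .e)))))
noncomputable def q570 : Tr := .c 1 v27 (.c 2 v31 (.c 7 v196 .e))
noncomputable def q571 : Tr := .c 1 v196 (.c 7 v197 .e)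
noncomputable def r393 : Tr := .c 3 q570 (.c 4 q571 (.c 6 q528 .e))
noncomputable def q572 : Tr := .c 1 v31 (.c 2 v29 (.c 7 v27 .e))
noncomputable def r394 : Tr := .c 3 q572 (.c 6 q532 (.c 7 q533 (.c 8 q534 .e)))
noncomputable def q573 : Tr := .c 7 v90 .e
noncomputable def r395 : Tr := .c 0 q573 (.c 6 q532 (.c 7 q533 (.c 8 q534 .e)))
noncomputable def q574 : Tr := .c 7 v44 .e
noncomputable def q575 : Tr := .c 1 v29 (.c 2 v32 .e)
noncomputable def q576 : Tr := .c 2 v32 .e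
noncomputable def q577 : Tr := .c 2 v34 .e
noncomputable def r396 : Tr := .c 0 q531 (.c 2 q574 (.c 6 q575 (.c 7 q576 (.c 8 q577 .e))))
noncomputable def q578 : Tr := .c 7 v196 .e
noncomputable def q579 : Tr := .c 7 v197 .e
noncomputable def r397 : Tr := .c 0 q578 (.c 2 q579 (.c 3 q570 (.c 4 q571 (.c 6 q528 .e))))
noncomputable def r398 : Tr := .c 0 q578 (.c 2 q579 (.c 3 q570 (.c 4 q571 (.c 6 q528 (.c 7 q502 .e)))))
noncomputable def t100 : Tr := .c 1 r393 (.c 2 r394 (.c 4 r395 (.c 5 r396 (.c 8 r397 (.c 9 r398 .e)))))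
noncomputable def q580 : Tr := .c 1 v31 (.c 7 v27 .e)
noncomputable def r399 : Tr := .c 4 q580 (.c 7 q576 (.c 8 q577 .e))
noncomputable def r400 : Tr := .c 2 q574 (.c 7 q576 (.c 8 q577 .e))
noncomputable def t101 : Tr := .c 0 r399 (.c 2 r394 (.c 3 r400 (.c 4 r395 (.c 5 r396 (.c 9 r398 .e)))))
noncomputable def q581 : Tr := .c 1 v195 (.c 8 v195 (.c 9 v195 .e))
noncomputable def q582 : Tr := .c 2 v4 (.c 9 v26 .e)
noncomputable def q583 : Tr := .c 2 v0 .e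
noncomputable def r401 : Tr := .c 4 q581 (.c 7 q582 (.c 8 q583 .e))
noncomputable def q584 : Tr := .c 1 v87 (.c 2 v26 (.c 8 v87 (.c 9 v87 .e)))
noncomputable def q585 : Tr := .c 2 v26 (.c 9 v87 .e)
noncomputable def q586 : Tr := .c 2 v21 .e
noncomputable def r402 : Tr := .c 3 q584 (.c 6 q584 (.c 7 q585 (.c 8 q586 .e)))
noncomputable def v202 : Tr := .l 0x1851461441051441051030c4
noncomputable def q587 : Tr := .c 9 v202 .e
noncomputable def q588 : Tr := .c 8 v193 (.c 9 v193 .e)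
noncomputable def r403 : Tr := .c 1 q587 (.c 2 q588 (.c 7 q582 (.c 8 q583 .e)))
noncomputable def r404 : Tr := .c 0 q588 (.c 1 q545 (.c 6 q584 (.c 7 q585 (.c 8 q586 .e))))
noncomputable def q589 : Tr := .c 8 v202 (.c 9 v202 .e)
noncomputable def q590 : Tr := .c 1 v26 (.c 2 v4 (.c 8 v26 (.c 9 v26 .e)))
noncomputable def r405 : Tr := .c 0 q589 (.c 1 q587 (.c 2 q588 (.c 6 q590 (.c 7 q582 (.c 8 q583 .e)))))
noncomputable def q591 : Tr := .c 1 v193 (.c 8 v193 (.c 9 v193 .e))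
noncomputable def r406 : Tr := .c 1 q587 (.c 2 q588 (.c 4 q591 (.c 8 q583 .e)))
noncomputable def t102 : Tr := .c 0 r401 (.c 2 r402 (.c 3 r403 (.c 4 r404 (.c 5 r405 (.c 6 r406 .e)))))
noncomputable def q592 : Tr := .c 9 v26 .e
noncomputable def r407 : Tr := .c 4 q581 (.c 7 q592 .e)
noncomputable def r408 : Tr := .c 3 q541 (.c 4 q581 (.c 6 q541 .e))
noncomputable def q593 : Tr := .c 1 v87 (.c 8 v87 (.c 9 v87 .e))
noncomputable def r409 : Tr := .c 3 q593 (.c 6 q593 (.c 7 q538 .e))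
noncomputable def r410 : Tr := .c 1 q587 (.c 2 q588 (.c 7 q592 .e))
noncomputable def r411 : Tr := .c 0 q588 (.c 1 q545 (.c 6 q593 (.c 7 q538 .e)))
noncomputable def r412 : Tr := .c 1 q587 (.c 2 q588 (.c 4 q591 .e))
noncomputable def v203 : Tr := .l 0x1c71871861461c6187185146
noncomputable def q594 : Tr := .c 8 v203 (.c 9 v203 .e)
noncomputable def q595 : Tr := .c 1 v203 (.c 8 v203 (.c 9 v203 .e))
noncomputable def r413 : Tr := .c 0 q594 (.c 2 q588 (.c 3 q595 (.c 4 q591 .e)))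
noncomputable def t103 : Tr := .c 0 r407 (.c 1 r408 (.c 2 r409 (.c 3 r410 (.c 4 r411 (.c 6 r412 (.c 7 r413 .e))))))
noncomputable def q596 : Tr := .c 7 v16 (.c 8 v86 (.c 9 v86 .e))
noncomputable def q597 : Tr := .c 1 v88 (.c 2 v22 (.c 8 v88 (.c 9 v88 .e)))
noncomputable def q598 : Tr := .c 2 v22 (.c 9 v88 .e)
noncomputable def r414 : Tr := .c 0 q596 (.c 1 q520 (.c 6 q597 (.c 7 q598 .e)))
noncomputable def q599 : Tr := .c 7 v19 (.c 8 v61 (.c 9 v61 .e))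
noncomputable def q600 : Tr := .c 9 v61 .e
noncomputable def q601 : Tr := .c 1 v89 (.c 2 v98 (.c 8 v89 (.c 9 v89 .e)))
noncomputable def q602 : Tr := .c 2 v98 (.c 9 v89 .e)
noncomputable def r415 : Tr := .c 0 q599 (.c 1 q600 (.c 2 q122 (.c 6 q601 (.c 7 q602 .e))))
noncomputable def v204 : Tr := .l 0x1c71c71c71c71c61c71c61c7
noncomputable def q603 : Tr := .c 1 v16 (.c 2 v204 (.c 7 v19 (.c 8 v16 (.c 9 v16 .e))))
noncomputable def q604 : Tr := .c 1 v19 (.c 7 v9 (.c 8 v19 (.c 9 v19 .e)))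
noncomputable def q605 : Tr := .c 1 v16 (.c 2 v204 (.c 7 v19 (.c 8 v16 .e)))
noncomputable def r416 : Tr := .c 0 q121 (.c 2 q122 (.c 3 q603 (.c 4 q604 (.c 5 q605 .e))))
noncomputable def q606 : Tr := .c 1 v93 (.c 2 v181 (.c 7 v92 (.c 8 v93 (.c 9 v93 .e))))
noncomputable def q607 : Tr := .c 1 v16 (.c 7 v94 (.c 8 v16 (.c 9 v16 .e)))
noncomputable def q608 : Tr := .c 1 v93 (.c 2 v181 (.c 7 v92 (.c 8 v93 .e)))
noncomputable def q609 : Tr := .c 1 v93 (.c 2 v181 (.c 8 v93 (.c 9 v93 .e)))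
noncomputable def r417 : Tr := .c 0 q126 (.c 2 q127 (.c 3 q606 (.c 4 q607 (.c 5 q608 (.c 6 q609 .e)))))
noncomputable def q610 : Tr := .c 2 v181 (.c 9 v93 .e)
noncomputable def r418 : Tr := .c 0 q126 (.c 1 q361 (.c 2 q127 (.c 3 q606 (.c 4 q607 (.c 6 q609 (.c 7 q610 .e))))))
noncomputable def t104 : Tr := .c 4 r414 (.c 5 r415 (.c 7 r416 (.c 8 r417 (.c 9 r418 .e))))
noncomputable def q611 : Tr := .c 2 v68 .e
noncomputable def r419 : Tr := .c 2 q133 (.c 7 q611 .e)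
noncomputable def q612 : Tr := .c 7 v9 (.c 8 v97 .e)
noncomputable def q613 : Tr := .c 1 v98 (.c 2 v68 (.c 8 v98 .e))
noncomputable def r420 : Tr := .c 0 q612 (.c 2 q133 (.c 6 q613 (.c 7 q611 .e)))
noncomputable def q614 : Tr := .c 1 v96 (.c 7 v11 (.c 8 v96 .e))
noncomputable def v205 : Tr := .l 0x1c71c71c61c61c71c71c71c6
noncomputable def q615 : Tr := .c 1 v19 (.c 2 v205 (.c 7 v9 (.c 8 v19 .e)))
noncomputable def r421 : Tr := .c 2 q133 (.c 4 q614 (.c 5 q615 .e))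
noncomputable def r422 : Tr := .c 0 q137 (.c 2 q133 (.c 3 q615 (.c 4 q614 (.c 5 q615 .e))))
noncomputable def v206 : Tr := .l 0x1c61c71851c61c61c71c61c7
noncomputable def q616 : Tr := .c 1 v61 (.c 2 v206 (.c 7 v100 (.c 8 v61 .e)))
noncomputable def q617 : Tr := .c 1 v102 (.c 7 v101 (.c 8 v102 .e))
noncomputable def q618 : Tr := .c 1 v61 (.c 2 v206 (.c 8 v61 .e))
noncomputable def r423 : Tr := .c 0 q141 (.c 2 q140 (.c 3 q616 (.c 4 q617 (.c 5 q616 (.c 6 q618 .e)))))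
noncomputable def q619 : Tr := .c 2 v206 .e
noncomputable def r424 : Tr := .c 0 q141 (.c 2 q140 (.c 3 q616 (.c 4 q617 (.c 6 q618 (.c 7 q619 .e)))))
noncomputable def t105 : Tr := .c 3 r419 (.c 5 r420 (.c 6 r421 (.c 7 r422 (.c 8 r423 (.c 9 r424 .e)))))
noncomputable def r425 : Tr := .c 3 q606 (.c 4 q607 (.c 5 q608 (.c 6 q609 .e)))
noncomputable def q620 : Tr := .c 1 v28 (.c 2 v27 (.c 7 v28 (.c 8 v28 (.c 9 v28 .e))))
noncomputable def q621 : Tr := .c 1 v28 (.c 2 v27 (.c 7 v28 (.c 8 v28 .e)))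
noncomputable def q622 : Tr := .c 1 v28 (.c 2 v27 (.c 8 v28 (.c 9 v28 .e)))
noncomputable def q623 : Tr := .c 2 v27 (.c 9 v28 .e)
noncomputable def r426 : Tr := .c 3 q620 (.c 5 q621 (.c 6 q622 (.c 7 q623 .e)))
noncomputable def t106 : Tr := .c 1 r425 (.c 2 r426 (.c 7 r416 (.c 8 r417 (.c 9 r418 .e))))
noncomputable def r427 : Tr := .c 4 q617 (.c 5 q616 (.c 7 q535 .e))
noncomputable def r428 : Tr := .c 3 q616 (.c 4 q617 (.c 5 q616 (.c 6 q618 .e)))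
noncomputable def t107 : Tr := .c 0 r427 (.c 1 r428 (.c 6 r421 (.c 7 r422 (.c 8 r423 (.c 9 r424 .e)))))
noncomputable def q624 : Tr := .c 1 v93 (.c 7 v92 (.c 8 v93 .e))
noncomputable def q625 : Tr := .c 9 v105 .e
noncomputable def r429 : Tr := .c 4 q607 (.c 5 q624 (.c 7 q625 .e))
noncomputable def q626 : Tr := .c 1 v93 (.c 7 v92 (.c 8 v93 (.c 9 v93 .e)))
noncomputable def q627 : Tr := .c 1 v93 (.c 8 v93 (.c 9 v93 .e))
noncomputable def r430 : Tr := .c 3 q626 (.c 4 q607 (.c 5 q624 (.c 6 q627 .e)))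
noncomputable def q628 : Tr := .c 1 v28 (.c 7 v28 (.c 8 v28 (.c 9 v28 .e)))
noncomputable def q629 : Tr := .c 1 v28 (.c 7 v28 (.c 8 v28 .e))
noncomputable def q630 : Tr := .c 1 v28 (.c 8 v28 (.c 9 v28 .e))
noncomputable def q631 : Tr := .c 9 v28 .e
noncomputable def r431 : Tr := .c 3 q628 (.c 5 q629 (.c 6 q630 (.c 7 q631 .e)))
noncomputable def q632 : Tr := .c 9 v59 .e
noncomputable def q633 : Tr := .c 1 v16 (.c 7 v19 (.c 8 v16 .e))
noncomputable def r432 : Tr := .c 1 q632 (.c 2 q122 (.c 4 q604 (.c 5 q633 .e)))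
noncomputable def r433 : Tr := .c 0 q121 (.c 2 q122 (.c 3 q496 (.c 4 q604 (.c 5 q633 .e))))
noncomputable def r434 : Tr := .c 0 q126 (.c 2 q127 (.c 3 q626 (.c 4 q607 (.c 5 q624 (.c 6 q627 .e)))))
noncomputable def t108 : Tr := .c 0 r429 (.c 1 r430 (.c 2 r431 (.c 6 r432 (.c 7 r433 (.c 8 r434 .e)))))
noncomputable def q634 : Tr := .c 1 v96 (.c 8 v96 (.c 9 v96 .e))
noncomputable def q635 : Tr := .c 1 v106 (.c 8 v106 .e)
noncomputable def q636 : Tr := .c 9 v107 .e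
noncomputable def r435 : Tr := .c 4 q634 (.c 5 q635 (.c 7 q636 .e))
noncomputable def q637 : Tr := .c 1 v106 (.c 8 v106 (.c 9 v106 .e))
noncomputable def r436 : Tr := .c 3 q637 (.c 4 q634 (.c 5 q635 (.c 6 q637 .e)))
noncomputable def q638 : Tr := .c 1 v108 (.c 8 v108 (.c 9 v108 .e))
noncomputable def q639 : Tr := .c 1 v108 (.c 8 v108 .e)
noncomputable def q640 : Tr := .c 9 v108 .e
noncomputable def r437 : Tr := .c 3 q638 (.c 5 q639 (.c 6 q638 (.c 7 q640 .e)))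
noncomputable def q641 : Tr := .c 9 v109 .e
noncomputable def r438 : Tr := .c 1 q641 (.c 2 q170 (.c 7 q636 .e))
noncomputable def q642 : Tr := .c 8 v111 (.c 9 v111 .e)
noncomputable def q643 : Tr := .c 9 v111 .e
noncomputable def r439 : Tr := .c 0 q642 (.c 1 q643 (.c 6 q638 (.c 7 q640 .e)))
noncomputable def q644 : Tr := .c 1 v110 (.c 8 v110 (.c 9 v110 .e))
noncomputable def q645 : Tr := .c 1 v96 (.c 8 v96 .e)
noncomputable def r440 : Tr := .c 1 q641 (.c 2 q170 (.c 4 q644 (.c 5 q645 .e)))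
noncomputable def r441 : Tr := .c 0 q157 (.c 2 q170 (.c 3 q634 (.c 4 q644 (.c 5 q645 .e))))
noncomputable def t109 : Tr := .c 0 r435 (.c 1 r436 (.c 2 r437 (.c 3 r438 (.c 4 r439 (.c 6 r440 (.c 7 r441 .e))))))
noncomputable def q646 : Tr := .c 7 v112 (.c 8 v113 (.c 9 v113 .e))
noncomputable def q647 : Tr := .c 9 v113 .e
noncomputable def q648 : Tr := .c 1 v182 (.c 2 v185 (.c 7 v114 .e))
noncomputable def r442 : Tr := .c 0 q646 (.c 1 q647 (.c 8 q508 (.c 9 q648 .e)))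
noncomputable def q649 : Tr := .c 7 v91 (.c 8 v115 (.c 9 v115 .e))
noncomputable def q650 : Tr := .c 9 v115 .e
noncomputable def q651 : Tr := .c 7 v116 (.c 8 v113 (.c 9 v113 .e))
noncomputable def v207 : Tr := .l 0x185144144103144103185144
noncomputable def q652 : Tr := .c 2 v207 .e
noncomputable def r443 : Tr := .c 0 q649 (.c 1 q650 (.c 2 q651 (.c 8 q652 .e)))
noncomputable def r444 : Tr := .c 0 q188 (.c 2 q189 (.c 3 q484 (.c 4 q485 (.c 5 q486 .e))))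
noncomputable def r445 : Tr := .c 0 q188 (.c 1 q364 (.c 2 q189 (.c 3 q484 (.c 4 q485 .e))))
noncomputable def t110 : Tr := .c 4 r442 (.c 5 r443 (.c 7 r354 (.c 8 r444 (.c 9 r445 .e))))
noncomputable def r446 : Tr := .c 2 q192 (.c 8 q508 (.c 9 q509 .e))
noncomputable def q653 : Tr := .c 7 v19 (.c 8 v113 .e)
noncomputable def r447 : Tr := .c 0 q653 (.c 2 q192 (.c 8 q508 .e))
noncomputable def r448 : Tr := .c 0 q198 (.c 2 q197 (.c 3 q501 (.c 4 q500 (.c 5 q501 .e))))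
noncomputable def r449 : Tr := .c 0 q198 (.c 2 q197 (.c 3 q501 (.c 4 q500 .e)))
noncomputable def t111 : Tr := .c 3 r446 (.c 5 r447 (.c 6 r359 (.c 7 r360 (.c 8 r448 (.c 9 r449 .e)))))
noncomputable def r450 : Tr := .c 3 q484 (.c 4 q485 (.c 5 q486 (.c 9 q488 .e)))
noncomputable def r451 : Tr := .c 3 q489 (.c 5 q490 (.c 8 q493 (.c 9 q494 .e)))
noncomputable def t112 : Tr := .c 1 r450 (.c 2 r451 (.c 7 r354 (.c 8 r444 (.c 9 r445 .e))))
noncomputable def r452 : Tr := .c 4 q500 (.c 5 q501 (.c 8 q503 (.c 9 q504 .e)))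
noncomputable def r453 : Tr := .c 3 q501 (.c 4 q500 (.c 5 q501 (.c 9 q504 .e)))
noncomputable def t113 : Tr := .c 0 r452 (.c 1 r453 (.c 6 r359 (.c 7 r360 (.c 8 r448 (.c 9 r449 .e)))))
noncomputable def r454 : Tr := .c 4 q485 (.c 5 q511 (.c 9 q513 .e))
noncomputable def r455 : Tr := .c 3 q514 (.c 4 q485 (.c 5 q511 (.c 9 q513 .e)))
noncomputable def r456 : Tr := .c 3 q516 (.c 5 q517 (.c 9 q519 .e))
noncomputable def r457 : Tr := .c 0 q188 (.c 2 q189 (.c 3 q514 (.c 4 q485 (.c 5 q511 .e))))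
noncomputable def t114 : Tr := .c 0 r454 (.c 1 r455 (.c 2 r456 (.c 6 r366 (.c 7 r367 (.c 8 r457 .e)))))
noncomputable def r458 : Tr := .c 3 q524 (.c 4 q525 (.c 5 q524 (.c 9 q488 .e)))
noncomputable def r459 : Tr := .c 3 q527 (.c 5 q527 (.c 8 q493 (.c 9 q494 .e)))
noncomputable def r460 : Tr := .c 0 q529 (.c 8 q493 (.c 9 q494 .e))
noncomputable def r461 : Tr := .c 0 q530 (.c 2 q531 (.c 8 q534 .e))
noncomputable def r462 : Tr := .c 0 q215 (.c 2 q216 (.c 3 q524 (.c 4 q525 (.c 5 q524 .e))))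
noncomputable def r463 : Tr := .c 0 q215 (.c 2 q216 (.c 3 q524 (.c 4 q525 .e)))
noncomputable def t115 : Tr := .c 1 r458 (.c 2 r459 (.c 4 r460 (.c 5 r461 (.c 8 r462 (.c 9 r463 .e)))))
noncomputable def r464 : Tr := .c 0 q649 (.c 1 q650 (.c 8 q652 .e))
noncomputable def r465 : Tr := .c 0 q183 (.c 3 q495 (.c 5 q497 (.c 9 q498 .e)))
noncomputable def r466 : Tr := .c 0 q188 (.c 3 q484 (.c 5 q486 .e))
noncomputable def r467 : Tr := .c 0 q188 (.c 1 q364 (.c 3 q484 .e))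
noncomputable def t116 : Tr := .c 4 r442 (.c 5 r464 (.c 7 r465 (.c 8 r466 (.c 9 r467 .e))))
noncomputable def q654 : Tr := .c 1 v185 (.c 2 v207 (.c 7 v138 .e))
noncomputable def r468 : Tr := .c 1 q650 (.c 8 q652 (.c 9 q654 .e))
noncomputable def q655 : Tr := .c 1 v112 (.c 2 v182 (.c 7 v59 (.c 8 v112 .e)))
noncomputable def r469 : Tr := .c 1 q650 (.c 5 q655 (.c 8 q652 (.c 9 q654 .e)))
noncomputable def t117 : Tr := .c 3 r468 (.c 4 r442 (.c 5 r464 (.c 6 r469 (.c 9 r467 .e))))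
noncomputable def r470 : Tr := .c 8 q508 (.c 9 q509 .e)
noncomputable def r471 : Tr := .c 0 q653 (.c 8 q508 .e)
noncomputable def r472 : Tr := .c 5 q507 (.c 8 q508 (.c 9 q509 .e))
noncomputable def r473 : Tr := .c 0 q123 (.c 3 q507 (.c 5 q507 (.c 9 q509 .e)))
noncomputable def r474 : Tr := .c 0 q198 (.c 3 q501 (.c 5 q501 .e))
noncomputable def r475 : Tr := .c 0 q198 (.c 3 q501 .e)
noncomputable def t118 : Tr := .c 3 r470 (.c 5 r471 (.c 6 r472 (.c 7 r473 (.c 8 r474 (.c 9 r475 .e)))))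
noncomputable def r476 : Tr := .c 3 q484 (.c 5 q486 (.c 9 q488 .e))
noncomputable def t119 : Tr := .c 1 r476 (.c 2 r451 (.c 7 r465 (.c 8 r466 (.c 9 r467 .e))))
noncomputable def r477 : Tr := .c 5 q501 (.c 8 q503 (.c 9 q504 .e))
noncomputable def r478 : Tr := .c 3 q501 (.c 5 q501 (.c 9 q504 .e))
noncomputable def t120 : Tr := .c 0 r477 (.c 1 r478 (.c 6 r472 (.c 7 r473 (.c 8 r474 (.c 9 r475 .e)))))
noncomputable def r479 : Tr := .c 3 q524 (.c 5 q524 (.c 9 q488 .e))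
noncomputable def r480 : Tr := .c 0 q530 (.c 8 q534 .e)
noncomputable def r481 : Tr := .c 0 q215 (.c 3 q524 (.c 5 q524 .e))
noncomputable def r482 : Tr := .c 0 q215 (.c 3 q524 .e)
noncomputable def t121 : Tr := .c 1 r479 (.c 2 r459 (.c 4 r460 (.c 5 r480 (.c 8 r481 (.c 9 r482 .e)))))
noncomputable def v208 : Tr := .l 0x1c61c61c71c71851851c61c6
noncomputable def v209 : Tr := .l 0x1851851c61c6144144185185
noncomputable def q656 : Tr := .c 1 v208 (.c 2 v209 (.c 7 v139 .e))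
noncomputable def q657 : Tr := .c 1 v36 (.c 2 v42 (.c 7 v140 .e))
noncomputable def r483 : Tr := .c 5 q656 (.c 8 q534 (.c 9 q657 .e))
noncomputable def r484 : Tr := .c 8 q534 (.c 9 q657 .e)
noncomputable def t122 : Tr := .c 0 r483 (.c 2 r459 (.c 3 r484 (.c 4 r460 (.c 5 r480 (.c 9 r482 .e)))))
noncomputable def q658 : Tr := .c 0 v93 (.c 1 v93 (.c 6 v160 (.c 7 v160 (.c 8 v93 .e))))
noncomputable def q659 : Tr := .c 0 v173 (.c 1 v173 (.c 6 v59 (.c 7 v59 (.c 8 v173 .e))))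
noncomputable def q660 : Tr := .c 0 v16 .e
noncomputable def v210 : Tr := .l 0x1c71861871461c71c71c7187
noncomputable def q661 : Tr := .c 0 v210 (.c 6 v18 .e)
noncomputable def q662 : Tr := .c 0 v210 (.c 1 v210 (.c 6 v18 (.c 7 v18 .e)))
noncomputable def r485 : Tr := .c 4 q658 (.c 5 q659 (.c 7 q660 (.c 8 q661 (.c 9 q662 .e))))
noncomputable def q663 : Tr := .c 1 v173 (.c 7 v59 (.c 8 v173 .e))
noncomputable def q664 : Tr := .c 1 v173 (.c 8 v173 .e)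
noncomputable def r486 : Tr := .c 3 q663 (.c 4 q658 (.c 5 q659 (.c 6 q664 (.c 9 q662 .e))))
noncomputable def q665 : Tr := .c 0 v15 (.c 1 v15 (.c 6 v18 (.c 7 v18 (.c 8 v15 .e))))
noncomputable def q666 : Tr := .c 0 v59 (.c 1 v59 (.c 6 v15 (.c 7 v15 (.c 8 v59 .e))))
noncomputable def v211 : Tr := .l 0x1861451461051c7186187146
noncomputable def q667 : Tr := .c 0 v211 (.c 6 v49 .e)
noncomputable def q668 : Tr := .c 0 v211 (.c 1 v211 (.c 6 v49 (.c 7 v49 .e)))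
noncomputable def r487 : Tr := .c 1 q245 (.c 2 q388 (.c 4 q665 (.c 5 q666 (.c 8 q667 (.c 9 q668 .e)))))
noncomputable def q669 : Tr := .c 1 v59 (.c 7 v15 (.c 8 v59 .e))
noncomputable def r488 : Tr := .c 0 q462 (.c 2 q388 (.c 3 q669 (.c 4 q665 (.c 5 q666 (.c 9 q668 .e)))))
noncomputable def r489 : Tr := .c 0 q463 (.c 2 q465 (.c 3 q663 (.c 4 q658 (.c 5 q659 (.c 6 q664 .e)))))
noncomputable def t123 : Tr := .c 0 r485 (.c 1 r486 (.c 6 r487 (.c 7 r488 (.c 8 r489 .e))))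
noncomputable def q670 : Tr := .c 0 v172 (.c 1 v172 (.c 6 v171 (.c 7 v171 (.c 8 v172 (.c 9 v172 .e)))))
noncomputable def q671 : Tr := .c 0 v92 (.c 1 v92 (.c 6 v16 (.c 7 v16 (.c 8 v92 .e))))
noncomputable def v212 : Tr := .l 0x1871c71871c7146187146187
noncomputable def q672 : Tr := .c 0 v212 (.c 9 v105 .e)
noncomputable def q673 : Tr := .c 0 v183 (.c 6 v124 .e)
noncomputable def q674 : Tr := .c 0 v183 (.c 1 v183 (.c 6 v124 (.c 7 v124 .e)))
noncomputable def r490 : Tr := .c 4 q670 (.c 5 q671 (.c 7 q672 (.c 8 q673 (.c 9 q674 .e))))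
noncomputable def q675 : Tr := .c 1 v92 (.c 7 v16 (.c 8 v92 (.c 9 v92 .e)))
noncomputable def q676 : Tr := .c 1 v92 (.c 8 v92 (.c 9 v92 .e))
noncomputable def r491 : Tr := .c 3 q675 (.c 4 q670 (.c 5 q671 (.c 6 q676 (.c 9 q674 .e))))
noncomputable def q677 : Tr := .c 1 v28 (.c 7 v174 (.c 8 v28 (.c 9 v28 .e)))
noncomputable def q678 : Tr := .c 0 v28 (.c 1 v28 (.c 6 v174 (.c 7 v174 (.c 8 v28 .e))))
noncomputable def v213 : Tr := .l 0x1461871871c7105146146187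
noncomputable def q679 : Tr := .c 0 v213 (.c 9 v28 .e)
noncomputable def v214 : Tr := .l 0x1871461c71871c61851c71c6
noncomputable def q680 : Tr := .c 0 v214 (.c 6 v73 .e)
noncomputable def q681 : Tr := .c 0 v214 (.c 1 v214 (.c 6 v73 (.c 7 v73 .e)))
noncomputable def r492 : Tr := .c 3 q677 (.c 5 q678 (.c 6 q630 (.c 7 q679 (.c 8 q680 (.c 9 q681 .e)))))
noncomputable def q682 : Tr := .c 6 v18 (.c 9 v59 .e)
noncomputable def q683 : Tr := .c 0 v59 (.c 1 v59 (.c 6 v15 (.c 7 v15 (.c 8 v59 (.c 9 v59 .e)))))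
noncomputable def q684 : Tr := .c 0 v16 (.c 1 v16 (.c 6 v59 (.c 7 v59 (.c 8 v16 .e))))
noncomputable def v215 : Tr := .l 0x1c71861871461c71c71c7186
noncomputable def q685 : Tr := .c 0 v215 (.c 6 v18 .e)
noncomputable def q686 : Tr := .c 0 v215 (.c 1 v215 (.c 6 v18 (.c 7 v18 .e)))
noncomputable def r493 : Tr := .c 1 q682 (.c 2 q454 (.c 4 q683 (.c 5 q684 (.c 8 q685 (.c 9 q686 .e)))))
noncomputable def q687 : Tr := .c 1 v16 (.c 7 v59 (.c 8 v16 (.c 9 v16 .e)))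
noncomputable def r494 : Tr := .c 0 q66 (.c 2 q454 (.c 3 q687 (.c 4 q683 (.c 5 q684 (.c 9 q686 .e)))))
noncomputable def r495 : Tr := .c 0 q457 (.c 2 q458 (.c 3 q675 (.c 4 q670 (.c 5 q671 (.c 6 q676 .e)))))
noncomputable def t124 : Tr := .c 0 r490 (.c 1 r491 (.c 2 r492 (.c 6 r493 (.c 7 r494 (.c 8 r495 .e)))))
noncomputable def q688 : Tr := .c 0 v16 (.c 1 v16 (.c 6 v16 (.c 7 v16 .e)))
noncomputable def v216 : Tr := .l 0x1851851c61c61c61c61c71c7
noncomputable def v217 : Tr := .l 0x1c61c61c71c71c71c71c71c7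
noncomputable def q689 : Tr := .c 0 v216 (.c 1 v216 (.c 6 v217 (.c 7 v217 .e)))
noncomputable def q690 : Tr := .c 0 v71 .e
noncomputable def v218 : Tr := .l 0x1851441861451c61851c7186
noncomputable def q691 : Tr := .c 0 v131 (.c 6 v218 .e)
noncomputable def q692 : Tr := .c 0 v131 (.c 1 v131 (.c 6 v218 (.c 7 v218 .e)))
noncomputable def r496 : Tr := .c 4 q688 (.c 5 q689 (.c 7 q690 (.c 8 q691 (.c 9 q692 .e))))
noncomputable def v219 : Tr := .l 0x1441851851c61851c61c61c7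
noncomputable def v220 : Tr := .l 0x1851c61c61c71c61c71c71c7
noncomputable def q693 : Tr := .c 1 v219 (.c 7 v220 .e)
noncomputable def q694 : Tr := .c 0 v219 (.c 1 v219 (.c 6 v220 (.c 7 v220 .e)))
noncomputable def q695 : Tr := .c 1 v219 .e
noncomputable def q696 : Tr := .c 0 v163 .e
noncomputable def v221 : Tr := .l 0x1c61851c71861c71c61c71c7
noncomputable def q697 : Tr := .c 0 v129 (.c 6 v221 .e)
noncomputable def q698 : Tr := .c 0 v129 (.c 1 v129 (.c 6 v221 (.c 7 v221 .e)))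
noncomputable def r497 : Tr := .c 3 q693 (.c 5 q694 (.c 6 q695 (.c 7 q696 (.c 8 q697 (.c 9 q698 .e)))))
noncomputable def q699 : Tr := .c 6 v218 .e
noncomputable def q700 : Tr := .c 6 v221 (.c 7 v221 .e)
noncomputable def r498 : Tr := .c 1 q699 (.c 2 q700 (.c 7 q690 (.c 8 q691 (.c 9 q692 .e))))
noncomputable def q701 : Tr := .c 6 v221 .e
noncomputable def r499 : Tr := .c 0 q37 (.c 1 q701 (.c 6 q695 (.c 7 q696 (.c 8 q697 (.c 9 q698 .e)))))
noncomputable def t125 : Tr := .c 0 r496 (.c 2 r497 (.c 3 r498 (.c 4 r499 .e)))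
noncomputable def v222 : Tr := .l 0x1c71871871461c71c7187187
noncomputable def q702 : Tr := .c 0 v222 (.c 1 v222 (.c 8 v222 (.c 9 v222 .e)))
noncomputable def q703 : Tr := .c 0 v188 (.c 1 v188 (.c 8 v188 .e))
noncomputable def q704 : Tr := .c 0 v6 (.c 9 v107 .e)
noncomputable def q705 : Tr := .c 0 v192 .e
noncomputable def q706 : Tr := .c 0 v192 (.c 1 v192 .e)
noncomputable def r500 : Tr := .c 4 q702 (.c 5 q703 (.c 7 q704 (.c 8 q705 (.c 9 q706 .e))))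
noncomputable def v223 : Tr := .l 0x1871c71461871c61c71851c6
noncomputable def q707 : Tr := .c 1 v223 (.c 8 v223 (.c 9 v223 .e))
noncomputable def q708 : Tr := .c 0 v223 (.c 1 v223 (.c 8 v223 .e))
noncomputable def q709 : Tr := .c 0 v46 (.c 9 v223 .e)
noncomputable def q710 : Tr := .c 0 v179 .e
noncomputable def q711 : Tr := .c 0 v179 (.c 1 v179 .e)
noncomputable def r501 : Tr := .c 3 q707 (.c 5 q708 (.c 6 q707 (.c 7 q709 (.c 8 q710 (.c 9 q711 .e)))))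
noncomputable def v224 : Tr := .l 0x1871461461051c6187185146
noncomputable def q712 : Tr := .c 9 v224 .e
noncomputable def v225 : Tr := .l 0x187146146105187187146146
noncomputable def q713 : Tr := .c 8 v225 (.c 9 v225 .e)
noncomputable def r502 : Tr := .c 1 q712 (.c 2 q713 (.c 7 q704 (.c 8 q705 (.c 9 q706 .e))))
noncomputable def v226 : Tr := .l 0x1c71871871461c71c71c6187
noncomputable def q714 : Tr := .c 8 v226 (.c 9 v226 .e)
noncomputable def q715 : Tr := .c 9 v226 .e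
noncomputable def r503 : Tr := .c 0 q714 (.c 1 q715 (.c 6 q707 (.c 7 q709 (.c 8 q710 (.c 9 q711 .e)))))
noncomputable def q716 : Tr := .c 0 v225 (.c 1 v225 (.c 8 v225 (.c 9 v225 .e)))
noncomputable def v227 : Tr := .l 0x1c71871871461c71c7187186
noncomputable def q717 : Tr := .c 0 v227 (.c 1 v227 (.c 8 v227 .e))
noncomputable def r504 : Tr := .c 1 q712 (.c 2 q713 (.c 4 q716 (.c 5 q717 (.c 8 q705 (.c 9 q706 .e)))))
noncomputable def t126 : Tr := .c 0 r500 (.c 2 r501 (.c 3 r502 (.c 4 r503 (.c 6 r504 .e))))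
noncomputable def r505 : Tr := .c 3 q536 (.c 4 q702 (.c 5 q703 (.c 6 q536 (.c 9 q706 .e))))
noncomputable def q718 : Tr := .c 8 v227 (.c 9 v227 .e)
noncomputable def q719 : Tr := .c 1 v227 (.c 8 v227 (.c 9 v227 .e))
noncomputable def r506 : Tr := .c 0 q718 (.c 2 q713 (.c 3 q719 (.c 4 q716 (.c 5 q717 (.c 9 q706 .e)))))
noncomputable def t127 : Tr := .c 0 r500 (.c 1 r505 (.c 2 r501 (.c 3 r502 (.c 4 r503 (.c 6 r504 (.c 7 r506 .e))))))
noncomputable def t128 : Tr := .c 1 r491 (.c 2 r492 (.c 7 r494 (.c 8 r495 .e)))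
noncomputable def q720 : Tr := .c 1 v92 (.c 7 v16 .e)
noncomputable def q721 : Tr := .c 0 v172 (.c 1 v172 (.c 6 v171 (.c 7 v171 .e)))
noncomputable def q722 : Tr := .c 0 v92 (.c 1 v92 (.c 6 v16 (.c 7 v16 .e)))
noncomputable def q723 : Tr := .c 1 v92 .e
noncomputable def r507 : Tr := .c 3 q720 (.c 4 q721 (.c 5 q722 (.c 6 q723 (.c 9 q674 .e))))
noncomputable def q724 : Tr := .c 1 v28 (.c 7 v174 .e)
noncomputable def q725 : Tr := .c 0 v28 (.c 1 v28 (.c 6 v174 (.c 7 v174 .e)))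
noncomputable def q726 : Tr := .c 1 v28 .e
noncomputable def q727 : Tr := .c 0 v213 .e
noncomputable def r508 : Tr := .c 3 q724 (.c 5 q725 (.c 6 q726 (.c 7 q727 (.c 8 q680 (.c 9 q681 .e)))))
noncomputable def q728 : Tr := .c 7 v175 .e
noncomputable def r509 : Tr := .c 0 q728 (.c 1 q376 (.c 6 q726 (.c 7 q727 (.c 8 q680 (.c 9 q681 .e)))))
noncomputable def r510 : Tr := .c 0 q37 (.c 2 q474 (.c 3 q720 (.c 4 q721 (.c 5 q722 (.c 6 q723 .e)))))
noncomputable def t129 : Tr := .c 1 r507 (.c 2 r508 (.c 4 r509 (.c 8 r510 .e)))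
noncomputable def v228 : Tr := .l 0x187187146146146187105146
noncomputable def q729 : Tr := .c 0 v228 (.c 9 v52 .e)
noncomputable def r511 : Tr := .c 1 q236 (.c 2 q384 (.c 7 q729 .e))
noncomputable def q730 : Tr := .c 7 v18 (.c 8 v18 (.c 9 v18 .e))
noncomputable def q731 : Tr := .c 6 v55 (.c 9 v18 .e)
noncomputable def q732 : Tr := .c 1 v104 (.c 8 v104 (.c 9 v104 .e))
noncomputable def v229 : Tr := .l 0x1c71c71871871871c7146187
noncomputable def q733 : Tr := .c 0 v229 (.c 9 v104 .e)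
noncomputable def r512 : Tr := .c 0 q730 (.c 1 q731 (.c 6 q732 (.c 7 q733 .e)))
noncomputable def q734 : Tr := .c 0 v49 (.c 1 v49 (.c 6 v55 (.c 7 v55 (.c 8 v49 (.c 9 v49 .e)))))
noncomputable def q735 : Tr := .c 0 v18 (.c 1 v18 (.c 6 v49 (.c 7 v49 (.c 8 v18 .e))))
noncomputable def r513 : Tr := .c 1 q236 (.c 2 q384 (.c 4 q734 (.c 5 q735 .e)))
noncomputable def t130 : Tr := .c 3 r511 (.c 4 r512 (.c 6 r513 .e))
noncomputable def q736 : Tr := .c 0 v229 .e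
noncomputable def r514 : Tr := .c 1 q237 (.c 2 q385 (.c 7 q736 .e))
noncomputable def r515 : Tr := .c 1 q237 (.c 2 q385 (.c 4 q735 (.c 5 q665 .e)))
noncomputable def q737 : Tr := .c 1 v15 (.c 7 v18 (.c 8 v15 .e))
noncomputable def r516 : Tr := .c 0 q389 (.c 2 q385 (.c 3 q737 (.c 4 q735 (.c 5 q665 .e))))
noncomputable def q738 : Tr := .c 1 v158 (.c 7 v157 (.c 8 v158 .e))
noncomputable def q739 : Tr := .c 0 v160 (.c 1 v160 (.c 6 v159 (.c 7 v159 (.c 8 v160 .e))))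
noncomputable def q740 : Tr := .c 0 v158 (.c 1 v158 (.c 6 v157 (.c 7 v157 (.c 8 v158 .e))))
noncomputable def q741 : Tr := .c 1 v158 (.c 8 v158 .e)
noncomputable def r517 : Tr := .c 0 q390 (.c 2 q392 (.c 3 q738 (.c 4 q739 (.c 5 q740 (.c 6 q741 .e)))))
noncomputable def t131 : Tr := .c 3 r514 (.c 6 r515 (.c 7 r516 (.c 8 r517 .e)))
noncomputable def r518 : Tr := .c 4 q739 (.c 5 q740 (.c 7 q660 .e))
noncomputable def r519 : Tr := .c 3 q738 (.c 4 q739 (.c 5 q740 (.c 6 q741 .e)))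
noncomputable def t132 : Tr := .c 0 r518 (.c 1 r519 (.c 6 r515 (.c 7 r516 (.c 8 r517 .e))))
noncomputable def q742 : Tr := .c 0 v59 (.c 1 v59 (.c 6 v165 (.c 7 v165 (.c 8 v59 (.c 9 v59 .e)))))
noncomputable def v230 : Tr := .l 0x1c71c71c71c71871c71871c7
noncomputable def q743 : Tr := .c 0 v230 (.c 9 v166 .e)
noncomputable def r520 : Tr := .c 4 q742 (.c 5 q684 (.c 7 q743 .e))
noncomputable def q744 : Tr := .c 1 v16 (.c 8 v16 (.c 9 v16 .e))
noncomputable def r521 : Tr := .c 3 q687 (.c 4 q742 (.c 5 q684 (.c 6 q744 .e)))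
noncomputable def q745 : Tr := .c 1 v168 (.c 7 v167 (.c 8 v168 (.c 9 v168 .e)))
noncomputable def q746 : Tr := .c 0 v168 (.c 1 v168 (.c 6 v167 (.c 7 v167 (.c 8 v168 .e))))
noncomputable def q747 : Tr := .c 1 v168 (.c 8 v168 (.c 9 v168 .e))
noncomputable def v231 : Tr := .l 0x1871c71c71c71461871871c7
noncomputable def q748 : Tr := .c 0 v231 (.c 9 v168 .e)
noncomputable def r522 : Tr := .c 3 q745 (.c 5 q746 (.c 6 q747 (.c 7 q748 .e)))
noncomputable def q749 : Tr := .c 0 v15 (.c 1 v15 (.c 6 v18 (.c 7 v18 (.c 8 v15 (.c 9 v15 .e)))))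
noncomputable def r523 : Tr := .c 1 q350 (.c 2 q442 (.c 4 q749 (.c 5 q666 .e)))
noncomputable def q750 : Tr := .c 1 v59 (.c 7 v15 (.c 8 v59 (.c 9 v59 .e)))
noncomputable def r524 : Tr := .c 0 q422 (.c 2 q442 (.c 3 q750 (.c 4 q749 (.c 5 q666 .e))))
noncomputable def r525 : Tr := .c 0 q66 (.c 2 q433 (.c 3 q687 (.c 4 q742 (.c 5 q684 (.c 6 q744 .e)))))
noncomputable def t133 : Tr := .c 0 r520 (.c 1 r521 (.c 2 r522 (.c 6 r523 (.c 7 r524 (.c 8 r525 .e)))))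
noncomputable def q751 : Tr := .c 0 v18 (.c 1 v18 (.c 8 v18 (.c 9 v18 .e)))
noncomputable def q752 : Tr := .c 0 v67 (.c 1 v67 (.c 8 v67 .e))
noncomputable def r526 : Tr := .c 4 q751 (.c 5 q752 (.c 7 q729 .e))
noncomputable def q753 : Tr := .c 0 v104 (.c 1 v104 (.c 8 v104 .e))
noncomputable def r527 : Tr := .c 3 q732 (.c 5 q753 (.c 6 q732 (.c 7 q733 .e)))
noncomputable def r528 : Tr := .c 1 q275 (.c 2 q416 (.c 7 q729 .e))
noncomputable def r529 : Tr := .c 0 q407 (.c 1 q266 (.c 6 q732 (.c 7 q733 .e)))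
noncomputable def q754 : Tr := .c 0 v49 (.c 1 v49 (.c 8 v49 (.c 9 v49 .e)))
noncomputable def q755 : Tr := .c 0 v18 (.c 1 v18 (.c 8 v18 .e))
noncomputable def r530 : Tr := .c 1 q275 (.c 2 q416 (.c 4 q754 (.c 5 q755 .e)))
noncomputable def t134 : Tr := .c 0 r526 (.c 2 r527 (.c 3 r528 (.c 4 r529 (.c 6 r530 .e))))
noncomputable def q756 : Tr := .c 1 v67 (.c 8 v67 (.c 9 v67 .e))
noncomputable def r531 : Tr := .c 3 q756 (.c 4 q751 (.c 5 q752 (.c 6 q756 .e)))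
noncomputable def q757 : Tr := .c 1 v18 (.c 8 v18 (.c 9 v18 .e))
noncomputable def r532 : Tr := .c 0 q407 (.c 2 q416 (.c 3 q757 (.c 4 q754 (.c 5 q755 .e))))
noncomputable def t135 : Tr := .c 0 r526 (.c 1 r531 (.c 2 r527 (.c 3 r528 (.c 4 r529 (.c 6 r530 (.c 7 r532 .e))))))
noncomputable def q758 : Tr := .c 7 v59 (.c 8 v59 (.c 9 v59 .e))
noncomputable def q759 : Tr := .c 1 v170 (.c 8 v170 (.c 9 v170 .e))
noncomputable def q760 : Tr := .c 0 v16 (.c 9 v170 .e)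
noncomputable def r533 : Tr := .c 0 q758 (.c 1 q682 (.c 6 q759 (.c 7 q760 .e)))
noncomputable def t136 : Tr := .c 4 r533 (.c 7 r524 (.c 8 r525 .e))
noncomputable def t137 : Tr := .c 1 r521 (.c 2 r522 (.c 7 r524 (.c 8 r525 .e)))
noncomputable def v232 : Tr := .l 0x1c71871871461c71c61c7187
noncomputable def q761 : Tr := .c 0 v232 (.c 6 v18 .e)
noncomputable def q762 : Tr := .c 0 v232 (.c 1 v232 (.c 6 v18 (.c 7 v18 .e)))
noncomputable def r534 : Tr := .c 0 q758 (.c 1 q682 (.c 8 q761 (.c 9 q762 .e)))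
noncomputable def r535 : Tr := .c 0 q457 (.c 2 q458 (.c 3 q675 (.c 4 q670 (.c 5 q671 .e))))
noncomputable def t138 : Tr := .c 4 r534 (.c 7 r494 (.c 8 r535 .e))
noncomputable def r536 : Tr := .c 1 q245 (.c 2 q388 (.c 8 q667 (.c 9 q668 .e)))
noncomputable def r537 : Tr := .c 0 q463 (.c 2 q465 (.c 3 q663 (.c 4 q658 (.c 5 q659 .e))))
noncomputable def t139 : Tr := .c 3 r536 (.c 6 r487 (.c 7 r488 (.c 8 r537 .e)))
noncomputable def r538 : Tr := .c 3 q675 (.c 4 q670 (.c 5 q671 (.c 9 q674 .e)))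
noncomputable def r539 : Tr := .c 3 q677 (.c 5 q678 (.c 8 q680 (.c 9 q681 .e)))
noncomputable def t140 : Tr := .c 1 r538 (.c 2 r539 (.c 7 r494 (.c 8 r535 .e)))
noncomputable def r540 : Tr := .c 4 q658 (.c 5 q659 (.c 8 q661 (.c 9 q662 .e)))
noncomputable def r541 : Tr := .c 3 q663 (.c 4 q658 (.c 5 q659 (.c 9 q662 .e)))
noncomputable def t141 : Tr := .c 0 r540 (.c 1 r541 (.c 6 r487 (.c 7 r488 (.c 8 r537 .e))))
noncomputable def r542 : Tr := .c 4 q670 (.c 5 q671 (.c 8 q673 (.c 9 q674 .e)))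
noncomputable def t142 : Tr := .c 0 r542 (.c 1 r538 (.c 2 r539 (.c 6 r493 (.c 7 r494 (.c 8 r535 .e)))))
noncomputable def r543 : Tr := .c 3 q720 (.c 4 q721 (.c 5 q722 (.c 9 q674 .e)))
noncomputable def r544 : Tr := .c 3 q724 (.c 5 q725 (.c 8 q680 (.c 9 q681 .e)))
noncomputable def r545 : Tr := .c 0 q728 (.c 1 q376 (.c 8 q680 (.c 9 q681 .e)))
noncomputable def r546 : Tr := .c 0 q37 (.c 2 q474 (.c 3 q720 (.c 4 q721 (.c 5 q722 .e))))
noncomputable def t143 : Tr := .c 1 r543 (.c 2 r544 (.c 4 r545 (.c 8 r546 .e)))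
noncomputable def r547 : Tr := .c 0 q66 (.c 3 q687 (.c 5 q684 (.c 9 q686 .e)))
noncomputable def r548 : Tr := .c 0 q457 (.c 3 q675 (.c 5 q671 .e))
noncomputable def t144 : Tr := .c 4 r534 (.c 7 r547 (.c 8 r548 .e))
noncomputable def q763 : Tr := .c 6 v49 (.c 9 v113 .e)
noncomputable def v233 : Tr := .l 0x1871461461051c6185187146
noncomputable def q764 : Tr := .c 0 v233 (.c 6 v49 .e)
noncomputable def q765 : Tr := .c 0 v233 (.c 1 v233 (.c 6 v49 (.c 7 v49 .e)))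
noncomputable def r549 : Tr := .c 1 q763 (.c 8 q764 (.c 9 q765 .e))
noncomputable def r550 : Tr := .c 1 q763 (.c 5 q666 (.c 8 q764 (.c 9 q765 .e)))
noncomputable def t145 : Tr := .c 3 r549 (.c 4 r534 (.c 6 r550 .e))
noncomputable def r551 : Tr := .c 1 q245 (.c 8 q667 (.c 9 q668 .e))
noncomputable def r552 : Tr := .c 1 q245 (.c 5 q666 (.c 8 q667 (.c 9 q668 .e)))
noncomputable def r553 : Tr := .c 0 q462 (.c 3 q669 (.c 5 q666 (.c 9 q668 .e)))
noncomputable def r554 : Tr := .c 0 q463 (.c 3 q663 (.c 5 q659 .e))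
noncomputable def t146 : Tr := .c 3 r551 (.c 6 r552 (.c 7 r553 (.c 8 r554 .e)))
noncomputable def r555 : Tr := .c 3 q675 (.c 5 q671 (.c 9 q674 .e))
noncomputable def t147 : Tr := .c 1 r555 (.c 2 r539 (.c 7 r547 (.c 8 r548 .e)))
noncomputable def r556 : Tr := .c 5 q659 (.c 8 q661 (.c 9 q662 .e))
noncomputable def r557 : Tr := .c 3 q663 (.c 5 q659 (.c 9 q662 .e))
noncomputable def t148 : Tr := .c 0 r556 (.c 1 r557 (.c 6 r552 (.c 7 r553 (.c 8 r554 .e))))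
noncomputable def r558 : Tr := .c 3 q720 (.c 5 q722 (.c 9 q674 .e))
noncomputable def r559 : Tr := .c 0 q37 (.c 3 q720 (.c 5 q722 .e))
noncomputable def t149 : Tr := .c 1 r558 (.c 2 r544 (.c 4 r545 (.c 8 r559 .e)))
noncomputable def q766 : Tr := .c 0 v139 (.c 1 v139 (.c 6 v176 (.c 7 v176 .e)))
noncomputable def q767 : Tr := .c 0 v140 (.c 6 v79 .e)
noncomputable def q768 : Tr := .c 0 v140 (.c 1 v140 (.c 6 v79 (.c 7 v79 .e)))
noncomputable def r560 : Tr := .c 5 q766 (.c 8 q767 (.c 9 q768 .e))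
noncomputable def r561 : Tr := .c 1 q264 (.c 8 q767 (.c 9 q768 .e))
noncomputable def t150 : Tr := .c 0 r560 (.c 2 r544 (.c 3 r561 (.c 4 r545 .e)))
noncomputable def q769 : Tr := .c 0 v28 (.c 1 v28 (.c 6 v128 (.c 7 v128 (.c 8 v28 .e))))
noncomputable def q770 : Tr := .c 0 v92 (.c 1 v92 (.c 2 v181 (.c 6 v16 (.c 7 v16 (.c 8 v92 .e)))))
noncomputable def v234 : Tr := .l 0x1451861861c7104145145186
noncomputable def q771 : Tr := .c 0 v234 (.c 2 v31 .e)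
noncomputable def q772 : Tr := .c 0 v183 (.c 2 v182 (.c 6 v120 .e))
noncomputable def q773 : Tr := .c 0 v183 (.c 1 v183 (.c 2 v182 (.c 6 v120 (.c 7 v120 .e))))
noncomputable def r562 : Tr := .c 4 q769 (.c 5 q770 (.c 7 q771 (.c 8 q772 (.c 9 q773 .e))))
noncomputable def r563 : Tr := .c 3 q501 (.c 4 q769 (.c 5 q770 (.c 6 q505 (.c 9 q773 .e))))
noncomputable def q774 : Tr := .c 6 v125 .e
noncomputable def q775 : Tr := .c 6 v120 (.c 7 v120 (.c 8 v39 .e))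
noncomputable def q776 : Tr := .c 0 v39 (.c 1 v39 (.c 6 v120 (.c 7 v120 (.c 8 v39 .e))))
noncomputable def q777 : Tr := .c 0 v16 (.c 1 v16 (.c 2 v184 (.c 6 v19 (.c 7 v19 (.c 8 v16 .e)))))
noncomputable def q778 : Tr := .c 0 v186 (.c 2 v185 (.c 6 v125 .e))
noncomputable def q779 : Tr := .c 0 v186 (.c 1 v186 (.c 2 v185 (.c 6 v125 (.c 7 v125 .e))))
noncomputable def r564 : Tr := .c 1 q774 (.c 2 q775 (.c 4 q776 (.c 5 q777 (.c 8 q778 (.c 9 q779 .e)))))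
noncomputable def r565 : Tr := .c 0 q123 (.c 2 q775 (.c 3 q507 (.c 4 q776 (.c 5 q777 (.c 9 q779 .e)))))
noncomputable def q780 : Tr := .c 6 v128 (.c 7 v128 (.c 8 v28 .e))
noncomputable def r566 : Tr := .c 0 q198 (.c 2 q780 (.c 3 q501 (.c 4 q769 (.c 5 q770 (.c 6 q505 .e)))))
noncomputable def v235 : Tr := .l 0x1c71c71c71871c71871c71c6
noncomputable def q781 : Tr := .c 6 v235 .e
noncomputable def q782 : Tr := .c 0 v168 (.c 2 v181 .e)
noncomputable def r567 : Tr := .c 0 q198 (.c 1 q781 (.c 2 q780 (.c 3 q501 (.c 4 q769 (.c 6 q505 (.c 7 q782 .e))))))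
noncomputable def t151 : Tr := .c 0 r562 (.c 1 r563 (.c 6 r564 (.c 7 r565 (.c 8 r566 (.c 9 r567 .e)))))
noncomputable def q783 : Tr := .c 0 v92 (.c 1 v92 (.c 6 v91 (.c 7 v91 (.c 8 v92 .e))))
noncomputable def q784 : Tr := .c 0 v123 (.c 1 v123 (.c 6 v93 (.c 7 v93 (.c 8 v123 .e))))
noncomputable def v236 : Tr := .l 0x146187105146146187145186
noncomputable def q785 : Tr := .c 0 v236 .e
noncomputable def q786 : Tr := .c 0 v177 (.c 6 v130 .e)
noncomputable def q787 : Tr := .c 0 v177 (.c 1 v177 (.c 6 v130 (.c 7 v130 .e)))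
noncomputable def r568 : Tr := .c 4 q783 (.c 5 q784 (.c 7 q785 (.c 8 q786 (.c 9 q787 .e))))
noncomputable def q788 : Tr := .c 1 v123 (.c 8 v123 .e)
noncomputable def r569 : Tr := .c 3 q511 (.c 4 q783 (.c 5 q784 (.c 6 q788 (.c 9 q787 .e))))
noncomputable def q789 : Tr := .c 6 v120 .e
noncomputable def q790 : Tr := .c 6 v19 (.c 7 v19 (.c 8 v16 .e))
noncomputable def q791 : Tr := .c 0 v16 (.c 1 v16 (.c 6 v19 (.c 7 v19 (.c 8 v16 .e))))
noncomputable def q792 : Tr := .c 0 v93 (.c 1 v93 (.c 6 v16 (.c 7 v16 (.c 8 v93 .e))))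
noncomputable def q793 : Tr := .c 0 v179 (.c 6 v120 .e)
noncomputable def q794 : Tr := .c 0 v179 (.c 1 v179 (.c 6 v120 (.c 7 v120 .e)))
noncomputable def r570 : Tr := .c 1 q789 (.c 2 q790 (.c 4 q791 (.c 5 q792 (.c 8 q793 (.c 9 q794 .e)))))
noncomputable def r571 : Tr := .c 0 q184 (.c 2 q790 (.c 3 q521 (.c 4 q791 (.c 5 q792 (.c 9 q794 .e)))))
noncomputable def q795 : Tr := .c 6 v91 (.c 7 v91 (.c 8 v92 .e))
noncomputable def r572 : Tr := .c 0 q190 (.c 2 q795 (.c 3 q511 (.c 4 q783 (.c 5 q784 (.c 6 q788 .e)))))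
noncomputable def t152 : Tr := .c 0 r568 (.c 1 r569 (.c 6 r570 (.c 7 r571 (.c 8 r572 .e))))
noncomputable def v237 : Tr := .l 0x1441851851c61441851851c6
noncomputable def v238 : Tr := .l 0x1851c61c61c71851c61c61c7
noncomputable def q796 : Tr := .c 0 v237 (.c 1 v237 (.c 6 v238 (.c 7 v238 .e)))
noncomputable def v239 : Tr := .l 0x1451051861461861451c7186
noncomputable def v240 : Tr := .l 0x1441441851851851441c6185
noncomputable def q797 : Tr := .c 0 v239 (.c 1 v239 (.c 2 v240 (.c 6 v73 (.c 7 v73 .e))))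
noncomputable def v241 : Tr := .l 0x830c40c41050c3104104145
noncomputable def v242 : Tr := .l 0xc21031031440c2103103144
noncomputable def q798 : Tr := .c 0 v241 (.c 2 v242 .e)
noncomputable def v243 : Tr := .l 0xc40831050c41040c3145104
noncomputable def v244 : Tr := .l 0x1030c21441031030c2144103
noncomputable def q799 : Tr := .c 0 v243 (.c 2 v244 (.c 6 v84 .e))
noncomputable def q800 : Tr := .c 0 v243 (.c 1 v243 (.c 2 v244 (.c 6 v84 (.c 7 v84 .e))))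
noncomputable def r573 : Tr := .c 4 q796 (.c 5 q797 (.c 7 q798 (.c 8 q799 (.c 9 q800 .e))))
noncomputable def r574 : Tr := .c 1 q253 (.c 2 q396 (.c 7 q798 (.c 8 q799 (.c 9 q800 .e))))
noncomputable def v245 : Tr := .l 0x103144144185103144144185
noncomputable def q801 : Tr := .c 1 v245 (.c 2 v242 .e)
noncomputable def r575 : Tr := .c 0 q101 (.c 1 q253 (.c 2 q396 (.c 6 q801 (.c 7 q798 (.c 8 q799 .e)))))
noncomputable def q802 : Tr := .c 1 v238 (.c 2 v237 (.c 7 v174 .e))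
noncomputable def q803 : Tr := .c 0 v174 (.c 1 v174 (.c 6 v176 (.c 7 v176 .e)))
noncomputable def q804 : Tr := .c 1 v238 (.c 2 v237 .e)
noncomputable def v246 : Tr := .l 0x1051461461871451861861c7
noncomputable def q805 : Tr := .c 0 v246 (.c 2 v237 .e)
noncomputable def r576 : Tr := .c 0 q476 (.c 1 q376 (.c 2 q483 (.c 3 q802 (.c 4 q803 (.c 6 q804 (.c 7 q805 .e))))))
noncomputable def t153 : Tr := .c 0 r573 (.c 3 r574 (.c 5 r575 (.c 9 r576 .e)))
noncomputable def v247 : Tr := .l 0x1851851441441c6185185144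
noncomputable def q806 : Tr := .c 0 v189 (.c 1 v189 (.c 2 v247 (.c 8 v189 .e)))
noncomputable def v248 : Tr := .l 0xc41050830c41041450c3104
noncomputable def v249 : Tr := .l 0x1031440c21031031440c2103
noncomputable def q807 : Tr := .c 0 v248 (.c 2 v249 .e)
noncomputable def v250 : Tr := .l 0x1441031030c21441031030c2
noncomputable def q808 : Tr := .c 0 v190 (.c 2 v250 .e)
noncomputable def q809 : Tr := .c 0 v190 (.c 1 v190 (.c 2 v250 .e))
noncomputable def r577 : Tr := .c 4 q703 (.c 5 q806 (.c 7 q807 (.c 8 q808 (.c 9 q809 .e))))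
noncomputable def q810 : Tr := .c 8 v194 .e
noncomputable def r578 : Tr := .c 2 q810 (.c 7 q807 (.c 8 q808 (.c 9 q809 .e)))
noncomputable def v251 : Tr := .l 0x185186144145185146144105
noncomputable def q811 : Tr := .c 8 v251 .e
noncomputable def v252 : Tr := .l 0x144185103144144185103144
noncomputable def q812 : Tr := .c 1 v252 (.c 2 v249 (.c 8 v252 .e))
noncomputable def r579 : Tr := .c 0 q811 (.c 2 q810 (.c 6 q812 (.c 7 q807 (.c 8 q808 .e))))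
noncomputable def q813 : Tr := .c 0 v194 (.c 1 v194 (.c 8 v194 .e))
noncomputable def v253 : Tr := .l 0x1c61851851441c6185185144
noncomputable def q814 : Tr := .c 0 v179 (.c 1 v179 (.c 2 v253 (.c 8 v179 .e)))
noncomputable def r580 : Tr := .c 2 q810 (.c 4 q813 (.c 5 q814 (.c 8 q808 (.c 9 q809 .e))))
noncomputable def t154 : Tr := .c 0 r577 (.c 3 r578 (.c 5 r579 (.c 6 r580 .e)))
noncomputable def q815 : Tr := .c 0 v189 (.c 1 v189 (.c 8 v189 .e))
noncomputable def q816 : Tr := .c 0 v248 .e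
noncomputable def q817 : Tr := .c 0 v190 .e
noncomputable def q818 : Tr := .c 0 v190 (.c 1 v190 .e)
noncomputable def r581 : Tr := .c 4 q703 (.c 5 q815 (.c 7 q816 (.c 8 q817 (.c 9 q818 .e))))
noncomputable def r582 : Tr := .c 3 q537 (.c 4 q703 (.c 5 q815 (.c 6 q537 (.c 9 q818 .e))))
noncomputable def r583 : Tr := .c 2 q810 (.c 7 q816 (.c 8 q817 (.c 9 q818 .e)))
noncomputable def q819 : Tr := .c 0 v179 (.c 1 v179 (.c 8 v179 .e))
noncomputable def r584 : Tr := .c 2 q810 (.c 4 q813 (.c 5 q819 (.c 8 q817 (.c 9 q818 .e))))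
noncomputable def q820 : Tr := .c 8 v179 .e
noncomputable def r585 : Tr := .c 0 q820 (.c 2 q810 (.c 3 q550 (.c 4 q813 (.c 5 q819 (.c 9 q818 .e)))))
noncomputable def t155 : Tr := .c 0 r581 (.c 1 r582 (.c 3 r583 (.c 6 r584 (.c 7 r585 .e))))
noncomputable def q821 : Tr := .c 0 v123 (.c 1 v123 (.c 2 v27 (.c 6 v93 (.c 7 v93 (.c 8 v123 .e)))))
noncomputable def q822 : Tr := .c 1 v123 (.c 2 v27 (.c 8 v123 .e))
noncomputable def q823 : Tr := .c 0 v177 (.c 1 v177 (.c 2 v178 (.c 6 v130 (.c 7 v130 .e))))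
noncomputable def r586 : Tr := .c 3 q486 (.c 4 q783 (.c 5 q821 (.c 6 q822 (.c 9 q823 .e))))
noncomputable def q824 : Tr := .c 0 v93 (.c 1 v93 (.c 2 v28 (.c 6 v16 (.c 7 v16 (.c 8 v93 .e)))))
noncomputable def q825 : Tr := .c 0 v179 (.c 1 v179 (.c 2 v180 (.c 6 v120 (.c 7 v120 .e))))
noncomputable def r587 : Tr := .c 0 q184 (.c 2 q790 (.c 3 q497 (.c 4 q791 (.c 5 q824 (.c 9 q825 .e)))))
noncomputable def r588 : Tr := .c 0 q190 (.c 2 q795 (.c 3 q486 (.c 4 q783 (.c 5 q821 (.c 6 q822 .e)))))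
noncomputable def q826 : Tr := .c 6 v136 .e
noncomputable def v254 : Tr := .l 0x1861c71c71c71451861861c7
noncomputable def q827 : Tr := .c 0 v254 (.c 2 v27 .e)
noncomputable def r589 : Tr := .c 0 q190 (.c 1 q826 (.c 2 q795 (.c 3 q486 (.c 4 q783 (.c 6 q822 (.c 7 q827 .e))))))
noncomputable def t156 : Tr := .c 1 r586 (.c 7 r587 (.c 8 r588 (.c 9 r589 .e)))
noncomputable def q828 : Tr := .c 0 v92 (.c 1 v92 (.c 6 v91 (.c 7 v91 .e)))
noncomputable def q829 : Tr := .c 0 v123 (.c 1 v123 (.c 2 v27 (.c 6 v93 (.c 7 v93 .e))))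
noncomputable def r590 : Tr := .c 3 q524 (.c 4 q828 (.c 5 q829 (.c 6 q526 (.c 9 q823 .e))))
noncomputable def q830 : Tr := .c 6 v137 (.c 7 v137 .e)
noncomputable def v255 : Tr := .l 0x1041451451860c3104104145
noncomputable def q831 : Tr := .c 0 v255 (.c 2 v29 .e)
noncomputable def v256 : Tr := .l 0x1451041861451040c3145104
noncomputable def q832 : Tr := .c 0 v256 (.c 2 v42 (.c 6 v44 .e))
noncomputable def r591 : Tr := .c 0 q530 (.c 1 q305 (.c 2 q830 (.c 6 q532 (.c 7 q831 (.c 8 q832 .e)))))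
noncomputable def q833 : Tr := .c 6 v91 (.c 7 v91 .e)
noncomputable def r592 : Tr := .c 0 q215 (.c 2 q833 (.c 3 q524 (.c 4 q828 (.c 5 q829 (.c 6 q526 .e)))))
noncomputable def r593 : Tr := .c 0 q215 (.c 1 q826 (.c 2 q833 (.c 3 q524 (.c 4 q828 (.c 6 q526 (.c 7 q827 .e))))))
noncomputable def t157 : Tr := .c 1 r590 (.c 5 r591 (.c 8 r592 (.c 9 r593 .e)))
noncomputable def q834 : Tr := .c 1 v27 (.c 2 v31 (.c 7 v196 (.c 8 v27 .e)))
noncomputable def q835 : Tr := .c 0 v196 (.c 1 v196 (.c 6 v197 (.c 7 v197 (.c 8 v196 .e))))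
noncomputable def q836 : Tr := .c 1 v27 (.c 2 v31 (.c 8 v27 .e))
noncomputable def r594 : Tr := .c 3 q834 (.c 4 q835 (.c 6 q836 .e))
noncomputable def q837 : Tr := .c 7 v198 (.c 8 v28 .e)
noncomputable def q838 : Tr := .c 6 v199 (.c 7 v199 (.c 8 v200 .e))
noncomputable def q839 : Tr := .c 1 v28 (.c 2 v27 (.c 7 v198 (.c 8 v28 .e)))
noncomputable def q840 : Tr := .c 0 v200 (.c 1 v200 (.c 6 v199 (.c 7 v199 (.c 8 v200 .e))))
noncomputable def r595 : Tr := .c 0 q837 (.c 2 q838 (.c 3 q839 (.c 4 q840 .e)))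
noncomputable def q841 : Tr := .c 7 v196 (.c 8 v27 .e)
noncomputable def q842 : Tr := .c 6 v197 (.c 7 v197 (.c 8 v196 .e))
noncomputable def r596 : Tr := .c 0 q841 (.c 2 q842 (.c 3 q834 (.c 4 q835 (.c 6 q836 .e))))
noncomputable def q843 : Tr := .c 6 v137 .e
noncomputable def r597 : Tr := .c 0 q841 (.c 1 q843 (.c 2 q842 (.c 3 q834 (.c 4 q835 (.c 6 q836 (.c 7 q771 .e))))))
noncomputable def t158 : Tr := .c 1 r594 (.c 7 r595 (.c 8 r596 (.c 9 r597 .e)))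
noncomputable def v257 : Tr := .l 0x146187145186105146104145
noncomputable def q844 : Tr := .c 0 v257 .e
noncomputable def v258 : Tr := .l 0x187146186145146105145104
noncomputable def v259 : Tr := .l 0x187146187146146105146105
noncomputable def q845 : Tr := .c 0 v258 (.c 6 v259 .e)
noncomputable def r598 : Tr := .c 4 q835 (.c 7 q844 (.c 8 q845 .e))
noncomputable def q846 : Tr := .c 1 v27 (.c 7 v196 (.c 8 v27 .e))
noncomputable def q847 : Tr := .c 1 v27 (.c 8 v27 .e)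
noncomputable def r599 : Tr := .c 3 q846 (.c 4 q835 (.c 6 q847 .e))
noncomputable def v260 : Tr := .l 0x1c71871c7186187146186145
noncomputable def q848 : Tr := .c 6 v260 .e
noncomputable def v261 : Tr := .l 0x1c7186186145186145145104
noncomputable def q849 : Tr := .c 0 v261 (.c 6 v260 .e)
noncomputable def r600 : Tr := .c 1 q848 (.c 2 q838 (.c 4 q840 (.c 8 q849 .e)))
noncomputable def q850 : Tr := .c 1 v28 (.c 7 v198 (.c 8 v28 .e))
noncomputable def r601 : Tr := .c 0 q837 (.c 2 q838 (.c 3 q850 (.c 4 q840 .e)))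
noncomputable def r602 : Tr := .c 0 q841 (.c 2 q842 (.c 3 q846 (.c 4 q835 (.c 6 q847 .e))))
noncomputable def t159 : Tr := .c 0 r598 (.c 1 r599 (.c 6 r600 (.c 7 r601 (.c 8 r602 .e))))
noncomputable def q851 : Tr := .c 0 v196 (.c 1 v196 (.c 6 v197 (.c 7 v197 .e)))
noncomputable def r603 : Tr := .c 3 q570 (.c 4 q851 (.c 6 q528 .e))
noncomputable def q852 : Tr := .c 6 v43 .e
noncomputable def q853 : Tr := .c 6 v44 (.c 7 v44 .e)
noncomputable def v262 : Tr := .l 0xc31041041450820c30c3104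
noncomputable def q854 : Tr := .c 0 v262 (.c 2 v32 .e)
noncomputable def v263 : Tr := .l 0x1040c31451040c30821040c3
noncomputable def q855 : Tr := .c 0 v263 (.c 2 v34 (.c 6 v43 .e))
noncomputable def r604 : Tr := .c 0 q531 (.c 1 q852 (.c 2 q853 (.c 6 q575 (.c 7 q854 (.c 8 q855 .e)))))
noncomputable def q856 : Tr := .c 6 v197 (.c 7 v197 .e)
noncomputable def r605 : Tr := .c 0 q578 (.c 2 q856 (.c 3 q570 (.c 4 q851 (.c 6 q528 .e))))
noncomputable def r606 : Tr := .c 0 q578 (.c 1 q843 (.c 2 q856 (.c 3 q570 (.c 4 q851 (.c 6 q528 (.c 7 q771 .e))))))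
noncomputable def t160 : Tr := .c 1 r603 (.c 5 r604 (.c 8 r605 (.c 9 r606 .e)))
noncomputable def q857 : Tr := .c 0 v31 (.c 1 v31 (.c 6 v27 (.c 7 v27 .e)))
noncomputable def r607 : Tr := .c 4 q857 (.c 7 q854 (.c 8 q855 .e))
noncomputable def r608 : Tr := .c 1 q852 (.c 2 q853 (.c 7 q854 (.c 8 q855 .e)))
noncomputable def t161 : Tr := .c 0 r607 (.c 3 r608 (.c 5 r604 (.c 9 r606 .e)))
noncomputable def q858 : Tr := .c 0 v195 (.c 1 v195 (.c 8 v195 .e))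
noncomputable def v264 : Tr := .l 0x1041450c31040c31040820c3
noncomputable def q859 : Tr := .c 0 v264 (.c 2 v4 .e)
noncomputable def v265 : Tr := .l 0x1451041040c31040c30c3082
noncomputable def q860 : Tr := .c 0 v265 (.c 2 v0 .e)
noncomputable def r609 : Tr := .c 4 q858 (.c 7 q859 (.c 8 q860 .e))
noncomputable def q861 : Tr := .c 8 v193 .e
noncomputable def r610 : Tr := .c 2 q861 (.c 7 q859 (.c 8 q860 .e))
noncomputable def q862 : Tr := .c 8 v202 .e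
noncomputable def q863 : Tr := .c 1 v26 (.c 2 v4 (.c 8 v26 .e))
noncomputable def r611 : Tr := .c 0 q862 (.c 2 q861 (.c 6 q863 (.c 7 q859 (.c 8 q860 .e))))
noncomputable def q864 : Tr := .c 0 v193 (.c 1 v193 (.c 8 v193 .e))
noncomputable def r612 : Tr := .c 2 q861 (.c 4 q864 (.c 8 q860 .e))
noncomputable def t162 : Tr := .c 0 r609 (.c 3 r610 (.c 5 r611 (.c 6 r612 .e)))
noncomputable def q865 : Tr := .c 0 v264 .e
noncomputable def q866 : Tr := .c 0 v265 .e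
noncomputable def r613 : Tr := .c 4 q858 (.c 7 q865 (.c 8 q866 .e))
noncomputable def r614 : Tr := .c 3 q542 (.c 4 q858 (.c 6 q542 .e))
noncomputable def r615 : Tr := .c 2 q861 (.c 7 q865 (.c 8 q866 .e))
noncomputable def r616 : Tr := .c 2 q861 (.c 4 q864 (.c 8 q866 .e))
noncomputable def q867 : Tr := .c 8 v203 .e
noncomputable def q868 : Tr := .c 1 v203 (.c 8 v203 .e)
noncomputable def r617 : Tr := .c 0 q867 (.c 2 q861 (.c 3 q868 (.c 4 q864 .e)))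
noncomputable def t163 : Tr := .c 0 r613 (.c 1 r614 (.c 3 r615 (.c 6 r616 (.c 7 r617 .e))))
noncomputable def v266 : Tr := .l 0x1050c40c40831441031030c2
noncomputable def q869 : Tr := .c 6 v266 .e
noncomputable def v267 : Tr := .l 0x1461051050c4185144144103
noncomputable def q870 : Tr := .c 6 v267 (.c 7 v267 (.c 8 v110 .e))
noncomputable def q871 : Tr := .c 0 v58 (.c 2 v63 .e)
noncomputable def r618 : Tr := .c 1 q869 (.c 2 q870 (.c 7 q871 .e))
noncomputable def v268 : Tr := .l 0x1851861441451c6186185145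
noncomputable def q872 : Tr := .c 7 v11 (.c 8 v268 .e)
noncomputable def q873 : Tr := .c 1 v68 (.c 2 v63 (.c 8 v68 .e))
noncomputable def r619 : Tr := .c 0 q872 (.c 1 q869 (.c 2 q870 (.c 6 q873 (.c 7 q871 .e))))
noncomputable def q874 : Tr := .c 0 v110 (.c 1 v110 (.c 6 v267 (.c 7 v267 (.c 8 v110 .e))))
noncomputable def v269 : Tr := .l 0x1c61c61851851c71c61c6185
noncomputable def q875 : Tr := .c 0 v96 (.c 1 v96 (.c 2 v269 (.c 6 v19 (.c 7 v19 (.c 8 v96 .e)))))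
noncomputable def r620 : Tr := .c 1 q869 (.c 2 q870 (.c 4 q874 (.c 5 q875 .e)))
noncomputable def q876 : Tr := .c 7 v24 (.c 8 v89 .e)
noncomputable def q877 : Tr := .c 6 v11 .e
noncomputable def v270 : Tr := .l 0x1c71c71c61871c71c71c71c6
noncomputable def q878 : Tr := .c 6 v9 (.c 7 v9 (.c 8 v270 .e))
noncomputable def q879 : Tr := .c 1 v89 (.c 2 v98 (.c 7 v24 (.c 8 v89 .e)))
noncomputable def q880 : Tr := .c 0 v270 (.c 1 v270 (.c 6 v9 (.c 7 v9 (.c 8 v270 .e))))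
noncomputable def q881 : Tr := .c 1 v89 (.c 2 v98 (.c 8 v89 .e))
noncomputable def q882 : Tr := .c 0 v104 (.c 2 v98 .e)
noncomputable def r621 : Tr := .c 0 q876 (.c 1 q877 (.c 2 q878 (.c 3 q879 (.c 4 q880 (.c 6 q881 (.c 7 q882 .e))))))
noncomputable def t164 : Tr := .c 3 r618 (.c 5 r619 (.c 6 r620 (.c 9 r621 .e)))
noncomputable def q883 : Tr := .c 6 v267 .e
noncomputable def q884 : Tr := .c 6 v11 (.c 7 v11 (.c 8 v96 .e))
noncomputable def q885 : Tr := .c 0 v52 (.c 2 v68 .e)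
noncomputable def r622 : Tr := .c 1 q883 (.c 2 q884 (.c 7 q885 .e))
noncomputable def r623 : Tr := .c 0 q612 (.c 1 q883 (.c 2 q884 (.c 6 q613 (.c 7 q885 .e))))
noncomputable def q886 : Tr := .c 0 v96 (.c 1 v96 (.c 6 v11 (.c 7 v11 (.c 8 v96 .e))))
noncomputable def q887 : Tr := .c 0 v19 (.c 1 v19 (.c 2 v205 (.c 6 v9 (.c 7 v9 (.c 8 v19 .e)))))
noncomputable def r624 : Tr := .c 1 q883 (.c 2 q884 (.c 4 q886 (.c 5 q887 .e)))
noncomputable def r625 : Tr := .c 0 q137 (.c 2 q884 (.c 3 q615 (.c 4 q886 (.c 5 q887 .e))))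
noncomputable def q888 : Tr := .c 6 v101 (.c 7 v101 (.c 8 v102 .e))
noncomputable def q889 : Tr := .c 0 v102 (.c 1 v102 (.c 6 v101 (.c 7 v101 (.c 8 v102 .e))))
noncomputable def q890 : Tr := .c 0 v61 (.c 1 v61 (.c 2 v206 (.c 6 v100 (.c 7 v100 (.c 8 v61 .e)))))
noncomputable def r626 : Tr := .c 0 q141 (.c 2 q888 (.c 3 q616 (.c 4 q889 (.c 5 q890 (.c 6 q618 .e)))))
noncomputable def q891 : Tr := .c 6 v9 .e
noncomputable def q892 : Tr := .c 0 v166 (.c 2 v206 .e)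
noncomputable def r627 : Tr := .c 0 q141 (.c 1 q891 (.c 2 q888 (.c 3 q616 (.c 4 q889 (.c 6 q618 (.c 7 q892 .e))))))
noncomputable def t165 : Tr := .c 3 r622 (.c 5 r623 (.c 6 r624 (.c 7 r625 (.c 8 r626 (.c 9 r627 .e)))))
noncomputable def r628 : Tr := .c 4 q889 (.c 5 q890 (.c 7 q827 .e))
noncomputable def r629 : Tr := .c 3 q616 (.c 4 q889 (.c 5 q890 (.c 6 q618 .e)))
noncomputable def t166 : Tr := .c 0 r628 (.c 1 r629 (.c 6 r624 (.c 7 r625 (.c 8 r626 (.c 9 r627 .e)))))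
noncomputable def q893 : Tr := .c 0 v16 (.c 1 v16 (.c 6 v94 (.c 7 v94 (.c 8 v16 .e))))
noncomputable def q894 : Tr := .c 0 v93 (.c 1 v93 (.c 6 v92 (.c 7 v92 (.c 8 v93 .e))))
noncomputable def q895 : Tr := .c 0 v104 .e
noncomputable def r630 : Tr := .c 4 q893 (.c 5 q894 (.c 7 q895 .e))
noncomputable def q896 : Tr := .c 1 v93 (.c 8 v93 .e)
noncomputable def r631 : Tr := .c 3 q624 (.c 4 q893 (.c 5 q894 (.c 6 q896 .e)))
noncomputable def q897 : Tr := .c 6 v19 .e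
noncomputable def q898 : Tr := .c 6 v9 (.c 7 v9 (.c 8 v19 .e))
noncomputable def q899 : Tr := .c 0 v19 (.c 1 v19 (.c 6 v9 (.c 7 v9 (.c 8 v19 .e))))
noncomputable def r632 : Tr := .c 1 q897 (.c 2 q898 (.c 4 q899 (.c 5 q791 .e)))
noncomputable def r633 : Tr := .c 0 q123 (.c 2 q898 (.c 3 q633 (.c 4 q899 (.c 5 q791 .e))))
noncomputable def q900 : Tr := .c 6 v94 (.c 7 v94 (.c 8 v16 .e))
noncomputable def r634 : Tr := .c 0 q128 (.c 2 q900 (.c 3 q624 (.c 4 q893 (.c 5 q894 (.c 6 q896 .e)))))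
noncomputable def t167 : Tr := .c 0 r630 (.c 1 r631 (.c 6 r632 (.c 7 r633 (.c 8 r634 .e))))
noncomputable def q901 : Tr := .c 0 v96 (.c 1 v96 (.c 8 v96 .e))
noncomputable def v271 : Tr := .l 0x1851851441441c61c6185185
noncomputable def q902 : Tr := .c 0 v106 (.c 1 v106 (.c 2 v271 (.c 8 v106 .e)))
noncomputable def r635 : Tr := .c 4 q901 (.c 5 q902 (.c 7 q871 .e))
noncomputable def q903 : Tr := .c 8 v110 .e
noncomputable def r636 : Tr := .c 2 q903 (.c 7 q871 .e)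
noncomputable def q904 : Tr := .c 8 v268 .e
noncomputable def r637 : Tr := .c 0 q904 (.c 2 q903 (.c 6 q873 (.c 7 q871 .e)))
noncomputable def q905 : Tr := .c 0 v110 (.c 1 v110 (.c 8 v110 .e))
noncomputable def q906 : Tr := .c 0 v96 (.c 1 v96 (.c 2 v269 (.c 8 v96 .e)))
noncomputable def r638 : Tr := .c 2 q903 (.c 4 q905 (.c 5 q906 .e))
noncomputable def t168 : Tr := .c 0 r635 (.c 3 r636 (.c 5 r637 (.c 6 r638 .e)))
noncomputable def q907 : Tr := .c 0 v106 (.c 1 v106 (.c 8 v106 .e))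
noncomputable def q908 : Tr := .c 0 v58 .e
noncomputable def r639 : Tr := .c 4 q901 (.c 5 q907 (.c 7 q908 .e))
noncomputable def r640 : Tr := .c 3 q635 (.c 4 q901 (.c 5 q907 (.c 6 q635 .e)))
noncomputable def r641 : Tr := .c 2 q903 (.c 7 q908 .e)
noncomputable def r642 : Tr := .c 2 q903 (.c 4 q905 (.c 5 q901 .e))
noncomputable def r643 : Tr := .c 0 q171 (.c 2 q903 (.c 3 q645 (.c 4 q905 (.c 5 q901 .e))))
noncomputable def t169 : Tr := .c 0 r639 (.c 1 r640 (.c 3 r641 (.c 6 r642 (.c 7 r643 .e))))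
noncomputable def q909 : Tr := .c 7 v19 (.c 8 v61 .e)
noncomputable def r644 : Tr := .c 0 q909 (.c 1 q877 (.c 2 q898 (.c 6 q881 (.c 7 q882 .e))))
noncomputable def q910 : Tr := .c 0 v16 (.c 1 v16 (.c 2 v204 (.c 6 v19 (.c 7 v19 (.c 8 v16 .e)))))
noncomputable def r645 : Tr := .c 0 q123 (.c 2 q898 (.c 3 q605 (.c 4 q899 (.c 5 q910 .e))))
noncomputable def q911 : Tr := .c 0 v93 (.c 1 v93 (.c 2 v181 (.c 6 v92 (.c 7 v92 (.c 8 v93 .e)))))
noncomputable def q912 : Tr := .c 1 v93 (.c 2 v181 (.c 8 v93 .e))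
noncomputable def r646 : Tr := .c 0 q128 (.c 2 q900 (.c 3 q608 (.c 4 q893 (.c 5 q911 (.c 6 q912 .e)))))
noncomputable def q913 : Tr := .c 6 v99 .e
noncomputable def r647 : Tr := .c 0 q128 (.c 1 q913 (.c 2 q900 (.c 3 q608 (.c 4 q893 (.c 6 q912 (.c 7 q782 .e))))))
noncomputable def t170 : Tr := .c 5 r644 (.c 7 r645 (.c 8 r646 (.c 9 r647 .e)))
noncomputable def r648 : Tr := .c 3 q608 (.c 4 q893 (.c 5 q911 (.c 6 q912 .e)))
noncomputable def t171 : Tr := .c 1 r648 (.c 7 r645 (.c 8 r646 (.c 9 r647 .e)))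
noncomputable def q914 : Tr := .c 7 v91 (.c 8 v115 .e)
noncomputable def v272 : Tr := .l 0x187146186145146105186145
noncomputable def q915 : Tr := .c 6 v272 .e
noncomputable def q916 : Tr := .c 6 v116 (.c 7 v116 (.c 8 v113 .e))
noncomputable def v273 : Tr := .l 0x186145185144145104186145
noncomputable def q917 : Tr := .c 0 v273 (.c 2 v207 (.c 6 v272 .e))
noncomputable def r649 : Tr := .c 0 q914 (.c 1 q915 (.c 2 q916 (.c 8 q917 .e)))
noncomputable def r650 : Tr := .c 0 q190 (.c 2 q795 (.c 3 q486 (.c 4 q783 (.c 5 q821 .e))))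
noncomputable def r651 : Tr := .c 0 q190 (.c 1 q826 (.c 2 q795 (.c 3 q486 (.c 4 q783 .e))))
noncomputable def t172 : Tr := .c 5 r649 (.c 7 r587 (.c 8 r650 (.c 9 r651 .e)))
noncomputable def r652 : Tr := .c 1 q774 (.c 2 q775 (.c 8 q778 (.c 9 q779 .e)))
noncomputable def r653 : Tr := .c 0 q653 (.c 1 q774 (.c 2 q775 (.c 8 q778 .e)))
noncomputable def r654 : Tr := .c 0 q198 (.c 2 q780 (.c 3 q501 (.c 4 q769 (.c 5 q770 .e))))
noncomputable def r655 : Tr := .c 0 q198 (.c 1 q781 (.c 2 q780 (.c 3 q501 (.c 4 q769 .e))))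
noncomputable def t173 : Tr := .c 3 r652 (.c 5 r653 (.c 6 r564 (.c 7 r565 (.c 8 r654 (.c 9 r655 .e)))))
noncomputable def r656 : Tr := .c 3 q486 (.c 4 q783 (.c 5 q821 (.c 9 q823 .e)))
noncomputable def t174 : Tr := .c 1 r656 (.c 7 r587 (.c 8 r650 (.c 9 r651 .e)))
noncomputable def r657 : Tr := .c 4 q769 (.c 5 q770 (.c 8 q772 (.c 9 q773 .e)))
noncomputable def r658 : Tr := .c 3 q501 (.c 4 q769 (.c 5 q770 (.c 9 q773 .e)))
noncomputable def t175 : Tr := .c 0 r657 (.c 1 r658 (.c 6 r564 (.c 7 r565 (.c 8 r654 (.c 9 r655 .e)))))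
noncomputable def r659 : Tr := .c 4 q783 (.c 5 q784 (.c 8 q786 (.c 9 q787 .e)))
noncomputable def r660 : Tr := .c 3 q511 (.c 4 q783 (.c 5 q784 (.c 9 q787 .e)))
noncomputable def r661 : Tr := .c 0 q190 (.c 2 q795 (.c 3 q511 (.c 4 q783 (.c 5 q784 .e))))
noncomputable def t176 : Tr := .c 0 r659 (.c 1 r660 (.c 6 r570 (.c 7 r571 (.c 8 r661 .e))))
noncomputable def r662 : Tr := .c 3 q524 (.c 4 q828 (.c 5 q829 (.c 9 q823 .e)))
noncomputable def r663 : Tr := .c 0 q530 (.c 1 q305 (.c 2 q830 (.c 8 q832 .e)))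
noncomputable def r664 : Tr := .c 0 q215 (.c 2 q833 (.c 3 q524 (.c 4 q828 (.c 5 q829 .e))))
noncomputable def r665 : Tr := .c 0 q215 (.c 1 q826 (.c 2 q833 (.c 3 q524 (.c 4 q828 .e))))
noncomputable def t177 : Tr := .c 1 r662 (.c 5 r663 (.c 8 r664 (.c 9 r665 .e)))
noncomputable def q918 : Tr := .c 1 v123 (.c 2 v27 (.c 4 v27 (.c 5 v213 (.c 8 v123 (.c 9 v123 .e)))))
noncomputable def q919 : Tr := .c 1 v177 (.c 2 v178 (.c 4 v178 .e))
noncomputable def r666 : Tr := .c 3 q487 (.c 4 q676 (.c 5 q822 (.c 6 q918 (.c 9 q919 .e))))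
noncomputable def v274 : Tr := .l 0x1051461461870c4105105146
noncomputable def q920 : Tr := .c 1 v27 (.c 2 v31 (.c 4 v31 (.c 5 v274 (.c 8 v27 (.c 9 v27 .e)))))
noncomputable def q921 : Tr := .c 2 v31 (.c 4 v31 (.c 5 v274 (.c 9 v27 .e)))
noncomputable def q922 : Tr := .c 2 v36 (.c 4 v36 (.c 5 v44 .e))
noncomputable def q923 : Tr := .c 1 v178 (.c 2 v36 (.c 4 v36 .e))
noncomputable def r667 : Tr := .c 3 q491 (.c 5 q836 (.c 6 q920 (.c 7 q921 (.c 8 q922 (.c 9 q923 .e)))))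
noncomputable def v275 : Tr := .l 0x1c71c71c71c71c71c71c7187
noncomputable def q924 : Tr := .c 4 v135 (.c 5 v275 (.c 8 v93 (.c 9 v93 .e)))
noncomputable def v276 : Tr := .l 0x1c71c71c71871c7187187146
noncomputable def q925 : Tr := .c 5 v276 (.c 8 v16 (.c 9 v16 .e))
noncomputable def q926 : Tr := .c 1 v93 (.c 2 v28 (.c 8 v93 (.c 9 v93 .e)))
noncomputable def q927 : Tr := .c 1 v93 (.c 2 v28 (.c 8 v93 .e))
noncomputable def q928 : Tr := .c 1 v179 (.c 2 v180 (.c 4 v180 .e))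
noncomputable def r668 : Tr := .c 0 q924 (.c 2 q925 (.c 3 q926 (.c 4 q744 (.c 5 q927 (.c 9 q928 .e)))))
noncomputable def t178 : Tr := .c 1 r666 (.c 2 r667 (.c 7 r668 .e))
noncomputable def q929 : Tr := .c 1 v28 (.c 8 v28 .e)
noncomputable def q930 : Tr := .c 2 v31 (.c 4 v31 .e)
noncomputable def q931 : Tr := .c 2 v182 (.c 4 v182 .e)
noncomputable def q932 : Tr := .c 1 v183 (.c 2 v182 (.c 4 v182 .e))
noncomputable def r669 : Tr := .c 4 q929 (.c 5 q505 (.c 7 q930 (.c 8 q931 (.c 9 q932 .e))))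
noncomputable def q933 : Tr := .c 1 v92 (.c 2 v181 (.c 4 v181 (.c 8 v92 .e)))
noncomputable def r670 : Tr := .c 3 q505 (.c 4 q929 (.c 5 q505 (.c 6 q933 (.c 9 q932 .e))))
noncomputable def q934 : Tr := .c 4 v185 .e
noncomputable def q935 : Tr := .c 8 v39 .e
noncomputable def q936 : Tr := .c 1 v39 (.c 8 v39 .e)
noncomputable def q937 : Tr := .c 1 v16 (.c 2 v184 (.c 8 v16 .e))
noncomputable def q938 : Tr := .c 2 v185 (.c 4 v185 .e)
noncomputable def q939 : Tr := .c 1 v186 (.c 2 v185 (.c 4 v185 .e))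
noncomputable def r671 : Tr := .c 1 q934 (.c 2 q935 (.c 4 q936 (.c 5 q937 (.c 8 q938 (.c 9 q939 .e)))))
noncomputable def q940 : Tr := .c 4 v175 (.c 8 v16 .e)
noncomputable def r672 : Tr := .c 0 q940 (.c 2 q935 (.c 3 q937 (.c 4 q936 (.c 5 q937 (.c 9 q939 .e)))))
noncomputable def t179 : Tr := .c 0 r669 (.c 1 r670 (.c 6 r671 (.c 7 r672 .e)))
noncomputable def v277 : Tr := .l 0x146187146187105146105146
noncomputable def q941 : Tr := .c 5 v277 (.c 9 v187 .e)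
noncomputable def q942 : Tr := .c 5 v259 .e
noncomputable def q943 : Tr := .c 1 v177 .e
noncomputable def r673 : Tr := .c 4 q676 (.c 5 q788 (.c 7 q941 (.c 8 q942 (.c 9 q943 .e))))
noncomputable def q944 : Tr := .c 1 v123 (.c 5 v213 (.c 8 v123 (.c 9 v123 .e)))
noncomputable def r674 : Tr := .c 3 q515 (.c 4 q676 (.c 5 q788 (.c 6 q944 (.c 9 q943 .e))))
noncomputable def q945 : Tr := .c 1 v27 (.c 5 v274 (.c 8 v27 (.c 9 v27 .e)))
noncomputable def q946 : Tr := .c 5 v274 (.c 9 v27 .e)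
noncomputable def q947 : Tr := .c 5 v44 .e
noncomputable def q948 : Tr := .c 1 v178 .e
noncomputable def r675 : Tr := .c 3 q518 (.c 5 q847 (.c 6 q945 (.c 7 q946 (.c 8 q947 (.c 9 q948 .e)))))
noncomputable def q949 : Tr := .c 5 v45 (.c 9 v86 .e)
noncomputable def q950 : Tr := .c 5 v45 .e
noncomputable def q951 : Tr := .c 1 v179 .e
noncomputable def r676 : Tr := .c 1 q949 (.c 2 q925 (.c 4 q744 (.c 5 q896 (.c 8 q950 (.c 9 q951 .e)))))
noncomputable def q952 : Tr := .c 5 v275 (.c 8 v93 (.c 9 v93 .e))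
noncomputable def r677 : Tr := .c 0 q952 (.c 2 q925 (.c 3 q627 (.c 4 q744 (.c 5 q896 (.c 9 q951 .e)))))
noncomputable def t180 : Tr := .c 0 r673 (.c 1 r674 (.c 2 r675 (.c 6 r676 (.c 7 r677 .e))))
noncomputable def q953 : Tr := .c 1 v123 (.c 2 v27 (.c 4 v27 (.c 5 v213 .e)))
noncomputable def r678 : Tr := .c 3 q526 (.c 4 q723 (.c 5 q526 (.c 6 q953 (.c 9 q919 .e))))
noncomputable def q954 : Tr := .c 1 v27 (.c 2 v31 (.c 4 v31 (.c 5 v274 .e)))
noncomputable def q955 : Tr := .c 2 v31 (.c 4 v31 (.c 5 v274 .e))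
noncomputable def r679 : Tr := .c 3 q528 (.c 5 q528 (.c 6 q954 (.c 7 q955 (.c 8 q922 (.c 9 q923 .e)))))
noncomputable def q956 : Tr := .c 4 v36 (.c 5 v44 .e)
noncomputable def r680 : Tr := .c 0 q956 (.c 1 q956 (.c 6 q954 (.c 7 q955 (.c 8 q922 (.c 9 q923 .e)))))
noncomputable def q957 : Tr := .c 1 v31 (.c 2 v29 (.c 4 v29 (.c 5 v30 .e)))
noncomputable def q958 : Tr := .c 2 v29 (.c 4 v29 (.c 5 v30 .e))
noncomputable def q959 : Tr := .c 2 v42 (.c 4 v42 (.c 5 v43 .e))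
noncomputable def r681 : Tr := .c 0 q36 (.c 1 q36 (.c 2 q947 (.c 6 q957 (.c 7 q958 (.c 8 q959 .e)))))
noncomputable def t181 : Tr := .c 1 r678 (.c 2 r679 (.c 4 r680 (.c 5 r681 .e)))
noncomputable def q960 : Tr := .c 5 v14 (.c 9 v87 .e)
noncomputable def q961 : Tr := .c 5 v10 .e
noncomputable def r682 : Tr := .c 4 q536 (.c 5 q537 (.c 7 q960 (.c 8 q961 (.c 9 q539 .e))))
noncomputable def q962 : Tr := .c 1 v189 (.c 5 v46 (.c 8 v189 (.c 9 v189 .e)))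
noncomputable def r683 : Tr := .c 3 q540 (.c 4 q536 (.c 5 q537 (.c 6 q962 (.c 9 q539 .e))))
noncomputable def q963 : Tr := .c 1 v191 (.c 5 v6 (.c 8 v191 (.c 9 v191 .e)))
noncomputable def q964 : Tr := .c 5 v6 (.c 9 v191 .e)
noncomputable def q965 : Tr := .c 5 v3 .e
noncomputable def r684 : Tr := .c 3 q541 (.c 5 q542 (.c 6 q963 (.c 7 q964 (.c 8 q965 (.c 9 q544 .e)))))
noncomputable def q966 : Tr := .c 5 v10 (.c 9 v193 .e)
noncomputable def q967 : Tr := .c 5 v3 (.c 8 v194 (.c 9 v194 .e))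
noncomputable def r685 : Tr := .c 1 q966 (.c 2 q967 (.c 7 q960 (.c 8 q961 (.c 9 q539 .e))))
noncomputable def q968 : Tr := .c 5 v3 (.c 8 v195 (.c 9 v195 .e))
noncomputable def q969 : Tr := .c 5 v3 (.c 9 v195 .e)
noncomputable def r686 : Tr := .c 0 q968 (.c 1 q969 (.c 6 q963 (.c 7 q964 (.c 8 q965 (.c 9 q544 .e)))))
noncomputable def r687 : Tr := .c 1 q966 (.c 2 q967 (.c 4 q549 (.c 5 q550 (.c 8 q961 (.c 9 q539 .e)))))
noncomputable def q970 : Tr := .c 5 v45 (.c 8 v179 (.c 9 v179 .e))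
noncomputable def r688 : Tr := .c 0 q970 (.c 2 q967 (.c 3 q552 (.c 4 q549 (.c 5 q550 (.c 9 q539 .e)))))
noncomputable def t182 : Tr := .c 0 r682 (.c 1 r683 (.c 2 r684 (.c 3 r685 (.c 4 r686 (.c 6 r687 (.c 7 r688 .e))))))
noncomputable def q971 : Tr := .c 1 v196 (.c 8 v196 (.c 9 v196 .e))
noncomputable def r689 : Tr := .c 3 q491 (.c 4 q971 (.c 6 q920 .e))
noncomputable def q972 : Tr := .c 1 v31 (.c 2 v29 (.c 4 v29 (.c 5 v30 (.c 8 v31 (.c 9 v31 .e)))))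
noncomputable def q973 : Tr := .c 2 v29 (.c 4 v29 (.c 5 v30 (.c 9 v31 .e)))
noncomputable def r690 : Tr := .c 3 q556 (.c 6 q972 (.c 7 q973 (.c 8 q959 .e)))
noncomputable def q974 : Tr := .c 4 v90 (.c 5 v276 (.c 8 v28 (.c 9 v28 .e)))
noncomputable def q975 : Tr := .c 5 v45 (.c 8 v200 (.c 9 v200 .e))
noncomputable def q976 : Tr := .c 1 v200 (.c 8 v200 (.c 9 v200 .e))
noncomputable def r691 : Tr := .c 0 q974 (.c 2 q975 (.c 3 q622 (.c 4 q976 .e)))
noncomputable def t183 : Tr := .c 1 r689 (.c 2 r690 (.c 7 r691 .e))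
noncomputable def v278 : Tr := .l 0x1051461051460c41050c4105
noncomputable def q977 : Tr := .c 5 v278 (.c 9 v201 .e)
noncomputable def v279 : Tr := .l 0x1461051461051050c41050c4
noncomputable def q978 : Tr := .c 5 v279 .e
noncomputable def r692 : Tr := .c 4 q971 (.c 7 q977 (.c 8 q978 .e))
noncomputable def r693 : Tr := .c 3 q518 (.c 4 q971 (.c 6 q945 .e))
noncomputable def q979 : Tr := .c 1 v31 (.c 5 v30 (.c 8 v31 (.c 9 v31 .e)))
noncomputable def q980 : Tr := .c 5 v30 (.c 9 v31 .e)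
noncomputable def q981 : Tr := .c 5 v43 .e
noncomputable def r694 : Tr := .c 3 q567 (.c 6 q979 (.c 7 q980 (.c 8 q981 .e)))
noncomputable def r695 : Tr := .c 1 q969 (.c 2 q975 (.c 4 q976 (.c 8 q965 .e)))
noncomputable def q982 : Tr := .c 5 v276 (.c 8 v28 (.c 9 v28 .e))
noncomputable def r696 : Tr := .c 0 q982 (.c 2 q975 (.c 3 q630 (.c 4 q976 .e)))
noncomputable def t184 : Tr := .c 0 r692 (.c 1 r693 (.c 2 r694 (.c 6 r695 (.c 7 r696 .e))))
noncomputable def q983 : Tr := .c 1 v196 .e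
noncomputable def r697 : Tr := .c 3 q528 (.c 4 q983 (.c 6 q954 .e))
noncomputable def r698 : Tr := .c 3 q532 (.c 6 q957 (.c 7 q958 (.c 8 q959 .e)))
noncomputable def r699 : Tr := .c 0 q36 (.c 1 q36 (.c 6 q957 (.c 7 q958 (.c 8 q959 .e))))
noncomputable def q984 : Tr := .c 1 v29 (.c 2 v32 (.c 4 v32 (.c 5 v33 .e)))
noncomputable def q985 : Tr := .c 2 v32 (.c 4 v32 (.c 5 v33 .e))
noncomputable def q986 : Tr := .c 2 v34 (.c 4 v34 (.c 5 v35 .e))
noncomputable def r700 : Tr := .c 0 q28 (.c 1 q28 (.c 2 q981 (.c 6 q984 (.c 7 q985 (.c 8 q986 .e)))))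
noncomputable def t185 : Tr := .c 1 r697 (.c 2 r698 (.c 4 r699 (.c 5 r700 .e)))
noncomputable def q987 : Tr := .c 1 v31 .e
noncomputable def r701 : Tr := .c 4 q987 (.c 7 q985 (.c 8 q986 .e))
noncomputable def r702 : Tr := .c 1 q28 (.c 2 q981 (.c 7 q985 (.c 8 q986 .e)))
noncomputable def t186 : Tr := .c 0 r701 (.c 2 r698 (.c 3 r702 (.c 4 r699 (.c 5 r700 .e))))
noncomputable def q988 : Tr := .c 2 v4 (.c 4 v4 (.c 5 v5 (.c 9 v26 .e)))
noncomputable def q989 : Tr := .c 2 v0 (.c 4 v0 (.c 5 v1 .e))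
noncomputable def r703 : Tr := .c 4 q581 (.c 7 q988 (.c 8 q989 .e))
noncomputable def q990 : Tr := .c 1 v87 (.c 2 v26 (.c 4 v26 (.c 5 v14 (.c 8 v87 (.c 9 v87 .e)))))
noncomputable def q991 : Tr := .c 2 v26 (.c 4 v26 (.c 5 v14 (.c 9 v87 .e)))
noncomputable def q992 : Tr := .c 2 v21 (.c 4 v21 (.c 5 v10 .e))
noncomputable def r704 : Tr := .c 3 q584 (.c 6 q990 (.c 7 q991 (.c 8 q992 .e)))
noncomputable def q993 : Tr := .c 4 v0 (.c 5 v1 (.c 9 v202 .e))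
noncomputable def q994 : Tr := .c 5 v10 (.c 8 v193 (.c 9 v193 .e))
noncomputable def r705 : Tr := .c 1 q993 (.c 2 q994 (.c 7 q988 (.c 8 q989 .e)))
noncomputable def q995 : Tr := .c 4 v21 (.c 5 v10 (.c 8 v193 (.c 9 v193 .e)))
noncomputable def q996 : Tr := .c 4 v21 (.c 5 v10 (.c 9 v193 .e))
noncomputable def r706 : Tr := .c 0 q995 (.c 1 q996 (.c 6 q990 (.c 7 q991 (.c 8 q992 .e))))
noncomputable def q997 : Tr := .c 4 v0 (.c 5 v1 (.c 8 v202 (.c 9 v202 .e)))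
noncomputable def q998 : Tr := .c 1 v26 (.c 2 v4 (.c 4 v4 (.c 5 v5 (.c 8 v26 (.c 9 v26 .e)))))
noncomputable def r707 : Tr := .c 0 q997 (.c 1 q993 (.c 2 q994 (.c 6 q998 (.c 7 q988 (.c 8 q989 .e)))))
noncomputable def r708 : Tr := .c 1 q993 (.c 2 q994 (.c 4 q591 (.c 8 q989 .e)))
noncomputable def t187 : Tr := .c 0 r703 (.c 2 r704 (.c 3 r705 (.c 4 r706 (.c 5 r707 (.c 6 r708 .e)))))
noncomputable def q999 : Tr := .c 5 v5 (.c 9 v26 .e)
noncomputable def r709 : Tr := .c 4 q581 (.c 7 q999 (.c 8 q50 .e))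
noncomputable def r710 : Tr := .c 3 q541 (.c 4 q581 (.c 6 q963 .e))
noncomputable def q1000 : Tr := .c 1 v87 (.c 5 v14 (.c 8 v87 (.c 9 v87 .e)))
noncomputable def r711 : Tr := .c 3 q593 (.c 6 q1000 (.c 7 q960 (.c 8 q961 .e)))
noncomputable def q1001 : Tr := .c 5 v1 (.c 9 v202 .e)
noncomputable def r712 : Tr := .c 1 q1001 (.c 2 q994 (.c 7 q999 (.c 8 q50 .e)))
noncomputable def r713 : Tr := .c 0 q994 (.c 1 q966 (.c 6 q1000 (.c 7 q960 (.c 8 q961 .e))))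
noncomputable def r714 : Tr := .c 1 q1001 (.c 2 q994 (.c 4 q591 (.c 8 q50 .e)))
noncomputable def q1002 : Tr := .c 5 v3 (.c 8 v203 (.c 9 v203 .e))
noncomputable def r715 : Tr := .c 0 q1002 (.c 2 q994 (.c 3 q595 (.c 4 q591 .e)))
noncomputable def t188 : Tr := .c 0 r709 (.c 1 r710 (.c 2 r711 (.c 3 r712 (.c 4 r713 (.c 6 r714 (.c 7 r715 .e))))))
noncomputable def v280 : Tr := .l 0x1c71c61c61851c6185185144
noncomputable def q1003 : Tr := .c 4 v280 (.c 5 v59 (.c 8 v88 (.c 9 v88 .e)))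
noncomputable def r716 : Tr := .c 0 q1003 (.c 2 q448 (.c 3 q597 (.c 4 q759 .e)))
noncomputable def t189 : Tr := .c 4 r706 (.c 5 r707 (.c 7 r716 .e))
noncomputable def t190 : Tr := .c 3 r705 (.c 4 r706 (.c 5 r707 (.c 6 r708 .e)))
noncomputable def v281 : Tr := .l 0x1851461441051c6187185146
noncomputable def q1004 : Tr := .c 4 v60 (.c 5 v55 (.c 8 v281 (.c 9 v281 .e)))
noncomputable def q1005 : Tr := .c 4 v60 (.c 5 v55 (.c 9 v281 .e))
noncomputable def q1006 : Tr := .c 1 v68 (.c 2 v63 (.c 4 v63 (.c 5 v58 (.c 8 v68 (.c 9 v68 .e)))))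
noncomputable def q1007 : Tr := .c 2 v63 (.c 4 v63 (.c 5 v58 (.c 9 v68 .e)))
noncomputable def q1008 : Tr := .c 2 v60 (.c 4 v60 (.c 5 v55 .e))
noncomputable def q1009 : Tr := .c 1 v66 (.c 2 v60 (.c 4 v60 .e))
noncomputable def r717 : Tr := .c 0 q1004 (.c 1 q1005 (.c 6 q1006 (.c 7 q1007 (.c 8 q1008 (.c 9 q1009 .e)))))
noncomputable def v282 : Tr := .l 0x1441051030c4185146144105
noncomputable def q1010 : Tr := .c 4 v47 (.c 5 v48 (.c 8 v282 (.c 9 v282 .e)))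
noncomputable def q1011 : Tr := .c 4 v47 (.c 5 v48 (.c 9 v282 .e))
noncomputable def q1012 : Tr := .c 1 v63 (.c 2 v50 (.c 4 v50 (.c 5 v51 (.c 8 v63 (.c 9 v63 .e)))))
noncomputable def q1013 : Tr := .c 2 v50 (.c 4 v50 (.c 5 v51 (.c 9 v63 .e)))
noncomputable def q1014 : Tr := .c 2 v47 (.c 4 v47 (.c 5 v48 .e))
noncomputable def r718 : Tr := .c 0 q1010 (.c 1 q1011 (.c 6 q1012 (.c 7 q1013 (.c 8 q1014 .e))))
noncomputable def v283 : Tr := .l 0x1c71c71c71c61c71c71c71c7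
noncomputable def q1015 : Tr := .c 4 v59 (.c 5 v16 (.c 8 v283 (.c 9 v283 .e)))
noncomputable def v284 : Tr := .l 0x1c71c61c61851c71c71c71c6
noncomputable def q1016 : Tr := .c 1 v283 (.c 2 v284 (.c 8 v283 (.c 9 v283 .e)))
noncomputable def q1017 : Tr := .c 1 v283 (.c 2 v284 (.c 8 v283 .e))
noncomputable def q1018 : Tr := .c 1 v119 (.c 2 v66 (.c 4 v66 .e))
noncomputable def r719 : Tr := .c 0 q1015 (.c 3 q1016 (.c 5 q1017 (.c 9 q1018 .e)))
noncomputable def t191 : Tr := .c 4 r717 (.c 5 r718 (.c 7 r719 .e))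
noncomputable def q1019 : Tr := .c 1 v60 (.c 2 v47 (.c 4 v47 .e))
noncomputable def r720 : Tr := .c 1 q1011 (.c 7 q1013 (.c 8 q1014 (.c 9 q1019 .e)))
noncomputable def q1020 : Tr := .c 1 v119 (.c 2 v66 (.c 8 v119 .e))
noncomputable def r721 : Tr := .c 1 q1011 (.c 5 q1020 (.c 8 q1014 (.c 9 q1019 .e)))
noncomputable def t192 : Tr := .c 3 r720 (.c 4 r717 (.c 5 r718 (.c 6 r721 .e)))
noncomputable def q1021 : Tr := .c 4 v60 .e
noncomputable def q1022 : Tr := .c 2 v63 (.c 4 v63 .e)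
noncomputable def q1023 : Tr := .c 2 v60 (.c 4 v60 .e)
noncomputable def r722 : Tr := .c 1 q1021 (.c 7 q1022 (.c 8 q1023 (.c 9 q1009 .e)))
noncomputable def q1024 : Tr := .c 4 v60 (.c 8 v281 .e)
noncomputable def q1025 : Tr := .c 1 v68 (.c 2 v63 (.c 4 v63 (.c 8 v68 .e)))
noncomputable def r723 : Tr := .c 0 q1024 (.c 1 q1021 (.c 6 q1025 (.c 7 q1022 (.c 8 q1023 .e))))
noncomputable def q1026 : Tr := .c 1 v284 (.c 2 v119 (.c 8 v284 .e))
noncomputable def r724 : Tr := .c 1 q1021 (.c 5 q1026 (.c 8 q1023 (.c 9 q1009 .e)))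
noncomputable def q1027 : Tr := .c 4 v15 (.c 8 v284 .e)
noncomputable def r725 : Tr := .c 0 q1027 (.c 3 q1026 (.c 5 q1026 (.c 9 q1009 .e)))
noncomputable def t193 : Tr := .c 3 r722 (.c 5 r723 (.c 6 r724 (.c 7 r725 .e)))
noncomputable def v285 : Tr := .l 0x1031441441851441851851c6
noncomputable def q1028 : Tr := .c 1 v219 (.c 2 v285 .e)
noncomputable def q1029 : Tr := .c 1 v219 (.c 2 v285 (.c 4 v285 (.c 5 v163 .e)))
noncomputable def q1030 : Tr := .c 1 v129 (.c 2 v131 (.c 4 v131 .e))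
noncomputable def r726 : Tr := .c 3 q1028 (.c 5 q1028 (.c 6 q1029 (.c 9 q1030 .e)))
noncomputable def q1031 : Tr := .c 1 v285 (.c 2 v70 .e)
noncomputable def q1032 : Tr := .c 1 v285 (.c 2 v70 (.c 4 v70 (.c 5 v71 .e)))
noncomputable def q1033 : Tr := .c 2 v70 (.c 4 v70 (.c 5 v71 .e))
noncomputable def q1034 : Tr := .c 2 v72 (.c 4 v72 (.c 5 v84 .e))
noncomputable def q1035 : Tr := .c 1 v131 (.c 2 v72 (.c 4 v72 .e))
noncomputable def r727 : Tr := .c 3 q1031 (.c 5 q1031 (.c 6 q1032 (.c 7 q1033 (.c 8 q1034 (.c 9 q1035 .e)))))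
noncomputable def r728 : Tr := .c 0 q100 (.c 1 q100 (.c 6 q1032 (.c 7 q1033 (.c 8 q1034 (.c 9 q1035 .e)))))
noncomputable def q1036 : Tr := .c 1 v70 (.c 2 v75 (.c 4 v75 (.c 5 v76 .e)))
noncomputable def q1037 : Tr := .c 2 v75 (.c 4 v75 (.c 5 v76 .e))
noncomputable def q1038 : Tr := .c 2 v77 (.c 4 v77 (.c 5 v78 .e))
noncomputable def r729 : Tr := .c 0 q93 (.c 1 q93 (.c 6 q1036 (.c 7 q1037 (.c 8 q1038 .e))))
noncomputable def t194 : Tr := .c 1 r726 (.c 2 r727 (.c 4 r728 (.c 5 r729 .e)))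
noncomputable def v286 : Tr := .l 0x1441441851851851851c61c6
noncomputable def v287 : Tr := .l 0x103103144144144144185185
noncomputable def q1039 : Tr := .c 1 v286 (.c 2 v287 .e)
noncomputable def q1040 : Tr := .c 1 v72 (.c 2 v77 (.c 4 v77 .e))
noncomputable def r730 : Tr := .c 5 q1039 (.c 7 q1037 (.c 8 q1038 (.c 9 q1040 .e)))
noncomputable def r731 : Tr := .c 1 q93 (.c 7 q1037 (.c 8 q1038 (.c 9 q1040 .e)))
noncomputable def t195 : Tr := .c 0 r730 (.c 2 r727 (.c 3 r731 (.c 4 r728 (.c 5 r729 .e))))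
noncomputable def v288 : Tr := .l 0x144144103103185185144144
noncomputable def q1041 : Tr := .c 1 v271 (.c 2 v288 (.c 8 v271 .e))
noncomputable def r732 : Tr := .c 5 q1041 (.c 7 q1013 (.c 8 q1014 (.c 9 q1019 .e)))
noncomputable def q1042 : Tr := .c 1 v68 (.c 2 v63 (.c 8 v68 (.c 9 v68 .e)))
noncomputable def r733 : Tr := .c 3 q1042 (.c 5 q873 (.c 6 q1006 (.c 7 q1007 (.c 8 q1008 (.c 9 q1009 .e)))))
noncomputable def t196 : Tr := .c 0 r732 (.c 2 r733 (.c 3 r720 (.c 4 r717 (.c 5 r718 (.c 6 r721 .e)))))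
noncomputable def v289 : Tr := .l 0x187146146105146105187146
noncomputable def q1043 : Tr := .c 4 v185 (.c 5 v289 (.c 8 v113 (.c 9 v113 .e)))
noncomputable def q1044 : Tr := .c 4 v185 (.c 5 v289 (.c 9 v113 .e))
noncomputable def q1045 : Tr := .c 2 v185 (.c 4 v185 (.c 5 v289 .e))
noncomputable def q1046 : Tr := .c 1 v182 (.c 2 v185 (.c 4 v185 .e))
noncomputable def r734 : Tr := .c 0 q1043 (.c 1 q1044 (.c 8 q1045 (.c 9 q1046 .e)))
noncomputable def v290 : Tr := .l 0x1461051050c41050c4146105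
noncomputable def q1047 : Tr := .c 4 v207 (.c 5 v290 (.c 8 v115 (.c 9 v115 .e)))
noncomputable def q1048 : Tr := .c 4 v207 (.c 5 v290 (.c 9 v115 .e))
noncomputable def q1049 : Tr := .c 5 v289 (.c 8 v113 (.c 9 v113 .e))
noncomputable def q1050 : Tr := .c 2 v207 (.c 4 v207 (.c 5 v290 .e))
noncomputable def r735 : Tr := .c 0 q1047 (.c 1 q1048 (.c 2 q1049 (.c 8 q1050 .e)))
noncomputable def t197 : Tr := .c 4 r734 (.c 5 r735 (.c 7 r668 .e))
noncomputable def r736 : Tr := .c 1 q934 (.c 2 q935 (.c 8 q938 (.c 9 q939 .e)))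
noncomputable def q1051 : Tr := .c 4 v185 (.c 8 v113 .e)
noncomputable def r737 : Tr := .c 0 q1051 (.c 1 q934 (.c 2 q935 (.c 8 q938 .e)))
noncomputable def t198 : Tr := .c 3 r736 (.c 5 r737 (.c 6 r671 (.c 7 r672 .e)))
noncomputable def r738 : Tr := .c 3 q487 (.c 4 q676 (.c 5 q822 (.c 9 q919 .e)))
noncomputable def r739 : Tr := .c 3 q491 (.c 5 q836 (.c 8 q922 (.c 9 q923 .e)))
noncomputable def t199 : Tr := .c 1 r738 (.c 2 r739 (.c 7 r668 .e))
noncomputable def r740 : Tr := .c 4 q929 (.c 5 q505 (.c 8 q931 (.c 9 q932 .e)))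
noncomputable def r741 : Tr := .c 3 q505 (.c 4 q929 (.c 5 q505 (.c 9 q932 .e)))
noncomputable def t200 : Tr := .c 0 r740 (.c 1 r741 (.c 6 r671 (.c 7 r672 .e)))
noncomputable def r742 : Tr := .c 4 q676 (.c 5 q788 (.c 8 q942 (.c 9 q943 .e)))
noncomputable def r743 : Tr := .c 3 q515 (.c 4 q676 (.c 5 q788 (.c 9 q943 .e)))
noncomputable def r744 : Tr := .c 3 q518 (.c 5 q847 (.c 8 q947 (.c 9 q948 .e)))
noncomputable def t201 : Tr := .c 0 r742 (.c 1 r743 (.c 2 r744 (.c 6 r676 (.c 7 r677 .e))))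
noncomputable def r745 : Tr := .c 3 q526 (.c 4 q723 (.c 5 q526 (.c 9 q919 .e)))
noncomputable def r746 : Tr := .c 3 q528 (.c 5 q528 (.c 8 q922 (.c 9 q923 .e)))
noncomputable def r747 : Tr := .c 0 q956 (.c 1 q956 (.c 8 q922 (.c 9 q923 .e)))
noncomputable def r748 : Tr := .c 0 q36 (.c 1 q36 (.c 2 q947 (.c 8 q959 .e)))
noncomputable def t202 : Tr := .c 1 r745 (.c 2 r746 (.c 4 r747 (.c 5 r748 .e)))
noncomputable def r749 : Tr := .c 0 q1047 (.c 1 q1048 (.c 8 q1050 .e))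
noncomputable def r750 : Tr := .c 0 q924 (.c 3 q926 (.c 5 q927 (.c 9 q928 .e)))
noncomputable def t203 : Tr := .c 4 r734 (.c 5 r749 (.c 7 r750 .e))
noncomputable def q1052 : Tr := .c 1 v185 (.c 2 v207 (.c 4 v207 .e))
noncomputable def r751 : Tr := .c 1 q1048 (.c 8 q1050 (.c 9 q1052 .e))
noncomputable def q1053 : Tr := .c 1 v112 (.c 2 v182 (.c 8 v112 .e))
noncomputable def r752 : Tr := .c 1 q1048 (.c 5 q1053 (.c 8 q1050 (.c 9 q1052 .e)))
noncomputable def t204 : Tr := .c 3 r751 (.c 4 r734 (.c 5 r749 (.c 6 r752 .e)))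
noncomputable def r753 : Tr := .c 1 q934 (.c 8 q938 (.c 9 q939 .e))
noncomputable def r754 : Tr := .c 0 q1051 (.c 1 q934 (.c 8 q938 .e))
noncomputable def r755 : Tr := .c 1 q934 (.c 5 q937 (.c 8 q938 (.c 9 q939 .e)))
noncomputable def r756 : Tr := .c 0 q940 (.c 3 q937 (.c 5 q937 (.c 9 q939 .e)))
noncomputable def t205 : Tr := .c 3 r753 (.c 5 r754 (.c 6 r755 (.c 7 r756 .e)))
noncomputable def r757 : Tr := .c 3 q487 (.c 5 q822 (.c 9 q919 .e))
noncomputable def t206 : Tr := .c 1 r757 (.c 2 r739 (.c 7 r750 .e))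
noncomputable def r758 : Tr := .c 5 q505 (.c 8 q931 (.c 9 q932 .e))
noncomputable def r759 : Tr := .c 3 q505 (.c 5 q505 (.c 9 q932 .e))
noncomputable def t207 : Tr := .c 0 r758 (.c 1 r759 (.c 6 r755 (.c 7 r756 .e)))
noncomputable def r760 : Tr := .c 3 q526 (.c 5 q526 (.c 9 q919 .e))
noncomputable def r761 : Tr := .c 0 q36 (.c 1 q36 (.c 8 q959 .e))
noncomputable def t208 : Tr := .c 1 r760 (.c 2 r746 (.c 4 r747 (.c 5 r761 .e)))
noncomputable def q1054 : Tr := .c 1 v208 (.c 2 v209 .e)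
noncomputable def q1055 : Tr := .c 1 v36 (.c 2 v42 (.c 4 v42 .e))
noncomputable def r762 : Tr := .c 5 q1054 (.c 8 q959 (.c 9 q1055 .e))
noncomputable def r763 : Tr := .c 1 q36 (.c 8 q959 (.c 9 q1055 .e))
noncomputable def t209 : Tr := .c 0 r762 (.c 2 r746 (.c 3 r763 (.c 4 r747 (.c 5 r761 .e))))
noncomputable def v291 : Tr := .l 0x1851861c61c71c61c71c71c7
noncomputable def q1056 : Tr := .c 0 v291 (.c 2 v219 .e)
noncomputable def q1057 : Tr := .c 0 v71 (.c 2 v70 (.c 3 v71 (.c 4 v70 .e)))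
noncomputable def q1058 : Tr := .c 0 v73 (.c 2 v129 (.c 3 v73 (.c 4 v129 .e)))
noncomputable def r764 : Tr := .c 4 q660 (.c 5 q1056 (.c 7 q1057 (.c 8 q1058 (.c 9 q1058 .e))))
noncomputable def q1059 : Tr := .c 2 v219 .e
noncomputable def q1060 : Tr := .c 2 v219 (.c 4 v219 .e)
noncomputable def r765 : Tr := .c 3 q1059 (.c 4 q660 (.c 5 q1056 (.c 6 q1060 (.c 9 q1058 .e))))
noncomputable def q1061 : Tr := .c 3 v124 (.c 4 v221 .e)
noncomputable def q1062 : Tr := .c 3 v171 .e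
noncomputable def q1063 : Tr := .c 0 v173 (.c 2 v220 .e)
noncomputable def q1064 : Tr := .c 0 v124 (.c 2 v221 (.c 3 v124 (.c 4 v221 .e)))
noncomputable def r766 : Tr := .c 1 q1061 (.c 2 q1062 (.c 4 q660 (.c 5 q1063 (.c 8 q1064 (.c 9 q1064 .e)))))
noncomputable def q1065 : Tr := .c 2 v220 .e
noncomputable def r767 : Tr := .c 0 q149 (.c 2 q1062 (.c 3 q1065 (.c 4 q660 (.c 5 q1063 (.c 9 q1064 .e)))))
noncomputable def t210 : Tr := .c 0 r764 (.c 1 r765 (.c 6 r766 (.c 7 r767 .e)))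
noncomputable def v292 : Tr := .l 0x1871c71871c71461871871c7
noncomputable def q1066 : Tr := .c 0 v292 (.c 9 v92 .e)
noncomputable def q1067 : Tr := .c 0 v113 .e
noncomputable def v293 : Tr := .l 0x1051460c4105105146105146
noncomputable def v294 : Tr := .l 0x1851c61441851851c61851c6
noncomputable def q1068 : Tr := .c 0 v293 (.c 3 v293 (.c 5 v293 (.c 9 v294 .e)))
noncomputable def v295 : Tr := .l 0x1461051050c4146105146105
noncomputable def q1069 : Tr := .c 0 v295 (.c 3 v295 (.c 5 v295 .e))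
noncomputable def q1070 : Tr := .c 0 v295 (.c 3 v295 .e)
noncomputable def r768 : Tr := .c 4 q1066 (.c 5 q1067 (.c 7 q1068 (.c 8 q1069 (.c 9 q1070 .e))))
noncomputable def q1071 : Tr := .c 9 v181 .e
noncomputable def v296 : Tr := .l 0x146187146187105146146187
noncomputable def q1072 : Tr := .c 5 v296 (.c 9 v181 .e)
noncomputable def r769 : Tr := .c 3 q1071 (.c 4 q1066 (.c 5 q1067 (.c 6 q1072 (.c 9 q1070 .e))))
noncomputable def v297 : Tr := .l 0x1851c61851c61441851851c6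
noncomputable def q1073 : Tr := .c 9 v297 .e
noncomputable def q1074 : Tr := .c 0 v153 .e
noncomputable def v298 : Tr := .l 0x1051461051460c4105105146
noncomputable def q1075 : Tr := .c 5 v298 (.c 9 v297 .e)
noncomputable def q1076 : Tr := .c 0 v298 (.c 3 v298 (.c 5 v298 (.c 9 v297 .e)))
noncomputable def v299 : Tr := .l 0x1461051461051050c4146105
noncomputable def q1077 : Tr := .c 0 v299 (.c 3 v299 (.c 5 v299 .e))
noncomputable def q1078 : Tr := .c 0 v299 (.c 3 v299 .e)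
noncomputable def r770 : Tr := .c 3 q1073 (.c 5 q1074 (.c 6 q1075 (.c 7 q1076 (.c 8 q1077 (.c 9 q1078 .e)))))
noncomputable def v300 : Tr := .l 0x1c61871851461c71c71c6187
noncomputable def q1079 : Tr := .c 3 v49 (.c 5 v49 (.c 9 v300 .e))
noncomputable def v301 : Tr := .l 0x1c71c71c61871c71c71c71c7
noncomputable def q1080 : Tr := .c 3 v18 (.c 5 v18 (.c 9 v301 .e))
noncomputable def q1081 : Tr := .c 0 v172 (.c 9 v301 .e)
noncomputable def q1082 : Tr := .c 0 v15 .e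
noncomputable def q1083 : Tr := .c 0 v49 (.c 3 v49 (.c 5 v49 .e))
noncomputable def q1084 : Tr := .c 0 v49 (.c 3 v49 .e)
noncomputable def r771 : Tr := .c 1 q1079 (.c 2 q1080 (.c 4 q1081 (.c 5 q1082 (.c 8 q1083 (.c 9 q1084 .e)))))
noncomputable def q1085 : Tr := .c 5 v15 (.c 9 v92 .e)
noncomputable def q1086 : Tr := .c 9 v92 .e
noncomputable def r772 : Tr := .c 0 q1085 (.c 2 q1080 (.c 3 q1086 (.c 4 q1081 (.c 5 q1082 (.c 9 q1084 .e)))))
noncomputable def t211 : Tr := .c 0 r768 (.c 1 r769 (.c 2 r770 (.c 6 r771 (.c 7 r772 .e))))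
noncomputable def v302 : Tr := .l 0x1040c4145105145105186146
noncomputable def q1087 : Tr := .c 0 v302 (.c 2 v287 .e)
noncomputable def q1088 : Tr := .c 0 v76 (.c 2 v75 (.c 3 v76 (.c 4 v75 (.c 5 v76 .e))))
noncomputable def q1089 : Tr := .c 0 v78 (.c 2 v77 (.c 3 v78 (.c 4 v77 (.c 5 v78 .e))))
noncomputable def q1090 : Tr := .c 0 v78 (.c 2 v77 (.c 3 v78 (.c 4 v77 .e)))
noncomputable def r773 : Tr := .c 4 q690 (.c 5 q1087 (.c 7 q1088 (.c 8 q1089 (.c 9 q1090 .e))))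
noncomputable def q1091 : Tr := .c 2 v70 .e
noncomputable def v303 : Tr := .l 0x103104144145144145185186
noncomputable def q1092 : Tr := .c 0 v303 (.c 2 v70 .e)
noncomputable def q1093 : Tr := .c 0 v71 (.c 2 v70 (.c 3 v71 (.c 4 v70 (.c 5 v71 .e))))
noncomputable def q1094 : Tr := .c 0 v84 (.c 2 v72 (.c 3 v84 (.c 4 v72 (.c 5 v84 .e))))
noncomputable def q1095 : Tr := .c 0 v84 (.c 2 v72 (.c 3 v84 (.c 4 v72 .e)))
noncomputable def r774 : Tr := .c 3 q1091 (.c 5 q1092 (.c 6 q1033 (.c 7 q1093 (.c 8 q1094 (.c 9 q1095 .e)))))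
noncomputable def q1096 : Tr := .c 3 v78 (.c 4 v77 (.c 5 v78 .e))
noncomputable def q1097 : Tr := .c 3 v84 (.c 5 v84 .e)
noncomputable def r775 : Tr := .c 1 q1096 (.c 2 q1097 (.c 7 q1088 (.c 8 q1089 (.c 9 q1090 .e))))
noncomputable def q1098 : Tr := .c 3 v84 (.c 4 v72 (.c 5 v84 .e))
noncomputable def r776 : Tr := .c 0 q100 (.c 1 q1098 (.c 6 q1033 (.c 7 q1093 (.c 8 q1094 (.c 9 q1095 .e)))))
noncomputable def r777 : Tr := .c 0 q93 (.c 1 q1096 (.c 2 q1097 (.c 6 q1037 (.c 7 q1088 (.c 8 q1089 .e)))))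
noncomputable def t212 : Tr := .c 0 r773 (.c 2 r774 (.c 3 r775 (.c 4 r776 (.c 5 r777 .e))))
noncomputable def q1099 : Tr := .c 0 v104 (.c 9 v300 .e)
noncomputable def v304 : Tr := .l 0x1451051040c4186146145105
noncomputable def q1100 : Tr := .c 0 v304 (.c 2 v288 .e)
noncomputable def q1101 : Tr := .c 0 v51 (.c 2 v50 (.c 3 v51 (.c 4 v50 (.c 5 v51 (.c 9 v63 .e)))))
noncomputable def q1102 : Tr := .c 0 v48 (.c 2 v47 (.c 3 v48 (.c 4 v47 (.c 5 v48 .e))))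
noncomputable def q1103 : Tr := .c 0 v48 (.c 2 v47 (.c 3 v48 (.c 4 v47 .e)))
noncomputable def r778 : Tr := .c 4 q1099 (.c 5 q1100 (.c 7 q1101 (.c 8 q1102 (.c 9 q1103 .e))))
noncomputable def q1104 : Tr := .c 2 v63 (.c 9 v68 .e)
noncomputable def v305 : Tr := .l 0x144145103104185186144145
noncomputable def q1105 : Tr := .c 0 v305 (.c 2 v63 .e)
noncomputable def q1106 : Tr := .c 0 v58 (.c 2 v63 (.c 3 v58 (.c 4 v63 (.c 5 v58 (.c 9 v68 .e)))))
noncomputable def q1107 : Tr := .c 0 v55 (.c 2 v60 (.c 3 v55 (.c 4 v60 (.c 5 v55 .e))))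
noncomputable def q1108 : Tr := .c 0 v55 (.c 2 v60 (.c 3 v55 (.c 4 v60 .e)))
noncomputable def r779 : Tr := .c 3 q1104 (.c 5 q1105 (.c 6 q1007 (.c 7 q1106 (.c 8 q1107 (.c 9 q1108 .e)))))
noncomputable def q1109 : Tr := .c 3 v48 (.c 4 v47 (.c 5 v48 (.c 9 v282 .e)))
noncomputable def q1110 : Tr := .c 3 v55 (.c 5 v55 (.c 9 v281 .e))
noncomputable def r780 : Tr := .c 1 q1109 (.c 2 q1110 (.c 7 q1101 (.c 8 q1102 (.c 9 q1103 .e))))
noncomputable def q1111 : Tr := .c 3 v55 (.c 4 v60 (.c 5 v55 (.c 9 v281 .e)))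
noncomputable def r781 : Tr := .c 0 q1005 (.c 1 q1111 (.c 6 q1007 (.c 7 q1106 (.c 8 q1107 (.c 9 q1108 .e)))))
noncomputable def r782 : Tr := .c 0 q1011 (.c 1 q1109 (.c 2 q1110 (.c 6 q1013 (.c 7 q1101 (.c 8 q1102 .e)))))
noncomputable def q1112 : Tr := .c 0 v67 (.c 9 v281 .e)
noncomputable def q1113 : Tr := .c 0 v49 (.c 2 v66 .e)
noncomputable def r783 : Tr := .c 1 q1109 (.c 2 q1110 (.c 4 q1112 (.c 5 q1113 (.c 8 q1102 (.c 9 q1103 .e)))))
noncomputable def t213 : Tr := .c 0 r778 (.c 2 r779 (.c 3 r780 (.c 4 r781 (.c 5 r782 (.c 6 r783 .e)))))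
noncomputable def q1114 : Tr := .c 0 v304 .e
noncomputable def q1115 : Tr := .c 0 v51 (.c 3 v51 (.c 5 v51 (.c 9 v63 .e)))
noncomputable def q1116 : Tr := .c 0 v48 (.c 3 v48 (.c 5 v48 .e))
noncomputable def q1117 : Tr := .c 0 v48 (.c 3 v48 .e)
noncomputable def r784 : Tr := .c 4 q1099 (.c 5 q1114 (.c 7 q1115 (.c 8 q1116 (.c 9 q1117 .e))))
noncomputable def q1118 : Tr := .c 9 v98 .e
noncomputable def q1119 : Tr := .c 5 v52 (.c 9 v98 .e)
noncomputable def r785 : Tr := .c 3 q1118 (.c 4 q1099 (.c 5 q1114 (.c 6 q1119 (.c 9 q1117 .e))))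
noncomputable def q1120 : Tr := .c 9 v68 .e
noncomputable def q1121 : Tr := .c 0 v305 .e
noncomputable def q1122 : Tr := .c 5 v58 (.c 9 v68 .e)
noncomputable def q1123 : Tr := .c 0 v58 (.c 3 v58 (.c 5 v58 (.c 9 v68 .e)))
noncomputable def q1124 : Tr := .c 0 v55 (.c 3 v55 (.c 5 v55 .e))
noncomputable def q1125 : Tr := .c 0 v55 (.c 3 v55 .e)
noncomputable def r786 : Tr := .c 3 q1120 (.c 5 q1121 (.c 6 q1122 (.c 7 q1123 (.c 8 q1124 (.c 9 q1125 .e)))))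
noncomputable def q1126 : Tr := .c 3 v48 (.c 5 v48 (.c 9 v282 .e))
noncomputable def r787 : Tr := .c 1 q1126 (.c 2 q1110 (.c 7 q1115 (.c 8 q1116 (.c 9 q1117 .e))))
noncomputable def q1127 : Tr := .c 5 v55 (.c 9 v281 .e)
noncomputable def r788 : Tr := .c 0 q1127 (.c 1 q1110 (.c 6 q1122 (.c 7 q1123 (.c 8 q1124 (.c 9 q1125 .e)))))
noncomputable def q1128 : Tr := .c 0 v49 .e
noncomputable def r789 : Tr := .c 1 q1126 (.c 2 q1110 (.c 4 q1112 (.c 5 q1128 (.c 8 q1116 (.c 9 q1117 .e)))))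
noncomputable def q1129 : Tr := .c 5 v49 (.c 9 v300 .e)
noncomputable def q1130 : Tr := .c 9 v300 .e
noncomputable def r790 : Tr := .c 0 q1129 (.c 2 q1110 (.c 3 q1130 (.c 4 q1112 (.c 5 q1128 (.c 9 q1117 .e)))))
noncomputable def t214 : Tr := .c 0 r784 (.c 1 r785 (.c 2 r786 (.c 3 r787 (.c 4 r788 (.c 6 r789 (.c 7 r790 .e))))))
noncomputable def q1131 : Tr := .c 0 v213 (.c 9 v196 .e)
noncomputable def r791 : Tr := .c 3 q492 (.c 4 q1131 (.c 6 q921 .e))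
noncomputable def q1132 : Tr := .c 0 v30 (.c 2 v29 (.c 3 v30 (.c 4 v29 (.c 5 v30 (.c 9 v31 .e)))))
noncomputable def q1133 : Tr := .c 0 v43 (.c 2 v42 (.c 3 v43 (.c 4 v42 (.c 5 v43 .e))))
noncomputable def r792 : Tr := .c 3 q557 (.c 6 q973 (.c 7 q1132 (.c 8 q1133 .e)))
noncomputable def q1134 : Tr := .c 4 v90 (.c 5 v276 (.c 9 v28 .e))
noncomputable def q1135 : Tr := .c 3 v45 (.c 5 v45 (.c 9 v200 .e))
noncomputable def q1136 : Tr := .c 0 v231 (.c 9 v200 .e)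
noncomputable def r793 : Tr := .c 0 q1134 (.c 2 q1135 (.c 3 q623 (.c 4 q1136 .e)))
noncomputable def t215 : Tr := .c 1 r791 (.c 2 r792 (.c 7 r793 .e))
noncomputable def q1137 : Tr := .c 0 v278 (.c 3 v278 (.c 5 v278 (.c 9 v201 .e)))
noncomputable def q1138 : Tr := .c 0 v279 (.c 3 v279 (.c 5 v279 .e))
noncomputable def r794 : Tr := .c 4 q1131 (.c 7 q1137 (.c 8 q1138 .e))
noncomputable def r795 : Tr := .c 3 q371 (.c 4 q1131 (.c 6 q946 .e))
noncomputable def q1139 : Tr := .c 0 v30 (.c 3 v30 (.c 5 v30 (.c 9 v31 .e)))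
noncomputable def q1140 : Tr := .c 0 v43 (.c 3 v43 (.c 5 v43 .e))
noncomputable def r796 : Tr := .c 3 q568 (.c 6 q980 (.c 7 q1139 (.c 8 q1140 .e)))
noncomputable def q1141 : Tr := .c 3 v3 (.c 5 v3 (.c 9 v195 .e))
noncomputable def q1142 : Tr := .c 0 v3 (.c 3 v3 (.c 5 v3 .e))
noncomputable def r797 : Tr := .c 1 q1141 (.c 2 q1135 (.c 4 q1136 (.c 8 q1142 .e)))
noncomputable def q1143 : Tr := .c 5 v276 (.c 9 v28 .e)
noncomputable def r798 : Tr := .c 0 q1143 (.c 2 q1135 (.c 3 q631 (.c 4 q1136 .e)))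
noncomputable def t216 : Tr := .c 0 r794 (.c 1 r795 (.c 2 r796 (.c 6 r797 (.c 7 r798 .e))))
noncomputable def r799 : Tr := .c 3 q502 (.c 4 q727 (.c 6 q955 .e))
noncomputable def q1144 : Tr := .c 0 v30 (.c 2 v29 (.c 3 v30 (.c 4 v29 (.c 5 v30 .e))))
noncomputable def r800 : Tr := .c 3 q533 (.c 6 q958 (.c 7 q1144 (.c 8 q1133 .e)))
noncomputable def q1145 : Tr := .c 3 v43 (.c 4 v42 (.c 5 v43 .e))
noncomputable def r801 : Tr := .c 0 q36 (.c 1 q1145 (.c 6 q958 (.c 7 q1144 (.c 8 q1133 .e))))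
noncomputable def q1146 : Tr := .c 3 v35 (.c 4 v34 (.c 5 v35 .e))
noncomputable def q1147 : Tr := .c 3 v43 (.c 5 v43 .e)
noncomputable def q1148 : Tr := .c 0 v33 (.c 2 v32 (.c 3 v33 (.c 4 v32 (.c 5 v33 .e))))
noncomputable def q1149 : Tr := .c 0 v35 (.c 2 v34 (.c 3 v35 (.c 4 v34 (.c 5 v35 .e))))
noncomputable def r802 : Tr := .c 0 q28 (.c 1 q1146 (.c 2 q1147 (.c 6 q985 (.c 7 q1148 (.c 8 q1149 .e)))))
noncomputable def t217 : Tr := .c 1 r799 (.c 2 r800 (.c 4 r801 (.c 5 r802 .e)))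
noncomputable def q1150 : Tr := .c 0 v30 .e
noncomputable def r803 : Tr := .c 4 q1150 (.c 7 q1148 (.c 8 q1149 .e))
noncomputable def r804 : Tr := .c 1 q1146 (.c 2 q1147 (.c 7 q1148 (.c 8 q1149 .e)))
noncomputable def t218 : Tr := .c 0 r803 (.c 2 r800 (.c 3 r804 (.c 4 r801 (.c 5 r802 .e))))
noncomputable def q1151 : Tr := .c 0 v46 (.c 9 v195 .e)
noncomputable def q1152 : Tr := .c 0 v5 (.c 2 v4 (.c 3 v5 (.c 4 v4 (.c 5 v5 (.c 9 v26 .e)))))
noncomputable def q1153 : Tr := .c 0 v1 (.c 2 v0 (.c 3 v1 (.c 4 v0 (.c 5 v1 .e))))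
noncomputable def r805 : Tr := .c 4 q1151 (.c 7 q1152 (.c 8 q1153 .e))
noncomputable def q1154 : Tr := .c 0 v14 (.c 2 v26 (.c 3 v14 (.c 4 v26 (.c 5 v14 (.c 9 v87 .e)))))
noncomputable def q1155 : Tr := .c 0 v10 (.c 2 v21 (.c 3 v10 (.c 4 v21 (.c 5 v10 .e))))
noncomputable def r806 : Tr := .c 3 q585 (.c 6 q991 (.c 7 q1154 (.c 8 q1155 .e)))
noncomputable def q1156 : Tr := .c 3 v1 (.c 4 v0 (.c 5 v1 (.c 9 v202 .e)))
noncomputable def q1157 : Tr := .c 3 v10 (.c 5 v10 (.c 9 v193 .e))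
noncomputable def r807 : Tr := .c 1 q1156 (.c 2 q1157 (.c 7 q1152 (.c 8 q1153 .e)))
noncomputable def q1158 : Tr := .c 3 v10 (.c 4 v21 (.c 5 v10 (.c 9 v193 .e)))
noncomputable def r808 : Tr := .c 0 q996 (.c 1 q1158 (.c 6 q991 (.c 7 q1154 (.c 8 q1155 .e))))
noncomputable def r809 : Tr := .c 0 q993 (.c 1 q1156 (.c 2 q1157 (.c 6 q988 (.c 7 q1152 (.c 8 q1153 .e)))))
noncomputable def q1159 : Tr := .c 0 v229 (.c 9 v193 .e)
noncomputable def r810 : Tr := .c 1 q1156 (.c 2 q1157 (.c 4 q1159 (.c 8 q1153 .e)))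
noncomputable def t219 : Tr := .c 0 r805 (.c 2 r806 (.c 3 r807 (.c 4 r808 (.c 5 r809 (.c 6 r810 .e)))))
noncomputable def q1160 : Tr := .c 0 v5 (.c 3 v5 (.c 5 v5 (.c 9 v26 .e)))
noncomputable def q1161 : Tr := .c 0 v1 (.c 3 v1 (.c 5 v1 .e))
noncomputable def r811 : Tr := .c 4 q1151 (.c 7 q1160 (.c 8 q1161 .e))
noncomputable def r812 : Tr := .c 3 q543 (.c 4 q1151 (.c 6 q964 .e))
noncomputable def q1162 : Tr := .c 0 v14 (.c 3 v14 (.c 5 v14 (.c 9 v87 .e)))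
noncomputable def q1163 : Tr := .c 0 v10 (.c 3 v10 (.c 5 v10 .e))
noncomputable def r813 : Tr := .c 3 q538 (.c 6 q960 (.c 7 q1162 (.c 8 q1163 .e)))
noncomputable def q1164 : Tr := .c 3 v1 (.c 5 v1 (.c 9 v202 .e))
noncomputable def r814 : Tr := .c 1 q1164 (.c 2 q1157 (.c 7 q1160 (.c 8 q1161 .e)))
noncomputable def r815 : Tr := .c 0 q966 (.c 1 q1157 (.c 6 q960 (.c 7 q1162 (.c 8 q1163 .e))))
noncomputable def r816 : Tr := .c 1 q1164 (.c 2 q1157 (.c 4 q1159 (.c 8 q1161 .e)))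
noncomputable def q1165 : Tr := .c 5 v3 (.c 9 v203 .e)
noncomputable def q1166 : Tr := .c 9 v203 .e
noncomputable def r817 : Tr := .c 0 q1165 (.c 2 q1157 (.c 3 q1166 (.c 4 q1159 .e)))
noncomputable def t220 : Tr := .c 0 r811 (.c 1 r812 (.c 2 r813 (.c 3 r814 (.c 4 r815 (.c 6 r816 (.c 7 r817 .e))))))
noncomputable def t221 : Tr := .c 3 r780 (.c 4 r781 (.c 5 r782 (.c 6 r783 .e)))
noncomputable def q1167 : Tr := .c 3 v55 (.c 4 v60 .e)
noncomputable def q1168 : Tr := .c 3 v49 .e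
noncomputable def q1169 : Tr := .c 0 v58 (.c 2 v63 (.c 3 v58 (.c 4 v63 .e)))
noncomputable def r818 : Tr := .c 1 q1167 (.c 2 q1168 (.c 7 q1169 (.c 8 q1108 (.c 9 q1108 .e))))
noncomputable def r819 : Tr := .c 0 q1021 (.c 1 q1167 (.c 2 q1168 (.c 6 q1022 (.c 7 q1169 (.c 8 q1108 .e)))))
noncomputable def q1170 : Tr := .c 0 v158 .e
noncomputable def q1171 : Tr := .c 0 v18 (.c 2 v119 .e)
noncomputable def r820 : Tr := .c 1 q1167 (.c 2 q1168 (.c 4 q1170 (.c 5 q1171 (.c 8 q1108 (.c 9 q1108 .e)))))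
noncomputable def q1172 : Tr := .c 4 v15 .e
noncomputable def q1173 : Tr := .c 2 v119 .e
noncomputable def r821 : Tr := .c 0 q1172 (.c 2 q1168 (.c 3 q1173 (.c 4 q1170 (.c 5 q1171 (.c 9 q1108 .e)))))
noncomputable def t222 : Tr := .c 3 r818 (.c 5 r819 (.c 6 r820 (.c 7 r821 .e)))
noncomputable def q1174 : Tr := .c 4 v280 (.c 5 v59 (.c 9 v88 .e))
noncomputable def r822 : Tr := .c 0 q1174 (.c 2 q449 (.c 3 q598 (.c 4 q760 .e)))
noncomputable def t223 : Tr := .c 4 r808 (.c 5 r809 (.c 7 r822 .e))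
noncomputable def t224 : Tr := .c 3 r807 (.c 4 r808 (.c 5 r809 (.c 6 r810 .e)))
noncomputable def r823 : Tr := .c 0 q1011 (.c 1 q1109 (.c 6 q1013 (.c 7 q1101 (.c 8 q1102 .e))))
noncomputable def q1175 : Tr := .c 4 v59 (.c 5 v16 (.c 9 v283 .e))
noncomputable def q1176 : Tr := .c 2 v284 (.c 9 v283 .e)
noncomputable def q1177 : Tr := .c 0 v15 (.c 2 v284 .e)
noncomputable def q1178 : Tr := .c 0 v49 (.c 2 v66 (.c 3 v49 (.c 4 v66 .e)))
noncomputable def r824 : Tr := .c 0 q1175 (.c 3 q1176 (.c 5 q1177 (.c 9 q1178 .e)))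
noncomputable def t225 : Tr := .c 4 r781 (.c 5 r823 (.c 7 r824 .e))
noncomputable def r825 : Tr := .c 1 q1109 (.c 7 q1101 (.c 8 q1102 (.c 9 q1103 .e)))
noncomputable def r826 : Tr := .c 1 q1109 (.c 5 q1113 (.c 8 q1102 (.c 9 q1103 .e)))
noncomputable def t226 : Tr := .c 3 r825 (.c 4 r781 (.c 5 r823 (.c 6 r826 .e)))
noncomputable def r827 : Tr := .c 1 q1167 (.c 7 q1169 (.c 8 q1108 (.c 9 q1108 .e)))
noncomputable def r828 : Tr := .c 0 q1021 (.c 1 q1167 (.c 6 q1022 (.c 7 q1169 (.c 8 q1108 .e))))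
noncomputable def r829 : Tr := .c 1 q1167 (.c 5 q1171 (.c 8 q1108 (.c 9 q1108 .e)))
noncomputable def r830 : Tr := .c 0 q1172 (.c 3 q1173 (.c 5 q1171 (.c 9 q1108 .e)))
noncomputable def t227 : Tr := .c 3 r827 (.c 5 r828 (.c 6 r829 (.c 7 r830 .e)))
noncomputable def q1179 : Tr := .c 2 v285 .e
noncomputable def v306 : Tr := .l 0x1441451851861851861c61c7
noncomputable def q1180 : Tr := .c 0 v306 (.c 2 v285 .e)
noncomputable def q1181 : Tr := .c 2 v285 (.c 4 v285 (.c 5 v163 .e))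
noncomputable def q1182 : Tr := .c 0 v79 (.c 2 v131 (.c 3 v79 (.c 4 v131 .e)))
noncomputable def r831 : Tr := .c 3 q1179 (.c 5 q1180 (.c 6 q1181 (.c 9 q1182 .e)))
noncomputable def r832 : Tr := .c 0 q93 (.c 1 q1096 (.c 6 q1037 (.c 7 q1088 (.c 8 q1089 .e))))
noncomputable def t228 : Tr := .c 1 r831 (.c 2 r774 (.c 4 r776 (.c 5 r832 .e)))
noncomputable def r833 : Tr := .c 5 q1087 (.c 7 q1088 (.c 8 q1089 (.c 9 q1090 .e)))
noncomputable def r834 : Tr := .c 1 q1096 (.c 7 q1088 (.c 8 q1089 (.c 9 q1090 .e)))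
noncomputable def t229 : Tr := .c 0 r833 (.c 2 r774 (.c 3 r834 (.c 4 r776 (.c 5 r832 .e))))
noncomputable def r835 : Tr := .c 5 q1100 (.c 7 q1101 (.c 8 q1102 (.c 9 q1103 .e)))
noncomputable def t230 : Tr := .c 0 r835 (.c 2 r779 (.c 3 r825 (.c 4 r781 (.c 5 r823 (.c 6 r826 .e)))))
noncomputable def q1183 : Tr := .c 3 v289 (.c 4 v185 (.c 5 v289 (.c 9 v113 .e)))
noncomputable def q1184 : Tr := .c 0 v289 (.c 2 v185 (.c 3 v289 (.c 4 v185 (.c 5 v289 .e))))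
noncomputable def q1185 : Tr := .c 0 v289 (.c 2 v185 (.c 3 v289 (.c 4 v185 .e)))
noncomputable def r836 : Tr := .c 0 q1044 (.c 1 q1183 (.c 8 q1184 (.c 9 q1185 .e)))
noncomputable def q1186 : Tr := .c 3 v290 (.c 4 v207 (.c 5 v290 (.c 9 v115 .e)))
noncomputable def q1187 : Tr := .c 0 v290 (.c 2 v207 (.c 3 v290 (.c 4 v207 (.c 5 v290 .e))))
noncomputable def r837 : Tr := .c 0 q1048 (.c 1 q1186 (.c 8 q1187 .e))
noncomputable def q1188 : Tr := .c 4 v135 (.c 5 v275 (.c 9 v93 .e))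
noncomputable def q1189 : Tr := .c 2 v28 (.c 9 v93 .e)
noncomputable def q1190 : Tr := .c 0 v92 (.c 2 v28 .e)
noncomputable def v307 : Tr := .l 0x1c71871871461871461c7187
noncomputable def q1191 : Tr := .c 0 v307 (.c 2 v180 (.c 3 v307 (.c 4 v180 .e)))
noncomputable def r838 : Tr := .c 0 q1188 (.c 3 q1189 (.c 5 q1190 (.c 9 q1191 .e)))
noncomputable def t231 : Tr := .c 4 r836 (.c 5 r837 (.c 7 r838 .e))
noncomputable def q1192 : Tr := .c 0 v290 (.c 2 v207 (.c 3 v290 (.c 4 v207 .e)))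
noncomputable def r839 : Tr := .c 1 q1186 (.c 8 q1187 (.c 9 q1192 .e))
noncomputable def q1193 : Tr := .c 0 v307 (.c 2 v182 .e)
noncomputable def r840 : Tr := .c 1 q1186 (.c 5 q1193 (.c 8 q1187 (.c 9 q1192 .e)))
noncomputable def t232 : Tr := .c 3 r839 (.c 4 r836 (.c 5 r837 (.c 6 r840 .e)))
noncomputable def q1194 : Tr := .c 3 v289 (.c 4 v185 .e)
noncomputable def r841 : Tr := .c 1 q1194 (.c 8 q1185 (.c 9 q1185 .e))
noncomputable def r842 : Tr := .c 0 q934 (.c 1 q1194 (.c 8 q1185 .e))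
noncomputable def v308 : Tr := .l 0x1c71c71c71871c71871c71c7
noncomputable def q1195 : Tr := .c 0 v308 (.c 2 v184 .e)
noncomputable def r843 : Tr := .c 1 q1194 (.c 5 q1195 (.c 8 q1185 (.c 9 q1185 .e)))
noncomputable def q1196 : Tr := .c 4 v175 .e
noncomputable def q1197 : Tr := .c 2 v184 .e
noncomputable def r844 : Tr := .c 0 q1196 (.c 3 q1197 (.c 5 q1195 (.c 9 q1185 .e)))
noncomputable def t233 : Tr := .c 3 r841 (.c 5 r842 (.c 6 r843 (.c 7 r844 .e)))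
noncomputable def q1198 : Tr := .c 0 v196 (.c 2 v27 .e)
noncomputable def q1199 : Tr := .c 0 v137 (.c 2 v178 (.c 3 v137 (.c 4 v178 .e)))
noncomputable def r845 : Tr := .c 3 q499 (.c 5 q1198 (.c 9 q1199 .e))
noncomputable def v309 : Tr := .l 0x1851861c61c7144145185186
noncomputable def q1200 : Tr := .c 0 v309 (.c 2 v31 .e)
noncomputable def q1201 : Tr := .c 0 v44 (.c 2 v36 (.c 3 v44 (.c 4 v36 (.c 5 v44 .e))))
noncomputable def q1202 : Tr := .c 0 v44 (.c 2 v36 (.c 3 v44 (.c 4 v36 .e)))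
noncomputable def r846 : Tr := .c 3 q492 (.c 5 q1200 (.c 8 q1201 (.c 9 q1202 .e)))
noncomputable def t234 : Tr := .c 1 r845 (.c 2 r846 (.c 7 r838 .e))
noncomputable def q1203 : Tr := .c 0 v92 (.c 2 v181 .e)
noncomputable def q1204 : Tr := .c 0 v307 (.c 2 v182 (.c 3 v307 (.c 4 v182 .e)))
noncomputable def r847 : Tr := .c 5 q1203 (.c 8 q1204 (.c 9 q1204 .e))
noncomputable def r848 : Tr := .c 3 q510 (.c 5 q1203 (.c 9 q1204 .e))
noncomputable def t235 : Tr := .c 0 r847 (.c 1 r848 (.c 6 r843 (.c 7 r844 .e)))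
noncomputable def r849 : Tr := .c 3 q535 (.c 5 q1198 (.c 9 q1199 .e))
noncomputable def r850 : Tr := .c 3 q502 (.c 5 q1200 (.c 8 q1201 (.c 9 q1202 .e)))
noncomputable def q1205 : Tr := .c 3 v44 (.c 4 v36 (.c 5 v44 .e))
noncomputable def r851 : Tr := .c 0 q956 (.c 1 q1205 (.c 8 q1201 (.c 9 q1202 .e)))
noncomputable def r852 : Tr := .c 0 q36 (.c 1 q1145 (.c 8 q1133 .e))
noncomputable def t236 : Tr := .c 1 r849 (.c 2 r850 (.c 4 r851 (.c 5 r852 .e)))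
noncomputable def v310 : Tr := .l 0x1861461c7187145105186146
noncomputable def q1206 : Tr := .c 0 v310 (.c 2 v209 .e)
noncomputable def q1207 : Tr := .c 0 v43 (.c 2 v42 (.c 3 v43 (.c 4 v42 .e)))
noncomputable def r853 : Tr := .c 5 q1206 (.c 8 q1133 (.c 9 q1207 .e))
noncomputable def r854 : Tr := .c 1 q1145 (.c 8 q1133 (.c 9 q1207 .e))
noncomputable def t237 : Tr := .c 0 r853 (.c 2 r850 (.c 3 r854 (.c 4 r851 (.c 5 r852 .e))))
noncomputable def v311 : Tr := .l 0x185186186146144185185186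
noncomputable def v312 : Tr := .l 0x146146146105105146146146
noncomputable def q1208 : Tr := .c 0 v311 (.c 6 v312 .e)
noncomputable def v313 : Tr := .l 0x1c61871851461851861c6187
noncomputable def v314 : Tr := .l 0x1851c61441851441851851c6
noncomputable def v315 : Tr := .l 0x187187186146146187187187
noncomputable def q1209 : Tr := .c 0 v313 (.c 2 v314 (.c 6 v315 .e))
noncomputable def q1210 : Tr := .c 0 v30 (.c 2 v29 (.c 3 v30 (.c 4 v29 .e)))
noncomputable def v316 : Tr := .l 0x187146146105186146187146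
noncomputable def q1211 : Tr := .c 0 v295 (.c 2 v316 (.c 3 v295 (.c 4 v316 (.c 6 v295 .e))))
noncomputable def r855 : Tr := .c 4 q1208 (.c 5 q1209 (.c 7 q1210 (.c 8 q1211 (.c 9 q1211 .e))))
noncomputable def q1212 : Tr := .c 2 v314 .e
noncomputable def q1213 : Tr := .c 2 v314 (.c 4 v314 .e)
noncomputable def r856 : Tr := .c 3 q1212 (.c 4 q1208 (.c 5 q1209 (.c 6 q1213 (.c 9 q1211 .e))))
noncomputable def q1214 : Tr := .c 3 v312 (.c 6 v312 .e)
noncomputable def r857 : Tr := .c 0 q934 (.c 2 q1214 (.c 3 q1212 (.c 4 q1208 (.c 5 q1209 (.c 6 q1213 .e)))))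
noncomputable def q1215 : Tr := .c 3 v289 (.c 4 v185 (.c 6 v289 .e))
noncomputable def q1216 : Tr := .c 0 v152 (.c 2 v314 (.c 3 v152 (.c 4 v314 .e)))
noncomputable def r858 : Tr := .c 0 q934 (.c 1 q1215 (.c 2 q1214 (.c 3 q1212 (.c 4 q1208 (.c 6 q1213 (.c 7 q1216 .e))))))
noncomputable def t238 : Tr := .c 0 r855 (.c 1 r856 (.c 8 r857 (.c 9 r858 .e)))
noncomputable def v317 : Tr := .l 0x1c61871861461851461c6187
noncomputable def v318 : Tr := .l 0x187146187146146105187146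
noncomputable def q1217 : Tr := .c 0 v317 (.c 6 v318 .e)
noncomputable def v319 : Tr := .l 0x185146145105144145185146
noncomputable def v320 : Tr := .l 0x186146146105185146186146
noncomputable def q1218 : Tr := .c 0 v319 (.c 6 v320 .e)
noncomputable def v321 : Tr := .l 0xc41050830c40c41050c4105
noncomputable def q1219 : Tr := .c 0 v321 (.c 3 v321 (.c 5 v321 .e))
noncomputable def v322 : Tr := .l 0x1050c40c40831050c41050c4
noncomputable def q1220 : Tr := .c 0 v322 (.c 3 v322 (.c 5 v322 (.c 6 v322 .e)))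
noncomputable def q1221 : Tr := .c 0 v322 (.c 3 v322 (.c 6 v322 .e))
noncomputable def r859 : Tr := .c 4 q1217 (.c 5 q1218 (.c 7 q1219 (.c 8 q1220 (.c 9 q1221 .e))))
noncomputable def q1222 : Tr := .c 5 v298 .e
noncomputable def r860 : Tr := .c 4 q1217 (.c 5 q1218 (.c 6 q1222 (.c 9 q1221 .e)))
noncomputable def v323 : Tr := .l 0x185146144145145105185146
noncomputable def v324 : Tr := .l 0x186146185146146105186146
noncomputable def q1223 : Tr := .c 0 v323 (.c 6 v324 .e)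
noncomputable def v325 : Tr := .l 0xc41050c41050830c40c4105
noncomputable def q1224 : Tr := .c 5 v325 .e
noncomputable def q1225 : Tr := .c 0 v325 (.c 3 v325 (.c 5 v325 .e))
noncomputable def v326 : Tr := .l 0x1050c41050c40c40831050c4
noncomputable def q1226 : Tr := .c 0 v326 (.c 3 v326 (.c 5 v326 (.c 6 v326 .e)))
noncomputable def q1227 : Tr := .c 0 v326 (.c 3 v326 (.c 6 v326 .e))
noncomputable def r861 : Tr := .c 5 q1223 (.c 6 q1224 (.c 7 q1225 (.c 8 q1226 (.c 9 q1227 .e))))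
noncomputable def v327 : Tr := .l 0x1461051461461050c4146105
noncomputable def q1228 : Tr := .c 5 v327 .e
noncomputable def q1229 : Tr := .c 3 v318 (.c 5 v318 (.c 6 v318 .e))
noncomputable def r862 : Tr := .c 0 q1228 (.c 2 q1229 (.c 4 q1217 (.c 5 q1218 (.c 6 q1222 .e))))
noncomputable def t239 : Tr := .c 0 r859 (.c 1 r860 (.c 2 r861 (.c 8 r862 .e)))
noncomputable def q1230 : Tr := .c 0 v70 (.c 6 v143 .e)
noncomputable def v328 : Tr := .l 0xc30831040c41040c4145105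
noncomputable def v329 : Tr := .l 0xc20c2103103103103144144
noncomputable def q1231 : Tr := .c 0 v328 (.c 2 v329 (.c 6 v84 .e))
noncomputable def q1232 : Tr := .c 0 v83 (.c 2 v82 (.c 3 v83 (.c 4 v82 (.c 5 v83 .e))))
noncomputable def q1233 : Tr := .c 0 v81 (.c 2 v80 (.c 3 v81 (.c 4 v80 (.c 5 v81 (.c 6 v81 .e)))))
noncomputable def q1234 : Tr := .c 0 v81 (.c 2 v80 (.c 3 v81 (.c 4 v80 (.c 6 v81 .e))))
noncomputable def r863 : Tr := .c 4 q1230 (.c 5 q1231 (.c 7 q1232 (.c 8 q1233 (.c 9 q1234 .e))))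
noncomputable def q1235 : Tr := .c 2 v75 .e
noncomputable def v330 : Tr := .l 0xc20c3103104103104144145
noncomputable def q1236 : Tr := .c 0 v330 (.c 2 v75 (.c 6 v144 .e))
noncomputable def q1237 : Tr := .c 0 v78 (.c 2 v77 (.c 3 v78 (.c 4 v77 (.c 5 v78 (.c 6 v78 .e)))))
noncomputable def q1238 : Tr := .c 0 v78 (.c 2 v77 (.c 3 v78 (.c 4 v77 (.c 6 v78 .e))))
noncomputable def r864 : Tr := .c 3 q1235 (.c 5 q1236 (.c 6 q1037 (.c 7 q1088 (.c 8 q1237 (.c 9 q1238 .e)))))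
noncomputable def r865 : Tr := .c 1 q255 (.c 2 q261 (.c 7 q1232 (.c 8 q1233 (.c 9 q1234 .e))))
noncomputable def r866 : Tr := .c 0 q93 (.c 1 q259 (.c 6 q1037 (.c 7 q1088 (.c 8 q1237 (.c 9 q1238 .e)))))
noncomputable def q1239 : Tr := .c 2 v82 (.c 4 v82 (.c 5 v83 .e))
noncomputable def r867 : Tr := .c 0 q97 (.c 1 q255 (.c 2 q261 (.c 6 q1239 (.c 7 q1232 (.c 8 q1233 .e)))))
noncomputable def q1240 : Tr := .c 0 v147 (.c 6 v79 .e)
noncomputable def r868 : Tr := .c 0 q100 (.c 1 q262 (.c 2 q263 (.c 3 q1091 (.c 4 q1240 (.c 6 q1033 (.c 7 q1093 .e))))))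
noncomputable def t240 : Tr := .c 0 r863 (.c 2 r864 (.c 3 r865 (.c 4 r866 (.c 5 r867 (.c 9 r868 .e)))))
noncomputable def v331 : Tr := .l 0x1040c40c30831451051040c4
noncomputable def v332 : Tr := .l 0x1031030c20c2144144103103
noncomputable def q1241 : Tr := .c 0 v331 (.c 2 v332 .e)
noncomputable def q1242 : Tr := .c 0 v57 (.c 2 v56 (.c 3 v57 (.c 4 v56 (.c 5 v57 .e))))
noncomputable def q1243 : Tr := .c 0 v54 (.c 2 v53 (.c 3 v54 (.c 4 v53 (.c 5 v54 .e))))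
noncomputable def q1244 : Tr := .c 0 v54 (.c 2 v53 (.c 3 v54 (.c 4 v53 .e)))
noncomputable def r869 : Tr := .c 4 q1114 (.c 5 q1241 (.c 7 q1242 (.c 8 q1243 (.c 9 q1244 .e))))
noncomputable def q1245 : Tr := .c 2 v50 .e
noncomputable def v333 : Tr := .l 0x1031040c20c3144145103104
noncomputable def q1246 : Tr := .c 0 v333 (.c 2 v50 .e)
noncomputable def q1247 : Tr := .c 2 v50 (.c 4 v50 (.c 5 v51 .e))
noncomputable def q1248 : Tr := .c 0 v51 (.c 2 v50 (.c 3 v51 (.c 4 v50 (.c 5 v51 .e))))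
noncomputable def r870 : Tr := .c 3 q1245 (.c 5 q1246 (.c 6 q1247 (.c 7 q1248 (.c 8 q1102 (.c 9 q1103 .e)))))
noncomputable def r871 : Tr := .c 1 q267 (.c 2 q283 (.c 7 q1242 (.c 8 q1243 (.c 9 q1244 .e))))
noncomputable def r872 : Tr := .c 0 q58 (.c 1 q270 (.c 6 q1247 (.c 7 q1248 (.c 8 q1102 (.c 9 q1103 .e)))))
noncomputable def q1249 : Tr := .c 2 v56 (.c 4 v56 (.c 5 v57 .e))
noncomputable def r873 : Tr := .c 0 q64 (.c 1 q267 (.c 2 q283 (.c 6 q1249 (.c 7 q1242 (.c 8 q1243 .e)))))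
noncomputable def t241 : Tr := .c 0 r869 (.c 2 r870 (.c 3 r871 (.c 4 r872 (.c 5 r873 .e))))
noncomputable def q1250 : Tr := .c 0 v331 .e
noncomputable def q1251 : Tr := .c 0 v57 (.c 3 v57 (.c 5 v57 .e))
noncomputable def q1252 : Tr := .c 0 v54 (.c 3 v54 (.c 5 v54 .e))
noncomputable def q1253 : Tr := .c 0 v54 (.c 3 v54 .e)
noncomputable def r874 : Tr := .c 4 q1114 (.c 5 q1250 (.c 7 q1251 (.c 8 q1252 (.c 9 q1253 .e))))
noncomputable def q1254 : Tr := .c 5 v58 .e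
noncomputable def r875 : Tr := .c 4 q1114 (.c 5 q1250 (.c 6 q1254 (.c 9 q1253 .e)))
noncomputable def q1255 : Tr := .c 0 v333 .e
noncomputable def q1256 : Tr := .c 5 v51 .e
noncomputable def q1257 : Tr := .c 0 v51 (.c 3 v51 (.c 5 v51 .e))
noncomputable def r876 : Tr := .c 5 q1255 (.c 6 q1256 (.c 7 q1257 (.c 8 q1116 (.c 9 q1117 .e))))
noncomputable def r877 : Tr := .c 1 q277 (.c 2 q283 (.c 7 q1251 (.c 8 q1252 (.c 9 q1253 .e))))
noncomputable def q1258 : Tr := .c 5 v48 .e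
noncomputable def r878 : Tr := .c 0 q1258 (.c 1 q283 (.c 6 q1256 (.c 7 q1257 (.c 8 q1116 (.c 9 q1117 .e)))))
noncomputable def t242 : Tr := .c 0 r874 (.c 1 r875 (.c 2 r876 (.c 3 r877 (.c 4 r878 .e))))
noncomputable def v334 : Tr := .l 0x1851461c6187144105185146
noncomputable def q1259 : Tr := .c 0 v334 (.c 6 v44 .e)
noncomputable def r879 : Tr := .c 3 q533 (.c 4 q1259 (.c 6 q958 .e))
noncomputable def q1260 : Tr := .c 0 v35 (.c 2 v34 (.c 3 v35 (.c 4 v34 (.c 5 v35 (.c 6 v35 .e)))))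
noncomputable def r880 : Tr := .c 3 q576 (.c 6 q985 (.c 7 q1148 (.c 8 q1260 .e)))
noncomputable def r881 : Tr := .c 0 q36 (.c 2 q311 (.c 3 q533 (.c 4 q1259 (.c 6 q958 .e))))
noncomputable def r882 : Tr := .c 0 q36 (.c 1 q312 (.c 2 q311 (.c 3 q533 (.c 4 q1259 (.c 6 q958 (.c 7 q1144 .e))))))
noncomputable def t243 : Tr := .c 1 r879 (.c 2 r880 (.c 8 r881 (.c 9 r882 .e)))
noncomputable def v335 : Tr := .l 0xc41050c41050830c40830c4
noncomputable def q1261 : Tr := .c 0 v335 (.c 3 v335 (.c 5 v335 .e))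
noncomputable def v336 : Tr := .l 0x1050c41050c40c40830c4083
noncomputable def q1262 : Tr := .c 0 v336 (.c 3 v336 (.c 5 v336 (.c 6 v336 .e)))
noncomputable def r883 : Tr := .c 4 q1259 (.c 7 q1261 (.c 8 q1262 .e))
noncomputable def q1263 : Tr := .c 5 v30 .e
noncomputable def r884 : Tr := .c 4 q1259 (.c 6 q1263 .e)
noncomputable def q1264 : Tr := .c 5 v33 .e
noncomputable def q1265 : Tr := .c 0 v33 (.c 3 v33 (.c 5 v33 .e))
noncomputable def q1266 : Tr := .c 0 v35 (.c 3 v35 (.c 5 v35 (.c 6 v35 .e)))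
noncomputable def r885 : Tr := .c 6 q1264 (.c 7 q1265 (.c 8 q1266 .e))
noncomputable def r886 : Tr := .c 0 q981 (.c 2 q311 (.c 4 q1259 (.c 6 q1263 .e)))
noncomputable def t244 : Tr := .c 0 r883 (.c 1 r884 (.c 2 r885 (.c 8 r886 .e)))
noncomputable def r887 : Tr := .c 0 q28 (.c 1 q307 (.c 6 q985 (.c 7 q1148 (.c 8 q1260 .e))))
noncomputable def q1267 : Tr := .c 2 v40 (.c 4 v40 (.c 5 v41 .e))
noncomputable def q1268 : Tr := .c 0 v41 (.c 2 v40 (.c 3 v41 (.c 4 v40 (.c 5 v41 .e))))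
noncomputable def q1269 : Tr := .c 0 v38 (.c 2 v37 (.c 3 v38 (.c 4 v37 (.c 5 v38 (.c 6 v38 .e)))))
noncomputable def r888 : Tr := .c 0 q31 (.c 1 q308 (.c 2 q309 (.c 6 q1267 (.c 7 q1268 (.c 8 q1269 .e)))))
noncomputable def t245 : Tr := .c 1 r879 (.c 2 r880 (.c 4 r887 (.c 5 r888 (.c 8 r881 (.c 9 r882 .e)))))
noncomputable def q1270 : Tr := .c 0 v29 (.c 6 v145 .e)
noncomputable def r889 : Tr := .c 4 q1270 (.c 7 q1268 (.c 8 q1269 .e))
noncomputable def r890 : Tr := .c 1 q308 (.c 2 q309 (.c 7 q1268 (.c 8 q1269 .e)))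
noncomputable def t246 : Tr := .c 0 r889 (.c 2 r880 (.c 3 r890 (.c 4 r887 (.c 5 r888 (.c 9 r882 .e)))))
noncomputable def v337 : Tr := .l 0x1861461451051c6187186146
noncomputable def q1271 : Tr := .c 0 v337 .e
noncomputable def q1272 : Tr := .c 0 v13 (.c 2 v12 (.c 3 v13 (.c 4 v12 (.c 5 v13 .e))))
noncomputable def q1273 : Tr := .c 0 v8 (.c 2 v7 (.c 3 v8 (.c 4 v7 (.c 5 v8 .e))))
noncomputable def r891 : Tr := .c 4 q1271 (.c 7 q1272 (.c 8 q1273 .e))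
noncomputable def q1274 : Tr := .c 2 v4 .e
noncomputable def q1275 : Tr := .c 2 v4 (.c 4 v4 (.c 5 v5 .e))
noncomputable def q1276 : Tr := .c 0 v5 (.c 2 v4 (.c 3 v5 (.c 4 v4 (.c 5 v5 .e))))
noncomputable def r892 : Tr := .c 3 q1274 (.c 6 q1275 (.c 7 q1276 (.c 8 q1153 .e)))
noncomputable def r893 : Tr := .c 1 q316 (.c 2 q328 (.c 7 q1272 (.c 8 q1273 .e)))
noncomputable def r894 : Tr := .c 0 q4 (.c 1 q318 (.c 6 q1275 (.c 7 q1276 (.c 8 q1153 .e))))
noncomputable def q1277 : Tr := .c 2 v12 (.c 4 v12 (.c 5 v13 .e))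
noncomputable def r895 : Tr := .c 0 q10 (.c 1 q316 (.c 2 q328 (.c 6 q1277 (.c 7 q1272 (.c 8 q1273 .e)))))
noncomputable def t247 : Tr := .c 0 r891 (.c 2 r892 (.c 3 r893 (.c 4 r894 (.c 5 r895 .e))))
noncomputable def q1278 : Tr := .c 0 v13 (.c 3 v13 (.c 5 v13 .e))
noncomputable def q1279 : Tr := .c 0 v8 (.c 3 v8 (.c 5 v8 .e))
noncomputable def r896 : Tr := .c 4 q1271 (.c 7 q1278 (.c 8 q1279 .e))
noncomputable def q1280 : Tr := .c 5 v14 .e
noncomputable def r897 : Tr := .c 4 q1271 (.c 6 q1280 .e)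
noncomputable def q1281 : Tr := .c 5 v5 .e
noncomputable def q1282 : Tr := .c 0 v5 (.c 3 v5 (.c 5 v5 .e))
noncomputable def r898 : Tr := .c 6 q1281 (.c 7 q1282 (.c 8 q1161 .e))
noncomputable def r899 : Tr := .c 1 q324 (.c 2 q328 (.c 7 q1278 (.c 8 q1279 .e)))
noncomputable def r900 : Tr := .c 0 q50 (.c 1 q328 (.c 6 q1281 (.c 7 q1282 (.c 8 q1161 .e))))
noncomputable def t248 : Tr := .c 0 r896 (.c 1 r897 (.c 2 r898 (.c 3 r899 (.c 4 r900 .e))))
noncomputable def q1283 : Tr := .c 0 v54 (.c 2 v53 (.c 3 v54 (.c 4 v53 (.c 5 v54 (.c 6 v54 .e)))))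
noncomputable def q1284 : Tr := .c 0 v54 (.c 2 v53 (.c 3 v54 (.c 4 v53 (.c 6 v54 .e))))
noncomputable def r901 : Tr := .c 1 q230 (.c 2 q378 (.c 7 q1242 (.c 8 q1283 (.c 9 q1284 .e))))
noncomputable def q1285 : Tr := .c 0 v48 (.c 2 v47 (.c 3 v48 (.c 4 v47 (.c 5 v48 (.c 6 v48 .e)))))
noncomputable def q1286 : Tr := .c 0 v48 (.c 2 v47 (.c 3 v48 (.c 4 v47 (.c 6 v48 .e))))
noncomputable def r902 : Tr := .c 0 q58 (.c 1 q234 (.c 6 q1247 (.c 7 q1248 (.c 8 q1285 (.c 9 q1286 .e)))))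
noncomputable def r903 : Tr := .c 0 q64 (.c 1 q230 (.c 2 q378 (.c 6 q1249 (.c 7 q1242 (.c 8 q1283 .e)))))
noncomputable def q1287 : Tr := .c 2 v63 .e
noncomputable def q1288 : Tr := .c 0 v281 (.c 6 v49 .e)
noncomputable def q1289 : Tr := .c 2 v63 (.c 4 v63 (.c 5 v58 .e))
noncomputable def q1290 : Tr := .c 0 v58 (.c 2 v63 (.c 3 v58 (.c 4 v63 (.c 5 v58 .e))))
noncomputable def r904 : Tr := .c 0 q180 (.c 1 q359 (.c 2 q482 (.c 3 q1287 (.c 4 q1288 (.c 6 q1289 (.c 7 q1290 .e))))))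
noncomputable def t249 : Tr := .c 3 r901 (.c 4 r902 (.c 5 r903 (.c 9 r904 .e)))
noncomputable def q1291 : Tr := .c 0 v51 (.c 2 v50 (.c 3 v51 (.c 4 v50 .e)))
noncomputable def r905 : Tr := .c 1 q235 (.c 2 q243 (.c 7 q1291 (.c 8 q1286 (.c 9 q1286 .e))))
noncomputable def q1292 : Tr := .c 2 v50 (.c 4 v50 .e)
noncomputable def r906 : Tr := .c 0 q77 (.c 1 q235 (.c 2 q243 (.c 6 q1292 (.c 7 q1291 (.c 8 q1286 .e)))))
noncomputable def v338 : Tr := .l 0x144145145105185186186146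
noncomputable def q1293 : Tr := .c 0 v338 (.c 6 v141 .e)
noncomputable def v339 : Tr := .l 0x1851861441451c61c7185186
noncomputable def q1294 : Tr := .c 0 v339 (.c 2 v68 (.c 6 v142 .e))
noncomputable def q1295 : Tr := .c 2 v68 (.c 4 v68 .e)
noncomputable def r907 : Tr := .c 0 q86 (.c 2 q247 (.c 3 q611 (.c 4 q1293 (.c 5 q1294 (.c 6 q1295 .e)))))
noncomputable def q1296 : Tr := .c 0 v52 (.c 2 v68 (.c 3 v52 (.c 4 v68 .e)))
noncomputable def r908 : Tr := .c 0 q86 (.c 1 q250 (.c 2 q247 (.c 3 q611 (.c 4 q1293 (.c 6 q1295 (.c 7 q1296 .e))))))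
noncomputable def t250 : Tr := .c 3 r905 (.c 5 r906 (.c 8 r907 (.c 9 r908 .e)))
noncomputable def q1297 : Tr := .c 0 v1 (.c 2 v0 (.c 3 v1 (.c 4 v0 (.c 5 v1 (.c 6 v1 .e)))))
noncomputable def r909 : Tr := .c 0 q4 (.c 1 q290 (.c 6 q1275 (.c 7 q1276 (.c 8 q1297 .e))))
noncomputable def q1298 : Tr := .c 3 v1 (.c 5 v1 (.c 6 v1 .e))
noncomputable def q1299 : Tr := .c 0 v8 (.c 2 v7 (.c 3 v8 (.c 4 v7 (.c 5 v8 (.c 6 v8 .e)))))
noncomputable def r910 : Tr := .c 0 q10 (.c 1 q294 (.c 2 q1298 (.c 6 q1277 (.c 7 q1272 (.c 8 q1299 .e)))))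
noncomputable def q1300 : Tr := .c 4 v21 (.c 5 v10 .e)
noncomputable def q1301 : Tr := .c 3 v3 (.c 5 v3 (.c 6 v3 .e))
noncomputable def q1302 : Tr := .c 2 v26 .e
noncomputable def q1303 : Tr := .c 0 v193 (.c 6 v3 .e)
noncomputable def q1304 : Tr := .c 2 v26 (.c 4 v26 (.c 5 v14 .e))
noncomputable def r911 : Tr := .c 0 q1300 (.c 2 q1301 (.c 3 q1302 (.c 4 q1303 (.c 6 q1304 .e))))
noncomputable def q1305 : Tr := .c 3 v10 (.c 4 v21 (.c 5 v10 (.c 6 v10 .e)))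
noncomputable def q1306 : Tr := .c 0 v14 (.c 2 v26 (.c 3 v14 (.c 4 v26 (.c 5 v14 .e))))
noncomputable def r912 : Tr := .c 0 q1300 (.c 1 q1305 (.c 2 q1301 (.c 3 q1302 (.c 4 q1303 (.c 6 q1304 (.c 7 q1306 .e))))))
noncomputable def t251 : Tr := .c 4 r909 (.c 5 r910 (.c 8 r911 (.c 9 r912 .e)))
noncomputable def r913 : Tr := .c 1 q294 (.c 2 q1298 (.c 7 q1272 (.c 8 q1299 .e)))
noncomputable def t252 : Tr := .c 3 r913 (.c 4 r909 (.c 5 r910 (.c 9 r912 .e)))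
noncomputable def r914 : Tr := .c 0 q64 (.c 1 q230 (.c 6 q1249 (.c 7 q1242 (.c 8 q1283 .e))))
noncomputable def v340 : Tr := .l 0x144145103144185186144185
noncomputable def q1307 : Tr := .c 0 v340 (.c 2 v63 (.c 6 v146 .e))
noncomputable def r915 : Tr := .c 0 q180 (.c 3 q1287 (.c 5 q1307 (.c 6 q1289 .e)))
noncomputable def r916 : Tr := .c 0 q180 (.c 1 q359 (.c 3 q1287 (.c 6 q1289 (.c 7 q1290 .e))))
noncomputable def t253 : Tr := .c 4 r902 (.c 5 r914 (.c 8 r915 (.c 9 r916 .e)))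
noncomputable def r917 : Tr := .c 1 q230 (.c 7 q1242 (.c 8 q1283 (.c 9 q1284 .e)))
noncomputable def t254 : Tr := .c 3 r917 (.c 4 r902 (.c 5 r914 (.c 9 r916 .e)))
noncomputable def r918 : Tr := .c 1 q235 (.c 7 q1291 (.c 8 q1286 (.c 9 q1286 .e)))
noncomputable def r919 : Tr := .c 0 q77 (.c 1 q235 (.c 6 q1292 (.c 7 q1291 (.c 8 q1286 .e))))
noncomputable def r920 : Tr := .c 0 q86 (.c 3 q611 (.c 5 q1294 (.c 6 q1295 .e)))
noncomputable def r921 : Tr := .c 0 q86 (.c 1 q250 (.c 3 q611 (.c 6 q1295 (.c 7 q1296 .e))))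
noncomputable def t255 : Tr := .c 3 r918 (.c 5 r919 (.c 8 r920 (.c 9 r921 .e)))
noncomputable def q1308 : Tr := .c 0 v303 (.c 2 v70 (.c 6 v147 .e))
noncomputable def q1309 : Tr := .c 0 v84 (.c 2 v72 (.c 3 v84 (.c 4 v72 (.c 6 v84 .e))))
noncomputable def r922 : Tr := .c 3 q1091 (.c 5 q1308 (.c 6 q1033 (.c 9 q1309 .e)))
noncomputable def r923 : Tr := .c 0 q97 (.c 1 q255 (.c 6 q1239 (.c 7 q1232 (.c 8 q1233 .e))))
noncomputable def r924 : Tr := .c 0 q100 (.c 3 q1091 (.c 5 q1308 (.c 6 q1033 .e)))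
noncomputable def r925 : Tr := .c 0 q100 (.c 1 q262 (.c 3 q1091 (.c 6 q1033 (.c 7 q1093 .e))))
noncomputable def t256 : Tr := .c 1 r922 (.c 2 r864 (.c 4 r866 (.c 5 r923 (.c 8 r924 (.c 9 r925 .e)))))
noncomputable def r926 : Tr := .c 5 q1231 (.c 7 q1232 (.c 8 q1233 (.c 9 q1234 .e)))
noncomputable def r927 : Tr := .c 1 q255 (.c 7 q1232 (.c 8 q1233 (.c 9 q1234 .e)))
noncomputable def t257 : Tr := .c 0 r926 (.c 2 r864 (.c 3 r927 (.c 4 r866 (.c 5 r923 (.c 9 r925 .e)))))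
noncomputable def r928 : Tr := .c 5 q1241 (.c 7 q1242 (.c 8 q1243 (.c 9 q1244 .e)))
noncomputable def r929 : Tr := .c 1 q267 (.c 7 q1242 (.c 8 q1243 (.c 9 q1244 .e)))
noncomputable def r930 : Tr := .c 0 q64 (.c 1 q267 (.c 6 q1249 (.c 7 q1242 (.c 8 q1243 .e))))
noncomputable def t258 : Tr := .c 0 r928 (.c 2 r870 (.c 3 r929 (.c 4 r872 (.c 5 r930 .e))))
noncomputable def r931 : Tr := .c 1 q230 (.c 2 q378 (.c 7 q1242 .e))
noncomputable def r932 : Tr := .c 0 q58 (.c 1 q234 (.c 6 q1247 (.c 7 q1248 .e)))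
noncomputable def r933 : Tr := .c 0 q64 (.c 1 q230 (.c 2 q378 (.c 6 q1249 (.c 7 q1242 .e))))
noncomputable def t259 : Tr := .c 3 r931 (.c 4 r932 (.c 5 r933 (.c 9 r904 .e)))
noncomputable def r934 : Tr := .c 1 q235 (.c 2 q243 (.c 7 q1291 .e))
noncomputable def r935 : Tr := .c 0 q77 (.c 1 q235 (.c 2 q243 (.c 6 q1292 (.c 7 q1291 .e))))
noncomputable def t260 : Tr := .c 3 r934 (.c 5 r935 (.c 8 r907 (.c 9 r908 .e)))
noncomputable def q1310 : Tr := .c 0 v148 (.c 2 v145 (.c 3 v148 (.c 4 v145 .e)))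
noncomputable def r936 : Tr := .c 4 q1293 (.c 5 q1294 (.c 7 q1310 .e))
noncomputable def r937 : Tr := .c 3 q611 (.c 4 q1293 (.c 5 q1294 (.c 6 q1295 .e)))
noncomputable def t261 : Tr := .c 0 r936 (.c 1 r937 (.c 8 r907 (.c 9 r908 .e)))
noncomputable def v341 : Tr := .l 0x1851861861461c61871c7187
noncomputable def q1311 : Tr := .c 0 v341 (.c 6 v149 .e)
noncomputable def v342 : Tr := .l 0x186146145105185186186146
noncomputable def q1312 : Tr := .c 0 v342 (.c 6 v150 .e)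
noncomputable def q1313 : Tr := .c 0 v58 (.c 3 v58 (.c 5 v58 .e))
noncomputable def r938 : Tr := .c 4 q1311 (.c 5 q1312 (.c 7 q1313 .e))
noncomputable def q1314 : Tr := .c 5 v152 .e
noncomputable def r939 : Tr := .c 4 q1311 (.c 5 q1312 (.c 6 q1314 .e))
noncomputable def v343 : Tr := .l 0x185186144145186146185186
noncomputable def q1315 : Tr := .c 0 v343 (.c 6 v153 .e)
noncomputable def q1316 : Tr := .c 5 v154 .e
noncomputable def q1317 : Tr := .c 0 v154 (.c 3 v154 (.c 5 v154 .e))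
noncomputable def r940 : Tr := .c 5 q1315 (.c 6 q1316 (.c 7 q1317 .e))
noncomputable def q1318 : Tr := .c 5 v155 .e
noncomputable def q1319 : Tr := .c 3 v149 (.c 5 v149 (.c 6 v149 .e))
noncomputable def r941 : Tr := .c 0 q1318 (.c 2 q1319 (.c 4 q1311 (.c 5 q1312 (.c 6 q1314 .e))))
noncomputable def t262 : Tr := .c 0 r938 (.c 1 r939 (.c 2 r940 (.c 8 r941 .e)))
noncomputable def r942 : Tr := .c 4 q1114 (.c 5 q1241 (.c 7 q1242 .e))
noncomputable def r943 : Tr := .c 3 q1245 (.c 5 q1246 (.c 6 q1247 (.c 7 q1248 .e)))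
noncomputable def r944 : Tr := .c 1 q267 (.c 2 q283 (.c 7 q1242 .e))
noncomputable def r945 : Tr := .c 0 q58 (.c 1 q270 (.c 6 q1247 (.c 7 q1248 .e)))
noncomputable def r946 : Tr := .c 0 q64 (.c 1 q267 (.c 2 q283 (.c 6 q1249 (.c 7 q1242 .e))))
noncomputable def t263 : Tr := .c 0 r942 (.c 2 r943 (.c 3 r944 (.c 4 r945 (.c 5 r946 .e))))
noncomputable def r947 : Tr := .c 4 q1114 (.c 5 q1250 (.c 7 q1251 .e))
noncomputable def r948 : Tr := .c 4 q1114 (.c 5 q1250 (.c 6 q1254 .e))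
noncomputable def r949 : Tr := .c 5 q1255 (.c 6 q1256 (.c 7 q1257 .e))
noncomputable def r950 : Tr := .c 1 q277 (.c 2 q283 (.c 7 q1251 .e))
noncomputable def r951 : Tr := .c 0 q1258 (.c 1 q283 (.c 6 q1256 (.c 7 q1257 .e)))
noncomputable def t264 : Tr := .c 0 r947 (.c 1 r948 (.c 2 r949 (.c 3 r950 (.c 4 r951 .e))))
noncomputable def q1320 : Tr := .c 0 v311 (.c 1 v311 (.c 6 v312 (.c 7 v312 .e)))
noncomputable def q1321 : Tr := .c 0 v313 (.c 1 v313 (.c 2 v314 (.c 6 v315 (.c 7 v315 .e))))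
noncomputable def q1322 : Tr := .c 0 v295 (.c 1 v295 (.c 2 v316 (.c 3 v295 (.c 4 v316 (.c 6 v295 (.c 7 v295 .e))))))
noncomputable def r952 : Tr := .c 4 q1320 (.c 5 q1321 (.c 7 q1210 (.c 8 q1211 (.c 9 q1322 .e))))
noncomputable def q1323 : Tr := .c 1 v313 (.c 2 v314 (.c 7 v315 .e))
noncomputable def q1324 : Tr := .c 1 v313 (.c 2 v314 (.c 4 v314 .e))
noncomputable def r953 : Tr := .c 3 q1323 (.c 4 q1320 (.c 5 q1321 (.c 6 q1324 (.c 9 q1322 .e))))
noncomputable def q1325 : Tr := .c 4 v185 (.c 7 v315 .e)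
noncomputable def q1326 : Tr := .c 3 v312 (.c 6 v312 (.c 7 v312 .e))
noncomputable def r954 : Tr := .c 0 q1325 (.c 2 q1326 (.c 3 q1323 (.c 4 q1320 (.c 5 q1321 (.c 6 q1324 .e)))))
noncomputable def r955 : Tr := .c 0 q1325 (.c 1 q1215 (.c 2 q1326 (.c 3 q1323 (.c 4 q1320 (.c 6 q1324 (.c 7 q1216 .e))))))
noncomputable def t265 : Tr := .c 0 r952 (.c 1 r953 (.c 8 r954 (.c 9 r955 .e)))
noncomputable def q1327 : Tr := .c 0 v317 (.c 1 v317 (.c 6 v318 (.c 7 v318 .e)))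
noncomputable def q1328 : Tr := .c 0 v319 (.c 1 v319 (.c 6 v320 (.c 7 v320 .e)))
noncomputable def q1329 : Tr := .c 0 v321 (.c 3 v321 .e)
noncomputable def q1330 : Tr := .c 0 v322 (.c 1 v322 (.c 3 v322 (.c 6 v322 (.c 7 v322 .e))))
noncomputable def r956 : Tr := .c 4 q1327 (.c 5 q1328 (.c 7 q1329 (.c 8 q1221 (.c 9 q1330 .e))))
noncomputable def q1331 : Tr := .c 1 v319 (.c 7 v320 .e)
noncomputable def q1332 : Tr := .c 1 v319 .e
noncomputable def r957 : Tr := .c 3 q1331 (.c 4 q1327 (.c 5 q1328 (.c 6 q1332 (.c 9 q1330 .e))))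
noncomputable def q1333 : Tr := .c 7 v320 .e
noncomputable def q1334 : Tr := .c 3 v318 (.c 6 v318 (.c 7 v318 .e))
noncomputable def r958 : Tr := .c 0 q1333 (.c 2 q1334 (.c 3 q1331 (.c 4 q1327 (.c 5 q1328 (.c 6 q1332 .e)))))
noncomputable def t266 : Tr := .c 0 r956 (.c 1 r957 (.c 8 r958 .e))
noncomputable def q1335 : Tr := .c 0 v70 (.c 1 v70 (.c 6 v143 (.c 7 v143 .e)))
noncomputable def q1336 : Tr := .c 0 v328 (.c 1 v328 (.c 2 v329 (.c 6 v84 (.c 7 v84 .e))))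
noncomputable def q1337 : Tr := .c 0 v83 (.c 2 v82 (.c 3 v83 (.c 4 v82 .e)))
noncomputable def q1338 : Tr := .c 0 v81 (.c 1 v81 (.c 2 v80 (.c 3 v81 (.c 4 v80 (.c 6 v81 (.c 7 v81 .e))))))
noncomputable def r959 : Tr := .c 4 q1335 (.c 5 q1336 (.c 7 q1337 (.c 8 q1234 (.c 9 q1338 .e))))
noncomputable def r960 : Tr := .c 1 q256 (.c 2 q398 (.c 7 q1337 (.c 8 q1234 (.c 9 q1338 .e))))
noncomputable def q1339 : Tr := .c 1 v75 (.c 2 v82 (.c 4 v82 .e))
noncomputable def r961 : Tr := .c 0 q102 (.c 1 q256 (.c 2 q398 (.c 6 q1339 (.c 7 q1337 (.c 8 q1234 .e)))))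
noncomputable def q1340 : Tr := .c 4 v72 (.c 7 v147 .e)
noncomputable def q1341 : Tr := .c 1 v285 (.c 2 v70 (.c 7 v147 .e))
noncomputable def q1342 : Tr := .c 0 v147 (.c 1 v147 (.c 6 v79 (.c 7 v79 .e)))
noncomputable def q1343 : Tr := .c 1 v285 (.c 2 v70 (.c 4 v70 .e))
noncomputable def r962 : Tr := .c 0 q1340 (.c 1 q337 (.c 2 q430 (.c 3 q1341 (.c 4 q1342 (.c 6 q1343 (.c 7 q1057 .e))))))
noncomputable def t267 : Tr := .c 0 r959 (.c 3 r960 (.c 5 r961 (.c 9 r962 .e)))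
noncomputable def q1344 : Tr := .c 0 v304 (.c 1 v304 .e)
noncomputable def q1345 : Tr := .c 0 v331 (.c 1 v331 (.c 2 v332 .e))
noncomputable def q1346 : Tr := .c 0 v57 (.c 2 v56 (.c 3 v57 (.c 4 v56 .e)))
noncomputable def q1347 : Tr := .c 0 v54 (.c 1 v54 (.c 2 v53 (.c 3 v54 (.c 4 v53 .e))))
noncomputable def r963 : Tr := .c 4 q1344 (.c 5 q1345 (.c 7 q1346 (.c 8 q1244 (.c 9 q1347 .e))))
noncomputable def r964 : Tr := .c 1 q268 (.c 2 q284 (.c 7 q1346 (.c 8 q1244 (.c 9 q1347 .e))))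
noncomputable def q1348 : Tr := .c 1 v50 (.c 2 v56 (.c 4 v56 .e))
noncomputable def r965 : Tr := .c 0 q104 (.c 1 q268 (.c 2 q284 (.c 6 q1348 (.c 7 q1346 (.c 8 q1244 .e)))))
noncomputable def t268 : Tr := .c 0 r963 (.c 3 r964 (.c 5 r965 .e))
noncomputable def q1349 : Tr := .c 0 v331 (.c 1 v331 .e)
noncomputable def q1350 : Tr := .c 0 v57 (.c 3 v57 .e)
noncomputable def q1351 : Tr := .c 0 v54 (.c 1 v54 (.c 3 v54 .e))
noncomputable def r966 : Tr := .c 4 q1344 (.c 5 q1349 (.c 7 q1350 (.c 8 q1253 (.c 9 q1351 .e))))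
noncomputable def q1352 : Tr := .c 1 v331 .e
noncomputable def r967 : Tr := .c 3 q1352 (.c 4 q1344 (.c 5 q1349 (.c 6 q1352 (.c 9 q1351 .e))))
noncomputable def r968 : Tr := .c 1 q278 (.c 2 q284 (.c 7 q1350 (.c 8 q1253 (.c 9 q1351 .e))))
noncomputable def t269 : Tr := .c 0 r966 (.c 1 r967 (.c 3 r968 .e))
noncomputable def v344 : Tr := .l 0x144185185146103144144185
noncomputable def q1353 : Tr := .c 1 v319 (.c 2 v344 (.c 7 v320 .e))
noncomputable def q1354 : Tr := .c 0 v319 (.c 1 v319 (.c 2 v344 (.c 6 v320 (.c 7 v320 .e))))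
noncomputable def q1355 : Tr := .c 1 v319 (.c 2 v344 (.c 4 v344 .e))
noncomputable def v345 : Tr := .l 0x1461051050c4145105146105
noncomputable def q1356 : Tr := .c 0 v322 (.c 1 v322 (.c 2 v345 (.c 3 v322 (.c 4 v345 (.c 6 v322 (.c 7 v322 .e))))))
noncomputable def r969 : Tr := .c 3 q1353 (.c 4 q1327 (.c 5 q1354 (.c 6 q1355 (.c 9 q1356 .e))))
noncomputable def q1357 : Tr := .c 4 v36 (.c 7 v320 .e)
noncomputable def r970 : Tr := .c 0 q1357 (.c 2 q1334 (.c 3 q1353 (.c 4 q1327 (.c 5 q1354 (.c 6 q1355 .e)))))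
noncomputable def q1358 : Tr := .c 3 v44 (.c 4 v36 (.c 6 v44 .e))
noncomputable def q1359 : Tr := .c 0 v274 (.c 2 v344 (.c 3 v274 (.c 4 v344 .e)))
noncomputable def r971 : Tr := .c 0 q1357 (.c 1 q1358 (.c 2 q1334 (.c 3 q1353 (.c 4 q1327 (.c 6 q1355 (.c 7 q1359 .e))))))
noncomputable def t270 : Tr := .c 1 r969 (.c 8 r970 (.c 9 r971 .e))
noncomputable def q1360 : Tr := .c 4 v34 (.c 7 v44 .e)
noncomputable def q1361 : Tr := .c 3 v35 (.c 4 v34 (.c 6 v35 .e))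
noncomputable def q1362 : Tr := .c 3 v43 (.c 6 v43 (.c 7 v43 .e))
noncomputable def q1363 : Tr := .c 1 v29 (.c 2 v32 (.c 4 v32 .e))
noncomputable def q1364 : Tr := .c 0 v33 (.c 2 v32 (.c 3 v33 (.c 4 v32 .e)))
noncomputable def q1365 : Tr := .c 0 v35 (.c 2 v34 (.c 3 v35 (.c 4 v34 (.c 6 v35 .e))))
noncomputable def r972 : Tr := .c 0 q1360 (.c 1 q1361 (.c 2 q1362 (.c 6 q1363 (.c 7 q1364 (.c 8 q1365 .e)))))
noncomputable def t271 : Tr := .c 1 r969 (.c 5 r972 (.c 8 r970 (.c 9 r971 .e)))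
noncomputable def v346 : Tr := .l 0x185146186146144105185146
noncomputable def q1366 : Tr := .c 1 v344 (.c 2 v29 (.c 7 v346 .e))
noncomputable def q1367 : Tr := .c 0 v334 (.c 1 v334 (.c 6 v44 (.c 7 v44 .e)))
noncomputable def q1368 : Tr := .c 1 v344 (.c 2 v29 (.c 4 v29 .e))
noncomputable def r973 : Tr := .c 3 q1366 (.c 4 q1367 (.c 6 q1368 .e))
noncomputable def q1369 : Tr := .c 4 v42 (.c 7 v346 .e)
noncomputable def q1370 : Tr := .c 3 v44 (.c 6 v44 (.c 7 v44 .e))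
noncomputable def r974 : Tr := .c 0 q1369 (.c 2 q1370 (.c 3 q1366 (.c 4 q1367 (.c 6 q1368 .e))))
noncomputable def q1371 : Tr := .c 3 v43 (.c 4 v42 (.c 6 v43 .e))
noncomputable def r975 : Tr := .c 0 q1369 (.c 1 q1371 (.c 2 q1370 (.c 3 q1366 (.c 4 q1367 (.c 6 q1368 (.c 7 q1210 .e))))))
noncomputable def t272 : Tr := .c 1 r973 (.c 8 r974 (.c 9 r975 .e))
noncomputable def q1372 : Tr := .c 0 v335 (.c 3 v335 .e)
noncomputable def q1373 : Tr := .c 0 v336 (.c 3 v336 (.c 6 v336 .e))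
noncomputable def r976 : Tr := .c 4 q1367 (.c 7 q1372 (.c 8 q1373 .e))
noncomputable def q1374 : Tr := .c 1 v344 (.c 7 v346 .e)
noncomputable def q1375 : Tr := .c 1 v344 .e
noncomputable def r977 : Tr := .c 3 q1374 (.c 4 q1367 (.c 6 q1375 .e))
noncomputable def q1376 : Tr := .c 7 v346 .e
noncomputable def r978 : Tr := .c 0 q1376 (.c 2 q1370 (.c 3 q1374 (.c 4 q1367 (.c 6 q1375 .e))))
noncomputable def t273 : Tr := .c 0 r976 (.c 1 r977 (.c 8 r978 .e))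
noncomputable def q1377 : Tr := .c 4 v37 (.c 7 v43 .e)
noncomputable def q1378 : Tr := .c 3 v38 (.c 4 v37 (.c 6 v38 .e))
noncomputable def q1379 : Tr := .c 3 v35 (.c 6 v35 (.c 7 v35 .e))
noncomputable def q1380 : Tr := .c 1 v32 (.c 2 v40 (.c 4 v40 .e))
noncomputable def q1381 : Tr := .c 0 v41 (.c 2 v40 (.c 3 v41 (.c 4 v40 .e)))
noncomputable def q1382 : Tr := .c 0 v38 (.c 2 v37 (.c 3 v38 (.c 4 v37 (.c 6 v38 .e))))
noncomputable def r979 : Tr := .c 0 q1377 (.c 1 q1378 (.c 2 q1379 (.c 6 q1380 (.c 7 q1381 (.c 8 q1382 .e)))))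
noncomputable def t274 : Tr := .c 1 r973 (.c 5 r979 (.c 8 r974 (.c 9 r975 .e)))
noncomputable def q1383 : Tr := .c 0 v29 (.c 1 v29 (.c 6 v145 (.c 7 v145 .e)))
noncomputable def r980 : Tr := .c 4 q1383 (.c 7 q1381 (.c 8 q1382 .e))
noncomputable def r981 : Tr := .c 1 q1378 (.c 2 q1379 (.c 7 q1381 (.c 8 q1382 .e)))
noncomputable def t275 : Tr := .c 0 r980 (.c 3 r981 (.c 5 r979 (.c 9 r975 .e)))
noncomputable def q1384 : Tr := .c 0 v337 (.c 1 v337 .e)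
noncomputable def q1385 : Tr := .c 0 v13 (.c 2 v12 (.c 3 v13 (.c 4 v12 .e)))
noncomputable def q1386 : Tr := .c 0 v8 (.c 2 v7 (.c 3 v8 (.c 4 v7 .e)))
noncomputable def r982 : Tr := .c 4 q1384 (.c 7 q1385 (.c 8 q1386 .e))
noncomputable def q1387 : Tr := .c 3 v8 (.c 4 v7 .e)
noncomputable def q1388 : Tr := .c 3 v1 .e
noncomputable def r983 : Tr := .c 1 q1387 (.c 2 q1388 (.c 7 q1385 (.c 8 q1386 .e)))
noncomputable def q1389 : Tr := .c 4 v7 .e
noncomputable def q1390 : Tr := .c 1 v4 (.c 2 v12 (.c 4 v12 .e))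
noncomputable def r984 : Tr := .c 0 q1389 (.c 1 q1387 (.c 2 q1388 (.c 6 q1390 (.c 7 q1385 (.c 8 q1386 .e)))))
noncomputable def t276 : Tr := .c 0 r982 (.c 3 r983 (.c 5 r984 .e))
noncomputable def q1391 : Tr := .c 0 v13 (.c 3 v13 .e)
noncomputable def q1392 : Tr := .c 0 v8 (.c 3 v8 .e)
noncomputable def r985 : Tr := .c 4 q1384 (.c 7 q1391 (.c 8 q1392 .e))
noncomputable def v347 : Tr := .l 0x1451051040c4185146145105
noncomputable def q1393 : Tr := .c 1 v347 .e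
noncomputable def r986 : Tr := .c 3 q1393 (.c 4 q1384 (.c 6 q1393 .e))
noncomputable def q1394 : Tr := .c 3 v8 .e
noncomputable def r987 : Tr := .c 1 q1394 (.c 2 q1388 (.c 7 q1391 (.c 8 q1392 .e)))
noncomputable def t277 : Tr := .c 0 r985 (.c 1 r986 (.c 3 r987 .e))
noncomputable def q1395 : Tr := .c 0 v54 (.c 1 v54 (.c 2 v53 (.c 3 v54 (.c 4 v53 (.c 6 v54 (.c 7 v54 .e))))))
noncomputable def r988 : Tr := .c 1 q231 (.c 2 q379 (.c 7 q1346 (.c 8 q1284 (.c 9 q1395 .e))))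
noncomputable def r989 : Tr := .c 0 q75 (.c 1 q231 (.c 2 q379 (.c 6 q1348 (.c 7 q1346 (.c 8 q1284 .e)))))
noncomputable def q1396 : Tr := .c 4 v60 (.c 7 v281 .e)
noncomputable def q1397 : Tr := .c 1 v68 (.c 2 v63 (.c 7 v281 .e))
noncomputable def q1398 : Tr := .c 0 v281 (.c 1 v281 (.c 6 v49 (.c 7 v49 .e)))
noncomputable def q1399 : Tr := .c 1 v68 (.c 2 v63 (.c 4 v63 .e))
noncomputable def r990 : Tr := .c 0 q1396 (.c 1 q334 (.c 2 q424 (.c 3 q1397 (.c 4 q1398 (.c 6 q1399 (.c 7 q1169 .e))))))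
noncomputable def t278 : Tr := .c 3 r988 (.c 5 r989 (.c 9 r990 .e))
noncomputable def q1400 : Tr := .c 0 v48 (.c 1 v48 (.c 2 v47 (.c 3 v48 (.c 4 v47 (.c 6 v48 (.c 7 v48 .e))))))
noncomputable def r991 : Tr := .c 1 q235 (.c 2 q383 (.c 7 q1291 (.c 8 q1286 (.c 9 q1400 .e))))
noncomputable def q1401 : Tr := .c 1 v63 (.c 2 v50 (.c 4 v50 .e))
noncomputable def r992 : Tr := .c 0 q59 (.c 1 q235 (.c 2 q383 (.c 6 q1401 (.c 7 q1291 (.c 8 q1286 .e)))))
noncomputable def q1402 : Tr := .c 4 v66 (.c 7 v142 .e)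
noncomputable def q1403 : Tr := .c 3 v141 (.c 6 v141 (.c 7 v141 .e))
noncomputable def q1404 : Tr := .c 1 v339 (.c 2 v68 (.c 7 v142 .e))
noncomputable def q1405 : Tr := .c 0 v338 (.c 1 v338 (.c 6 v141 (.c 7 v141 .e)))
noncomputable def q1406 : Tr := .c 0 v339 (.c 1 v339 (.c 2 v68 (.c 6 v142 (.c 7 v142 .e))))
noncomputable def q1407 : Tr := .c 1 v339 (.c 2 v68 (.c 4 v68 .e))
noncomputable def r993 : Tr := .c 0 q1402 (.c 2 q1403 (.c 3 q1404 (.c 4 q1405 (.c 5 q1406 (.c 6 q1407 .e)))))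
noncomputable def r994 : Tr := .c 0 q1402 (.c 1 q250 (.c 2 q1403 (.c 3 q1404 (.c 4 q1405 (.c 6 q1407 (.c 7 q1296 .e))))))
noncomputable def t279 : Tr := .c 3 r991 (.c 5 r992 (.c 8 r993 (.c 9 r994 .e)))
noncomputable def q1408 : Tr := .c 4 v7 (.c 7 v10 .e)
noncomputable def q1409 : Tr := .c 3 v8 (.c 4 v7 (.c 6 v8 .e))
noncomputable def q1410 : Tr := .c 3 v1 (.c 6 v1 (.c 7 v1 .e))
noncomputable def q1411 : Tr := .c 0 v8 (.c 2 v7 (.c 3 v8 (.c 4 v7 (.c 6 v8 .e))))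
noncomputable def r995 : Tr := .c 0 q1408 (.c 1 q1409 (.c 2 q1410 (.c 6 q1390 (.c 7 q1385 (.c 8 q1411 .e)))))
noncomputable def q1412 : Tr := .c 4 v21 (.c 7 v193 .e)
noncomputable def q1413 : Tr := .c 3 v3 (.c 6 v3 (.c 7 v3 .e))
noncomputable def q1414 : Tr := .c 1 v87 (.c 2 v26 (.c 7 v193 .e))
noncomputable def q1415 : Tr := .c 0 v193 (.c 1 v193 (.c 6 v3 (.c 7 v3 .e)))
noncomputable def q1416 : Tr := .c 1 v87 (.c 2 v26 (.c 4 v26 .e))
noncomputable def r996 : Tr := .c 0 q1412 (.c 2 q1413 (.c 3 q1414 (.c 4 q1415 (.c 6 q1416 .e))))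
noncomputable def q1417 : Tr := .c 3 v10 (.c 4 v21 (.c 6 v10 .e))
noncomputable def q1418 : Tr := .c 0 v14 (.c 2 v26 (.c 3 v14 (.c 4 v26 .e)))
noncomputable def r997 : Tr := .c 0 q1412 (.c 1 q1417 (.c 2 q1413 (.c 3 q1414 (.c 4 q1415 (.c 6 q1416 (.c 7 q1418 .e))))))
noncomputable def t280 : Tr := .c 5 r995 (.c 8 r996 (.c 9 r997 .e))
noncomputable def r998 : Tr := .c 1 q1409 (.c 2 q1410 (.c 7 q1385 (.c 8 q1411 .e)))
noncomputable def t281 : Tr := .c 3 r998 (.c 5 r995 (.c 9 r997 .e))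
noncomputable def r999 : Tr := .c 1 q231 (.c 2 q379 (.c 7 q1346 .e))
noncomputable def r1000 : Tr := .c 0 q75 (.c 1 q231 (.c 2 q379 (.c 6 q1348 (.c 7 q1346 .e))))
noncomputable def t282 : Tr := .c 3 r999 (.c 5 r1000 (.c 9 r990 .e))
noncomputable def r1001 : Tr := .c 1 q235 (.c 2 q383 (.c 7 q1291 .e))
noncomputable def r1002 : Tr := .c 0 q59 (.c 1 q235 (.c 2 q383 (.c 6 q1401 (.c 7 q1291 .e))))
noncomputable def t283 : Tr := .c 3 r1001 (.c 5 r1002 (.c 8 r993 (.c 9 r994 .e)))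
noncomputable def r1003 : Tr := .c 4 q1405 (.c 5 q1406 (.c 7 q1310 .e))
noncomputable def r1004 : Tr := .c 3 q1404 (.c 4 q1405 (.c 5 q1406 (.c 6 q1407 .e)))
noncomputable def t284 : Tr := .c 0 r1003 (.c 1 r1004 (.c 8 r993 (.c 9 r994 .e)))
noncomputable def q1419 : Tr := .c 0 v341 (.c 1 v341 (.c 6 v149 (.c 7 v149 .e)))
noncomputable def q1420 : Tr := .c 0 v342 (.c 1 v342 (.c 6 v150 (.c 7 v150 .e)))
noncomputable def q1421 : Tr := .c 0 v58 (.c 3 v58 .e)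
noncomputable def r1005 : Tr := .c 4 q1419 (.c 5 q1420 (.c 7 q1421 .e))
noncomputable def q1422 : Tr := .c 1 v342 (.c 7 v150 .e)
noncomputable def q1423 : Tr := .c 1 v342 .e
noncomputable def r1006 : Tr := .c 3 q1422 (.c 4 q1419 (.c 5 q1420 (.c 6 q1423 .e)))
noncomputable def q1424 : Tr := .c 7 v150 .e
noncomputable def q1425 : Tr := .c 3 v149 (.c 6 v149 (.c 7 v149 .e))
noncomputable def r1007 : Tr := .c 0 q1424 (.c 2 q1425 (.c 3 q1422 (.c 4 q1419 (.c 5 q1420 (.c 6 q1423 .e)))))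
noncomputable def t285 : Tr := .c 0 r1005 (.c 1 r1006 (.c 8 r1007 .e))
noncomputable def r1008 : Tr := .c 4 q1344 (.c 5 q1345 (.c 7 q1346 .e))
noncomputable def r1009 : Tr := .c 1 q268 (.c 2 q284 (.c 7 q1346 .e))
noncomputable def r1010 : Tr := .c 0 q104 (.c 1 q268 (.c 2 q284 (.c 6 q1348 (.c 7 q1346 .e))))
noncomputable def t286 : Tr := .c 0 r1008 (.c 3 r1009 (.c 5 r1010 .e))
noncomputable def r1011 : Tr := .c 4 q1344 (.c 5 q1349 (.c 7 q1350 .e))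
noncomputable def r1012 : Tr := .c 3 q1352 (.c 4 q1344 (.c 5 q1349 (.c 6 q1352 .e)))
noncomputable def r1013 : Tr := .c 1 q278 (.c 2 q284 (.c 7 q1350 .e))
noncomputable def t287 : Tr := .c 0 r1011 (.c 1 r1012 (.c 3 r1013 .e))
noncomputable def r1014 : Tr := .c 0 q68 (.c 1 q334 (.c 2 q424 (.c 6 q1399 (.c 7 q1169 .e))))
noncomputable def q1426 : Tr := .c 4 v185 (.c 7 v150 .e)
noncomputable def v348 : Tr := .l 0x185186144145144185185186
noncomputable def q1427 : Tr := .c 1 v342 (.c 2 v348 (.c 7 v150 .e))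
noncomputable def q1428 : Tr := .c 0 v342 (.c 1 v342 (.c 2 v348 (.c 6 v150 (.c 7 v150 .e))))
noncomputable def q1429 : Tr := .c 1 v342 (.c 2 v348 (.c 4 v348 .e))
noncomputable def r1015 : Tr := .c 0 q1426 (.c 2 q1425 (.c 3 q1427 (.c 4 q1419 (.c 5 q1428 (.c 6 q1429 .e)))))
noncomputable def q1430 : Tr := .c 0 v152 (.c 2 v348 (.c 3 v152 (.c 4 v348 .e)))
noncomputable def r1016 : Tr := .c 0 q1426 (.c 1 q1215 (.c 2 q1425 (.c 3 q1427 (.c 4 q1419 (.c 6 q1429 (.c 7 q1430 .e))))))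
noncomputable def t288 : Tr := .c 5 r1014 (.c 8 r1015 (.c 9 r1016 .e))
noncomputable def r1017 : Tr := .c 3 q1427 (.c 4 q1419 (.c 5 q1428 (.c 6 q1429 .e)))
noncomputable def t289 : Tr := .c 1 r1017 (.c 8 r1015 (.c 9 r1016 .e))

/-- the diagram -/
noncomputable def T : Tr := (.c 0 (.c 4 (.c 0 t0 (.c 1 t1 (.c 6 t2 (.c 7 t3 (.c 8 t4 (.c 9 t5 .e)))))) (.c 5 (.c 0 t6 (.c 1
t7 (.c 2 t8 (.c 6 t9 (.c 7 t10 (.c 8 t11 .e)))))) (.c 7 (.c 0 t12 (.c 2 t13 (.c 3 t14 (.c 4 t15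
(.c 5 t16 (.c 9 t17 .e)))))) (.c 8 (.c 0 t18 (.c 2 t19 (.c 3 t20 (.c 4 t21 (.c 5 t22 (.c 6 t23
.e)))))) (.c 9 (.c 0 t24 (.c 1 t25 (.c 2 t26 (.c 3 t27 (.c 4 t28 (.c 6 t29 (.c 7 t30 .e)))))))
.e))))) (.c 1 (.c 3 (.c 1 t31 (.c 2 t32 (.c 7 t33 (.c 8 t34 (.c 9 t35 .e))))) (.c 4 (.c 0 t36
(.c 1 t37 (.c 6 t38 (.c 7 t39 (.c 8 t40 (.c 9 t41 .e)))))) (.c 5 (.c 0 t42 (.c 1 t43 (.c 2 t44
(.c 6 t45 (.c 7 t46 (.c 8 t47 .e)))))) (.c 6 (.c 1 t48 (.c 2 t49 (.c 4 t50 (.c 5 t51 (.c 8 t52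
(.c 9 t53 .e)))))) (.c 9 (.c 0 t54 (.c 1 t55 (.c 2 t56 (.c 3 t57 (.c 4 t58 (.c 6 t59 (.c 7 t60
.e))))))) .e))))) (.c 2 (.c 3 (.c 1 t61 (.c 2 t62 (.c 7 t63 (.c 8 t64 (.c 9 t65 .e))))) (.c 5
(.c 0 t66 (.c 1 t67 (.c 2 t68 (.c 6 t69 (.c 7 t70 (.c 8 t71 .e)))))) (.c 6 (.c 1 t72 (.c 2 t73
(.c 4 t74 (.c 5 t75 (.c 8 t76 (.c 9 t77 .e)))))) (.c 7 (.c 0 t78 (.c 2 t73 (.c 3 t79 (.c 4 t74
(.c 5 t75 (.c 9 t77 .e)))))) (.c 8 (.c 0 t80 (.c 2 t81 (.c 3 t82 (.c 4 t83 (.c 5 t84 (.c 6 t85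
.e)))))) (.c 9 (.c 0 t86 (.c 1 t87 (.c 2 t88 (.c 3 t89 (.c 4 t90 (.c 6 t91 (.c 7 t92 .e)))))))
.e)))))) (.c 3 (.c 1 (.c 3 t93 (.c 4 t94 (.c 5 t95 (.c 6 t96 (.c 9 t97 .e))))) (.c 2 (.c 3 t98
(.c 5 t99 (.c 6 t100 (.c 7 t101 (.c 8 t102 (.c 9 t103 .e)))))) (.c 7 (.c 0 t104 (.c 2 t105 (.c
3 t106 (.c 4 t107 (.c 5 t108 (.c 9 t109 .e)))))) (.c 8 (.c 0 t110 (.c 2 t111 (.c 3 t112 (.c 4
t113 (.c 5 t114 (.c 6 t115 .e)))))) (.c 9 (.c 0 t116 (.c 1 t117 (.c 2 t118 (.c 3 t119 (.c 4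
t120 (.c 6 t121 (.c 7 t122 .e))))))) .e))))) (.c 4 (.c 0 (.c 4 t123 (.c 5 t124 (.c 7 t125 (.c 8
t126 (.c 9 t127 .e))))) (.c 1 (.c 3 t128 (.c 4 t123 (.c 5 t124 (.c 6 t129 (.c 9 t127 .e)))))
(.c 6 (.c 1 t130 (.c 2 t131 (.c 4 t132 (.c 5 t133 (.c 8 t134 (.c 9 t135 .e)))))) (.c 7 (.c 0
t136 (.c 2 t131 (.c 3 t137 (.c 4 t132 (.c 5 t133 (.c 9 t135 .e)))))) (.c 8 (.c 0 t138 (.c 2
t139 (.c 3 t140 (.c 4 t141 (.c 5 t142 (.c 6 t143 .e)))))) (.c 9 (.c 0 t144 (.c 1 t145 (.c 2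
t146 (.c 3 t147 (.c 4 t148 (.c 6 t149 (.c 7 t150 .e))))))) .e)))))) (.c 5 (.c 0 (.c 4 t151 (.c
5 t152 (.c 7 t153 (.c 8 t154 (.c 9 t155 .e))))) (.c 1 (.c 3 t156 (.c 4 t151 (.c 5 t152 (.c 6
t157 (.c 9 t155 .e))))) (.c 2 (.c 3 t158 (.c 5 t159 (.c 6 t160 (.c 7 t161 (.c 8 t162 (.c 9 t163
.e)))))) (.c 6 (.c 1 t164 (.c 2 t165 (.c 4 t166 (.c 5 t167 (.c 8 t168 (.c 9 t169 .e)))))) (.c 7
(.c 0 t170 (.c 2 t165 (.c 3 t171 (.c 4 t166 (.c 5 t167 (.c 9 t169 .e)))))) (.c 8 (.c 0 t172 (.c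
2 t173 (.c 3 t174 (.c 4 t175 (.c 5 t176 (.c 6 t177 .e)))))) .e)))))) (.c 6 (.c 1 (.c 3 t178 (.c
4 t179 (.c 5 t180 (.c 6 t181 (.c 9 t182 .e))))) (.c 2 (.c 3 t183 (.c 5 t184 (.c 6 t185 (.c 7
t186 (.c 8 t187 (.c 9 t188 .e)))))) (.c 4 (.c 0 t189 (.c 1 t190 (.c 6 t185 (.c 7 t186 (.c 8
t187 (.c 9 t188 .e)))))) (.c 5 (.c 0 t191 (.c 1 t192 (.c 2 t193 (.c 6 t194 (.c 7 t195 (.c 8
t196 .e)))))) (.c 8 (.c 0 t197 (.c 2 t198 (.c 3 t199 (.c 4 t200 (.c 5 t201 (.c 6 t202 .e))))))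
(.c 9 (.c 0 t203 (.c 1 t204 (.c 2 t205 (.c 3 t206 (.c 4 t207 (.c 6 t208 (.c 7 t209 .e)))))))
.e)))))) (.c 7 (.c 0 (.c 4 t210 (.c 5 t211 (.c 7 t212 (.c 8 t213 (.c 9 t214 .e))))) (.c 2 (.c 3
t215 (.c 5 t216 (.c 6 t217 (.c 7 t218 (.c 8 t219 (.c 9 t220 .e)))))) (.c 3 (.c 1 t221 (.c 2
t222 (.c 7 t212 (.c 8 t213 (.c 9 t214 .e))))) (.c 4 (.c 0 t223 (.c 1 t224 (.c 6 t217 (.c 7 t218
(.c 8 t219 (.c 9 t220 .e)))))) (.c 5 (.c 0 t225 (.c 1 t226 (.c 2 t227 (.c 6 t228 (.c 7 t229 (.c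
8 t230 .e)))))) (.c 9 (.c 0 t231 (.c 1 t232 (.c 2 t233 (.c 3 t234 (.c 4 t235 (.c 6 t236 (.c 7
t237 .e))))))) .e)))))) (.c 8 (.c 0 (.c 4 t238 (.c 5 t239 (.c 7 t240 (.c 8 t241 (.c 9 t242
.e))))) (.c 2 (.c 3 t243 (.c 5 t244 (.c 6 t245 (.c 7 t246 (.c 8 t247 (.c 9 t248 .e)))))) (.c 3
(.c 1 t249 (.c 2 t250 (.c 7 t240 (.c 8 t241 (.c 9 t242 .e))))) (.c 4 (.c 0 t251 (.c 1 t252 (.c
6 t245 (.c 7 t246 (.c 8 t247 (.c 9 t248 .e)))))) (.c 5 (.c 0 t253 (.c 1 t254 (.c 2 t255 (.c 6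
t256 (.c 7 t257 (.c 8 t258 .e)))))) (.c 6 (.c 1 t259 (.c 2 t260 (.c 4 t261 (.c 5 t262 (.c 8
t263 (.c 9 t264 .e)))))) .e)))))) (.c 9 (.c 0 (.c 4 t265 (.c 5 t266 (.c 7 t267 (.c 8 t268 (.c 9
t269 .e))))) (.c 1 (.c 3 t270 (.c 4 t265 (.c 5 t266 (.c 6 t271 (.c 9 t269 .e))))) (.c 2 (.c 3
t272 (.c 5 t273 (.c 6 t274 (.c 7 t275 (.c 8 t276 (.c 9 t277 .e)))))) (.c 3 (.c 1 t278 (.c 2
t279 (.c 7 t267 (.c 8 t268 (.c 9 t269 .e))))) (.c 4 (.c 0 t280 (.c 1 t281 (.c 6 t274 (.c 7 t275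
(.c 8 t276 (.c 9 t277 .e)))))) (.c 6 (.c 1 t282 (.c 2 t283 (.c 4 t284 (.c 5 t285 (.c 8 t286 (.c
9 t287 .e)))))) (.c 7 (.c 0 t288 (.c 2 t283 (.c 3 t289 (.c 4 t284 (.c 5 t285 (.c 9 t287
.e)))))) .e))))))) .e))))))))))

theorem chk : chk [1, 2, 0, 0, 1, 0, 1, 0] 16 7 2 0 T = true := by decide +kernel

end Vale.Agent.P032.Words.Trie.BetaF4
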