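import Vale.Agent.P032.Words.H151.Beta

/-!
# BETA pair, special end far: Ce+2Pf+Qd ≥ 6

Decision diagram of 16 potentials.
-/

namespace Vale.Agent.P032.Words.Trie.BetaF7

noncomputable def v0 : Tr := .l 0x1030c20c20810c2081081040
noncomputable def v1 : Tr := .l 0xc4083083042083042042001
noncomputable def v2 : Tr := .l 0x186186186186186186185186
noncomputable def q0 : Tr := .c 4 v0 (.c 5 v1 (.c 7 v2 (.c 8 v1 (.c 9 v1 .e))))
noncomputable def q1 : Tr := .c 4 v0 (.c 5 v1 (.c 9 v1 .e))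
noncomputable def q2 : Tr := .c 4 v0 (.c 5 v1 (.c 8 v1 (.c 9 v1 .e)))
noncomputable def v3 : Tr := .l 0xc21030810c20810c2040081
noncomputable def v4 : Tr := .l 0x830c4042083042083001042
noncomputable def q3 : Tr := .c 4 v3 (.c 5 v4 .e)
noncomputable def r0 : Tr := .c 0 q0 (.c 1 q1 (.c 6 q2 (.c 7 q1 (.c 8 q3 .e))))
noncomputable def v5 : Tr := .l 0x1441031030c21030c20c2081
noncomputable def v6 : Tr := .l 0x1050c40c40830c4083083042
noncomputable def v7 : Tr := .l 0x186186186146185146146105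
noncomputable def q4 : Tr := .c 4 v5 (.c 5 v6 (.c 7 v7 (.c 8 v6 (.c 9 v6 .e))))
noncomputable def q5 : Tr := .c 4 v5 (.c 5 v6 (.c 9 v6 .e))
noncomputable def q6 : Tr := .c 5 v6 (.c 7 v7 (.c 8 v6 (.c 9 v6 .e)))
noncomputable def q7 : Tr := .c 4 v5 (.c 5 v6 (.c 8 v6 (.c 9 v6 .e)))
noncomputable def v8 : Tr := .l 0x1031440c21030c21030810c2
noncomputable def v9 : Tr := .l 0xc41050830c40830c4042083
noncomputable def q8 : Tr := .c 4 v8 (.c 5 v9 .e)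
noncomputable def r1 : Tr := .c 0 q4 (.c 1 q5 (.c 2 q6 (.c 6 q7 (.c 7 q5 (.c 8 q8 .e)))))
noncomputable def v10 : Tr := .l 0x185186186186144185185186
noncomputable def v11 : Tr := .l 0x1461051861461050c4146105
noncomputable def q9 : Tr := .c 4 v10 (.c 5 v11 (.c 7 v10 (.c 8 v11 (.c 9 v11 .e))))
noncomputable def q10 : Tr := .c 5 v11 (.c 7 v10 (.c 8 v11 (.c 9 v11 .e)))
noncomputable def q11 : Tr := .c 7 v10 (.c 8 v11 (.c 9 v11 .e))
noncomputable def r2 : Tr := .c 0 q9 (.c 2 q10 (.c 3 q11 (.c 4 q11 .e)))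
noncomputable def q12 : Tr := .c 7 v7 (.c 8 v6 (.c 9 v6 .e))
noncomputable def r3 : Tr := .c 0 q4 (.c 2 q6 (.c 3 q12 (.c 4 q12 (.c 6 q7 .e))))
noncomputable def r4 : Tr := .c 0 q4 (.c 1 q5 (.c 2 q6 (.c 3 q12 (.c 4 q12 (.c 6 q7 (.c 7 q5 .e))))))
noncomputable def t0 : Tr := .c 4 r0 (.c 5 r1 (.c 7 r2 (.c 8 r3 (.c 9 r4 .e))))
noncomputable def v12 : Tr := .l 0x1461051050c41050c40c4083
noncomputable def v13 : Tr := .l 0x185186186185144185185144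
noncomputable def q13 : Tr := .c 5 v12 (.c 7 v13 (.c 8 v12 (.c 9 v12 .e)))
noncomputable def r5 : Tr := .c 1 q1 (.c 2 q13 (.c 7 q1 (.c 8 q3 .e)))
noncomputable def q14 : Tr := .c 7 v13 (.c 8 v12 (.c 9 v12 .e))
noncomputable def r6 : Tr := .c 1 q1 (.c 2 q13 (.c 4 q14 (.c 8 q3 .e)))
noncomputable def t1 : Tr := .c 3 r5 (.c 4 r0 (.c 5 r1 (.c 6 r6 (.c 9 r4 .e))))
noncomputable def v14 : Tr := .l 0x186186186186186186186146
noncomputable def q15 : Tr := .c 7 v14 .e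
noncomputable def v15 : Tr := .l 0x1851441441031441031030c2
noncomputable def q16 : Tr := .c 4 v15 (.c 5 v12 .e)
noncomputable def r7 : Tr := .c 3 q15 (.c 4 q15 (.c 6 q16 .e))
noncomputable def v16 : Tr := .l 0x186186186185186185185144
noncomputable def q17 : Tr := .c 7 v16 .e
noncomputable def q18 : Tr := .c 4 v0 (.c 5 v1 .e)
noncomputable def r8 : Tr := .c 3 q17 (.c 6 q18 (.c 7 q18 (.c 8 q3 .e)))
noncomputable def q19 : Tr := .c 4 v0 (.c 5 v1 (.c 7 v2 .e))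
noncomputable def r9 : Tr := .c 0 q19 (.c 1 q18 (.c 6 q18 (.c 7 q18 (.c 8 q3 .e))))
noncomputable def q20 : Tr := .c 4 v5 (.c 5 v6 (.c 7 v7 .e))
noncomputable def q21 : Tr := .c 4 v5 (.c 5 v6 .e)
noncomputable def q22 : Tr := .c 5 v6 (.c 7 v7 .e)
noncomputable def r10 : Tr := .c 0 q20 (.c 1 q21 (.c 2 q22 (.c 6 q21 (.c 7 q21 (.c 8 q8 .e)))))
noncomputable def q23 : Tr := .c 7 v7 .e
noncomputable def r11 : Tr := .c 0 q20 (.c 2 q22 (.c 3 q23 (.c 4 q23 (.c 6 q21 .e))))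
noncomputable def r12 : Tr := .c 0 q20 (.c 1 q21 (.c 2 q22 (.c 3 q23 (.c 4 q23 (.c 6 q21 (.c 7 q21 .e))))))
noncomputable def t2 : Tr := .c 1 r7 (.c 2 r8 (.c 4 r9 (.c 5 r10 (.c 8 r11 (.c 9 r12 .e)))))
noncomputable def v17 : Tr := .l 0x186186186186186186186186
noncomputable def q24 : Tr := .c 7 v17 .e
noncomputable def r13 : Tr := .c 4 q24 (.c 7 q18 (.c 8 q3 .e))
noncomputable def q25 : Tr := .c 5 v12 (.c 7 v13 .e)
noncomputable def r14 : Tr := .c 1 q18 (.c 2 q25 (.c 7 q18 (.c 8 q3 .e)))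
noncomputable def t3 : Tr := .c 0 r13 (.c 2 r8 (.c 3 r14 (.c 4 r9 (.c 5 r10 (.c 9 r12 .e)))))
noncomputable def v18 : Tr := .l 0x1050c41461050c40831050c4
noncomputable def q26 : Tr := .c 8 v18 (.c 9 v18 .e)
noncomputable def v19 : Tr := .l 0xc20811030c20810400c2081
noncomputable def v20 : Tr := .l 0x830420c4083042001083042
noncomputable def q27 : Tr := .c 4 v19 (.c 5 v20 (.c 9 v20 .e))
noncomputable def v21 : Tr := .l 0x810c20c21030400810810c2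
noncomputable def v22 : Tr := .l 0x420830830c4001042042083
noncomputable def q28 : Tr := .c 4 v21 (.c 5 v22 .e)
noncomputable def r15 : Tr := .c 4 q26 (.c 7 q27 (.c 8 q28 .e))
noncomputable def q29 : Tr := .c 8 v20 (.c 9 v20 .e)
noncomputable def q30 : Tr := .c 4 v19 (.c 5 v20 (.c 8 v20 (.c 9 v20 .e)))
noncomputable def r16 : Tr := .c 3 q29 (.c 6 q30 (.c 7 q27 (.c 8 q28 .e)))
noncomputable def q31 : Tr := .c 5 v18 (.c 8 v18 (.c 9 v18 .e))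
noncomputable def r17 : Tr := .c 1 q27 (.c 2 q31 (.c 7 q27 (.c 8 q28 .e)))
noncomputable def r18 : Tr := .c 0 q30 (.c 1 q27 (.c 6 q30 (.c 7 q27 (.c 8 q28 .e))))
noncomputable def v23 : Tr := .l 0x1030c21441030c20811030c2
noncomputable def v24 : Tr := .l 0xc40831050c40830420c4083
noncomputable def q32 : Tr := .c 4 v23 (.c 5 v24 (.c 8 v24 (.c 9 v24 .e)))
noncomputable def q33 : Tr := .c 4 v23 (.c 5 v24 (.c 9 v24 .e))
noncomputable def q34 : Tr := .c 5 v24 (.c 8 v24 (.c 9 v24 .e))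
noncomputable def v25 : Tr := .l 0xc21031031440810c20c2103
noncomputable def v26 : Tr := .l 0x830c40c41050420830830c4
noncomputable def q35 : Tr := .c 4 v25 (.c 5 v26 .e)
noncomputable def r19 : Tr := .c 0 q32 (.c 1 q33 (.c 2 q34 (.c 6 q32 (.c 7 q33 (.c 8 q35 .e)))))
noncomputable def r20 : Tr := .c 1 q27 (.c 2 q31 (.c 4 q26 (.c 8 q28 .e)))
noncomputable def t4 : Tr := .c 0 r15 (.c 2 r16 (.c 3 r17 (.c 4 r18 (.c 5 r19 (.c 6 r20 .e)))))
noncomputable def q36 : Tr := .c 5 v20 (.c 9 v20 .e)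
noncomputable def q37 : Tr := .c 5 v22 .e
noncomputable def r21 : Tr := .c 4 q26 (.c 7 q36 (.c 8 q37 .e))
noncomputable def r22 : Tr := .c 3 q26 (.c 4 q26 (.c 6 q31 .e))
noncomputable def q38 : Tr := .c 5 v20 (.c 8 v20 (.c 9 v20 .e))
noncomputable def r23 : Tr := .c 3 q29 (.c 6 q38 (.c 7 q36 (.c 8 q37 .e)))
noncomputable def r24 : Tr := .c 1 q36 (.c 2 q31 (.c 7 q36 (.c 8 q37 .e)))
noncomputable def r25 : Tr := .c 0 q38 (.c 1 q36 (.c 6 q38 (.c 7 q36 (.c 8 q37 .e))))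
noncomputable def r26 : Tr := .c 1 q36 (.c 2 q31 (.c 4 q26 (.c 8 q37 .e)))
noncomputable def r27 : Tr := .c 0 q31 (.c 2 q31 (.c 3 q26 (.c 4 q26 .e)))
noncomputable def t5 : Tr := .c 0 r21 (.c 1 r22 (.c 2 r23 (.c 3 r24 (.c 4 r25 (.c 6 r26 (.c 7 r27 .e))))))
noncomputable def v27 : Tr := .l 0xc20810810401030c20c2081
noncomputable def v28 : Tr := .l 0x830420420010c4083083042
noncomputable def v29 : Tr := .l 0xc41050830c41051460c4105
noncomputable def q39 : Tr := .c 4 v27 (.c 5 v28 (.c 7 v29 (.c 8 v28 (.c 9 v28 .e))))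
noncomputable def q40 : Tr := .c 4 v27 (.c 5 v28 (.c 9 v28 .e))
noncomputable def q41 : Tr := .c 4 v27 (.c 5 v28 (.c 8 v28 (.c 9 v28 .e)))
noncomputable def v30 : Tr := .l 0x810c20400810c21030810c2
noncomputable def v31 : Tr := .l 0x420830010420830c4042083
noncomputable def q42 : Tr := .c 4 v30 (.c 5 v31 .e)
noncomputable def v32 : Tr := .l 0x830c40420830c41050830c4
noncomputable def q43 : Tr := .c 4 v30 (.c 7 v32 .e)
noncomputable def r28 : Tr := .c 0 q39 (.c 1 q40 (.c 6 q41 (.c 7 q40 (.c 8 q42 (.c 9 q43 .e)))))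
noncomputable def v33 : Tr := .l 0x1030c20c20811441031030c2
noncomputable def v34 : Tr := .l 0xc40830830421050c40c4083
noncomputable def v35 : Tr := .l 0x1050c40c40831461051050c4
noncomputable def q44 : Tr := .c 4 v33 (.c 5 v34 (.c 7 v35 (.c 8 v34 (.c 9 v34 .e))))
noncomputable def q45 : Tr := .c 4 v33 (.c 5 v34 (.c 9 v34 .e))
noncomputable def q46 : Tr := .c 4 v33 (.c 5 v34 (.c 8 v34 (.c 9 v34 .e)))
noncomputable def v36 : Tr := .l 0xc21030810c21031440c2103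
noncomputable def q47 : Tr := .c 4 v36 (.c 5 v32 .e)
noncomputable def r29 : Tr := .c 0 q44 (.c 1 q45 (.c 6 q46 (.c 7 q45 (.c 8 q47 .e))))
noncomputable def v37 : Tr := .l 0x144185103144185186144185
noncomputable def v38 : Tr := .l 0x1461051050c4185146146105
noncomputable def q48 : Tr := .c 4 v37 (.c 5 v35 (.c 7 v38 (.c 8 v35 (.c 9 v35 .e))))
noncomputable def q49 : Tr := .c 7 v38 (.c 8 v35 (.c 9 v35 .e))
noncomputable def v39 : Tr := .l 0x1051460c4105144185105146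
noncomputable def q50 : Tr := .c 7 v39 (.c 8 v38 .e)
noncomputable def v40 : Tr := .l 0x1031440c2103144185103144
noncomputable def q51 : Tr := .c 4 v40 (.c 7 v39 .e)
noncomputable def r30 : Tr := .c 0 q48 (.c 3 q49 (.c 5 q50 (.c 9 q51 .e)))
noncomputable def q52 : Tr := .c 7 v35 (.c 8 v34 (.c 9 v34 .e))
noncomputable def q53 : Tr := .c 7 v38 (.c 8 v35 .e)
noncomputable def r31 : Tr := .c 0 q44 (.c 3 q52 (.c 5 q53 (.c 6 q46 .e)))
noncomputable def r32 : Tr := .c 0 q44 (.c 1 q45 (.c 3 q52 (.c 6 q46 (.c 7 q45 .e))))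
noncomputable def t6 : Tr := .c 4 r28 (.c 5 r29 (.c 7 r30 (.c 8 r31 (.c 9 r32 .e))))
noncomputable def r33 : Tr := .c 1 q40 (.c 7 q40 (.c 8 q42 (.c 9 q43 .e)))
noncomputable def v41 : Tr := .l 0xc40830830c41050c40c4105
noncomputable def q54 : Tr := .c 7 v32 (.c 8 v41 .e)
noncomputable def r34 : Tr := .c 1 q40 (.c 5 q54 (.c 8 q42 (.c 9 q43 .e)))
noncomputable def t7 : Tr := .c 3 r33 (.c 4 r28 (.c 5 r29 (.c 6 r34 (.c 9 r32 .e))))
noncomputable def v42 : Tr := .l 0x1441031030c2185144144103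
noncomputable def q55 : Tr := .c 4 v42 .e
noncomputable def q56 : Tr := .c 4 v40 .e
noncomputable def r35 : Tr := .c 1 q55 (.c 7 q55 (.c 8 q56 (.c 9 q51 .e)))
noncomputable def q57 : Tr := .c 4 v33 (.c 7 v35 (.c 8 v34 .e))
noncomputable def q58 : Tr := .c 4 v33 .e
noncomputable def q59 : Tr := .c 4 v33 (.c 8 v34 .e)
noncomputable def q60 : Tr := .c 4 v36 .e
noncomputable def r36 : Tr := .c 0 q57 (.c 1 q58 (.c 6 q59 (.c 7 q58 (.c 8 q60 .e))))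
noncomputable def r37 : Tr := .c 1 q55 (.c 5 q50 (.c 8 q56 (.c 9 q51 .e)))
noncomputable def q61 : Tr := .c 4 v37 (.c 7 v38 (.c 8 v35 .e))
noncomputable def r38 : Tr := .c 0 q61 (.c 3 q53 (.c 5 q50 (.c 9 q51 .e)))
noncomputable def q62 : Tr := .c 7 v35 (.c 8 v34 .e)
noncomputable def r39 : Tr := .c 0 q57 (.c 3 q62 (.c 5 q53 (.c 6 q59 .e)))
noncomputable def r40 : Tr := .c 0 q57 (.c 1 q58 (.c 3 q62 (.c 6 q59 (.c 7 q58 .e))))
noncomputable def t8 : Tr := .c 3 r35 (.c 5 r36 (.c 6 r37 (.c 7 r38 (.c 8 r39 (.c 9 r40 .e)))))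
noncomputable def q63 : Tr := .c 7 v38 .e
noncomputable def q64 : Tr := .c 7 v39 .e
noncomputable def q65 : Tr := .c 4 v42 (.c 5 v35 .e)
noncomputable def r41 : Tr := .c 3 q63 (.c 5 q64 (.c 6 q65 (.c 9 q51 .e)))
noncomputable def q66 : Tr := .c 7 v34 .e
noncomputable def q67 : Tr := .c 7 v32 .e
noncomputable def q68 : Tr := .c 4 v27 (.c 5 v28 .e)
noncomputable def r42 : Tr := .c 3 q66 (.c 5 q67 (.c 6 q68 (.c 7 q68 (.c 8 q42 (.c 9 q43 .e)))))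
noncomputable def q69 : Tr := .c 4 v27 (.c 5 v28 (.c 7 v29 .e))
noncomputable def r43 : Tr := .c 0 q69 (.c 1 q68 (.c 6 q68 (.c 7 q68 (.c 8 q42 (.c 9 q43 .e)))))
noncomputable def q70 : Tr := .c 4 v33 (.c 5 v34 (.c 7 v35 .e))
noncomputable def q71 : Tr := .c 4 v33 (.c 5 v34 .e)
noncomputable def r44 : Tr := .c 0 q70 (.c 1 q71 (.c 6 q71 (.c 7 q71 (.c 8 q47 .e))))
noncomputable def q72 : Tr := .c 7 v35 .e
noncomputable def r45 : Tr := .c 0 q70 (.c 3 q72 (.c 5 q63 (.c 6 q71 .e)))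
noncomputable def r46 : Tr := .c 0 q70 (.c 1 q71 (.c 3 q72 (.c 6 q71 (.c 7 q71 .e))))
noncomputable def t9 : Tr := .c 1 r41 (.c 2 r42 (.c 4 r43 (.c 5 r44 (.c 8 r45 (.c 9 r46 .e)))))
noncomputable def r47 : Tr := .c 5 q67 (.c 7 q68 (.c 8 q42 (.c 9 q43 .e)))
noncomputable def r48 : Tr := .c 1 q68 (.c 7 q68 (.c 8 q42 (.c 9 q43 .e)))
noncomputable def t10 : Tr := .c 0 r47 (.c 2 r42 (.c 3 r48 (.c 4 r43 (.c 5 r44 (.c 9 r46 .e)))))
noncomputable def v43 : Tr := .l 0x830420c40830c40831050c4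
noncomputable def q73 : Tr := .c 8 v43 .e
noncomputable def v44 : Tr := .l 0x810400c20810c20811030c2
noncomputable def v45 : Tr := .l 0x420010830420830420c4083
noncomputable def q74 : Tr := .c 4 v44 (.c 5 v45 (.c 9 v45 .e))
noncomputable def v46 : Tr := .l 0x400810810c20810c20c2103
noncomputable def v47 : Tr := .l 0x10420420830420830830c4
noncomputable def q75 : Tr := .c 4 v46 (.c 5 v47 .e)
noncomputable def q76 : Tr := .c 4 v46 .e
noncomputable def r49 : Tr := .c 5 q73 (.c 7 q74 (.c 8 q75 (.c 9 q76 .e)))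
noncomputable def q77 : Tr := .c 8 v45 (.c 9 v45 .e)
noncomputable def q78 : Tr := .c 4 v44 (.c 5 v45 (.c 8 v45 (.c 9 v45 .e)))
noncomputable def r50 : Tr := .c 3 q77 (.c 5 q73 (.c 6 q78 (.c 7 q74 (.c 8 q75 (.c 9 q76 .e)))))
noncomputable def r51 : Tr := .c 1 q74 (.c 7 q74 (.c 8 q75 (.c 9 q76 .e)))
noncomputable def r52 : Tr := .c 0 q78 (.c 1 q74 (.c 6 q78 (.c 7 q74 (.c 8 q75 (.c 9 q76 .e)))))
noncomputable def v48 : Tr := .l 0xc20811030c21030c2144103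
noncomputable def q79 : Tr := .c 4 v48 (.c 5 v43 (.c 8 v43 (.c 9 v43 .e)))
noncomputable def q80 : Tr := .c 4 v48 (.c 5 v43 (.c 9 v43 .e))
noncomputable def v49 : Tr := .l 0x810c20c21030c2103103144
noncomputable def v50 : Tr := .l 0x420830830c40830c40c4105
noncomputable def q81 : Tr := .c 4 v49 (.c 5 v50 .e)
noncomputable def r53 : Tr := .c 0 q79 (.c 1 q80 (.c 6 q79 (.c 7 q80 (.c 8 q81 .e))))
noncomputable def r54 : Tr := .c 1 q74 (.c 5 q73 (.c 8 q75 (.c 9 q76 .e)))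
noncomputable def t11 : Tr := .c 0 r49 (.c 2 r50 (.c 3 r51 (.c 4 r52 (.c 5 r53 (.c 6 r54 .e)))))
noncomputable def v51 : Tr := .l 0x186186186186186185186186
noncomputable def v52 : Tr := .l 0xc40831050c41050c4146105
noncomputable def v53 : Tr := .l 0x185146146186144185185186
noncomputable def q82 : Tr := .c 4 v51 (.c 5 v52 (.c 7 v53 (.c 8 v52 (.c 9 v52 .e))))
noncomputable def q83 : Tr := .c 4 v51 (.c 5 v52 (.c 9 v52 .e))
noncomputable def q84 : Tr := .c 4 v51 (.c 5 v52 (.c 8 v52 (.c 9 v52 .e)))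
noncomputable def r55 : Tr := .c 0 q82 (.c 1 q83 (.c 6 q84 (.c 7 q83 .e)))
noncomputable def v54 : Tr := .l 0x186185185144185186186185
noncomputable def q85 : Tr := .c 4 v54 (.c 5 v35 (.c 7 v38 (.c 8 v35 (.c 9 v35 .e))))
noncomputable def q86 : Tr := .c 4 v54 (.c 5 v35 (.c 9 v35 .e))
noncomputable def q87 : Tr := .c 5 v35 (.c 7 v38 (.c 8 v35 (.c 9 v35 .e)))
noncomputable def q88 : Tr := .c 4 v54 (.c 5 v35 (.c 8 v35 (.c 9 v35 .e)))
noncomputable def r56 : Tr := .c 0 q85 (.c 1 q86 (.c 2 q87 (.c 6 q88 (.c 7 q86 .e))))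
noncomputable def v55 : Tr := .l 0x185146146105144185185146
noncomputable def q89 : Tr := .c 4 v10 (.c 5 v38 (.c 7 v55 (.c 8 v38 (.c 9 v38 .e))))
noncomputable def q90 : Tr := .c 5 v38 (.c 7 v55 (.c 8 v38 (.c 9 v38 .e)))
noncomputable def q91 : Tr := .c 7 v55 (.c 8 v38 (.c 9 v38 .e))
noncomputable def v56 : Tr := .l 0x144105105146103144144185
noncomputable def v57 : Tr := .l 0x1050c4146105144105185146
noncomputable def q92 : Tr := .c 7 v56 (.c 8 v57 .e)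
noncomputable def r57 : Tr := .c 0 q89 (.c 2 q90 (.c 3 q91 (.c 4 q91 (.c 5 q92 .e))))
noncomputable def q93 : Tr := .c 7 v55 (.c 8 v38 .e)
noncomputable def r58 : Tr := .c 0 q85 (.c 2 q87 (.c 3 q49 (.c 4 q49 (.c 5 q93 (.c 6 q88 .e)))))
noncomputable def r59 : Tr := .c 0 q85 (.c 1 q86 (.c 2 q87 (.c 3 q49 (.c 4 q49 (.c 6 q88 (.c 7 q86 .e))))))
noncomputable def t12 : Tr := .c 4 r55 (.c 5 r56 (.c 7 r57 (.c 8 r58 (.c 9 r59 .e))))
noncomputable def q94 : Tr := .c 4 v13 .e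
noncomputable def r60 : Tr := .c 1 q94 (.c 2 q93 (.c 7 q94 .e))
noncomputable def q95 : Tr := .c 4 v54 (.c 7 v38 (.c 8 v35 .e))
noncomputable def q96 : Tr := .c 4 v54 .e
noncomputable def q97 : Tr := .c 4 v54 (.c 8 v35 .e)
noncomputable def r61 : Tr := .c 0 q95 (.c 1 q96 (.c 2 q53 (.c 6 q97 (.c 7 q96 .e))))
noncomputable def r62 : Tr := .c 1 q94 (.c 2 q93 (.c 4 q93 (.c 5 q92 .e)))
noncomputable def q98 : Tr := .c 4 v10 (.c 7 v55 (.c 8 v38 .e))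
noncomputable def r63 : Tr := .c 0 q98 (.c 2 q93 (.c 3 q93 (.c 4 q93 (.c 5 q92 .e))))
noncomputable def r64 : Tr := .c 0 q95 (.c 2 q53 (.c 3 q53 (.c 4 q53 (.c 5 q93 (.c 6 q97 .e)))))
noncomputable def r65 : Tr := .c 0 q95 (.c 1 q96 (.c 2 q53 (.c 3 q53 (.c 4 q53 (.c 6 q97 (.c 7 q96 .e))))))
noncomputable def t13 : Tr := .c 3 r60 (.c 5 r61 (.c 6 r62 (.c 7 r63 (.c 8 r64 (.c 9 r65 .e)))))
noncomputable def v58 : Tr := .l 0x186186186185186186186186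
noncomputable def q99 : Tr := .c 4 v58 (.c 5 v38 (.c 8 v38 (.c 9 v38 .e)))
noncomputable def r66 : Tr := .c 3 q91 (.c 4 q91 (.c 5 q92 (.c 6 q99 .e)))
noncomputable def v59 : Tr := .l 0x1050c40c40831441051050c4
noncomputable def q100 : Tr := .c 7 v59 (.c 8 v34 (.c 9 v34 .e))
noncomputable def v60 : Tr := .l 0xc41050830c41031440c4105
noncomputable def q101 : Tr := .c 7 v60 (.c 8 v59 .e)
noncomputable def q102 : Tr := .c 4 v16 (.c 5 v34 (.c 8 v34 (.c 9 v34 .e)))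
noncomputable def q103 : Tr := .c 4 v16 (.c 5 v34 (.c 9 v34 .e))
noncomputable def r67 : Tr := .c 3 q100 (.c 5 q101 (.c 6 q102 (.c 7 q103 .e)))
noncomputable def t14 : Tr := .c 1 r66 (.c 2 r67 (.c 7 r57 (.c 8 r58 (.c 9 r59 .e))))
noncomputable def q104 : Tr := .c 4 v17 .e
noncomputable def r68 : Tr := .c 4 q93 (.c 5 q92 (.c 7 q104 .e))
noncomputable def q105 : Tr := .c 4 v58 (.c 8 v38 .e)
noncomputable def r69 : Tr := .c 3 q93 (.c 4 q93 (.c 5 q92 (.c 6 q105 .e)))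
noncomputable def t15 : Tr := .c 0 r68 (.c 1 r69 (.c 6 r62 (.c 7 r63 (.c 8 r64 (.c 9 r65 .e)))))
noncomputable def q106 : Tr := .c 7 v56 (.c 8 v57 (.c 9 v57 .e))
noncomputable def v61 : Tr := .l 0x1030c40c41050c2103103144
noncomputable def v62 : Tr := .l 0xc40831050c41030c4144105
noncomputable def q107 : Tr := .c 7 v61 (.c 8 v62 .e)
noncomputable def q108 : Tr := .c 5 v43 (.c 9 v43 .e)
noncomputable def r70 : Tr := .c 4 q106 (.c 5 q107 (.c 7 q108 .e))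
noncomputable def q109 : Tr := .c 5 v57 (.c 8 v57 (.c 9 v57 .e))
noncomputable def r71 : Tr := .c 3 q106 (.c 4 q106 (.c 5 q107 (.c 6 q109 .e)))
noncomputable def q110 : Tr := .c 7 v62 (.c 8 v43 (.c 9 v43 .e))
noncomputable def q111 : Tr := .c 5 v43 (.c 8 v43 (.c 9 v43 .e))
noncomputable def r72 : Tr := .c 3 q110 (.c 5 q107 (.c 6 q111 (.c 7 q108 .e)))
noncomputable def q112 : Tr := .c 5 v57 (.c 7 v56 (.c 8 v57 (.c 9 v57 .e)))
noncomputable def r73 : Tr := .c 1 q108 (.c 2 q112 (.c 4 q106 (.c 5 q107 .e)))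
noncomputable def r74 : Tr := .c 0 q112 (.c 2 q112 (.c 3 q106 (.c 4 q106 (.c 5 q107 .e))))
noncomputable def q113 : Tr := .c 5 v38 (.c 8 v38 (.c 9 v38 .e))
noncomputable def r75 : Tr := .c 0 q90 (.c 2 q90 (.c 3 q91 (.c 4 q91 (.c 5 q92 (.c 6 q113 .e)))))
noncomputable def t16 : Tr := .c 0 r70 (.c 1 r71 (.c 2 r72 (.c 6 r73 (.c 7 r74 (.c 8 r75 .e)))))
noncomputable def q114 : Tr := .c 8 v57 (.c 9 v57 .e)
noncomputable def q115 : Tr := .c 8 v62 .e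
noncomputable def r76 : Tr := .c 4 q114 (.c 5 q115 (.c 7 q108 .e))
noncomputable def r77 : Tr := .c 3 q114 (.c 4 q114 (.c 5 q115 (.c 6 q109 .e)))
noncomputable def q116 : Tr := .c 8 v43 (.c 9 v43 .e)
noncomputable def r78 : Tr := .c 3 q116 (.c 5 q115 (.c 6 q111 (.c 7 q108 .e)))
noncomputable def r79 : Tr := .c 1 q108 (.c 2 q109 (.c 7 q108 .e))
noncomputable def r80 : Tr := .c 0 q111 (.c 1 q108 (.c 6 q111 (.c 7 q108 .e)))
noncomputable def r81 : Tr := .c 1 q108 (.c 2 q109 (.c 4 q114 (.c 5 q115 .e)))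
noncomputable def r82 : Tr := .c 0 q109 (.c 2 q109 (.c 3 q114 (.c 4 q114 (.c 5 q115 .e))))
noncomputable def t17 : Tr := .c 0 r76 (.c 1 r77 (.c 2 r78 (.c 3 r79 (.c 4 r80 (.c 6 r81 (.c 7 r82 .e))))))
noncomputable def r83 : Tr := .c 0 q39 (.c 1 q40 (.c 8 q42 (.c 9 q43 .e)))
noncomputable def q117 : Tr := .c 5 v34 (.c 7 v35 (.c 8 v34 (.c 9 v34 .e)))
noncomputable def r84 : Tr := .c 0 q44 (.c 1 q45 (.c 2 q117 (.c 8 q47 .e)))
noncomputable def r85 : Tr := .c 0 q48 (.c 2 q87 (.c 3 q49 (.c 4 q49 (.c 5 q50 (.c 9 q51 .e)))))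
noncomputable def r86 : Tr := .c 0 q44 (.c 2 q117 (.c 3 q52 (.c 4 q52 (.c 5 q53 .e))))
noncomputable def r87 : Tr := .c 0 q44 (.c 1 q45 (.c 2 q117 (.c 3 q52 (.c 4 q52 .e))))
noncomputable def t18 : Tr := .c 4 r83 (.c 5 r84 (.c 7 r85 (.c 8 r86 (.c 9 r87 .e))))
noncomputable def r88 : Tr := .c 1 q55 (.c 2 q53 (.c 8 q56 (.c 9 q51 .e)))
noncomputable def r89 : Tr := .c 0 q57 (.c 1 q58 (.c 2 q62 (.c 8 q60 .e)))
noncomputable def r90 : Tr := .c 1 q55 (.c 2 q53 (.c 4 q53 (.c 5 q50 (.c 8 q56 (.c 9 q51 .e)))))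
noncomputable def r91 : Tr := .c 0 q61 (.c 2 q53 (.c 3 q53 (.c 4 q53 (.c 5 q50 (.c 9 q51 .e)))))
noncomputable def r92 : Tr := .c 0 q57 (.c 2 q62 (.c 3 q62 (.c 4 q62 (.c 5 q53 .e))))
noncomputable def r93 : Tr := .c 0 q57 (.c 1 q58 (.c 2 q62 (.c 3 q62 (.c 4 q62 .e))))
noncomputable def t19 : Tr := .c 3 r88 (.c 5 r89 (.c 6 r90 (.c 7 r91 (.c 8 r92 (.c 9 r93 .e)))))
noncomputable def r94 : Tr := .c 3 q49 (.c 4 q49 (.c 5 q50 (.c 9 q51 .e)))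
noncomputable def q118 : Tr := .c 7 v34 (.c 8 v35 (.c 9 v35 .e))
noncomputable def q119 : Tr := .c 7 v32 (.c 8 v29 .e)
noncomputable def r95 : Tr := .c 3 q118 (.c 5 q119 (.c 8 q42 (.c 9 q43 .e)))
noncomputable def t20 : Tr := .c 1 r94 (.c 2 r95 (.c 7 r85 (.c 8 r86 (.c 9 r87 .e))))
noncomputable def r96 : Tr := .c 4 q53 (.c 5 q50 (.c 8 q56 (.c 9 q51 .e)))
noncomputable def r97 : Tr := .c 3 q53 (.c 4 q53 (.c 5 q50 (.c 9 q51 .e)))
noncomputable def t21 : Tr := .c 0 r96 (.c 1 r97 (.c 6 r90 (.c 7 r91 (.c 8 r92 (.c 9 r93 .e)))))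
noncomputable def q120 : Tr := .c 7 v39 (.c 8 v38 (.c 9 v38 .e))
noncomputable def v63 : Tr := .l 0x1050c40c4105144105105146
noncomputable def q121 : Tr := .c 7 v60 (.c 8 v63 .e)
noncomputable def q122 : Tr := .c 5 v32 .e
noncomputable def q123 : Tr := .c 7 v60 .e
noncomputable def r98 : Tr := .c 4 q120 (.c 5 q121 (.c 8 q122 (.c 9 q123 .e)))
noncomputable def r99 : Tr := .c 3 q120 (.c 4 q120 (.c 5 q121 (.c 9 q123 .e)))
noncomputable def q124 : Tr := .c 7 v59 (.c 8 v52 (.c 9 v52 .e))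
noncomputable def r100 : Tr := .c 3 q124 (.c 5 q121 (.c 8 q122 (.c 9 q123 .e)))
noncomputable def q125 : Tr := .c 5 v41 (.c 9 v41 .e)
noncomputable def q126 : Tr := .c 5 v38 (.c 7 v39 (.c 8 v38 (.c 9 v38 .e)))
noncomputable def r101 : Tr := .c 1 q125 (.c 2 q126 (.c 4 q120 (.c 5 q121 (.c 8 q122 (.c 9 q123 .e)))))
noncomputable def r102 : Tr := .c 0 q126 (.c 2 q126 (.c 3 q120 (.c 4 q120 (.c 5 q121 (.c 9 q123 .e)))))
noncomputable def r103 : Tr := .c 0 q87 (.c 2 q87 (.c 3 q49 (.c 4 q49 (.c 5 q50 .e))))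
noncomputable def t22 : Tr := .c 0 r98 (.c 1 r99 (.c 2 r100 (.c 6 r101 (.c 7 r102 (.c 8 r103 .e)))))
noncomputable def r104 : Tr := .c 3 q63 (.c 4 q63 (.c 5 q64 (.c 9 q51 .e)))
noncomputable def r105 : Tr := .c 3 q66 (.c 5 q67 (.c 8 q42 (.c 9 q43 .e)))
noncomputable def r106 : Tr := .c 0 q69 (.c 1 q68 (.c 8 q42 (.c 9 q43 .e)))
noncomputable def q127 : Tr := .c 5 v34 (.c 7 v35 .e)
noncomputable def r107 : Tr := .c 0 q70 (.c 1 q71 (.c 2 q127 (.c 8 q47 .e)))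
noncomputable def r108 : Tr := .c 0 q70 (.c 2 q127 (.c 3 q72 (.c 4 q72 (.c 5 q63 .e))))
noncomputable def r109 : Tr := .c 0 q70 (.c 1 q71 (.c 2 q127 (.c 3 q72 (.c 4 q72 .e))))
noncomputable def t23 : Tr := .c 1 r104 (.c 2 r105 (.c 4 r106 (.c 5 r107 (.c 8 r108 (.c 9 r109 .e)))))
noncomputable def r110 : Tr := .c 0 q44 (.c 1 q45 (.c 8 q47 .e))
noncomputable def r111 : Tr := .c 0 q44 (.c 3 q52 (.c 5 q53 .e))
noncomputable def r112 : Tr := .c 0 q44 (.c 1 q45 (.c 3 q52 .e))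
noncomputable def t24 : Tr := .c 4 r83 (.c 5 r110 (.c 7 r30 (.c 8 r111 (.c 9 r112 .e))))
noncomputable def r113 : Tr := .c 1 q40 (.c 8 q42 (.c 9 q43 .e))
noncomputable def t25 : Tr := .c 3 r113 (.c 4 r83 (.c 5 r110 (.c 6 r34 (.c 9 r112 .e))))
noncomputable def r114 : Tr := .c 1 q55 (.c 8 q56 (.c 9 q51 .e))
noncomputable def r115 : Tr := .c 0 q57 (.c 1 q58 (.c 8 q60 .e))
noncomputable def r116 : Tr := .c 0 q57 (.c 3 q62 (.c 5 q53 .e))
noncomputable def r117 : Tr := .c 0 q57 (.c 1 q58 (.c 3 q62 .e))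
noncomputable def t26 : Tr := .c 3 r114 (.c 5 r115 (.c 6 r37 (.c 7 r38 (.c 8 r116 (.c 9 r117 .e)))))
noncomputable def r118 : Tr := .c 3 q49 (.c 5 q50 (.c 9 q51 .e))
noncomputable def t27 : Tr := .c 1 r118 (.c 2 r95 (.c 7 r30 (.c 8 r111 (.c 9 r112 .e))))
noncomputable def r119 : Tr := .c 5 q50 (.c 8 q56 (.c 9 q51 .e))
noncomputable def r120 : Tr := .c 3 q53 (.c 5 q50 (.c 9 q51 .e))
noncomputable def t28 : Tr := .c 0 r119 (.c 1 r120 (.c 6 r37 (.c 7 r38 (.c 8 r116 (.c 9 r117 .e)))))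
noncomputable def r121 : Tr := .c 3 q63 (.c 5 q64 (.c 9 q51 .e))
noncomputable def r122 : Tr := .c 0 q70 (.c 1 q71 (.c 8 q47 .e))
noncomputable def r123 : Tr := .c 0 q70 (.c 3 q72 (.c 5 q63 .e))
noncomputable def r124 : Tr := .c 0 q70 (.c 1 q71 (.c 3 q72 .e))
noncomputable def t29 : Tr := .c 1 r121 (.c 2 r105 (.c 4 r106 (.c 5 r122 (.c 8 r123 (.c 9 r124 .e)))))
noncomputable def r125 : Tr := .c 5 q67 (.c 8 q42 (.c 9 q43 .e))
noncomputable def r126 : Tr := .c 1 q68 (.c 8 q42 (.c 9 q43 .e))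
noncomputable def t30 : Tr := .c 0 r125 (.c 2 r105 (.c 3 r126 (.c 4 r106 (.c 5 r122 (.c 9 r124 .e)))))
noncomputable def q128 : Tr := .c 3 v0 (.c 4 v0 (.c 5 v1 (.c 6 v0 (.c 9 v1 .e))))
noncomputable def q129 : Tr := .c 3 v15 (.c 5 v12 (.c 6 v15 (.c 9 v12 .e)))
noncomputable def q130 : Tr := .c 3 v0 (.c 4 v0 (.c 5 v1 (.c 9 v1 .e)))
noncomputable def q131 : Tr := .c 3 v3 (.c 4 v3 (.c 5 v4 (.c 6 v3 .e)))
noncomputable def q132 : Tr := .c 3 v3 (.c 4 v3 (.c 6 v3 .e))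
noncomputable def r127 : Tr := .c 1 q128 (.c 2 q129 (.c 7 q130 (.c 8 q131 (.c 9 q132 .e))))
noncomputable def r128 : Tr := .c 0 q1 (.c 1 q128 (.c 6 q1 (.c 7 q130 (.c 8 q131 (.c 9 q132 .e)))))
noncomputable def q133 : Tr := .c 3 v5 (.c 4 v5 (.c 5 v6 (.c 6 v5 (.c 9 v6 .e))))
noncomputable def q134 : Tr := .c 3 v12 (.c 5 v6 (.c 6 v12 (.c 9 v6 .e)))
noncomputable def q135 : Tr := .c 3 v5 (.c 4 v5 (.c 5 v6 (.c 9 v6 .e)))
noncomputable def q136 : Tr := .c 3 v8 (.c 4 v8 (.c 5 v9 (.c 6 v8 .e)))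
noncomputable def r129 : Tr := .c 0 q5 (.c 1 q133 (.c 2 q134 (.c 6 q5 (.c 7 q135 (.c 8 q136 .e)))))
noncomputable def q137 : Tr := .c 6 v15 (.c 9 v12 .e)
noncomputable def q138 : Tr := .c 6 v3 .e
noncomputable def r130 : Tr := .c 1 q128 (.c 2 q129 (.c 4 q137 (.c 5 q138 (.c 8 q131 (.c 9 q132 .e)))))
noncomputable def q139 : Tr := .c 9 v6 .e
noncomputable def q140 : Tr := .c 6 v12 (.c 9 v6 .e)
noncomputable def r131 : Tr := .c 0 q5 (.c 1 q133 (.c 2 q134 (.c 3 q139 (.c 4 q140 (.c 6 q5 (.c 7 q135 .e))))))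
noncomputable def t31 : Tr := .c 3 r127 (.c 4 r128 (.c 5 r129 (.c 6 r130 (.c 9 r131 .e))))
noncomputable def q141 : Tr := .c 3 v15 (.c 4 v15 (.c 6 v15 .e))
noncomputable def q142 : Tr := .c 3 v13 (.c 6 v13 .e)
noncomputable def q143 : Tr := .c 3 v15 (.c 4 v15 .e)
noncomputable def v64 : Tr := .l 0x1441851031441031440c2103
noncomputable def q144 : Tr := .c 3 v64 (.c 4 v64 (.c 6 v64 .e))
noncomputable def r132 : Tr := .c 1 q141 (.c 2 q142 (.c 7 q143 (.c 8 q144 (.c 9 q144 .e))))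
noncomputable def q145 : Tr := .c 3 v42 (.c 4 v42 (.c 6 v42 .e))
noncomputable def v65 : Tr := .l 0x186185185144185146146105
noncomputable def q146 : Tr := .c 3 v65 (.c 6 v65 .e)
noncomputable def q147 : Tr := .c 3 v42 (.c 4 v42 .e)
noncomputable def q148 : Tr := .c 3 v40 (.c 4 v40 (.c 6 v40 .e))
noncomputable def r133 : Tr := .c 0 q55 (.c 1 q145 (.c 2 q146 (.c 6 q55 (.c 7 q147 (.c 8 q148 .e)))))
noncomputable def q149 : Tr := .c 6 v13 .e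
noncomputable def q150 : Tr := .c 6 v64 .e
noncomputable def r134 : Tr := .c 1 q141 (.c 2 q142 (.c 4 q149 (.c 5 q150 (.c 8 q144 (.c 9 q144 .e)))))
noncomputable def v66 : Tr := .l 0x185186144185144185103144
noncomputable def q151 : Tr := .c 4 v66 .e
noncomputable def r135 : Tr := .c 0 q151 (.c 2 q142 (.c 4 q149 (.c 5 q150 (.c 9 q144 .e))))
noncomputable def q152 : Tr := .c 6 v65 .e
noncomputable def q153 : Tr := .c 6 v66 .e
noncomputable def r136 : Tr := .c 0 q55 (.c 2 q146 (.c 4 q152 (.c 5 q153 (.c 6 q55 .e))))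
noncomputable def r137 : Tr := .c 0 q55 (.c 1 q145 (.c 2 q146 (.c 4 q152 (.c 6 q55 (.c 7 q147 .e)))))
noncomputable def t32 : Tr := .c 3 r132 (.c 5 r133 (.c 6 r134 (.c 7 r135 (.c 8 r136 (.c 9 r137 .e)))))
noncomputable def q154 : Tr := .c 6 v14 .e
noncomputable def q155 : Tr := .c 3 v0 (.c 4 v0 (.c 5 v1 .e))
noncomputable def r138 : Tr := .c 4 q154 (.c 5 q138 (.c 7 q155 (.c 8 q131 (.c 9 q132 .e))))
noncomputable def r139 : Tr := .c 5 q138 (.c 6 q18 (.c 7 q155 (.c 8 q131 (.c 9 q132 .e))))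
noncomputable def q156 : Tr := .c 3 v0 (.c 4 v0 (.c 5 v1 (.c 6 v0 .e)))
noncomputable def q157 : Tr := .c 3 v15 (.c 5 v12 (.c 6 v15 .e))
noncomputable def r140 : Tr := .c 1 q156 (.c 2 q157 (.c 7 q155 (.c 8 q131 (.c 9 q132 .e))))
noncomputable def r141 : Tr := .c 0 q18 (.c 1 q156 (.c 6 q18 (.c 7 q155 (.c 8 q131 (.c 9 q132 .e)))))
noncomputable def q158 : Tr := .c 3 v5 (.c 4 v5 (.c 5 v6 (.c 6 v5 .e)))
noncomputable def q159 : Tr := .c 3 v12 (.c 5 v6 (.c 6 v12 .e))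
noncomputable def q160 : Tr := .c 3 v5 (.c 4 v5 (.c 5 v6 .e))
noncomputable def r142 : Tr := .c 0 q21 (.c 1 q158 (.c 2 q159 (.c 6 q21 (.c 7 q160 (.c 8 q136 .e)))))
noncomputable def q161 : Tr := .c 6 v12 .e
noncomputable def r143 : Tr := .c 0 q21 (.c 1 q158 (.c 2 q159 (.c 4 q161 (.c 6 q21 (.c 7 q160 .e)))))
noncomputable def t33 : Tr := .c 0 r138 (.c 2 r139 (.c 3 r140 (.c 4 r141 (.c 5 r142 (.c 9 r143 .e)))))
noncomputable def q162 : Tr := .c 9 v18 .e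
noncomputable def q163 : Tr := .c 3 v19 (.c 4 v19 (.c 5 v20 (.c 9 v20 .e)))
noncomputable def q164 : Tr := .c 3 v21 (.c 4 v21 (.c 5 v22 .e))
noncomputable def q165 : Tr := .c 3 v21 (.c 4 v21 .e)
noncomputable def r144 : Tr := .c 4 q162 (.c 7 q163 (.c 8 q164 (.c 9 q165 .e)))
noncomputable def q166 : Tr := .c 9 v20 .e
noncomputable def r145 : Tr := .c 3 q166 (.c 6 q27 (.c 7 q163 (.c 8 q164 (.c 9 q165 .e))))
noncomputable def v67 : Tr := .l 0x1441031851441030c2144103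
noncomputable def q167 : Tr := .c 3 v67 (.c 5 v18 (.c 9 v18 .e))
noncomputable def r146 : Tr := .c 1 q163 (.c 2 q167 (.c 7 q163 (.c 8 q164 (.c 9 q165 .e))))
noncomputable def r147 : Tr := .c 0 q27 (.c 1 q163 (.c 6 q27 (.c 7 q163 (.c 8 q164 (.c 9 q165 .e)))))
noncomputable def q168 : Tr := .c 3 v23 (.c 4 v23 (.c 5 v24 (.c 9 v24 .e)))
noncomputable def q169 : Tr := .c 3 v18 (.c 5 v24 (.c 9 v24 .e))
noncomputable def q170 : Tr := .c 3 v25 (.c 4 v25 (.c 5 v26 .e))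
noncomputable def r148 : Tr := .c 0 q33 (.c 1 q168 (.c 2 q169 (.c 6 q33 (.c 7 q168 (.c 8 q170 .e)))))
noncomputable def r149 : Tr := .c 1 q163 (.c 2 q167 (.c 4 q162 (.c 8 q164 (.c 9 q165 .e))))
noncomputable def t34 : Tr := .c 0 r144 (.c 2 r145 (.c 3 r146 (.c 4 r147 (.c 5 r148 (.c 6 r149 .e)))))
noncomputable def q171 : Tr := .c 3 v19 (.c 5 v20 (.c 9 v20 .e))
noncomputable def q172 : Tr := .c 3 v21 (.c 5 v22 .e)
noncomputable def q173 : Tr := .c 3 v21 .e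
noncomputable def r150 : Tr := .c 4 q162 (.c 7 q171 (.c 8 q172 (.c 9 q173 .e)))
noncomputable def q174 : Tr := .c 5 v18 (.c 9 v18 .e)
noncomputable def r151 : Tr := .c 3 q162 (.c 4 q162 (.c 6 q174 (.c 9 q173 .e)))
noncomputable def r152 : Tr := .c 3 q166 (.c 6 q36 (.c 7 q171 (.c 8 q172 (.c 9 q173 .e))))
noncomputable def r153 : Tr := .c 1 q171 (.c 2 q167 (.c 7 q171 (.c 8 q172 (.c 9 q173 .e))))
noncomputable def r154 : Tr := .c 0 q36 (.c 1 q171 (.c 6 q36 (.c 7 q171 (.c 8 q172 (.c 9 q173 .e)))))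
noncomputable def r155 : Tr := .c 1 q171 (.c 2 q167 (.c 4 q162 (.c 8 q172 (.c 9 q173 .e))))
noncomputable def r156 : Tr := .c 0 q174 (.c 2 q167 (.c 3 q162 (.c 4 q162 (.c 9 q173 .e))))
noncomputable def t35 : Tr := .c 0 r150 (.c 1 r151 (.c 2 r152 (.c 3 r153 (.c 4 r154 (.c 6 r155 (.c 7 r156 .e))))))
noncomputable def r157 : Tr := .c 0 q1 (.c 1 q128 (.c 6 q1 (.c 7 q130 (.c 8 q131 .e))))
noncomputable def q175 : Tr := .c 4 v10 (.c 5 v11 (.c 9 v11 .e))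
noncomputable def v68 : Tr := .l 0x185144186185144103185144
noncomputable def q176 : Tr := .c 3 v68 (.c 5 v11 (.c 6 v68 (.c 9 v11 .e)))
noncomputable def q177 : Tr := .c 9 v11 .e
noncomputable def q178 : Tr := .c 6 v68 (.c 9 v11 .e)
noncomputable def r158 : Tr := .c 0 q175 (.c 2 q176 (.c 3 q177 (.c 4 q178 .e)))
noncomputable def r159 : Tr := .c 0 q5 (.c 2 q134 (.c 3 q139 (.c 4 q140 (.c 6 q5 .e))))
noncomputable def t36 : Tr := .c 4 r157 (.c 5 r129 (.c 7 r158 (.c 8 r159 (.c 9 r131 .e))))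
noncomputable def r160 : Tr := .c 1 q128 (.c 2 q129 (.c 7 q130 (.c 8 q131 .e)))
noncomputable def r161 : Tr := .c 1 q128 (.c 2 q129 (.c 4 q137 (.c 8 q131 .e)))
noncomputable def t37 : Tr := .c 3 r160 (.c 4 r157 (.c 5 r129 (.c 6 r161 (.c 9 r131 .e))))
noncomputable def v69 : Tr := .l 0x1851461461051441051050c4
noncomputable def q179 : Tr := .c 6 v69 .e
noncomputable def r162 : Tr := .c 4 q179 (.c 6 q16 .e)
noncomputable def r163 : Tr := .c 6 q18 (.c 7 q155 (.c 8 q131 .e))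
noncomputable def r164 : Tr := .c 0 q18 (.c 1 q156 (.c 6 q18 (.c 7 q155 (.c 8 q131 .e))))
noncomputable def r165 : Tr := .c 0 q21 (.c 2 q159 (.c 4 q161 (.c 6 q21 .e)))
noncomputable def t38 : Tr := .c 1 r162 (.c 2 r163 (.c 4 r164 (.c 5 r142 (.c 8 r165 (.c 9 r143 .e)))))
noncomputable def r166 : Tr := .c 4 q154 (.c 7 q155 (.c 8 q131 .e))
noncomputable def r167 : Tr := .c 1 q156 (.c 2 q157 (.c 7 q155 (.c 8 q131 .e)))
noncomputable def t39 : Tr := .c 0 r166 (.c 2 r163 (.c 3 r167 (.c 4 r164 (.c 5 r142 (.c 9 r143 .e)))))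
noncomputable def r168 : Tr := .c 4 q162 (.c 7 q163 (.c 8 q164 .e))
noncomputable def r169 : Tr := .c 3 q166 (.c 6 q27 (.c 7 q163 (.c 8 q164 .e)))
noncomputable def r170 : Tr := .c 1 q163 (.c 2 q167 (.c 7 q163 (.c 8 q164 .e)))
noncomputable def r171 : Tr := .c 0 q27 (.c 1 q163 (.c 6 q27 (.c 7 q163 (.c 8 q164 .e))))
noncomputable def r172 : Tr := .c 1 q163 (.c 2 q167 (.c 4 q162 (.c 8 q164 .e)))
noncomputable def t40 : Tr := .c 0 r168 (.c 2 r169 (.c 3 r170 (.c 4 r171 (.c 5 r148 (.c 6 r172 .e)))))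
noncomputable def r173 : Tr := .c 4 q162 (.c 7 q171 (.c 8 q172 .e))
noncomputable def r174 : Tr := .c 3 q162 (.c 4 q162 (.c 6 q174 .e))
noncomputable def r175 : Tr := .c 3 q166 (.c 6 q36 (.c 7 q171 (.c 8 q172 .e)))
noncomputable def r176 : Tr := .c 1 q171 (.c 2 q167 (.c 7 q171 (.c 8 q172 .e)))
noncomputable def r177 : Tr := .c 0 q36 (.c 1 q171 (.c 6 q36 (.c 7 q171 (.c 8 q172 .e))))
noncomputable def r178 : Tr := .c 1 q171 (.c 2 q167 (.c 4 q162 (.c 8 q172 .e)))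
noncomputable def r179 : Tr := .c 0 q174 (.c 2 q167 (.c 3 q162 (.c 4 q162 .e)))
noncomputable def t41 : Tr := .c 0 r173 (.c 1 r174 (.c 2 r175 (.c 3 r176 (.c 4 r177 (.c 6 r178 (.c 7 r179 .e))))))
noncomputable def q180 : Tr := .c 3 v27 (.c 4 v27 (.c 5 v28 (.c 6 v27 (.c 9 v28 .e))))
noncomputable def q181 : Tr := .c 3 v27 (.c 4 v27 (.c 5 v28 (.c 9 v28 .e)))
noncomputable def q182 : Tr := .c 3 v30 (.c 4 v30 (.c 5 v31 (.c 6 v30 .e)))
noncomputable def q183 : Tr := .c 3 v30 (.c 4 v30 (.c 6 v30 .e))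
noncomputable def r180 : Tr := .c 0 q40 (.c 1 q180 (.c 6 q40 (.c 7 q181 (.c 8 q182 (.c 9 q183 .e)))))
noncomputable def q184 : Tr := .c 3 v33 (.c 4 v33 (.c 5 v34 (.c 6 v33 (.c 9 v34 .e))))
noncomputable def q185 : Tr := .c 3 v33 (.c 4 v33 (.c 5 v34 (.c 9 v34 .e)))
noncomputable def q186 : Tr := .c 3 v36 (.c 4 v36 (.c 5 v32 (.c 6 v36 .e)))
noncomputable def r181 : Tr := .c 0 q45 (.c 1 q184 (.c 6 q45 (.c 7 q185 (.c 8 q186 .e))))
noncomputable def q187 : Tr := .c 4 v37 (.c 5 v35 (.c 9 v35 .e))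
noncomputable def q188 : Tr := .c 9 v35 .e
noncomputable def q189 : Tr := .c 6 v40 .e
noncomputable def r182 : Tr := .c 0 q187 (.c 3 q188 (.c 5 q189 (.c 9 q148 .e)))
noncomputable def q190 : Tr := .c 9 v34 .e
noncomputable def q191 : Tr := .c 6 v37 .e
noncomputable def r183 : Tr := .c 0 q45 (.c 3 q190 (.c 5 q191 (.c 6 q45 .e)))
noncomputable def r184 : Tr := .c 0 q45 (.c 1 q184 (.c 3 q190 (.c 6 q45 (.c 7 q185 .e))))
noncomputable def t42 : Tr := .c 4 r180 (.c 5 r181 (.c 7 r182 (.c 8 r183 (.c 9 r184 .e))))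
noncomputable def r185 : Tr := .c 1 q180 (.c 7 q181 (.c 8 q182 (.c 9 q183 .e)))
noncomputable def q192 : Tr := .c 6 v30 .e
noncomputable def r186 : Tr := .c 1 q180 (.c 5 q192 (.c 8 q182 (.c 9 q183 .e)))
noncomputable def t43 : Tr := .c 3 r185 (.c 4 r180 (.c 5 r181 (.c 6 r186 (.c 9 r184 .e))))
noncomputable def r187 : Tr := .c 1 q145 (.c 7 q147 (.c 8 q148 (.c 9 q148 .e)))
noncomputable def q193 : Tr := .c 3 v33 (.c 4 v33 (.c 6 v33 .e))
noncomputable def q194 : Tr := .c 3 v33 (.c 4 v33 .e)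
noncomputable def q195 : Tr := .c 3 v36 (.c 4 v36 (.c 6 v36 .e))
noncomputable def r188 : Tr := .c 0 q58 (.c 1 q193 (.c 6 q58 (.c 7 q194 (.c 8 q195 .e))))
noncomputable def r189 : Tr := .c 1 q145 (.c 5 q189 (.c 8 q148 (.c 9 q148 .e)))
noncomputable def q196 : Tr := .c 4 v37 .e
noncomputable def r190 : Tr := .c 0 q196 (.c 5 q189 (.c 9 q148 .e))
noncomputable def r191 : Tr := .c 0 q58 (.c 5 q191 (.c 6 q58 .e))
noncomputable def r192 : Tr := .c 0 q58 (.c 1 q193 (.c 6 q58 (.c 7 q194 .e)))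
noncomputable def t44 : Tr := .c 3 r187 (.c 5 r188 (.c 6 r189 (.c 7 r190 (.c 8 r191 (.c 9 r192 .e)))))
noncomputable def r193 : Tr := .c 5 q189 (.c 6 q65 (.c 9 q148 .e))
noncomputable def q197 : Tr := .c 3 v27 (.c 4 v27 (.c 5 v28 .e))
noncomputable def r194 : Tr := .c 5 q192 (.c 6 q68 (.c 7 q197 (.c 8 q182 (.c 9 q183 .e))))
noncomputable def q198 : Tr := .c 3 v27 (.c 4 v27 (.c 5 v28 (.c 6 v27 .e)))
noncomputable def r195 : Tr := .c 0 q68 (.c 1 q198 (.c 6 q68 (.c 7 q197 (.c 8 q182 (.c 9 q183 .e)))))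
noncomputable def q199 : Tr := .c 3 v33 (.c 4 v33 (.c 5 v34 (.c 6 v33 .e)))
noncomputable def q200 : Tr := .c 3 v33 (.c 4 v33 (.c 5 v34 .e))
noncomputable def r196 : Tr := .c 0 q71 (.c 1 q199 (.c 6 q71 (.c 7 q200 (.c 8 q186 .e))))
noncomputable def r197 : Tr := .c 0 q71 (.c 5 q191 (.c 6 q71 .e))
noncomputable def r198 : Tr := .c 0 q71 (.c 1 q199 (.c 6 q71 (.c 7 q200 .e)))
noncomputable def t45 : Tr := .c 1 r193 (.c 2 r194 (.c 4 r195 (.c 5 r196 (.c 8 r197 (.c 9 r198 .e)))))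
noncomputable def r199 : Tr := .c 5 q192 (.c 7 q197 (.c 8 q182 (.c 9 q183 .e)))
noncomputable def r200 : Tr := .c 1 q198 (.c 7 q197 (.c 8 q182 (.c 9 q183 .e)))
noncomputable def t46 : Tr := .c 0 r199 (.c 2 r194 (.c 3 r200 (.c 4 r195 (.c 5 r196 (.c 9 r198 .e)))))
noncomputable def q201 : Tr := .c 3 v44 (.c 4 v44 (.c 5 v45 (.c 9 v45 .e)))
noncomputable def q202 : Tr := .c 3 v46 (.c 4 v46 (.c 5 v47 .e))
noncomputable def q203 : Tr := .c 3 v46 (.c 4 v46 .e)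
noncomputable def r201 : Tr := .c 7 q201 (.c 8 q202 (.c 9 q203 .e))
noncomputable def q204 : Tr := .c 9 v45 .e
noncomputable def r202 : Tr := .c 3 q204 (.c 6 q74 (.c 7 q201 (.c 8 q202 (.c 9 q203 .e))))
noncomputable def r203 : Tr := .c 1 q201 (.c 7 q201 (.c 8 q202 (.c 9 q203 .e)))
noncomputable def r204 : Tr := .c 0 q74 (.c 1 q201 (.c 6 q74 (.c 7 q201 (.c 8 q202 (.c 9 q203 .e)))))
noncomputable def q205 : Tr := .c 3 v48 (.c 4 v48 (.c 5 v43 (.c 9 v43 .e)))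
noncomputable def q206 : Tr := .c 3 v49 (.c 4 v49 (.c 5 v50 .e))
noncomputable def r205 : Tr := .c 0 q80 (.c 1 q205 (.c 6 q80 (.c 7 q205 (.c 8 q206 .e))))
noncomputable def r206 : Tr := .c 1 q201 (.c 8 q202 (.c 9 q203 .e))
noncomputable def t47 : Tr := .c 0 r201 (.c 2 r202 (.c 3 r203 (.c 4 r204 (.c 5 r205 (.c 6 r206 .e)))))
noncomputable def r207 : Tr := .c 1 q128 (.c 2 q129 (.c 7 q130 .e))
noncomputable def r208 : Tr := .c 0 q1 (.c 1 q128 (.c 6 q1 (.c 7 q130 .e)))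
noncomputable def r209 : Tr := .c 0 q5 (.c 1 q133 (.c 2 q134 (.c 6 q5 (.c 7 q135 .e))))
noncomputable def r210 : Tr := .c 1 q128 (.c 2 q129 (.c 4 q137 (.c 5 q138 .e)))
noncomputable def t48 : Tr := .c 3 r207 (.c 4 r208 (.c 5 r209 (.c 6 r210 (.c 9 r131 .e))))
noncomputable def r211 : Tr := .c 1 q141 (.c 2 q142 (.c 7 q143 .e))
noncomputable def r212 : Tr := .c 0 q55 (.c 1 q145 (.c 2 q146 (.c 6 q55 (.c 7 q147 .e))))
noncomputable def r213 : Tr := .c 1 q141 (.c 2 q142 (.c 4 q149 (.c 5 q150 .e)))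
noncomputable def r214 : Tr := .c 0 q151 (.c 2 q142 (.c 4 q149 (.c 5 q150 .e)))
noncomputable def t49 : Tr := .c 3 r211 (.c 5 r212 (.c 6 r213 (.c 7 r214 (.c 8 r136 (.c 9 r137 .e)))))
noncomputable def q207 : Tr := .c 3 v58 (.c 4 v58 .e)
noncomputable def r215 : Tr := .c 4 q149 (.c 5 q150 (.c 7 q207 .e))
noncomputable def v70 : Tr := .l 0x185144144103144185185144
noncomputable def q208 : Tr := .c 4 v70 .e
noncomputable def r216 : Tr := .c 4 q149 (.c 5 q150 (.c 6 q208 .e))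
noncomputable def t50 : Tr := .c 0 r215 (.c 1 r216 (.c 6 r213 (.c 7 r214 (.c 8 r136 (.c 9 r137 .e)))))
noncomputable def q209 : Tr := .c 6 v67 (.c 9 v18 .e)
noncomputable def v71 : Tr := .l 0x1031441441850c2103103144
noncomputable def q210 : Tr := .c 6 v71 .e
noncomputable def r217 : Tr := .c 4 q209 (.c 5 q210 (.c 7 q171 .e))
noncomputable def r218 : Tr := .c 3 q162 (.c 4 q209 (.c 5 q210 (.c 6 q174 .e)))
noncomputable def r219 : Tr := .c 3 q166 (.c 5 q210 (.c 6 q36 (.c 7 q171 .e)))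
noncomputable def q211 : Tr := .c 3 v19 (.c 5 v20 (.c 6 v19 (.c 9 v20 .e)))
noncomputable def q212 : Tr := .c 3 v67 (.c 5 v18 (.c 6 v67 (.c 9 v18 .e)))
noncomputable def r220 : Tr := .c 1 q211 (.c 2 q212 (.c 4 q209 (.c 5 q210 .e)))
noncomputable def r221 : Tr := .c 0 q174 (.c 2 q212 (.c 3 q162 (.c 4 q209 (.c 5 q210 .e))))
noncomputable def q213 : Tr := .c 5 v11 (.c 9 v11 .e)
noncomputable def v72 : Tr := .l 0x144185185186103144144185
noncomputable def q214 : Tr := .c 6 v72 .e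
noncomputable def r222 : Tr := .c 0 q213 (.c 2 q176 (.c 3 q177 (.c 4 q178 (.c 5 q214 (.c 6 q213 .e)))))
noncomputable def t51 : Tr := .c 0 r217 (.c 1 r218 (.c 2 r219 (.c 6 r220 (.c 7 r221 (.c 8 r222 .e)))))
noncomputable def r223 : Tr := .c 4 q162 (.c 7 q163 .e)
noncomputable def r224 : Tr := .c 3 q166 (.c 6 q27 (.c 7 q163 .e))
noncomputable def r225 : Tr := .c 1 q163 (.c 2 q167 (.c 7 q163 .e))
noncomputable def r226 : Tr := .c 0 q27 (.c 1 q163 (.c 6 q27 (.c 7 q163 .e)))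
noncomputable def r227 : Tr := .c 0 q33 (.c 1 q168 (.c 2 q169 (.c 6 q33 (.c 7 q168 .e))))
noncomputable def r228 : Tr := .c 1 q163 (.c 2 q167 (.c 4 q162 .e))
noncomputable def t52 : Tr := .c 0 r223 (.c 2 r224 (.c 3 r225 (.c 4 r226 (.c 5 r227 (.c 6 r228 .e)))))
noncomputable def r229 : Tr := .c 4 q162 (.c 7 q171 .e)
noncomputable def r230 : Tr := .c 3 q166 (.c 6 q36 (.c 7 q171 .e))
noncomputable def r231 : Tr := .c 1 q171 (.c 2 q167 (.c 7 q171 .e))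
noncomputable def r232 : Tr := .c 0 q36 (.c 1 q171 (.c 6 q36 (.c 7 q171 .e)))
noncomputable def r233 : Tr := .c 1 q171 (.c 2 q167 (.c 4 q162 .e))
noncomputable def t53 : Tr := .c 0 r229 (.c 1 r174 (.c 2 r230 (.c 3 r231 (.c 4 r232 (.c 6 r233 (.c 7 r179 .e))))))
noncomputable def r234 : Tr := .c 0 q40 (.c 1 q180 (.c 8 q182 (.c 9 q183 .e)))
noncomputable def r235 : Tr := .c 0 q45 (.c 1 q184 (.c 8 q186 .e))
noncomputable def r236 : Tr := .c 0 q45 (.c 3 q190 (.c 5 q191 .e))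
noncomputable def r237 : Tr := .c 0 q45 (.c 1 q184 (.c 3 q190 .e))
noncomputable def t54 : Tr := .c 4 r234 (.c 5 r235 (.c 7 r182 (.c 8 r236 (.c 9 r237 .e))))
noncomputable def r238 : Tr := .c 1 q180 (.c 8 q182 (.c 9 q183 .e))
noncomputable def t55 : Tr := .c 3 r238 (.c 4 r234 (.c 5 r235 (.c 6 r186 (.c 9 r237 .e))))
noncomputable def r239 : Tr := .c 1 q145 (.c 8 q148 (.c 9 q148 .e))
noncomputable def r240 : Tr := .c 0 q58 (.c 1 q193 (.c 8 q195 .e))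
noncomputable def r241 : Tr := .c 0 q58 (.c 5 q191 .e)
noncomputable def r242 : Tr := .c 0 q58 (.c 1 q193 .e)
noncomputable def t56 : Tr := .c 3 r239 (.c 5 r240 (.c 6 r189 (.c 7 r190 (.c 8 r241 (.c 9 r242 .e)))))
noncomputable def r243 : Tr := .c 3 q188 (.c 5 q189 (.c 9 q148 .e))
noncomputable def r244 : Tr := .c 3 q188 (.c 5 q192 (.c 8 q182 (.c 9 q183 .e)))
noncomputable def t57 : Tr := .c 1 r243 (.c 2 r244 (.c 7 r182 (.c 8 r236 (.c 9 r237 .e))))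
noncomputable def r245 : Tr := .c 5 q189 (.c 8 q148 (.c 9 q148 .e))
noncomputable def r246 : Tr := .c 5 q189 (.c 9 q148 .e)
noncomputable def t58 : Tr := .c 0 r245 (.c 1 r246 (.c 6 r189 (.c 7 r190 (.c 8 r241 (.c 9 r242 .e)))))
noncomputable def r247 : Tr := .c 5 q192 (.c 8 q182 (.c 9 q183 .e))
noncomputable def r248 : Tr := .c 0 q68 (.c 1 q198 (.c 8 q182 (.c 9 q183 .e)))
noncomputable def r249 : Tr := .c 0 q71 (.c 1 q199 (.c 8 q186 .e))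
noncomputable def r250 : Tr := .c 0 q71 (.c 5 q191 .e)
noncomputable def r251 : Tr := .c 0 q71 (.c 1 q199 .e)
noncomputable def t59 : Tr := .c 1 r246 (.c 2 r247 (.c 4 r248 (.c 5 r249 (.c 8 r250 (.c 9 r251 .e)))))
noncomputable def r252 : Tr := .c 1 q198 (.c 8 q182 (.c 9 q183 .e))
noncomputable def t60 : Tr := .c 0 r247 (.c 2 r247 (.c 3 r252 (.c 4 r248 (.c 5 r249 (.c 9 r251 .e)))))
noncomputable def v73 : Tr := .l 0x1050c40c40831441031030c2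
noncomputable def q215 : Tr := .c 3 v73 (.c 5 v34 (.c 6 v73 (.c 9 v34 .e)))
noncomputable def v74 : Tr := .l 0x185146146105144185185144
noncomputable def q216 : Tr := .c 3 v74 (.c 5 v38 (.c 6 v74 (.c 7 v74 (.c 8 v38 (.c 9 v38 .e)))))
noncomputable def q217 : Tr := .c 3 v73 (.c 5 v34 (.c 9 v34 .e))
noncomputable def v75 : Tr := .l 0xc41050830c41031440c2103
noncomputable def q218 : Tr := .c 3 v75 (.c 5 v32 (.c 6 v75 .e))
noncomputable def q219 : Tr := .c 3 v75 (.c 6 v75 (.c 7 v75 .e))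
noncomputable def r253 : Tr := .c 1 q215 (.c 2 q216 (.c 7 q217 (.c 8 q218 (.c 9 q219 .e))))
noncomputable def v76 : Tr := .l 0x1051460c4105144185103144
noncomputable def q220 : Tr := .c 5 v34 (.c 7 v76 (.c 8 v34 (.c 9 v34 .e)))
noncomputable def q221 : Tr := .c 5 v34 (.c 8 v34 (.c 9 v34 .e))
noncomputable def r254 : Tr := .c 0 q220 (.c 1 q215 (.c 6 q221 (.c 7 q217 (.c 8 q218 (.c 9 q219 .e)))))
noncomputable def q222 : Tr := .c 6 v74 (.c 7 v74 (.c 8 v38 (.c 9 v38 .e)))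
noncomputable def v77 : Tr := .l 0x1050c40c4105144105103144
noncomputable def q223 : Tr := .c 6 v75 (.c 7 v75 (.c 8 v77 .e))
noncomputable def r255 : Tr := .c 1 q215 (.c 2 q216 (.c 4 q222 (.c 5 q223 (.c 8 q218 (.c 9 q219 .e)))))
noncomputable def t61 : Tr := .c 3 r253 (.c 4 r254 (.c 6 r255 .e))
noncomputable def q224 : Tr := .c 3 v74 (.c 6 v74 .e)
noncomputable def q225 : Tr := .c 3 v55 (.c 6 v55 (.c 7 v55 (.c 8 v38 .e)))
noncomputable def q226 : Tr := .c 3 v74 .e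
noncomputable def q227 : Tr := .c 3 v56 (.c 6 v56 .e)
noncomputable def q228 : Tr := .c 3 v56 (.c 6 v56 (.c 7 v56 .e))
noncomputable def r256 : Tr := .c 1 q224 (.c 2 q225 (.c 7 q226 (.c 8 q227 (.c 9 q228 .e))))
noncomputable def q229 : Tr := .c 6 v55 (.c 7 v55 (.c 8 v38 .e))
noncomputable def q230 : Tr := .c 6 v56 (.c 7 v56 (.c 8 v57 .e))
noncomputable def r257 : Tr := .c 1 q224 (.c 2 q225 (.c 4 q229 (.c 5 q230 (.c 8 q227 (.c 9 q228 .e)))))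
noncomputable def r258 : Tr := .c 0 q93 (.c 2 q225 (.c 3 q93 (.c 4 q229 (.c 5 q230 (.c 9 q228 .e)))))
noncomputable def q231 : Tr := .c 3 v38 (.c 6 v38 (.c 7 v38 (.c 8 v35 .e)))
noncomputable def q232 : Tr := .c 6 v38 (.c 7 v38 (.c 8 v35 .e))
noncomputable def q233 : Tr := .c 8 v35 .e
noncomputable def r259 : Tr := .c 0 q53 (.c 2 q231 (.c 3 q53 (.c 4 q232 (.c 5 q229 (.c 6 q233 .e)))))
noncomputable def t62 : Tr := .c 3 r256 (.c 6 r257 (.c 7 r258 (.c 8 r259 .e)))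
noncomputable def q234 : Tr := .c 6 v17 (.c 7 v17 .e)
noncomputable def q235 : Tr := .c 6 v75 (.c 7 v75 .e)
noncomputable def q236 : Tr := .c 3 v73 (.c 5 v34 .e)
noncomputable def r260 : Tr := .c 4 q234 (.c 5 q235 (.c 7 q236 (.c 8 q218 (.c 9 q219 .e))))
noncomputable def v78 : Tr := .l 0x1050c40c40831441051030c4
noncomputable def q237 : Tr := .c 7 v78 .e
noncomputable def q238 : Tr := .c 5 v34 .e
noncomputable def r261 : Tr := .c 3 q237 (.c 5 q235 (.c 6 q238 (.c 7 q236 (.c 8 q218 (.c 9 q219 .e)))))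
noncomputable def q239 : Tr := .c 3 v73 (.c 5 v34 (.c 6 v73 .e))
noncomputable def q240 : Tr := .c 3 v74 (.c 5 v38 (.c 6 v74 (.c 7 v74 .e)))
noncomputable def r262 : Tr := .c 1 q239 (.c 2 q240 (.c 7 q236 (.c 8 q218 (.c 9 q219 .e))))
noncomputable def q241 : Tr := .c 5 v34 (.c 7 v76 .e)
noncomputable def r263 : Tr := .c 0 q241 (.c 1 q239 (.c 6 q238 (.c 7 q236 (.c 8 q218 (.c 9 q219 .e)))))
noncomputable def t63 : Tr := .c 0 r260 (.c 2 r261 (.c 3 r262 (.c 4 r263 .e)))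
noncomputable def v79 : Tr := .l 0xc40831050c41030c2144103
noncomputable def q242 : Tr := .c 3 v79 (.c 5 v43 (.c 9 v43 .e))
noncomputable def v80 : Tr := .l 0x830c40c41050c2103103144
noncomputable def q243 : Tr := .c 3 v80 (.c 5 v50 .e)
noncomputable def q244 : Tr := .c 3 v80 .e
noncomputable def r264 : Tr := .c 4 q114 (.c 5 q115 (.c 7 q242 (.c 8 q243 (.c 9 q244 .e))))
noncomputable def r265 : Tr := .c 3 q116 (.c 5 q115 (.c 6 q111 (.c 7 q242 (.c 8 q243 (.c 9 q244 .e)))))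
noncomputable def q245 : Tr := .c 3 v56 (.c 5 v57 (.c 8 v57 (.c 9 v57 .e)))
noncomputable def r266 : Tr := .c 1 q242 (.c 2 q245 (.c 7 q242 (.c 8 q243 (.c 9 q244 .e))))
noncomputable def r267 : Tr := .c 0 q111 (.c 1 q242 (.c 6 q111 (.c 7 q242 (.c 8 q243 (.c 9 q244 .e)))))
noncomputable def r268 : Tr := .c 1 q242 (.c 2 q245 (.c 4 q114 (.c 5 q115 (.c 8 q243 (.c 9 q244 .e)))))
noncomputable def t64 : Tr := .c 0 r264 (.c 2 r265 (.c 3 r266 (.c 4 r267 (.c 6 r268 .e))))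
noncomputable def r269 : Tr := .c 3 q114 (.c 4 q114 (.c 5 q115 (.c 6 q109 (.c 9 q244 .e))))
noncomputable def r270 : Tr := .c 0 q109 (.c 2 q245 (.c 3 q114 (.c 4 q114 (.c 5 q115 (.c 9 q244 .e)))))
noncomputable def t65 : Tr := .c 0 r264 (.c 1 r269 (.c 2 r265 (.c 3 r266 (.c 4 r267 (.c 6 r268 (.c 7 r270 .e))))))
noncomputable def q246 : Tr := .c 5 v28 (.c 7 v29 (.c 8 v28 (.c 9 v28 .e)))
noncomputable def q247 : Tr := .c 3 v34 (.c 5 v28 (.c 6 v34 (.c 9 v28 .e)))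
noncomputable def q248 : Tr := .c 5 v28 (.c 8 v28 (.c 9 v28 .e))
noncomputable def q249 : Tr := .c 3 v34 (.c 5 v28 (.c 9 v28 .e))
noncomputable def q250 : Tr := .c 3 v32 (.c 5 v31 (.c 6 v32 .e))
noncomputable def q251 : Tr := .c 3 v32 (.c 6 v32 (.c 7 v32 .e))
noncomputable def r271 : Tr := .c 0 q246 (.c 1 q247 (.c 6 q248 (.c 7 q249 (.c 8 q250 (.c 9 q251 .e)))))
noncomputable def q252 : Tr := .c 6 v39 (.c 7 v39 (.c 8 v38 .e))
noncomputable def q253 : Tr := .c 3 v39 (.c 6 v39 (.c 7 v39 .e))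
noncomputable def r272 : Tr := .c 0 q87 (.c 3 q49 (.c 5 q252 (.c 9 q253 .e)))
noncomputable def r273 : Tr := .c 0 q117 (.c 3 q52 (.c 5 q232 (.c 6 q221 .e)))
noncomputable def t66 : Tr := .c 4 r271 (.c 7 r272 (.c 8 r273 .e))
noncomputable def r274 : Tr := .c 1 q247 (.c 7 q249 (.c 8 q250 (.c 9 q251 .e)))
noncomputable def q254 : Tr := .c 6 v32 (.c 7 v32 (.c 8 v41 .e))
noncomputable def r275 : Tr := .c 1 q247 (.c 5 q254 (.c 8 q250 (.c 9 q251 .e)))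
noncomputable def t67 : Tr := .c 3 r274 (.c 4 r271 (.c 6 r275 .e))
noncomputable def q255 : Tr := .c 3 v38 (.c 6 v38 .e)
noncomputable def q256 : Tr := .c 3 v38 .e
noncomputable def q257 : Tr := .c 3 v39 (.c 6 v39 .e)
noncomputable def r276 : Tr := .c 1 q255 (.c 7 q256 (.c 8 q257 (.c 9 q253 .e)))
noncomputable def r277 : Tr := .c 1 q255 (.c 5 q252 (.c 8 q257 (.c 9 q253 .e)))
noncomputable def r278 : Tr := .c 0 q53 (.c 3 q53 (.c 5 q252 (.c 9 q253 .e)))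
noncomputable def q258 : Tr := .c 8 v34 .e
noncomputable def r279 : Tr := .c 0 q62 (.c 3 q62 (.c 5 q232 (.c 6 q258 .e)))
noncomputable def t68 : Tr := .c 3 r276 (.c 6 r277 (.c 7 r278 (.c 8 r279 .e)))
noncomputable def q259 : Tr := .c 6 v39 (.c 7 v39 .e)
noncomputable def q260 : Tr := .c 5 v35 .e
noncomputable def r280 : Tr := .c 3 q63 (.c 5 q259 (.c 6 q260 (.c 9 q253 .e)))
noncomputable def q261 : Tr := .c 6 v32 (.c 7 v32 .e)
noncomputable def q262 : Tr := .c 5 v28 .e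
noncomputable def q263 : Tr := .c 3 v34 (.c 5 v28 .e)
noncomputable def r281 : Tr := .c 3 q66 (.c 5 q261 (.c 6 q262 (.c 7 q263 (.c 8 q250 (.c 9 q251 .e)))))
noncomputable def q264 : Tr := .c 5 v28 (.c 7 v29 .e)
noncomputable def q265 : Tr := .c 3 v34 (.c 5 v28 (.c 6 v34 .e))
noncomputable def r282 : Tr := .c 0 q264 (.c 1 q265 (.c 6 q262 (.c 7 q263 (.c 8 q250 (.c 9 q251 .e)))))
noncomputable def q266 : Tr := .c 6 v38 (.c 7 v38 .e)
noncomputable def r283 : Tr := .c 0 q127 (.c 3 q72 (.c 5 q266 (.c 6 q238 .e)))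
noncomputable def t69 : Tr := .c 1 r280 (.c 2 r281 (.c 4 r282 (.c 8 r283 .e)))
noncomputable def r284 : Tr := .c 5 q261 (.c 7 q263 (.c 8 q250 (.c 9 q251 .e)))
noncomputable def r285 : Tr := .c 1 q265 (.c 7 q263 (.c 8 q250 (.c 9 q251 .e)))
noncomputable def t70 : Tr := .c 0 r284 (.c 2 r281 (.c 3 r285 (.c 4 r282 .e)))
noncomputable def q267 : Tr := .c 3 v43 (.c 5 v45 (.c 9 v45 .e))
noncomputable def q268 : Tr := .c 3 v50 (.c 5 v47 .e)
noncomputable def q269 : Tr := .c 3 v50 .e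
noncomputable def r286 : Tr := .c 5 q73 (.c 7 q267 (.c 8 q268 (.c 9 q269 .e)))
noncomputable def q270 : Tr := .c 5 v45 (.c 8 v45 (.c 9 v45 .e))
noncomputable def r287 : Tr := .c 3 q77 (.c 5 q73 (.c 6 q270 (.c 7 q267 (.c 8 q268 (.c 9 q269 .e)))))
noncomputable def r288 : Tr := .c 1 q267 (.c 7 q267 (.c 8 q268 (.c 9 q269 .e)))
noncomputable def r289 : Tr := .c 0 q270 (.c 1 q267 (.c 6 q270 (.c 7 q267 (.c 8 q268 (.c 9 q269 .e)))))
noncomputable def r290 : Tr := .c 1 q267 (.c 5 q73 (.c 8 q268 (.c 9 q269 .e)))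
noncomputable def t71 : Tr := .c 0 r286 (.c 2 r287 (.c 3 r288 (.c 4 r289 (.c 6 r290 .e))))
noncomputable def r291 : Tr := .c 1 q215 (.c 2 q216 (.c 7 q217 .e))
noncomputable def r292 : Tr := .c 0 q220 (.c 1 q215 (.c 6 q221 (.c 7 q217 .e)))
noncomputable def r293 : Tr := .c 1 q215 (.c 2 q216 (.c 4 q222 (.c 5 q223 .e)))
noncomputable def t72 : Tr := .c 3 r291 (.c 4 r292 (.c 6 r293 .e))
noncomputable def r294 : Tr := .c 1 q224 (.c 2 q225 (.c 7 q226 .e))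
noncomputable def r295 : Tr := .c 1 q224 (.c 2 q225 (.c 4 q229 (.c 5 q230 .e)))
noncomputable def r296 : Tr := .c 0 q93 (.c 2 q225 (.c 3 q93 (.c 4 q229 (.c 5 q230 .e))))
noncomputable def t73 : Tr := .c 3 r294 (.c 6 r295 (.c 7 r296 (.c 8 r259 .e)))
noncomputable def q271 : Tr := .c 3 v17 .e
noncomputable def r297 : Tr := .c 4 q229 (.c 5 q230 (.c 7 q271 .e))
noncomputable def q272 : Tr := .c 8 v38 .e
noncomputable def r298 : Tr := .c 3 q93 (.c 4 q229 (.c 5 q230 (.c 6 q272 .e)))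
noncomputable def t74 : Tr := .c 0 r297 (.c 1 r298 (.c 6 r295 (.c 7 r296 (.c 8 r259 .e))))
noncomputable def q273 : Tr := .c 6 v56 (.c 7 v56 (.c 8 v57 (.c 9 v57 .e)))
noncomputable def q274 : Tr := .c 6 v61 (.c 7 v61 (.c 8 v62 .e))
noncomputable def r299 : Tr := .c 4 q273 (.c 5 q274 (.c 7 q242 .e))
noncomputable def r300 : Tr := .c 3 q106 (.c 4 q273 (.c 5 q274 (.c 6 q109 .e)))
noncomputable def r301 : Tr := .c 3 q110 (.c 5 q274 (.c 6 q111 (.c 7 q242 .e)))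
noncomputable def q275 : Tr := .c 3 v79 (.c 5 v43 (.c 6 v79 (.c 9 v43 .e)))
noncomputable def q276 : Tr := .c 3 v56 (.c 5 v57 (.c 6 v56 (.c 7 v56 (.c 8 v57 (.c 9 v57 .e)))))
noncomputable def r302 : Tr := .c 1 q275 (.c 2 q276 (.c 4 q273 (.c 5 q274 .e)))
noncomputable def r303 : Tr := .c 0 q112 (.c 2 q276 (.c 3 q106 (.c 4 q273 (.c 5 q274 .e))))
noncomputable def q277 : Tr := .c 3 v55 (.c 5 v38 (.c 6 v55 (.c 7 v55 (.c 8 v38 (.c 9 v38 .e)))))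
noncomputable def q278 : Tr := .c 6 v55 (.c 7 v55 (.c 8 v38 (.c 9 v38 .e)))
noncomputable def r304 : Tr := .c 0 q90 (.c 2 q277 (.c 3 q91 (.c 4 q278 (.c 5 q230 (.c 6 q113 .e)))))
noncomputable def t75 : Tr := .c 0 r299 (.c 1 r300 (.c 2 r301 (.c 6 r302 (.c 7 r303 (.c 8 r304 .e)))))
noncomputable def r305 : Tr := .c 4 q114 (.c 5 q115 (.c 7 q242 .e))
noncomputable def r306 : Tr := .c 3 q116 (.c 5 q115 (.c 6 q111 (.c 7 q242 .e)))
noncomputable def r307 : Tr := .c 1 q242 (.c 2 q245 (.c 7 q242 .e))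
noncomputable def r308 : Tr := .c 0 q111 (.c 1 q242 (.c 6 q111 (.c 7 q242 .e)))
noncomputable def r309 : Tr := .c 1 q242 (.c 2 q245 (.c 4 q114 (.c 5 q115 .e)))
noncomputable def t76 : Tr := .c 0 r305 (.c 2 r306 (.c 3 r307 (.c 4 r308 (.c 6 r309 .e))))
noncomputable def r310 : Tr := .c 0 q109 (.c 2 q245 (.c 3 q114 (.c 4 q114 (.c 5 q115 .e))))
noncomputable def t77 : Tr := .c 0 r305 (.c 1 r77 (.c 2 r306 (.c 3 r307 (.c 4 r308 (.c 6 r309 (.c 7 r310 .e))))))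
noncomputable def q279 : Tr := .c 5 v52 (.c 7 v53 (.c 8 v52 (.c 9 v52 .e)))
noncomputable def v81 : Tr := .l 0x1050c4146105144103185144
noncomputable def q280 : Tr := .c 3 v81 (.c 5 v52 (.c 6 v81 (.c 9 v52 .e)))
noncomputable def q281 : Tr := .c 5 v52 (.c 8 v52 (.c 9 v52 .e))
noncomputable def q282 : Tr := .c 3 v81 (.c 5 v52 (.c 9 v52 .e))
noncomputable def r311 : Tr := .c 0 q279 (.c 1 q280 (.c 6 q281 (.c 7 q282 .e)))
noncomputable def r312 : Tr := .c 0 q90 (.c 2 q277 (.c 3 q91 (.c 4 q278 (.c 5 q230 .e))))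
noncomputable def q283 : Tr := .c 3 v38 (.c 5 v35 (.c 6 v38 (.c 7 v38 (.c 8 v35 (.c 9 v35 .e)))))
noncomputable def q284 : Tr := .c 6 v38 (.c 7 v38 (.c 8 v35 (.c 9 v35 .e)))
noncomputable def q285 : Tr := .c 5 v35 (.c 8 v35 (.c 9 v35 .e))
noncomputable def r313 : Tr := .c 0 q87 (.c 2 q283 (.c 3 q49 (.c 4 q284 (.c 5 q229 (.c 6 q285 .e)))))
noncomputable def t78 : Tr := .c 4 r311 (.c 7 r312 (.c 8 r313 .e))
noncomputable def r314 : Tr := .c 3 q91 (.c 4 q278 (.c 5 q230 (.c 6 q113 .e)))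
noncomputable def q286 : Tr := .c 6 v60 (.c 7 v60 (.c 8 v59 .e))
noncomputable def v82 : Tr := .l 0x1050c40c40831441031050c4
noncomputable def q287 : Tr := .c 3 v82 (.c 5 v34 (.c 9 v34 .e))
noncomputable def r315 : Tr := .c 3 q100 (.c 5 q286 (.c 6 q221 (.c 7 q287 .e)))
noncomputable def t79 : Tr := .c 1 r314 (.c 2 r315 (.c 7 r312 (.c 8 r313 .e)))
noncomputable def r316 : Tr := .c 0 q246 (.c 1 q247 (.c 8 q250 (.c 9 q251 .e)))
noncomputable def r317 : Tr := .c 0 q87 (.c 2 q283 (.c 3 q49 (.c 4 q284 (.c 5 q252 (.c 9 q253 .e)))))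
noncomputable def q288 : Tr := .c 3 v35 (.c 5 v34 (.c 6 v35 (.c 7 v35 (.c 8 v34 (.c 9 v34 .e)))))
noncomputable def q289 : Tr := .c 6 v35 (.c 7 v35 (.c 8 v34 (.c 9 v34 .e)))
noncomputable def r318 : Tr := .c 0 q117 (.c 2 q288 (.c 3 q52 (.c 4 q289 (.c 5 q232 .e))))
noncomputable def t80 : Tr := .c 4 r316 (.c 7 r317 (.c 8 r318 .e))
noncomputable def r319 : Tr := .c 1 q255 (.c 2 q231 (.c 8 q257 (.c 9 q253 .e)))
noncomputable def r320 : Tr := .c 1 q255 (.c 2 q231 (.c 4 q232 (.c 5 q252 (.c 8 q257 (.c 9 q253 .e)))))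
noncomputable def r321 : Tr := .c 0 q53 (.c 2 q231 (.c 3 q53 (.c 4 q232 (.c 5 q252 (.c 9 q253 .e)))))
noncomputable def q290 : Tr := .c 3 v35 (.c 6 v35 (.c 7 v35 (.c 8 v34 .e)))
noncomputable def q291 : Tr := .c 6 v35 (.c 7 v35 (.c 8 v34 .e))
noncomputable def r322 : Tr := .c 0 q62 (.c 2 q290 (.c 3 q62 (.c 4 q291 (.c 5 q232 .e))))
noncomputable def t81 : Tr := .c 3 r319 (.c 6 r320 (.c 7 r321 (.c 8 r322 .e)))
noncomputable def r323 : Tr := .c 3 q49 (.c 4 q284 (.c 5 q252 (.c 9 q253 .e)))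
noncomputable def q292 : Tr := .c 6 v32 (.c 7 v32 (.c 8 v29 .e))
noncomputable def r324 : Tr := .c 3 q118 (.c 5 q292 (.c 8 q250 (.c 9 q251 .e)))
noncomputable def t82 : Tr := .c 1 r323 (.c 2 r324 (.c 7 r317 (.c 8 r318 .e)))
noncomputable def r325 : Tr := .c 4 q232 (.c 5 q252 (.c 8 q257 (.c 9 q253 .e)))
noncomputable def r326 : Tr := .c 3 q53 (.c 4 q232 (.c 5 q252 (.c 9 q253 .e)))
noncomputable def t83 : Tr := .c 0 r325 (.c 1 r326 (.c 6 r320 (.c 7 r321 (.c 8 r322 .e))))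
noncomputable def q293 : Tr := .c 6 v39 (.c 7 v39 (.c 8 v38 (.c 9 v38 .e)))
noncomputable def q294 : Tr := .c 6 v60 (.c 7 v60 (.c 8 v63 .e))
noncomputable def q295 : Tr := .c 3 v60 (.c 5 v32 (.c 6 v60 .e))
noncomputable def q296 : Tr := .c 3 v60 (.c 6 v60 (.c 7 v60 .e))
noncomputable def r327 : Tr := .c 4 q293 (.c 5 q294 (.c 8 q295 (.c 9 q296 .e)))
noncomputable def r328 : Tr := .c 3 q120 (.c 4 q293 (.c 5 q294 (.c 9 q296 .e)))
noncomputable def r329 : Tr := .c 3 q124 (.c 5 q294 (.c 8 q295 (.c 9 q296 .e)))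
noncomputable def v83 : Tr := .l 0x1050c40c4105144103105144
noncomputable def q297 : Tr := .c 3 v83 (.c 5 v41 (.c 6 v83 (.c 9 v41 .e)))
noncomputable def q298 : Tr := .c 3 v39 (.c 5 v38 (.c 6 v39 (.c 7 v39 (.c 8 v38 (.c 9 v38 .e)))))
noncomputable def r330 : Tr := .c 1 q297 (.c 2 q298 (.c 4 q293 (.c 5 q294 (.c 8 q295 (.c 9 q296 .e)))))
noncomputable def r331 : Tr := .c 0 q126 (.c 2 q298 (.c 3 q120 (.c 4 q293 (.c 5 q294 (.c 9 q296 .e)))))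
noncomputable def r332 : Tr := .c 0 q87 (.c 2 q283 (.c 3 q49 (.c 4 q284 (.c 5 q252 .e))))
noncomputable def t84 : Tr := .c 0 r327 (.c 1 r328 (.c 2 r329 (.c 6 r330 (.c 7 r331 (.c 8 r332 .e)))))
noncomputable def r333 : Tr := .c 3 q63 (.c 4 q266 (.c 5 q259 (.c 9 q253 .e)))
noncomputable def r334 : Tr := .c 3 q66 (.c 5 q261 (.c 8 q250 (.c 9 q251 .e)))
noncomputable def r335 : Tr := .c 0 q264 (.c 1 q265 (.c 8 q250 (.c 9 q251 .e)))
noncomputable def q299 : Tr := .c 3 v35 (.c 5 v34 (.c 6 v35 (.c 7 v35 .e)))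
noncomputable def q300 : Tr := .c 6 v35 (.c 7 v35 .e)
noncomputable def r336 : Tr := .c 0 q127 (.c 2 q299 (.c 3 q72 (.c 4 q300 (.c 5 q266 .e))))
noncomputable def t85 : Tr := .c 1 r333 (.c 2 r334 (.c 4 r335 (.c 8 r336 .e)))
noncomputable def r337 : Tr := .c 0 q117 (.c 3 q52 (.c 5 q232 .e))
noncomputable def t86 : Tr := .c 4 r316 (.c 7 r272 (.c 8 r337 .e))
noncomputable def r338 : Tr := .c 1 q247 (.c 8 q250 (.c 9 q251 .e))
noncomputable def t87 : Tr := .c 3 r338 (.c 4 r316 (.c 6 r275 .e))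
noncomputable def r339 : Tr := .c 1 q255 (.c 8 q257 (.c 9 q253 .e))
noncomputable def r340 : Tr := .c 0 q62 (.c 3 q62 (.c 5 q232 .e))
noncomputable def t88 : Tr := .c 3 r339 (.c 6 r277 (.c 7 r278 (.c 8 r340 .e)))
noncomputable def r341 : Tr := .c 3 q49 (.c 5 q252 (.c 9 q253 .e))
noncomputable def t89 : Tr := .c 1 r341 (.c 2 r324 (.c 7 r272 (.c 8 r337 .e)))
noncomputable def r342 : Tr := .c 5 q252 (.c 8 q257 (.c 9 q253 .e))
noncomputable def r343 : Tr := .c 3 q53 (.c 5 q252 (.c 9 q253 .e))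
noncomputable def t90 : Tr := .c 0 r342 (.c 1 r343 (.c 6 r277 (.c 7 r278 (.c 8 r340 .e))))
noncomputable def r344 : Tr := .c 3 q63 (.c 5 q259 (.c 9 q253 .e))
noncomputable def r345 : Tr := .c 0 q127 (.c 3 q72 (.c 5 q266 .e))
noncomputable def t91 : Tr := .c 1 r344 (.c 2 r334 (.c 4 r335 (.c 8 r345 .e)))
noncomputable def r346 : Tr := .c 5 q261 (.c 8 q250 (.c 9 q251 .e))
noncomputable def r347 : Tr := .c 1 q265 (.c 8 q250 (.c 9 q251 .e))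
noncomputable def t92 : Tr := .c 0 r346 (.c 2 r334 (.c 3 r347 (.c 4 r335 .e)))
noncomputable def q301 : Tr := .c 1 v55 (.c 2 v70 (.c 7 v55 (.c 8 v38 (.c 9 v38 .e))))
noncomputable def q302 : Tr := .c 1 v55 (.c 7 v55 (.c 8 v38 (.c 9 v38 .e)))
noncomputable def v84 : Tr := .l 0x144185103144103144144185
noncomputable def q303 : Tr := .c 1 v56 (.c 2 v84 (.c 7 v56 (.c 8 v57 .e)))
noncomputable def q304 : Tr := .c 1 v55 (.c 2 v70 (.c 8 v38 (.c 9 v38 .e)))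
noncomputable def q305 : Tr := .c 1 v56 (.c 2 v84 (.c 7 v56 .e))
noncomputable def r348 : Tr := .c 3 q301 (.c 4 q302 (.c 5 q303 (.c 6 q304 (.c 9 q305 .e))))
noncomputable def q306 : Tr := .c 1 v59 (.c 2 v33 (.c 7 v59 (.c 8 v34 (.c 9 v34 .e))))
noncomputable def q307 : Tr := .c 1 v60 (.c 2 v36 (.c 7 v60 (.c 8 v59 .e)))
noncomputable def q308 : Tr := .c 1 v59 (.c 2 v33 (.c 8 v34 (.c 9 v34 .e)))
noncomputable def q309 : Tr := .c 2 v33 (.c 9 v34 .e)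
noncomputable def q310 : Tr := .c 2 v36 .e
noncomputable def q311 : Tr := .c 1 v60 (.c 2 v36 (.c 7 v60 .e))
noncomputable def r349 : Tr := .c 3 q306 (.c 5 q307 (.c 6 q308 (.c 7 q309 (.c 8 q310 (.c 9 q311 .e)))))
noncomputable def r350 : Tr := .c 0 q91 (.c 2 q91 (.c 3 q301 (.c 4 q302 (.c 5 q303 (.c 9 q305 .e)))))
noncomputable def q312 : Tr := .c 1 v38 (.c 2 v42 (.c 7 v38 (.c 8 v35 (.c 9 v35 .e))))
noncomputable def q313 : Tr := .c 1 v38 (.c 7 v38 (.c 8 v35 (.c 9 v35 .e)))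
noncomputable def q314 : Tr := .c 1 v55 (.c 2 v70 (.c 7 v55 (.c 8 v38 .e)))
noncomputable def q315 : Tr := .c 1 v38 (.c 2 v42 (.c 8 v35 (.c 9 v35 .e)))
noncomputable def r351 : Tr := .c 0 q49 (.c 2 q49 (.c 3 q312 (.c 4 q313 (.c 5 q314 (.c 6 q315 .e)))))
noncomputable def q316 : Tr := .c 2 v42 (.c 9 v35 .e)
noncomputable def r352 : Tr := .c 0 q49 (.c 1 q188 (.c 2 q49 (.c 3 q312 (.c 4 q313 (.c 6 q315 (.c 7 q316 .e))))))
noncomputable def t93 : Tr := .c 1 r348 (.c 2 r349 (.c 7 r350 (.c 8 r351 (.c 9 r352 .e))))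
noncomputable def q317 : Tr := .c 1 v55 (.c 7 v55 (.c 8 v38 .e))
noncomputable def v85 : Tr := .l 0x185144144103186185185144
noncomputable def q318 : Tr := .c 2 v85 .e
noncomputable def q319 : Tr := .c 2 v84 .e
noncomputable def r353 : Tr := .c 4 q317 (.c 5 q303 (.c 7 q318 (.c 8 q319 (.c 9 q305 .e))))
noncomputable def q320 : Tr := .c 1 v55 (.c 2 v70 (.c 8 v38 .e))
noncomputable def r354 : Tr := .c 3 q314 (.c 4 q317 (.c 5 q303 (.c 6 q320 (.c 9 q305 .e))))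
noncomputable def r355 : Tr := .c 2 q93 (.c 4 q317 (.c 5 q303 (.c 8 q319 (.c 9 q305 .e))))
noncomputable def r356 : Tr := .c 0 q93 (.c 2 q93 (.c 3 q314 (.c 4 q317 (.c 5 q303 (.c 9 q305 .e)))))
noncomputable def q321 : Tr := .c 1 v38 (.c 2 v42 (.c 7 v38 (.c 8 v35 .e)))
noncomputable def q322 : Tr := .c 1 v38 (.c 7 v38 (.c 8 v35 .e))
noncomputable def q323 : Tr := .c 1 v38 (.c 2 v42 (.c 8 v35 .e))
noncomputable def r357 : Tr := .c 0 q53 (.c 2 q53 (.c 3 q321 (.c 4 q322 (.c 5 q314 (.c 6 q323 .e)))))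
noncomputable def q324 : Tr := .c 2 v42 .e
noncomputable def r358 : Tr := .c 0 q53 (.c 2 q53 (.c 3 q321 (.c 4 q322 (.c 6 q323 (.c 7 q324 .e)))))
noncomputable def t94 : Tr := .c 0 r353 (.c 1 r354 (.c 6 r355 (.c 7 r356 (.c 8 r357 (.c 9 r358 .e)))))
noncomputable def q325 : Tr := .c 1 v56 (.c 7 v56 (.c 8 v57 (.c 9 v57 .e)))
noncomputable def q326 : Tr := .c 1 v61 (.c 7 v61 (.c 8 v62 .e))
noncomputable def q327 : Tr := .c 9 v43 .e
noncomputable def q328 : Tr := .c 1 v61 (.c 7 v61 .e)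
noncomputable def r359 : Tr := .c 4 q325 (.c 5 q326 (.c 7 q327 (.c 9 q328 .e)))
noncomputable def q329 : Tr := .c 1 v56 (.c 8 v57 (.c 9 v57 .e))
noncomputable def r360 : Tr := .c 3 q325 (.c 4 q325 (.c 5 q326 (.c 6 q329 (.c 9 q328 .e))))
noncomputable def q330 : Tr := .c 1 v62 (.c 7 v62 (.c 8 v43 (.c 9 v43 .e)))
noncomputable def q331 : Tr := .c 1 v62 (.c 8 v43 (.c 9 v43 .e))
noncomputable def r361 : Tr := .c 3 q330 (.c 5 q326 (.c 6 q331 (.c 7 q327 (.c 9 q328 .e))))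
noncomputable def r362 : Tr := .c 1 q327 (.c 2 q106 (.c 4 q325 (.c 5 q326 (.c 9 q328 .e))))
noncomputable def r363 : Tr := .c 0 q106 (.c 2 q106 (.c 3 q325 (.c 4 q325 (.c 5 q326 (.c 9 q328 .e)))))
noncomputable def q332 : Tr := .c 1 v56 (.c 7 v56 (.c 8 v57 .e))
noncomputable def q333 : Tr := .c 1 v55 (.c 8 v38 (.c 9 v38 .e))
noncomputable def r364 : Tr := .c 0 q91 (.c 2 q91 (.c 3 q302 (.c 4 q302 (.c 5 q332 (.c 6 q333 .e)))))
noncomputable def t95 : Tr := .c 0 r359 (.c 1 r360 (.c 2 r361 (.c 6 r362 (.c 7 r363 (.c 8 r364 .e)))))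
noncomputable def q334 : Tr := .c 1 v55 (.c 2 v70 (.c 7 v55 .e))
noncomputable def q335 : Tr := .c 1 v55 (.c 7 v55 .e)
noncomputable def q336 : Tr := .c 1 v55 (.c 2 v70 .e)
noncomputable def r365 : Tr := .c 3 q334 (.c 4 q335 (.c 5 q305 (.c 6 q336 (.c 9 q305 .e))))
noncomputable def q337 : Tr := .c 1 v59 (.c 2 v33 (.c 7 v59 .e))
noncomputable def q338 : Tr := .c 1 v59 (.c 2 v33 .e)
noncomputable def q339 : Tr := .c 2 v33 .e
noncomputable def r366 : Tr := .c 3 q337 (.c 5 q311 (.c 6 q338 (.c 7 q339 (.c 8 q310 (.c 9 q311 .e)))))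
noncomputable def v86 : Tr := .l 0x1051460c4105146186105146
noncomputable def q340 : Tr := .c 7 v86 .e
noncomputable def r367 : Tr := .c 0 q340 (.c 6 q338 (.c 7 q339 (.c 8 q310 (.c 9 q311 .e))))
noncomputable def q341 : Tr := .c 1 v38 (.c 2 v42 .e)
noncomputable def q342 : Tr := .c 2 v40 .e
noncomputable def r368 : Tr := .c 0 q63 (.c 2 q63 (.c 6 q341 (.c 7 q324 (.c 8 q342 .e))))
noncomputable def q343 : Tr := .c 1 v38 (.c 2 v42 (.c 7 v38 .e))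
noncomputable def q344 : Tr := .c 1 v38 (.c 7 v38 .e)
noncomputable def r369 : Tr := .c 0 q63 (.c 2 q63 (.c 3 q343 (.c 4 q344 (.c 5 q334 (.c 6 q341 .e)))))
noncomputable def r370 : Tr := .c 0 q63 (.c 2 q63 (.c 3 q343 (.c 4 q344 (.c 6 q341 (.c 7 q324 .e)))))
noncomputable def t96 : Tr := .c 1 r365 (.c 2 r366 (.c 4 r367 (.c 5 r368 (.c 8 r369 (.c 9 r370 .e)))))
noncomputable def q345 : Tr := .c 1 v61 (.c 8 v62 .e)
noncomputable def q346 : Tr := .c 1 v61 .e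
noncomputable def r371 : Tr := .c 4 q329 (.c 5 q345 (.c 7 q327 (.c 9 q346 .e)))
noncomputable def r372 : Tr := .c 3 q329 (.c 4 q329 (.c 5 q345 (.c 6 q329 (.c 9 q346 .e))))
noncomputable def r373 : Tr := .c 3 q331 (.c 5 q345 (.c 6 q331 (.c 7 q327 (.c 9 q346 .e))))
noncomputable def r374 : Tr := .c 1 q327 (.c 2 q114 (.c 7 q327 (.c 9 q346 .e)))
noncomputable def r375 : Tr := .c 0 q116 (.c 1 q327 (.c 6 q331 (.c 7 q327 (.c 9 q346 .e))))
noncomputable def r376 : Tr := .c 1 q327 (.c 2 q114 (.c 4 q329 (.c 5 q345 (.c 9 q346 .e))))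
noncomputable def r377 : Tr := .c 0 q114 (.c 2 q114 (.c 3 q329 (.c 4 q329 (.c 5 q345 (.c 9 q346 .e)))))
noncomputable def t97 : Tr := .c 0 r371 (.c 1 r372 (.c 2 r373 (.c 3 r374 (.c 4 r375 (.c 6 r376 (.c 7 r377 .e))))))
noncomputable def q347 : Tr := .c 1 v69 (.c 2 v15 (.c 7 v69 (.c 8 v12 (.c 9 v12 .e))))
noncomputable def q348 : Tr := .c 1 v69 (.c 7 v69 (.c 8 v12 (.c 9 v12 .e)))
noncomputable def q349 : Tr := .c 1 v69 (.c 2 v15 (.c 8 v12 (.c 9 v12 .e)))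
noncomputable def r378 : Tr := .c 3 q347 (.c 4 q348 (.c 6 q349 .e))
noncomputable def q350 : Tr := .c 1 v6 (.c 2 v0 (.c 7 v6 (.c 8 v1 (.c 9 v1 .e))))
noncomputable def q351 : Tr := .c 1 v6 (.c 2 v0 (.c 8 v1 (.c 9 v1 .e)))
noncomputable def q352 : Tr := .c 2 v0 (.c 9 v1 .e)
noncomputable def q353 : Tr := .c 2 v3 .e
noncomputable def r379 : Tr := .c 3 q350 (.c 6 q351 (.c 7 q352 (.c 8 q353 .e)))
noncomputable def q354 : Tr := .c 7 v69 (.c 8 v12 (.c 9 v12 .e))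
noncomputable def r380 : Tr := .c 0 q354 (.c 2 q354 (.c 3 q347 (.c 4 q348 .e)))
noncomputable def v87 : Tr := .l 0x1861461461051461051050c4
noncomputable def q355 : Tr := .c 7 v12 (.c 8 v87 (.c 9 v87 .e))
noncomputable def q356 : Tr := .c 1 v12 (.c 2 v5 (.c 7 v12 (.c 8 v87 (.c 9 v87 .e))))
noncomputable def q357 : Tr := .c 1 v12 (.c 7 v12 (.c 8 v87 (.c 9 v87 .e)))
noncomputable def q358 : Tr := .c 1 v12 (.c 2 v5 (.c 8 v87 (.c 9 v87 .e)))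
noncomputable def r381 : Tr := .c 0 q355 (.c 2 q355 (.c 3 q356 (.c 4 q357 (.c 6 q358 .e))))
noncomputable def q359 : Tr := .c 9 v87 .e
noncomputable def q360 : Tr := .c 2 v5 (.c 9 v87 .e)
noncomputable def r382 : Tr := .c 0 q355 (.c 1 q359 (.c 2 q355 (.c 3 q356 (.c 4 q357 (.c 6 q358 (.c 7 q360 .e))))))
noncomputable def t98 : Tr := .c 1 r378 (.c 2 r379 (.c 7 r380 (.c 8 r381 (.c 9 r382 .e))))
noncomputable def v88 : Tr := .l 0x1441051851461030c4144105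
noncomputable def q361 : Tr := .c 1 v88 (.c 7 v88 (.c 8 v18 (.c 9 v18 .e)))
noncomputable def r383 : Tr := .c 4 q361 (.c 7 q166 .e)
noncomputable def q362 : Tr := .c 1 v88 (.c 8 v18 (.c 9 v18 .e))
noncomputable def r384 : Tr := .c 3 q361 (.c 4 q361 (.c 6 q362 .e))
noncomputable def q363 : Tr := .c 1 v24 (.c 7 v24 (.c 8 v20 (.c 9 v20 .e)))
noncomputable def q364 : Tr := .c 1 v24 (.c 8 v20 (.c 9 v20 .e))
noncomputable def r385 : Tr := .c 3 q363 (.c 6 q364 (.c 7 q166 .e))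
noncomputable def q365 : Tr := .c 7 v88 (.c 8 v18 (.c 9 v18 .e))
noncomputable def r386 : Tr := .c 1 q166 (.c 2 q365 (.c 4 q361 .e))
noncomputable def r387 : Tr := .c 0 q365 (.c 2 q365 (.c 3 q361 (.c 4 q361 .e)))
noncomputable def q366 : Tr := .c 7 v69 (.c 8 v11 (.c 9 v11 .e))
noncomputable def q367 : Tr := .c 1 v69 (.c 7 v69 (.c 8 v11 (.c 9 v11 .e)))
noncomputable def q368 : Tr := .c 1 v69 (.c 8 v11 (.c 9 v11 .e))
noncomputable def r388 : Tr := .c 0 q366 (.c 2 q366 (.c 3 q367 (.c 4 q367 (.c 6 q368 .e))))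
noncomputable def t99 : Tr := .c 0 r383 (.c 1 r384 (.c 2 r385 (.c 6 r386 (.c 7 r387 (.c 8 r388 .e)))))
noncomputable def q369 : Tr := .c 1 v69 (.c 2 v15 (.c 7 v69 .e))
noncomputable def q370 : Tr := .c 1 v69 (.c 7 v69 .e)
noncomputable def q371 : Tr := .c 1 v69 (.c 2 v15 .e)
noncomputable def r389 : Tr := .c 3 q369 (.c 4 q370 (.c 6 q371 .e))
noncomputable def q372 : Tr := .c 1 v6 (.c 2 v0 (.c 7 v6 .e))
noncomputable def q373 : Tr := .c 1 v6 (.c 2 v0 .e)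
noncomputable def q374 : Tr := .c 2 v0 .e
noncomputable def r390 : Tr := .c 3 q372 (.c 6 q373 (.c 7 q374 (.c 8 q353 .e)))
noncomputable def q375 : Tr := .c 7 v66 .e
noncomputable def r391 : Tr := .c 0 q375 (.c 6 q373 (.c 7 q374 (.c 8 q353 .e)))
noncomputable def q376 : Tr := .c 7 v12 .e
noncomputable def q377 : Tr := .c 1 v12 (.c 2 v5 .e)
noncomputable def q378 : Tr := .c 2 v5 .e
noncomputable def q379 : Tr := .c 2 v8 .e
noncomputable def r392 : Tr := .c 0 q376 (.c 2 q376 (.c 6 q377 (.c 7 q378 (.c 8 q379 .e))))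
noncomputable def q380 : Tr := .c 1 v12 (.c 2 v5 (.c 7 v12 .e))
noncomputable def q381 : Tr := .c 1 v12 (.c 7 v12 .e)
noncomputable def r393 : Tr := .c 0 q376 (.c 2 q376 (.c 3 q380 (.c 4 q381 (.c 6 q377 .e))))
noncomputable def r394 : Tr := .c 0 q376 (.c 2 q376 (.c 3 q380 (.c 4 q381 (.c 6 q377 (.c 7 q378 .e)))))
noncomputable def t100 : Tr := .c 1 r389 (.c 2 r390 (.c 4 r391 (.c 5 r392 (.c 8 r393 (.c 9 r394 .e)))))
noncomputable def q382 : Tr := .c 1 v87 (.c 7 v87 .e)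
noncomputable def r395 : Tr := .c 4 q382 (.c 7 q374 (.c 8 q353 .e))
noncomputable def q383 : Tr := .c 7 v69 .e
noncomputable def r396 : Tr := .c 2 q383 (.c 7 q374 (.c 8 q353 .e))
noncomputable def t101 : Tr := .c 0 r395 (.c 2 r390 (.c 3 r396 (.c 4 r391 (.c 5 r392 (.c 9 r394 .e)))))
noncomputable def q384 : Tr := .c 2 v19 (.c 9 v20 .e)
noncomputable def q385 : Tr := .c 2 v21 .e
noncomputable def r397 : Tr := .c 4 q362 (.c 7 q384 (.c 8 q385 .e))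
noncomputable def q386 : Tr := .c 1 v24 (.c 2 v19 (.c 8 v20 (.c 9 v20 .e)))
noncomputable def r398 : Tr := .c 3 q386 (.c 6 q386 (.c 7 q384 (.c 8 q385 .e)))
noncomputable def r399 : Tr := .c 1 q166 (.c 2 q26 (.c 7 q384 (.c 8 q385 .e)))
noncomputable def r400 : Tr := .c 0 q29 (.c 1 q166 (.c 6 q386 (.c 7 q384 (.c 8 q385 .e))))
noncomputable def q387 : Tr := .c 8 v24 (.c 9 v24 .e)
noncomputable def q388 : Tr := .c 9 v24 .e
noncomputable def q389 : Tr := .c 1 v18 (.c 2 v23 (.c 8 v24 (.c 9 v24 .e)))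
noncomputable def q390 : Tr := .c 2 v23 (.c 9 v24 .e)
noncomputable def q391 : Tr := .c 2 v25 .e
noncomputable def r401 : Tr := .c 0 q387 (.c 1 q388 (.c 2 q387 (.c 6 q389 (.c 7 q390 (.c 8 q391 .e)))))
noncomputable def r402 : Tr := .c 1 q166 (.c 2 q26 (.c 4 q362 (.c 8 q385 .e)))
noncomputable def t102 : Tr := .c 0 r397 (.c 2 r398 (.c 3 r399 (.c 4 r400 (.c 5 r401 (.c 6 r402 .e)))))
noncomputable def r403 : Tr := .c 4 q362 (.c 7 q166 .e)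
noncomputable def r404 : Tr := .c 3 q362 (.c 4 q362 (.c 6 q362 .e))
noncomputable def r405 : Tr := .c 3 q364 (.c 6 q364 (.c 7 q166 .e))
noncomputable def r406 : Tr := .c 1 q166 (.c 2 q26 (.c 7 q166 .e))
noncomputable def r407 : Tr := .c 0 q29 (.c 1 q166 (.c 6 q364 (.c 7 q166 .e)))
noncomputable def r408 : Tr := .c 1 q166 (.c 2 q26 (.c 4 q362 .e))
noncomputable def r409 : Tr := .c 0 q26 (.c 2 q26 (.c 3 q362 (.c 4 q362 .e)))
noncomputable def t103 : Tr := .c 0 r403 (.c 1 r404 (.c 2 r405 (.c 3 r406 (.c 4 r407 (.c 6 r408 (.c 7 r409 .e))))))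
noncomputable def q392 : Tr := .c 7 v53 (.c 8 v52 (.c 9 v52 .e))
noncomputable def q393 : Tr := .c 9 v52 .e
noncomputable def v89 : Tr := .l 0x1050c4146105146105186146
noncomputable def q394 : Tr := .c 1 v89 (.c 2 v68 (.c 8 v52 (.c 9 v52 .e)))
noncomputable def q395 : Tr := .c 2 v68 (.c 9 v52 .e)
noncomputable def r410 : Tr := .c 0 q392 (.c 1 q393 (.c 6 q394 (.c 7 q395 .e)))
noncomputable def r411 : Tr := .c 0 q49 (.c 1 q188 (.c 2 q49 (.c 6 q315 (.c 7 q316 .e))))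
noncomputable def r412 : Tr := .c 0 q91 (.c 2 q91 (.c 3 q301 (.c 4 q302 (.c 5 q303 .e))))
noncomputable def t104 : Tr := .c 4 r410 (.c 5 r411 (.c 7 r412 (.c 8 r351 (.c 9 r352 .e))))
noncomputable def q396 : Tr := .c 2 v70 .e
noncomputable def r413 : Tr := .c 2 q93 (.c 7 q396 .e)
noncomputable def r414 : Tr := .c 0 q53 (.c 2 q53 (.c 6 q323 (.c 7 q324 .e)))
noncomputable def r415 : Tr := .c 2 q93 (.c 4 q317 (.c 5 q303 .e))
noncomputable def r416 : Tr := .c 0 q93 (.c 2 q93 (.c 3 q314 (.c 4 q317 (.c 5 q303 .e))))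
noncomputable def t105 : Tr := .c 3 r413 (.c 5 r414 (.c 6 r415 (.c 7 r416 (.c 8 r357 (.c 9 r358 .e)))))
noncomputable def r417 : Tr := .c 3 q301 (.c 4 q302 (.c 5 q303 (.c 6 q304 .e)))
noncomputable def r418 : Tr := .c 3 q306 (.c 5 q307 (.c 6 q308 (.c 7 q309 .e)))
noncomputable def t106 : Tr := .c 1 r417 (.c 2 r418 (.c 7 r412 (.c 8 r351 (.c 9 r352 .e))))
noncomputable def r419 : Tr := .c 4 q317 (.c 5 q303 (.c 7 q318 .e))
noncomputable def r420 : Tr := .c 3 q314 (.c 4 q317 (.c 5 q303 (.c 6 q320 .e)))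
noncomputable def t107 : Tr := .c 0 r419 (.c 1 r420 (.c 6 r415 (.c 7 r416 (.c 8 r357 (.c 9 r358 .e)))))
noncomputable def r421 : Tr := .c 4 q325 (.c 5 q326 (.c 7 q327 .e))
noncomputable def r422 : Tr := .c 3 q325 (.c 4 q325 (.c 5 q326 (.c 6 q329 .e)))
noncomputable def r423 : Tr := .c 3 q330 (.c 5 q326 (.c 6 q331 (.c 7 q327 .e)))
noncomputable def r424 : Tr := .c 1 q327 (.c 2 q106 (.c 4 q325 (.c 5 q326 .e)))
noncomputable def r425 : Tr := .c 0 q106 (.c 2 q106 (.c 3 q325 (.c 4 q325 (.c 5 q326 .e))))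
noncomputable def t108 : Tr := .c 0 r421 (.c 1 r422 (.c 2 r423 (.c 6 r424 (.c 7 r425 (.c 8 r364 .e)))))
noncomputable def r426 : Tr := .c 4 q329 (.c 5 q345 (.c 7 q327 .e))
noncomputable def r427 : Tr := .c 3 q329 (.c 4 q329 (.c 5 q345 (.c 6 q329 .e)))
noncomputable def r428 : Tr := .c 3 q331 (.c 5 q345 (.c 6 q331 (.c 7 q327 .e)))
noncomputable def r429 : Tr := .c 1 q327 (.c 2 q114 (.c 7 q327 .e))
noncomputable def r430 : Tr := .c 0 q116 (.c 1 q327 (.c 6 q331 (.c 7 q327 .e)))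
noncomputable def r431 : Tr := .c 1 q327 (.c 2 q114 (.c 4 q329 (.c 5 q345 .e)))
noncomputable def r432 : Tr := .c 0 q114 (.c 2 q114 (.c 3 q329 (.c 4 q329 (.c 5 q345 .e))))
noncomputable def t109 : Tr := .c 0 r426 (.c 1 r427 (.c 2 r428 (.c 3 r429 (.c 4 r430 (.c 6 r431 (.c 7 r432 .e))))))
noncomputable def q397 : Tr := .c 7 v29 (.c 8 v28 (.c 9 v28 .e))
noncomputable def q398 : Tr := .c 9 v28 .e
noncomputable def q399 : Tr := .c 2 v30 .e
noncomputable def q400 : Tr := .c 1 v32 (.c 2 v30 (.c 7 v32 .e))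
noncomputable def r433 : Tr := .c 0 q397 (.c 1 q398 (.c 8 q399 (.c 9 q400 .e)))
noncomputable def r434 : Tr := .c 0 q52 (.c 1 q190 (.c 2 q52 (.c 8 q310 .e)))
noncomputable def q401 : Tr := .c 1 v39 (.c 2 v40 (.c 7 v39 (.c 8 v38 .e)))
noncomputable def q402 : Tr := .c 1 v39 (.c 2 v40 (.c 7 v39 .e))
noncomputable def r435 : Tr := .c 0 q49 (.c 2 q49 (.c 3 q312 (.c 4 q313 (.c 5 q401 (.c 9 q402 .e)))))
noncomputable def q403 : Tr := .c 1 v35 (.c 2 v85 (.c 7 v35 (.c 8 v34 (.c 9 v34 .e))))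
noncomputable def q404 : Tr := .c 1 v35 (.c 7 v35 (.c 8 v34 (.c 9 v34 .e)))
noncomputable def q405 : Tr := .c 1 v38 (.c 2 v37 (.c 7 v38 (.c 8 v35 .e)))
noncomputable def r436 : Tr := .c 0 q52 (.c 2 q52 (.c 3 q403 (.c 4 q404 (.c 5 q405 .e))))
noncomputable def r437 : Tr := .c 0 q52 (.c 1 q190 (.c 2 q52 (.c 3 q403 (.c 4 q404 .e))))
noncomputable def t110 : Tr := .c 4 r433 (.c 5 r434 (.c 7 r435 (.c 8 r436 (.c 9 r437 .e))))
noncomputable def r438 : Tr := .c 2 q53 (.c 8 q342 (.c 9 q402 .e))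
noncomputable def r439 : Tr := .c 0 q62 (.c 2 q62 (.c 8 q310 .e))
noncomputable def r440 : Tr := .c 2 q53 (.c 4 q322 (.c 5 q401 (.c 8 q342 (.c 9 q402 .e))))
noncomputable def r441 : Tr := .c 0 q53 (.c 2 q53 (.c 3 q321 (.c 4 q322 (.c 5 q401 (.c 9 q402 .e)))))
noncomputable def q406 : Tr := .c 1 v35 (.c 2 v85 (.c 7 v35 (.c 8 v34 .e)))
noncomputable def q407 : Tr := .c 1 v35 (.c 7 v35 (.c 8 v34 .e))
noncomputable def r442 : Tr := .c 0 q62 (.c 2 q62 (.c 3 q406 (.c 4 q407 (.c 5 q405 .e))))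
noncomputable def r443 : Tr := .c 0 q62 (.c 2 q62 (.c 3 q406 (.c 4 q407 .e)))
noncomputable def t111 : Tr := .c 3 r438 (.c 5 r439 (.c 6 r440 (.c 7 r441 (.c 8 r442 (.c 9 r443 .e)))))
noncomputable def r444 : Tr := .c 3 q312 (.c 4 q313 (.c 5 q401 (.c 9 q402 .e)))
noncomputable def q408 : Tr := .c 1 v34 (.c 2 v27 (.c 7 v34 (.c 8 v35 (.c 9 v35 .e))))
noncomputable def q409 : Tr := .c 1 v32 (.c 2 v30 (.c 7 v32 (.c 8 v29 .e)))
noncomputable def r445 : Tr := .c 3 q408 (.c 5 q409 (.c 8 q399 (.c 9 q400 .e)))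
noncomputable def t112 : Tr := .c 1 r444 (.c 2 r445 (.c 7 r435 (.c 8 r436 (.c 9 r437 .e))))
noncomputable def r446 : Tr := .c 4 q322 (.c 5 q401 (.c 8 q342 (.c 9 q402 .e)))
noncomputable def r447 : Tr := .c 3 q321 (.c 4 q322 (.c 5 q401 (.c 9 q402 .e)))
noncomputable def t113 : Tr := .c 0 r446 (.c 1 r447 (.c 6 r440 (.c 7 r441 (.c 8 r442 (.c 9 r443 .e)))))
noncomputable def q410 : Tr := .c 1 v39 (.c 7 v39 (.c 8 v38 (.c 9 v38 .e)))
noncomputable def q411 : Tr := .c 1 v60 (.c 7 v60 (.c 8 v63 .e))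
noncomputable def q412 : Tr := .c 1 v60 (.c 7 v60 .e)
noncomputable def r448 : Tr := .c 4 q410 (.c 5 q411 (.c 9 q412 .e))
noncomputable def r449 : Tr := .c 3 q410 (.c 4 q410 (.c 5 q411 (.c 9 q412 .e)))
noncomputable def q413 : Tr := .c 1 v59 (.c 7 v59 (.c 8 v52 (.c 9 v52 .e)))
noncomputable def r450 : Tr := .c 3 q413 (.c 5 q411 (.c 9 q412 .e))
noncomputable def q414 : Tr := .c 9 v41 .e
noncomputable def r451 : Tr := .c 1 q414 (.c 2 q120 (.c 4 q410 (.c 5 q411 (.c 9 q412 .e))))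
noncomputable def r452 : Tr := .c 0 q120 (.c 2 q120 (.c 3 q410 (.c 4 q410 (.c 5 q411 (.c 9 q412 .e)))))
noncomputable def q415 : Tr := .c 1 v39 (.c 7 v39 (.c 8 v38 .e))
noncomputable def r453 : Tr := .c 0 q49 (.c 2 q49 (.c 3 q313 (.c 4 q313 (.c 5 q415 .e))))
noncomputable def t114 : Tr := .c 0 r448 (.c 1 r449 (.c 2 r450 (.c 6 r451 (.c 7 r452 (.c 8 r453 .e)))))
noncomputable def r454 : Tr := .c 3 q343 (.c 4 q344 (.c 5 q402 (.c 9 q402 .e)))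
noncomputable def q416 : Tr := .c 1 v34 (.c 2 v27 (.c 7 v34 .e))
noncomputable def r455 : Tr := .c 3 q416 (.c 5 q400 (.c 8 q399 (.c 9 q400 .e)))
noncomputable def q417 : Tr := .c 7 v29 .e
noncomputable def r456 : Tr := .c 0 q417 (.c 8 q399 (.c 9 q400 .e))
noncomputable def r457 : Tr := .c 0 q72 (.c 2 q72 (.c 8 q310 .e))
noncomputable def q418 : Tr := .c 1 v35 (.c 2 v85 (.c 7 v35 .e))
noncomputable def q419 : Tr := .c 1 v35 (.c 7 v35 .e)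
noncomputable def q420 : Tr := .c 1 v38 (.c 2 v37 (.c 7 v38 .e))
noncomputable def r458 : Tr := .c 0 q72 (.c 2 q72 (.c 3 q418 (.c 4 q419 (.c 5 q420 .e))))
noncomputable def r459 : Tr := .c 0 q72 (.c 2 q72 (.c 3 q418 (.c 4 q419 .e)))
noncomputable def t115 : Tr := .c 1 r454 (.c 2 r455 (.c 4 r456 (.c 5 r457 (.c 8 r458 (.c 9 r459 .e)))))
noncomputable def r460 : Tr := .c 0 q52 (.c 1 q190 (.c 8 q310 .e))
noncomputable def r461 : Tr := .c 0 q49 (.c 3 q312 (.c 5 q401 (.c 9 q402 .e)))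
noncomputable def r462 : Tr := .c 0 q52 (.c 3 q403 (.c 5 q405 .e))
noncomputable def r463 : Tr := .c 0 q52 (.c 1 q190 (.c 3 q403 .e))
noncomputable def t116 : Tr := .c 4 r433 (.c 5 r460 (.c 7 r461 (.c 8 r462 (.c 9 r463 .e))))
noncomputable def r464 : Tr := .c 1 q398 (.c 8 q399 (.c 9 q400 .e))
noncomputable def q421 : Tr := .c 1 v32 (.c 2 v30 (.c 7 v32 (.c 8 v41 .e)))
noncomputable def r465 : Tr := .c 1 q398 (.c 5 q421 (.c 8 q399 (.c 9 q400 .e)))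
noncomputable def t117 : Tr := .c 3 r464 (.c 4 r433 (.c 5 r460 (.c 6 r465 (.c 9 r463 .e))))
noncomputable def r466 : Tr := .c 8 q342 (.c 9 q402 .e)
noncomputable def r467 : Tr := .c 0 q62 (.c 8 q310 .e)
noncomputable def r468 : Tr := .c 5 q401 (.c 8 q342 (.c 9 q402 .e))
noncomputable def r469 : Tr := .c 0 q53 (.c 3 q321 (.c 5 q401 (.c 9 q402 .e)))
noncomputable def r470 : Tr := .c 0 q62 (.c 3 q406 (.c 5 q405 .e))
noncomputable def r471 : Tr := .c 0 q62 (.c 3 q406 .e)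
noncomputable def t118 : Tr := .c 3 r466 (.c 5 r467 (.c 6 r468 (.c 7 r469 (.c 8 r470 (.c 9 r471 .e)))))
noncomputable def r472 : Tr := .c 3 q312 (.c 5 q401 (.c 9 q402 .e))
noncomputable def t119 : Tr := .c 1 r472 (.c 2 r445 (.c 7 r461 (.c 8 r462 (.c 9 r463 .e))))
noncomputable def r473 : Tr := .c 3 q321 (.c 5 q401 (.c 9 q402 .e))
noncomputable def t120 : Tr := .c 0 r468 (.c 1 r473 (.c 6 r468 (.c 7 r469 (.c 8 r470 (.c 9 r471 .e)))))
noncomputable def r474 : Tr := .c 3 q343 (.c 5 q402 (.c 9 q402 .e))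
noncomputable def r475 : Tr := .c 0 q72 (.c 8 q310 .e)
noncomputable def r476 : Tr := .c 0 q72 (.c 3 q418 (.c 5 q420 .e))
noncomputable def r477 : Tr := .c 0 q72 (.c 3 q418 .e)
noncomputable def t121 : Tr := .c 1 r474 (.c 2 r455 (.c 4 r456 (.c 5 r475 (.c 8 r476 (.c 9 r477 .e)))))
noncomputable def r478 : Tr := .c 5 q400 (.c 8 q399 (.c 9 q400 .e))
noncomputable def r479 : Tr := .c 8 q399 (.c 9 q400 .e)
noncomputable def t122 : Tr := .c 0 r478 (.c 2 r455 (.c 3 r479 (.c 4 r456 (.c 5 r475 (.c 9 r477 .e)))))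
noncomputable def q422 : Tr := .c 0 v55 (.c 1 v55 (.c 6 v55 (.c 7 v55 (.c 8 v38 .e))))
noncomputable def q423 : Tr := .c 0 v56 (.c 1 v56 (.c 6 v56 (.c 7 v56 (.c 8 v57 .e))))
noncomputable def q424 : Tr := .c 0 v17 .e
noncomputable def q425 : Tr := .c 0 v56 (.c 6 v56 .e)
noncomputable def q426 : Tr := .c 0 v56 (.c 1 v56 (.c 6 v56 (.c 7 v56 .e)))
noncomputable def r480 : Tr := .c 4 q422 (.c 5 q423 (.c 7 q424 (.c 8 q425 (.c 9 q426 .e))))
noncomputable def q427 : Tr := .c 1 v55 (.c 8 v38 .e)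
noncomputable def r481 : Tr := .c 3 q317 (.c 4 q422 (.c 5 q423 (.c 6 q427 (.c 9 q426 .e))))
noncomputable def q428 : Tr := .c 6 v74 .e
noncomputable def r482 : Tr := .c 1 q428 (.c 2 q229 (.c 4 q422 (.c 5 q423 (.c 8 q425 (.c 9 q426 .e)))))
noncomputable def r483 : Tr := .c 0 q93 (.c 2 q229 (.c 3 q317 (.c 4 q422 (.c 5 q423 (.c 9 q426 .e)))))
noncomputable def q429 : Tr := .c 0 v38 (.c 1 v38 (.c 6 v38 (.c 7 v38 (.c 8 v35 .e))))
noncomputable def q430 : Tr := .c 1 v38 (.c 8 v35 .e)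
noncomputable def r484 : Tr := .c 0 q53 (.c 2 q232 (.c 3 q322 (.c 4 q429 (.c 5 q422 (.c 6 q430 .e)))))
noncomputable def t123 : Tr := .c 0 r480 (.c 1 r481 (.c 6 r482 (.c 7 r483 (.c 8 r484 .e))))
noncomputable def q431 : Tr := .c 0 v56 (.c 1 v56 (.c 6 v56 (.c 7 v56 (.c 8 v57 (.c 9 v57 .e)))))
noncomputable def q432 : Tr := .c 0 v61 (.c 1 v61 (.c 6 v61 (.c 7 v61 (.c 8 v62 .e))))
noncomputable def q433 : Tr := .c 0 v52 (.c 9 v43 .e)
noncomputable def q434 : Tr := .c 0 v61 (.c 6 v61 .e)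
noncomputable def q435 : Tr := .c 0 v61 (.c 1 v61 (.c 6 v61 (.c 7 v61 .e)))
noncomputable def r485 : Tr := .c 4 q431 (.c 5 q432 (.c 7 q433 (.c 8 q434 (.c 9 q435 .e))))
noncomputable def r486 : Tr := .c 3 q325 (.c 4 q431 (.c 5 q432 (.c 6 q329 (.c 9 q435 .e))))
noncomputable def r487 : Tr := .c 3 q330 (.c 5 q432 (.c 6 q331 (.c 7 q433 (.c 8 q434 (.c 9 q435 .e)))))
noncomputable def q436 : Tr := .c 6 v79 (.c 9 v43 .e)
noncomputable def r488 : Tr := .c 1 q436 (.c 2 q273 (.c 4 q431 (.c 5 q432 (.c 8 q434 (.c 9 q435 .e)))))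
noncomputable def r489 : Tr := .c 0 q106 (.c 2 q273 (.c 3 q325 (.c 4 q431 (.c 5 q432 (.c 9 q435 .e)))))
noncomputable def q437 : Tr := .c 0 v55 (.c 1 v55 (.c 6 v55 (.c 7 v55 (.c 8 v38 (.c 9 v38 .e)))))
noncomputable def r490 : Tr := .c 0 q91 (.c 2 q278 (.c 3 q302 (.c 4 q437 (.c 5 q423 (.c 6 q333 .e)))))
noncomputable def t124 : Tr := .c 0 r485 (.c 1 r486 (.c 2 r487 (.c 6 r488 (.c 7 r489 (.c 8 r490 .e)))))
noncomputable def q438 : Tr := .c 0 v17 (.c 1 v17 (.c 6 v17 (.c 7 v17 .e)))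
noncomputable def q439 : Tr := .c 0 v29 (.c 1 v29 (.c 6 v29 (.c 7 v29 .e)))
noncomputable def q440 : Tr := .c 0 v35 .e
noncomputable def q441 : Tr := .c 0 v29 (.c 6 v29 .e)
noncomputable def r491 : Tr := .c 4 q438 (.c 5 q439 (.c 7 q440 (.c 8 q441 (.c 9 q439 .e))))
noncomputable def q442 : Tr := .c 1 v35 .e
noncomputable def r492 : Tr := .c 3 q419 (.c 5 q439 (.c 6 q442 (.c 7 q440 (.c 8 q441 (.c 9 q439 .e)))))
noncomputable def q443 : Tr := .c 6 v86 .e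
noncomputable def v90 : Tr := .l 0x186186146186186186186186
noncomputable def q444 : Tr := .c 6 v90 (.c 7 v90 .e)
noncomputable def r493 : Tr := .c 1 q443 (.c 2 q444 (.c 7 q440 (.c 8 q441 (.c 9 q439 .e))))
noncomputable def r494 : Tr := .c 0 q24 (.c 1 q443 (.c 6 q442 (.c 7 q440 (.c 8 q441 (.c 9 q439 .e)))))
noncomputable def t125 : Tr := .c 0 r491 (.c 2 r492 (.c 3 r493 (.c 4 r494 .e)))
noncomputable def q445 : Tr := .c 0 v56 (.c 1 v56 (.c 8 v57 (.c 9 v57 .e)))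
noncomputable def q446 : Tr := .c 0 v61 (.c 1 v61 (.c 8 v62 .e))
noncomputable def q447 : Tr := .c 0 v61 .e
noncomputable def q448 : Tr := .c 0 v61 (.c 1 v61 .e)
noncomputable def r495 : Tr := .c 4 q445 (.c 5 q446 (.c 7 q433 (.c 8 q447 (.c 9 q448 .e))))
noncomputable def r496 : Tr := .c 3 q331 (.c 5 q446 (.c 6 q331 (.c 7 q433 (.c 8 q447 (.c 9 q448 .e)))))
noncomputable def r497 : Tr := .c 1 q327 (.c 2 q114 (.c 7 q433 (.c 8 q447 (.c 9 q448 .e))))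
noncomputable def r498 : Tr := .c 0 q116 (.c 1 q327 (.c 6 q331 (.c 7 q433 (.c 8 q447 (.c 9 q448 .e)))))
noncomputable def r499 : Tr := .c 1 q327 (.c 2 q114 (.c 4 q445 (.c 5 q446 (.c 8 q447 (.c 9 q448 .e)))))
noncomputable def t126 : Tr := .c 0 r495 (.c 2 r496 (.c 3 r497 (.c 4 r498 (.c 6 r499 .e))))
noncomputable def r500 : Tr := .c 3 q329 (.c 4 q445 (.c 5 q446 (.c 6 q329 (.c 9 q448 .e))))
noncomputable def r501 : Tr := .c 0 q114 (.c 2 q114 (.c 3 q329 (.c 4 q445 (.c 5 q446 (.c 9 q448 .e)))))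
noncomputable def t127 : Tr := .c 0 r495 (.c 1 r500 (.c 2 r496 (.c 3 r497 (.c 4 r498 (.c 6 r499 (.c 7 r501 .e))))))
noncomputable def r502 : Tr := .c 3 q302 (.c 4 q437 (.c 5 q423 (.c 6 q333 (.c 9 q426 .e))))
noncomputable def q449 : Tr := .c 1 v59 (.c 7 v59 (.c 8 v34 (.c 9 v34 .e)))
noncomputable def q450 : Tr := .c 0 v60 (.c 1 v60 (.c 6 v60 (.c 7 v60 (.c 8 v59 .e))))
noncomputable def q451 : Tr := .c 1 v59 (.c 8 v34 (.c 9 v34 .e))
noncomputable def q452 : Tr := .c 0 v35 (.c 9 v34 .e)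
noncomputable def q453 : Tr := .c 0 v60 (.c 6 v60 .e)
noncomputable def q454 : Tr := .c 0 v60 (.c 1 v60 (.c 6 v60 (.c 7 v60 .e)))
noncomputable def r503 : Tr := .c 3 q449 (.c 5 q450 (.c 6 q451 (.c 7 q452 (.c 8 q453 (.c 9 q454 .e)))))
noncomputable def r504 : Tr := .c 0 q91 (.c 2 q278 (.c 3 q302 (.c 4 q437 (.c 5 q423 (.c 9 q426 .e)))))
noncomputable def q455 : Tr := .c 0 v38 (.c 1 v38 (.c 6 v38 (.c 7 v38 (.c 8 v35 (.c 9 v35 .e)))))
noncomputable def q456 : Tr := .c 1 v38 (.c 8 v35 (.c 9 v35 .e))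
noncomputable def r505 : Tr := .c 0 q49 (.c 2 q284 (.c 3 q313 (.c 4 q455 (.c 5 q422 (.c 6 q456 .e)))))
noncomputable def t128 : Tr := .c 1 r502 (.c 2 r503 (.c 7 r504 (.c 8 r505 .e)))
noncomputable def q457 : Tr := .c 0 v55 (.c 1 v55 (.c 6 v55 (.c 7 v55 .e)))
noncomputable def q458 : Tr := .c 1 v55 .e
noncomputable def r506 : Tr := .c 3 q335 (.c 4 q457 (.c 5 q426 (.c 6 q458 (.c 9 q426 .e))))
noncomputable def q459 : Tr := .c 1 v59 (.c 7 v59 .e)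
noncomputable def q460 : Tr := .c 1 v59 .e
noncomputable def r507 : Tr := .c 3 q459 (.c 5 q454 (.c 6 q460 (.c 7 q440 (.c 8 q453 (.c 9 q454 .e)))))
noncomputable def q461 : Tr := .c 6 v59 .e
noncomputable def r508 : Tr := .c 0 q340 (.c 1 q461 (.c 6 q460 (.c 7 q440 (.c 8 q453 (.c 9 q454 .e)))))
noncomputable def q462 : Tr := .c 0 v38 (.c 1 v38 (.c 6 v38 (.c 7 v38 .e)))
noncomputable def q463 : Tr := .c 1 v38 .e
noncomputable def r509 : Tr := .c 0 q63 (.c 2 q266 (.c 3 q344 (.c 4 q462 (.c 5 q457 (.c 6 q463 .e)))))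
noncomputable def t129 : Tr := .c 1 r506 (.c 2 r507 (.c 4 r508 (.c 8 r509 .e)))
noncomputable def q464 : Tr := .c 6 v73 (.c 9 v34 .e)
noncomputable def q465 : Tr := .c 0 v89 (.c 9 v34 .e)
noncomputable def r510 : Tr := .c 1 q464 (.c 2 q222 (.c 7 q465 .e))
noncomputable def q466 : Tr := .c 7 v76 (.c 8 v34 (.c 9 v34 .e))
noncomputable def r511 : Tr := .c 0 q466 (.c 1 q464 (.c 6 q451 (.c 7 q465 .e)))
noncomputable def q467 : Tr := .c 0 v74 (.c 1 v74 (.c 6 v74 (.c 7 v74 (.c 8 v38 (.c 9 v38 .e)))))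
noncomputable def q468 : Tr := .c 0 v75 (.c 1 v75 (.c 6 v75 (.c 7 v75 (.c 8 v77 .e))))
noncomputable def r512 : Tr := .c 1 q464 (.c 2 q222 (.c 4 q467 (.c 5 q468 .e)))
noncomputable def t130 : Tr := .c 3 r510 (.c 4 r511 (.c 6 r512 .e))
noncomputable def v91 : Tr := .l 0x186146186186186186186186
noncomputable def q469 : Tr := .c 0 v91 .e
noncomputable def r513 : Tr := .c 1 q428 (.c 2 q229 (.c 7 q469 .e))
noncomputable def r514 : Tr := .c 1 q428 (.c 2 q229 (.c 4 q422 (.c 5 q423 .e)))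
noncomputable def r515 : Tr := .c 0 q93 (.c 2 q229 (.c 3 q317 (.c 4 q422 (.c 5 q423 .e))))
noncomputable def t131 : Tr := .c 3 r513 (.c 6 r514 (.c 7 r515 (.c 8 r484 .e)))
noncomputable def r516 : Tr := .c 4 q422 (.c 5 q423 (.c 7 q424 .e))
noncomputable def r517 : Tr := .c 3 q317 (.c 4 q422 (.c 5 q423 (.c 6 q427 .e)))
noncomputable def t132 : Tr := .c 0 r516 (.c 1 r517 (.c 6 r514 (.c 7 r515 (.c 8 r484 .e))))
noncomputable def r518 : Tr := .c 4 q431 (.c 5 q432 (.c 7 q433 .e))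
noncomputable def r519 : Tr := .c 3 q325 (.c 4 q431 (.c 5 q432 (.c 6 q329 .e)))
noncomputable def r520 : Tr := .c 3 q330 (.c 5 q432 (.c 6 q331 (.c 7 q433 .e)))
noncomputable def r521 : Tr := .c 1 q436 (.c 2 q273 (.c 4 q431 (.c 5 q432 .e)))
noncomputable def r522 : Tr := .c 0 q106 (.c 2 q273 (.c 3 q325 (.c 4 q431 (.c 5 q432 .e))))
noncomputable def t133 : Tr := .c 0 r518 (.c 1 r519 (.c 2 r520 (.c 6 r521 (.c 7 r522 (.c 8 r490 .e)))))
noncomputable def r523 : Tr := .c 4 q445 (.c 5 q446 (.c 7 q433 .e))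
noncomputable def r524 : Tr := .c 3 q331 (.c 5 q446 (.c 6 q331 (.c 7 q433 .e)))
noncomputable def r525 : Tr := .c 1 q327 (.c 2 q114 (.c 7 q433 .e))
noncomputable def r526 : Tr := .c 0 q116 (.c 1 q327 (.c 6 q331 (.c 7 q433 .e)))
noncomputable def r527 : Tr := .c 1 q327 (.c 2 q114 (.c 4 q445 (.c 5 q446 .e)))
noncomputable def t134 : Tr := .c 0 r523 (.c 2 r524 (.c 3 r525 (.c 4 r526 (.c 6 r527 .e))))
noncomputable def r528 : Tr := .c 3 q329 (.c 4 q445 (.c 5 q446 (.c 6 q329 .e)))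
noncomputable def r529 : Tr := .c 0 q114 (.c 2 q114 (.c 3 q329 (.c 4 q445 (.c 5 q446 .e))))
noncomputable def t135 : Tr := .c 0 r523 (.c 1 r528 (.c 2 r524 (.c 3 r525 (.c 4 r526 (.c 6 r527 (.c 7 r529 .e))))))
noncomputable def q470 : Tr := .c 6 v81 (.c 9 v52 .e)
noncomputable def q471 : Tr := .c 1 v89 (.c 8 v52 (.c 9 v52 .e))
noncomputable def q472 : Tr := .c 0 v17 (.c 9 v52 .e)
noncomputable def r530 : Tr := .c 0 q392 (.c 1 q470 (.c 6 q471 (.c 7 q472 .e)))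
noncomputable def r531 : Tr := .c 0 q91 (.c 2 q278 (.c 3 q302 (.c 4 q437 (.c 5 q423 .e))))
noncomputable def t136 : Tr := .c 4 r530 (.c 7 r531 (.c 8 r505 .e))
noncomputable def r532 : Tr := .c 3 q302 (.c 4 q437 (.c 5 q423 (.c 6 q333 .e)))
noncomputable def r533 : Tr := .c 3 q449 (.c 5 q450 (.c 6 q451 (.c 7 q452 .e)))
noncomputable def t137 : Tr := .c 1 r532 (.c 2 r533 (.c 7 r531 (.c 8 r505 .e)))
noncomputable def q473 : Tr := .c 6 v34 (.c 9 v28 .e)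
noncomputable def q474 : Tr := .c 0 v32 (.c 6 v32 .e)
noncomputable def q475 : Tr := .c 0 v32 (.c 1 v32 (.c 6 v32 (.c 7 v32 .e)))
noncomputable def r534 : Tr := .c 0 q397 (.c 1 q473 (.c 8 q474 (.c 9 q475 .e)))
noncomputable def q476 : Tr := .c 0 v39 (.c 1 v39 (.c 6 v39 (.c 7 v39 (.c 8 v38 .e))))
noncomputable def q477 : Tr := .c 0 v39 (.c 1 v39 (.c 6 v39 (.c 7 v39 .e)))
noncomputable def r535 : Tr := .c 0 q49 (.c 2 q284 (.c 3 q313 (.c 4 q455 (.c 5 q476 (.c 9 q477 .e)))))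
noncomputable def q478 : Tr := .c 0 v35 (.c 1 v35 (.c 6 v35 (.c 7 v35 (.c 8 v34 (.c 9 v34 .e)))))
noncomputable def r536 : Tr := .c 0 q52 (.c 2 q289 (.c 3 q404 (.c 4 q478 (.c 5 q429 .e))))
noncomputable def t138 : Tr := .c 4 r534 (.c 7 r535 (.c 8 r536 .e))
noncomputable def q479 : Tr := .c 6 v38 .e
noncomputable def q480 : Tr := .c 0 v39 (.c 6 v39 .e)
noncomputable def r537 : Tr := .c 1 q479 (.c 2 q232 (.c 8 q480 (.c 9 q477 .e)))
noncomputable def r538 : Tr := .c 1 q479 (.c 2 q232 (.c 4 q429 (.c 5 q476 (.c 8 q480 (.c 9 q477 .e)))))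
noncomputable def r539 : Tr := .c 0 q53 (.c 2 q232 (.c 3 q322 (.c 4 q429 (.c 5 q476 (.c 9 q477 .e)))))
noncomputable def q481 : Tr := .c 0 v35 (.c 1 v35 (.c 6 v35 (.c 7 v35 (.c 8 v34 .e))))
noncomputable def r540 : Tr := .c 0 q62 (.c 2 q291 (.c 3 q407 (.c 4 q481 (.c 5 q429 .e))))
noncomputable def t139 : Tr := .c 3 r537 (.c 6 r538 (.c 7 r539 (.c 8 r540 .e)))
noncomputable def r541 : Tr := .c 3 q313 (.c 4 q455 (.c 5 q476 (.c 9 q477 .e)))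
noncomputable def q482 : Tr := .c 1 v34 (.c 7 v34 (.c 8 v35 (.c 9 v35 .e)))
noncomputable def q483 : Tr := .c 0 v32 (.c 1 v32 (.c 6 v32 (.c 7 v32 (.c 8 v29 .e))))
noncomputable def r542 : Tr := .c 3 q482 (.c 5 q483 (.c 8 q474 (.c 9 q475 .e)))
noncomputable def t140 : Tr := .c 1 r541 (.c 2 r542 (.c 7 r535 (.c 8 r536 .e)))
noncomputable def r543 : Tr := .c 4 q429 (.c 5 q476 (.c 8 q480 (.c 9 q477 .e)))
noncomputable def r544 : Tr := .c 3 q322 (.c 4 q429 (.c 5 q476 (.c 9 q477 .e)))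
noncomputable def t141 : Tr := .c 0 r543 (.c 1 r544 (.c 6 r538 (.c 7 r539 (.c 8 r540 .e))))
noncomputable def q484 : Tr := .c 0 v39 (.c 1 v39 (.c 6 v39 (.c 7 v39 (.c 8 v38 (.c 9 v38 .e)))))
noncomputable def q485 : Tr := .c 0 v60 (.c 1 v60 (.c 6 v60 (.c 7 v60 (.c 8 v63 .e))))
noncomputable def r545 : Tr := .c 4 q484 (.c 5 q485 (.c 8 q453 (.c 9 q454 .e)))
noncomputable def r546 : Tr := .c 3 q410 (.c 4 q484 (.c 5 q485 (.c 9 q454 .e)))
noncomputable def r547 : Tr := .c 3 q413 (.c 5 q485 (.c 8 q453 (.c 9 q454 .e)))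
noncomputable def q486 : Tr := .c 6 v83 (.c 9 v41 .e)
noncomputable def r548 : Tr := .c 1 q486 (.c 2 q293 (.c 4 q484 (.c 5 q485 (.c 8 q453 (.c 9 q454 .e)))))
noncomputable def r549 : Tr := .c 0 q120 (.c 2 q293 (.c 3 q410 (.c 4 q484 (.c 5 q485 (.c 9 q454 .e)))))
noncomputable def r550 : Tr := .c 0 q49 (.c 2 q284 (.c 3 q313 (.c 4 q455 (.c 5 q476 .e))))
noncomputable def t142 : Tr := .c 0 r545 (.c 1 r546 (.c 2 r547 (.c 6 r548 (.c 7 r549 (.c 8 r550 .e)))))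
noncomputable def r551 : Tr := .c 3 q344 (.c 4 q462 (.c 5 q477 (.c 9 q477 .e)))
noncomputable def q487 : Tr := .c 1 v34 (.c 7 v34 .e)
noncomputable def r552 : Tr := .c 3 q487 (.c 5 q475 (.c 8 q474 (.c 9 q475 .e)))
noncomputable def q488 : Tr := .c 6 v34 .e
noncomputable def r553 : Tr := .c 0 q417 (.c 1 q488 (.c 8 q474 (.c 9 q475 .e)))
noncomputable def q489 : Tr := .c 0 v35 (.c 1 v35 (.c 6 v35 (.c 7 v35 .e)))
noncomputable def r554 : Tr := .c 0 q72 (.c 2 q300 (.c 3 q419 (.c 4 q489 (.c 5 q462 .e))))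
noncomputable def t143 : Tr := .c 1 r551 (.c 2 r552 (.c 4 r553 (.c 8 r554 .e)))
noncomputable def r555 : Tr := .c 0 q49 (.c 3 q313 (.c 5 q476 (.c 9 q477 .e)))
noncomputable def r556 : Tr := .c 0 q52 (.c 3 q404 (.c 5 q429 .e))
noncomputable def t144 : Tr := .c 4 r534 (.c 7 r555 (.c 8 r556 .e))
noncomputable def r557 : Tr := .c 1 q473 (.c 8 q474 (.c 9 q475 .e))
noncomputable def q490 : Tr := .c 0 v32 (.c 1 v32 (.c 6 v32 (.c 7 v32 (.c 8 v41 .e))))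
noncomputable def r558 : Tr := .c 1 q473 (.c 5 q490 (.c 8 q474 (.c 9 q475 .e)))
noncomputable def t145 : Tr := .c 3 r557 (.c 4 r534 (.c 6 r558 .e))
noncomputable def r559 : Tr := .c 1 q479 (.c 8 q480 (.c 9 q477 .e))
noncomputable def r560 : Tr := .c 1 q479 (.c 5 q476 (.c 8 q480 (.c 9 q477 .e)))
noncomputable def r561 : Tr := .c 0 q53 (.c 3 q322 (.c 5 q476 (.c 9 q477 .e)))
noncomputable def r562 : Tr := .c 0 q62 (.c 3 q407 (.c 5 q429 .e))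
noncomputable def t146 : Tr := .c 3 r559 (.c 6 r560 (.c 7 r561 (.c 8 r562 .e)))
noncomputable def r563 : Tr := .c 3 q313 (.c 5 q476 (.c 9 q477 .e))
noncomputable def t147 : Tr := .c 1 r563 (.c 2 r542 (.c 7 r555 (.c 8 r556 .e)))
noncomputable def r564 : Tr := .c 5 q476 (.c 8 q480 (.c 9 q477 .e))
noncomputable def r565 : Tr := .c 3 q322 (.c 5 q476 (.c 9 q477 .e))
noncomputable def t148 : Tr := .c 0 r564 (.c 1 r565 (.c 6 r560 (.c 7 r561 (.c 8 r562 .e))))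
noncomputable def r566 : Tr := .c 3 q344 (.c 5 q477 (.c 9 q477 .e))
noncomputable def r567 : Tr := .c 0 q72 (.c 3 q419 (.c 5 q462 .e))
noncomputable def t149 : Tr := .c 1 r566 (.c 2 r552 (.c 4 r553 (.c 8 r567 .e)))
noncomputable def r568 : Tr := .c 5 q475 (.c 8 q474 (.c 9 q475 .e))
noncomputable def r569 : Tr := .c 1 q488 (.c 8 q474 (.c 9 q475 .e))
noncomputable def t150 : Tr := .c 0 r568 (.c 2 r552 (.c 3 r569 (.c 4 r553 .e)))
noncomputable def v92 : Tr := .l 0x144185185146103144144185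
noncomputable def v93 : Tr := .l 0x185146146105144105185146
noncomputable def q491 : Tr := .c 0 v92 (.c 1 v92 (.c 6 v92 (.c 7 v92 (.c 8 v93 .e))))
noncomputable def v94 : Tr := .l 0x144105185146103144144185
noncomputable def q492 : Tr := .c 0 v71 (.c 1 v71 (.c 2 v71 (.c 6 v71 (.c 7 v71 (.c 8 v94 .e)))))
noncomputable def q493 : Tr := .c 0 v54 (.c 2 v54 .e)
noncomputable def q494 : Tr := .c 0 v71 (.c 2 v71 (.c 6 v71 .e))
noncomputable def q495 : Tr := .c 0 v71 (.c 1 v71 (.c 2 v71 (.c 6 v71 (.c 7 v71 .e))))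
noncomputable def r570 : Tr := .c 4 q491 (.c 5 q492 (.c 7 q493 (.c 8 q494 (.c 9 q495 .e))))
noncomputable def v95 : Tr := .l 0x144185185144103144144185
noncomputable def q496 : Tr := .c 1 v92 (.c 2 v95 (.c 7 v92 (.c 8 v93 .e)))
noncomputable def q497 : Tr := .c 1 v92 (.c 2 v95 (.c 8 v93 .e))
noncomputable def r571 : Tr := .c 3 q496 (.c 4 q491 (.c 5 q492 (.c 6 q497 (.c 9 q495 .e))))
noncomputable def v96 : Tr := .l 0x144185185144103144144103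
noncomputable def q498 : Tr := .c 6 v96 .e
noncomputable def q499 : Tr := .c 6 v92 (.c 7 v92 (.c 8 v93 .e))
noncomputable def r572 : Tr := .c 1 q498 (.c 2 q499 (.c 4 q491 (.c 5 q492 (.c 8 q494 (.c 9 q495 .e)))))
noncomputable def q500 : Tr := .c 7 v92 (.c 8 v93 .e)
noncomputable def r573 : Tr := .c 0 q500 (.c 2 q499 (.c 3 q496 (.c 4 q491 (.c 5 q492 (.c 9 q495 .e)))))
noncomputable def q501 : Tr := .c 0 v95 (.c 1 v95 (.c 2 v95 (.c 6 v95 (.c 7 v95 (.c 8 v55 .e)))))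
noncomputable def r574 : Tr := .c 0 q93 (.c 2 q229 (.c 3 q314 (.c 4 q422 (.c 5 q501 (.c 6 q320 .e)))))
noncomputable def q502 : Tr := .c 6 v70 .e
noncomputable def q503 : Tr := .c 0 v70 (.c 2 v70 .e)
noncomputable def r575 : Tr := .c 0 q93 (.c 1 q502 (.c 2 q229 (.c 3 q314 (.c 4 q422 (.c 6 q320 (.c 7 q503 .e))))))
noncomputable def t151 : Tr := .c 0 r570 (.c 1 r571 (.c 6 r572 (.c 7 r573 (.c 8 r574 (.c 9 r575 .e)))))
noncomputable def q504 : Tr := .c 0 v71 (.c 1 v71 (.c 6 v71 (.c 7 v71 (.c 8 v88 .e))))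
noncomputable def v97 : Tr := .l 0x1030c41441050c2103103144
noncomputable def q505 : Tr := .c 0 v25 (.c 1 v25 (.c 6 v25 (.c 7 v25 (.c 8 v97 .e))))
noncomputable def q506 : Tr := .c 0 v23 .e
noncomputable def q507 : Tr := .c 0 v25 (.c 6 v25 .e)
noncomputable def q508 : Tr := .c 0 v25 (.c 1 v25 (.c 6 v25 (.c 7 v25 .e)))
noncomputable def r576 : Tr := .c 4 q504 (.c 5 q505 (.c 7 q506 (.c 8 q507 (.c 9 q508 .e))))
noncomputable def q509 : Tr := .c 1 v71 (.c 7 v71 (.c 8 v88 .e))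
noncomputable def q510 : Tr := .c 1 v71 (.c 8 v88 .e)
noncomputable def r577 : Tr := .c 3 q509 (.c 4 q504 (.c 5 q505 (.c 6 q510 (.c 9 q508 .e))))
noncomputable def q511 : Tr := .c 6 v71 (.c 7 v71 (.c 8 v88 .e))
noncomputable def r578 : Tr := .c 1 q210 (.c 2 q511 (.c 4 q504 (.c 5 q505 (.c 8 q507 (.c 9 q508 .e)))))
noncomputable def q512 : Tr := .c 7 v71 (.c 8 v88 .e)
noncomputable def r579 : Tr := .c 0 q512 (.c 2 q511 (.c 3 q509 (.c 4 q504 (.c 5 q505 (.c 9 q508 .e)))))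
noncomputable def v98 : Tr := .l 0x144185185146103144144105
noncomputable def q513 : Tr := .c 7 v98 (.c 8 v93 .e)
noncomputable def q514 : Tr := .c 6 v98 (.c 7 v98 (.c 8 v93 .e))
noncomputable def q515 : Tr := .c 1 v98 (.c 7 v98 (.c 8 v93 .e))
noncomputable def q516 : Tr := .c 0 v98 (.c 1 v98 (.c 6 v98 (.c 7 v98 (.c 8 v93 .e))))
noncomputable def q517 : Tr := .c 0 v71 (.c 1 v71 (.c 6 v71 (.c 7 v71 (.c 8 v94 .e))))
noncomputable def q518 : Tr := .c 1 v98 (.c 8 v93 .e)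
noncomputable def r580 : Tr := .c 0 q513 (.c 2 q514 (.c 3 q515 (.c 4 q516 (.c 5 q517 (.c 6 q518 .e)))))
noncomputable def t152 : Tr := .c 0 r576 (.c 1 r577 (.c 6 r578 (.c 7 r579 (.c 8 r580 .e))))
noncomputable def q519 : Tr := .c 0 v7 (.c 1 v7 (.c 6 v7 (.c 7 v7 .e)))
noncomputable def q520 : Tr := .c 0 v8 (.c 1 v8 (.c 2 v8 (.c 6 v8 (.c 7 v8 .e))))
noncomputable def q521 : Tr := .c 0 v5 (.c 2 v5 .e)
noncomputable def q522 : Tr := .c 0 v8 (.c 2 v8 (.c 6 v8 .e))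
noncomputable def r581 : Tr := .c 4 q519 (.c 5 q520 (.c 7 q521 (.c 8 q522 (.c 9 q520 .e))))
noncomputable def q523 : Tr := .c 6 v5 .e
noncomputable def q524 : Tr := .c 6 v96 (.c 7 v96 .e)
noncomputable def r582 : Tr := .c 1 q523 (.c 2 q524 (.c 7 q521 (.c 8 q522 (.c 9 q520 .e))))
noncomputable def q525 : Tr := .c 6 v15 .e
noncomputable def q526 : Tr := .c 6 v69 (.c 7 v69 .e)
noncomputable def q527 : Tr := .c 0 v15 (.c 2 v15 .e)
noncomputable def q528 : Tr := .c 0 v64 (.c 2 v64 (.c 6 v64 .e))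
noncomputable def r583 : Tr := .c 0 q383 (.c 1 q525 (.c 2 q526 (.c 6 q371 (.c 7 q527 (.c 8 q528 .e)))))
noncomputable def q529 : Tr := .c 0 v69 (.c 1 v69 (.c 6 v69 (.c 7 v69 .e)))
noncomputable def r584 : Tr := .c 0 q383 (.c 1 q525 (.c 2 q526 (.c 3 q369 (.c 4 q529 (.c 6 q371 (.c 7 q527 .e))))))
noncomputable def t153 : Tr := .c 0 r581 (.c 3 r582 (.c 5 r583 (.c 9 r584 .e)))
noncomputable def q530 : Tr := .c 0 v71 (.c 1 v71 (.c 8 v88 .e))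
noncomputable def q531 : Tr := .c 0 v25 (.c 1 v25 (.c 2 v25 (.c 8 v97 .e)))
noncomputable def q532 : Tr := .c 0 v23 (.c 2 v23 .e)
noncomputable def q533 : Tr := .c 0 v25 (.c 2 v25 .e)
noncomputable def q534 : Tr := .c 0 v25 (.c 1 v25 (.c 2 v25 .e))
noncomputable def r585 : Tr := .c 4 q530 (.c 5 q531 (.c 7 q532 (.c 8 q533 (.c 9 q534 .e))))
noncomputable def q535 : Tr := .c 8 v88 .e
noncomputable def r586 : Tr := .c 2 q535 (.c 7 q532 (.c 8 q533 (.c 9 q534 .e)))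
noncomputable def q536 : Tr := .c 8 v18 .e
noncomputable def q537 : Tr := .c 1 v11 (.c 2 v67 (.c 8 v18 .e))
noncomputable def q538 : Tr := .c 0 v67 (.c 2 v67 .e)
noncomputable def q539 : Tr := .c 0 v71 (.c 2 v71 .e)
noncomputable def r587 : Tr := .c 0 q536 (.c 2 q536 (.c 6 q537 (.c 7 q538 (.c 8 q539 .e))))
noncomputable def r588 : Tr := .c 2 q535 (.c 4 q530 (.c 5 q531 (.c 8 q533 (.c 9 q534 .e))))
noncomputable def t154 : Tr := .c 0 r585 (.c 3 r586 (.c 5 r587 (.c 6 r588 .e)))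
noncomputable def q540 : Tr := .c 0 v25 (.c 1 v25 (.c 8 v97 .e))
noncomputable def q541 : Tr := .c 0 v25 .e
noncomputable def q542 : Tr := .c 0 v25 (.c 1 v25 .e)
noncomputable def r589 : Tr := .c 4 q530 (.c 5 q540 (.c 7 q506 (.c 8 q541 (.c 9 q542 .e))))
noncomputable def r590 : Tr := .c 3 q510 (.c 4 q530 (.c 5 q540 (.c 6 q510 (.c 9 q542 .e))))
noncomputable def r591 : Tr := .c 2 q535 (.c 7 q506 (.c 8 q541 (.c 9 q542 .e)))
noncomputable def r592 : Tr := .c 2 q535 (.c 4 q530 (.c 5 q540 (.c 8 q541 (.c 9 q542 .e))))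
noncomputable def r593 : Tr := .c 0 q535 (.c 2 q535 (.c 3 q510 (.c 4 q530 (.c 5 q540 (.c 9 q542 .e)))))
noncomputable def t155 : Tr := .c 0 r589 (.c 1 r590 (.c 3 r591 (.c 6 r592 (.c 7 r593 .e))))
noncomputable def t156 : Tr := .c 1 r571 (.c 7 r573 (.c 8 r574 (.c 9 r575 .e)))
noncomputable def q543 : Tr := .c 1 v92 (.c 2 v95 (.c 7 v92 .e))
noncomputable def q544 : Tr := .c 0 v92 (.c 1 v92 (.c 6 v92 (.c 7 v92 .e)))
noncomputable def q545 : Tr := .c 1 v92 (.c 2 v95 .e)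
noncomputable def r594 : Tr := .c 3 q543 (.c 4 q544 (.c 5 q495 (.c 6 q545 (.c 9 q495 .e))))
noncomputable def q546 : Tr := .c 7 v55 .e
noncomputable def q547 : Tr := .c 6 v55 (.c 7 v55 .e)
noncomputable def q548 : Tr := .c 0 v37 (.c 2 v37 (.c 6 v37 .e))
noncomputable def r595 : Tr := .c 0 q546 (.c 1 q502 (.c 2 q547 (.c 6 q336 (.c 7 q503 (.c 8 q548 .e)))))
noncomputable def q549 : Tr := .c 0 v95 (.c 1 v95 (.c 2 v95 (.c 6 v95 (.c 7 v95 .e))))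
noncomputable def r596 : Tr := .c 0 q546 (.c 2 q547 (.c 3 q334 (.c 4 q457 (.c 5 q549 (.c 6 q336 .e)))))
noncomputable def r597 : Tr := .c 0 q546 (.c 1 q502 (.c 2 q547 (.c 3 q334 (.c 4 q457 (.c 6 q336 (.c 7 q503 .e))))))
noncomputable def t157 : Tr := .c 1 r594 (.c 5 r595 (.c 8 r596 (.c 9 r597 .e)))
noncomputable def v99 : Tr := .l 0x186185185144185144144103
noncomputable def q550 : Tr := .c 1 v98 (.c 2 v99 (.c 7 v98 (.c 8 v69 .e)))
noncomputable def q551 : Tr := .c 0 v98 (.c 1 v98 (.c 6 v98 (.c 7 v98 (.c 8 v69 .e))))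
noncomputable def q552 : Tr := .c 1 v98 (.c 2 v99 (.c 8 v69 .e))
noncomputable def r598 : Tr := .c 3 q550 (.c 4 q551 (.c 6 q552 .e))
noncomputable def q553 : Tr := .c 7 v98 (.c 8 v69 .e)
noncomputable def q554 : Tr := .c 6 v98 (.c 7 v98 (.c 8 v69 .e))
noncomputable def r599 : Tr := .c 0 q553 (.c 2 q554 (.c 3 q550 (.c 4 q551 .e)))
noncomputable def q555 : Tr := .c 7 v69 (.c 8 v7 .e)
noncomputable def q556 : Tr := .c 6 v69 (.c 7 v69 (.c 8 v7 .e))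
noncomputable def q557 : Tr := .c 1 v69 (.c 2 v15 (.c 7 v69 (.c 8 v7 .e)))
noncomputable def q558 : Tr := .c 0 v69 (.c 1 v69 (.c 6 v69 (.c 7 v69 (.c 8 v7 .e))))
noncomputable def q559 : Tr := .c 1 v69 (.c 2 v15 (.c 8 v7 .e))
noncomputable def r600 : Tr := .c 0 q555 (.c 2 q556 (.c 3 q557 (.c 4 q558 (.c 6 q559 .e))))
noncomputable def r601 : Tr := .c 0 q555 (.c 1 q525 (.c 2 q556 (.c 3 q557 (.c 4 q558 (.c 6 q559 (.c 7 q527 .e))))))
noncomputable def t158 : Tr := .c 1 r598 (.c 7 r599 (.c 8 r600 (.c 9 r601 .e)))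
noncomputable def r602 : Tr := .c 4 q504 (.c 7 q506 (.c 8 q507 .e))
noncomputable def r603 : Tr := .c 3 q509 (.c 4 q504 (.c 6 q510 .e))
noncomputable def r604 : Tr := .c 1 q210 (.c 2 q511 (.c 4 q504 (.c 8 q507 .e)))
noncomputable def r605 : Tr := .c 0 q512 (.c 2 q511 (.c 3 q509 (.c 4 q504 .e)))
noncomputable def r606 : Tr := .c 0 q513 (.c 2 q514 (.c 3 q515 (.c 4 q516 (.c 6 q518 .e))))
noncomputable def t159 : Tr := .c 0 r602 (.c 1 r603 (.c 6 r604 (.c 7 r605 (.c 8 r606 .e))))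
noncomputable def q560 : Tr := .c 1 v98 (.c 2 v99 (.c 7 v98 .e))
noncomputable def q561 : Tr := .c 0 v98 (.c 1 v98 (.c 6 v98 (.c 7 v98 .e)))
noncomputable def q562 : Tr := .c 1 v98 (.c 2 v99 .e)
noncomputable def r607 : Tr := .c 3 q560 (.c 4 q561 (.c 6 q562 .e))
noncomputable def r608 : Tr := .c 0 q383 (.c 2 q526 (.c 3 q369 (.c 4 q529 (.c 6 q371 .e))))
noncomputable def t160 : Tr := .c 1 r607 (.c 5 r583 (.c 8 r608 (.c 9 r584 .e)))
noncomputable def r609 : Tr := .c 4 q519 (.c 7 q521 (.c 8 q522 .e))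
noncomputable def r610 : Tr := .c 1 q523 (.c 2 q524 (.c 7 q521 (.c 8 q522 .e)))
noncomputable def t161 : Tr := .c 0 r609 (.c 3 r610 (.c 5 r583 (.c 9 r584 .e)))
noncomputable def r611 : Tr := .c 4 q530 (.c 7 q532 (.c 8 q533 .e))
noncomputable def r612 : Tr := .c 2 q535 (.c 7 q532 (.c 8 q533 .e))
noncomputable def r613 : Tr := .c 2 q535 (.c 4 q530 (.c 8 q533 .e))
noncomputable def t162 : Tr := .c 0 r611 (.c 3 r612 (.c 5 r587 (.c 6 r613 .e)))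
noncomputable def r614 : Tr := .c 4 q530 (.c 7 q506 (.c 8 q541 .e))
noncomputable def r615 : Tr := .c 3 q510 (.c 4 q530 (.c 6 q510 .e))
noncomputable def r616 : Tr := .c 2 q535 (.c 7 q506 (.c 8 q541 .e))
noncomputable def r617 : Tr := .c 2 q535 (.c 4 q530 (.c 8 q541 .e))
noncomputable def r618 : Tr := .c 0 q535 (.c 2 q535 (.c 3 q510 (.c 4 q530 .e)))
noncomputable def t163 : Tr := .c 0 r614 (.c 1 r615 (.c 3 r616 (.c 6 r617 (.c 7 r618 .e))))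
noncomputable def v100 : Tr := .l 0x185146186185144105185144
noncomputable def q563 : Tr := .c 6 v96 (.c 7 v96 (.c 8 v100 .e))
noncomputable def r619 : Tr := .c 1 q523 (.c 2 q563 (.c 7 q521 .e))
noncomputable def q564 : Tr := .c 7 v69 (.c 8 v11 .e)
noncomputable def q565 : Tr := .c 6 v69 (.c 7 v69 (.c 8 v11 .e))
noncomputable def q566 : Tr := .c 1 v69 (.c 2 v15 (.c 8 v11 .e))
noncomputable def r620 : Tr := .c 0 q564 (.c 1 q525 (.c 2 q565 (.c 6 q566 (.c 7 q527 .e))))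
noncomputable def q567 : Tr := .c 0 v96 (.c 1 v96 (.c 6 v96 (.c 7 v96 (.c 8 v100 .e))))
noncomputable def r621 : Tr := .c 1 q523 (.c 2 q563 (.c 4 q567 (.c 5 q492 .e)))
noncomputable def q568 : Tr := .c 1 v69 (.c 2 v15 (.c 7 v69 (.c 8 v11 .e)))
noncomputable def q569 : Tr := .c 0 v69 (.c 1 v69 (.c 6 v69 (.c 7 v69 (.c 8 v11 .e))))
noncomputable def r622 : Tr := .c 0 q564 (.c 1 q525 (.c 2 q565 (.c 3 q568 (.c 4 q569 (.c 6 q566 (.c 7 q527 .e))))))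
noncomputable def t164 : Tr := .c 3 r619 (.c 5 r620 (.c 6 r621 (.c 9 r622 .e)))
noncomputable def q570 : Tr := .c 0 v96 (.c 2 v96 .e)
noncomputable def r623 : Tr := .c 1 q498 (.c 2 q499 (.c 7 q570 .e))
noncomputable def r624 : Tr := .c 0 q93 (.c 1 q502 (.c 2 q229 (.c 6 q320 (.c 7 q503 .e))))
noncomputable def r625 : Tr := .c 1 q498 (.c 2 q499 (.c 4 q491 (.c 5 q492 .e)))
noncomputable def r626 : Tr := .c 0 q500 (.c 2 q499 (.c 3 q496 (.c 4 q491 (.c 5 q492 .e))))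
noncomputable def t165 : Tr := .c 3 r623 (.c 5 r624 (.c 6 r625 (.c 7 r626 (.c 8 r574 (.c 9 r575 .e)))))
noncomputable def r627 : Tr := .c 4 q491 (.c 5 q492 (.c 7 q493 .e))
noncomputable def r628 : Tr := .c 3 q496 (.c 4 q491 (.c 5 q492 (.c 6 q497 .e)))
noncomputable def t166 : Tr := .c 0 r627 (.c 1 r628 (.c 6 r625 (.c 7 r626 (.c 8 r574 (.c 9 r575 .e)))))
noncomputable def r629 : Tr := .c 4 q504 (.c 5 q505 (.c 7 q506 .e))
noncomputable def r630 : Tr := .c 3 q509 (.c 4 q504 (.c 5 q505 (.c 6 q510 .e)))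
noncomputable def r631 : Tr := .c 1 q210 (.c 2 q511 (.c 4 q504 (.c 5 q505 .e)))
noncomputable def r632 : Tr := .c 0 q512 (.c 2 q511 (.c 3 q509 (.c 4 q504 (.c 5 q505 .e))))
noncomputable def t167 : Tr := .c 0 r629 (.c 1 r630 (.c 6 r631 (.c 7 r632 (.c 8 r580 .e))))
noncomputable def r633 : Tr := .c 4 q530 (.c 5 q531 (.c 7 q532 .e))
noncomputable def r634 : Tr := .c 2 q535 (.c 7 q532 .e)
noncomputable def r635 : Tr := .c 0 q536 (.c 2 q536 (.c 6 q537 (.c 7 q538 .e)))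
noncomputable def r636 : Tr := .c 2 q535 (.c 4 q530 (.c 5 q531 .e))
noncomputable def t168 : Tr := .c 0 r633 (.c 3 r634 (.c 5 r635 (.c 6 r636 .e)))
noncomputable def r637 : Tr := .c 4 q530 (.c 5 q540 (.c 7 q506 .e))
noncomputable def r638 : Tr := .c 3 q510 (.c 4 q530 (.c 5 q540 (.c 6 q510 .e)))
noncomputable def r639 : Tr := .c 2 q535 (.c 7 q506 .e)
noncomputable def r640 : Tr := .c 2 q535 (.c 4 q530 (.c 5 q540 .e))
noncomputable def r641 : Tr := .c 0 q535 (.c 2 q535 (.c 3 q510 (.c 4 q530 (.c 5 q540 .e))))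
noncomputable def t169 : Tr := .c 0 r637 (.c 1 r638 (.c 3 r639 (.c 6 r640 (.c 7 r641 .e))))
noncomputable def t170 : Tr := .c 5 r624 (.c 7 r626 (.c 8 r574 (.c 9 r575 .e)))
noncomputable def t171 : Tr := .c 1 r628 (.c 7 r626 (.c 8 r574 (.c 9 r575 .e)))
noncomputable def q571 : Tr := .c 0 v40 (.c 2 v40 (.c 6 v40 .e))
noncomputable def r642 : Tr := .c 0 q53 (.c 1 q191 (.c 2 q232 (.c 8 q571 .e)))
noncomputable def v101 : Tr := .l 0x185146144105144185185146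
noncomputable def q572 : Tr := .c 7 v101 (.c 8 v38 .e)
noncomputable def q573 : Tr := .c 6 v101 (.c 7 v101 (.c 8 v38 .e))
noncomputable def q574 : Tr := .c 1 v101 (.c 2 v70 (.c 7 v101 (.c 8 v38 .e)))
noncomputable def q575 : Tr := .c 0 v101 (.c 1 v101 (.c 6 v101 (.c 7 v101 (.c 8 v38 .e))))
noncomputable def q576 : Tr := .c 0 v84 (.c 1 v84 (.c 2 v84 (.c 6 v84 (.c 7 v84 (.c 8 v101 .e)))))
noncomputable def q577 : Tr := .c 0 v84 (.c 1 v84 (.c 2 v84 (.c 6 v84 (.c 7 v84 .e))))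
noncomputable def r643 : Tr := .c 0 q572 (.c 2 q573 (.c 3 q574 (.c 4 q575 (.c 5 q576 (.c 9 q577 .e)))))
noncomputable def q578 : Tr := .c 1 v38 (.c 2 v54 (.c 7 v38 (.c 8 v35 .e)))
noncomputable def q579 : Tr := .c 0 v101 (.c 1 v101 (.c 2 v101 (.c 6 v101 (.c 7 v101 (.c 8 v38 .e)))))
noncomputable def r644 : Tr := .c 0 q53 (.c 2 q232 (.c 3 q578 (.c 4 q429 (.c 5 q579 .e))))
noncomputable def r645 : Tr := .c 0 q53 (.c 1 q191 (.c 2 q232 (.c 3 q578 (.c 4 q429 .e))))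
noncomputable def t172 : Tr := .c 5 r642 (.c 7 r643 (.c 8 r644 (.c 9 r645 .e)))
noncomputable def v102 : Tr := .l 0x185186144185144185185144
noncomputable def q580 : Tr := .c 6 v102 .e
noncomputable def q581 : Tr := .c 0 v84 (.c 2 v84 (.c 6 v84 .e))
noncomputable def r646 : Tr := .c 1 q580 (.c 2 q573 (.c 8 q581 (.c 9 q577 .e)))
noncomputable def r647 : Tr := .c 1 q580 (.c 2 q573 (.c 4 q575 (.c 5 q576 (.c 8 q581 (.c 9 q577 .e)))))
noncomputable def t173 : Tr := .c 3 r646 (.c 5 r642 (.c 6 r647 (.c 7 r643 (.c 8 r644 (.c 9 r645 .e)))))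
noncomputable def r648 : Tr := .c 3 q574 (.c 4 q575 (.c 5 q576 (.c 9 q577 .e)))
noncomputable def t174 : Tr := .c 1 r648 (.c 7 r643 (.c 8 r644 (.c 9 r645 .e)))
noncomputable def r649 : Tr := .c 4 q575 (.c 5 q576 (.c 8 q581 (.c 9 q577 .e)))
noncomputable def t175 : Tr := .c 0 r649 (.c 1 r648 (.c 6 r647 (.c 7 r643 (.c 8 r644 (.c 9 r645 .e)))))
noncomputable def v103 : Tr := .l 0x144185105146103144144185
noncomputable def q582 : Tr := .c 0 v103 (.c 1 v103 (.c 6 v103 (.c 7 v103 (.c 8 v93 .e))))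
noncomputable def v104 : Tr := .l 0x1031440c41050c2103103144
noncomputable def q583 : Tr := .c 0 v104 (.c 1 v104 (.c 6 v104 (.c 7 v104 (.c 8 v56 .e))))
noncomputable def q584 : Tr := .c 0 v104 (.c 6 v104 .e)
noncomputable def q585 : Tr := .c 0 v104 (.c 1 v104 (.c 6 v104 (.c 7 v104 .e)))
noncomputable def r650 : Tr := .c 4 q582 (.c 5 q583 (.c 8 q584 (.c 9 q585 .e)))
noncomputable def q586 : Tr := .c 1 v103 (.c 7 v103 (.c 8 v93 .e))
noncomputable def r651 : Tr := .c 3 q586 (.c 4 q582 (.c 5 q583 (.c 9 q585 .e)))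
noncomputable def q587 : Tr := .c 6 v103 .e
noncomputable def q588 : Tr := .c 6 v103 (.c 7 v103 (.c 8 v93 .e))
noncomputable def r652 : Tr := .c 1 q587 (.c 2 q588 (.c 4 q582 (.c 5 q583 (.c 8 q584 (.c 9 q585 .e)))))
noncomputable def q589 : Tr := .c 7 v103 (.c 8 v93 .e)
noncomputable def r653 : Tr := .c 0 q589 (.c 2 q588 (.c 3 q586 (.c 4 q582 (.c 5 q583 (.c 9 q585 .e)))))
noncomputable def q590 : Tr := .c 0 v103 (.c 1 v103 (.c 6 v103 (.c 7 v103 (.c 8 v55 .e))))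
noncomputable def r654 : Tr := .c 0 q93 (.c 2 q229 (.c 3 q317 (.c 4 q422 (.c 5 q590 .e))))
noncomputable def t176 : Tr := .c 0 r650 (.c 1 r651 (.c 6 r652 (.c 7 r653 (.c 8 r654 .e))))
noncomputable def q591 : Tr := .c 1 v101 (.c 2 v70 (.c 7 v101 .e))
noncomputable def q592 : Tr := .c 0 v101 (.c 1 v101 (.c 6 v101 (.c 7 v101 .e)))
noncomputable def r655 : Tr := .c 3 q591 (.c 4 q592 (.c 5 q577 (.c 9 q577 .e)))
noncomputable def r656 : Tr := .c 0 q63 (.c 1 q191 (.c 2 q266 (.c 8 q571 .e)))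
noncomputable def q593 : Tr := .c 1 v38 (.c 2 v54 (.c 7 v38 .e))
noncomputable def q594 : Tr := .c 0 v101 (.c 1 v101 (.c 2 v101 (.c 6 v101 (.c 7 v101 .e))))
noncomputable def r657 : Tr := .c 0 q63 (.c 2 q266 (.c 3 q593 (.c 4 q462 (.c 5 q594 .e))))
noncomputable def r658 : Tr := .c 0 q63 (.c 1 q191 (.c 2 q266 (.c 3 q593 (.c 4 q462 .e))))
noncomputable def t177 : Tr := .c 1 r655 (.c 5 r656 (.c 8 r657 (.c 9 r658 .e)))
noncomputable def q595 : Tr := .c 1 v56 (.c 2 v84 (.c 8 v57 .e))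
noncomputable def q596 : Tr := .c 1 v55 (.c 2 v70 (.c 4 v70 (.c 5 v38 (.c 8 v38 (.c 9 v38 .e)))))
noncomputable def q597 : Tr := .c 1 v56 (.c 2 v84 (.c 4 v84 .e))
noncomputable def r659 : Tr := .c 3 q304 (.c 4 q333 (.c 5 q595 (.c 6 q596 (.c 9 q597 .e))))
noncomputable def q598 : Tr := .c 1 v60 (.c 2 v36 (.c 8 v59 .e))
noncomputable def q599 : Tr := .c 1 v59 (.c 2 v33 (.c 4 v33 (.c 5 v34 (.c 8 v34 (.c 9 v34 .e)))))
noncomputable def q600 : Tr := .c 2 v33 (.c 4 v33 (.c 5 v34 (.c 9 v34 .e)))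
noncomputable def q601 : Tr := .c 2 v36 (.c 4 v36 (.c 5 v32 .e))
noncomputable def q602 : Tr := .c 1 v60 (.c 2 v36 (.c 4 v36 .e))
noncomputable def r660 : Tr := .c 3 q308 (.c 5 q598 (.c 6 q599 (.c 7 q600 (.c 8 q601 (.c 9 q602 .e)))))
noncomputable def v105 : Tr := .l 0x185186144185186186185186
noncomputable def q603 : Tr := .c 4 v105 (.c 5 v38 (.c 8 v38 (.c 9 v38 .e)))
noncomputable def r661 : Tr := .c 0 q603 (.c 2 q113 (.c 3 q304 (.c 4 q333 (.c 5 q595 (.c 9 q597 .e)))))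
noncomputable def t178 : Tr := .c 1 r659 (.c 2 r660 (.c 7 r661 .e))
noncomputable def q604 : Tr := .c 2 v85 (.c 4 v85 .e)
noncomputable def q605 : Tr := .c 2 v84 (.c 4 v84 .e)
noncomputable def r662 : Tr := .c 4 q427 (.c 5 q595 (.c 7 q604 (.c 8 q605 (.c 9 q597 .e))))
noncomputable def q606 : Tr := .c 1 v55 (.c 2 v70 (.c 4 v70 (.c 8 v38 .e)))
noncomputable def r663 : Tr := .c 3 q320 (.c 4 q427 (.c 5 q595 (.c 6 q606 (.c 9 q597 .e))))
noncomputable def r664 : Tr := .c 1 q208 (.c 2 q272 (.c 4 q427 (.c 5 q595 (.c 8 q605 (.c 9 q597 .e)))))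
noncomputable def q607 : Tr := .c 4 v105 (.c 8 v38 .e)
noncomputable def r665 : Tr := .c 0 q607 (.c 2 q272 (.c 3 q320 (.c 4 q427 (.c 5 q595 (.c 9 q597 .e)))))
noncomputable def t179 : Tr := .c 0 r662 (.c 1 r663 (.c 6 r664 (.c 7 r665 .e)))
noncomputable def v106 : Tr := .l 0xc40830830c40830c40c4105
noncomputable def q608 : Tr := .c 5 v106 .e
noncomputable def r666 : Tr := .c 4 q329 (.c 5 q345 (.c 7 q108 (.c 8 q608 (.c 9 q346 .e))))
noncomputable def q609 : Tr := .c 1 v56 (.c 5 v57 (.c 8 v57 (.c 9 v57 .e)))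
noncomputable def r667 : Tr := .c 3 q329 (.c 4 q329 (.c 5 q345 (.c 6 q609 (.c 9 q346 .e))))
noncomputable def q610 : Tr := .c 1 v62 (.c 5 v43 (.c 8 v43 (.c 9 v43 .e)))
noncomputable def r668 : Tr := .c 3 q331 (.c 5 q345 (.c 6 q610 (.c 7 q108 (.c 8 q608 (.c 9 q346 .e)))))
noncomputable def r669 : Tr := .c 1 q108 (.c 2 q109 (.c 4 q329 (.c 5 q345 (.c 8 q608 (.c 9 q346 .e)))))
noncomputable def r670 : Tr := .c 0 q109 (.c 2 q109 (.c 3 q329 (.c 4 q329 (.c 5 q345 (.c 9 q346 .e)))))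
noncomputable def t180 : Tr := .c 0 r666 (.c 1 r667 (.c 2 r668 (.c 6 r669 (.c 7 r670 .e))))
noncomputable def q611 : Tr := .c 1 v56 (.c 2 v84 .e)
noncomputable def q612 : Tr := .c 1 v55 (.c 2 v70 (.c 4 v70 (.c 5 v38 .e)))
noncomputable def r671 : Tr := .c 3 q336 (.c 4 q458 (.c 5 q611 (.c 6 q612 (.c 9 q597 .e))))
noncomputable def q613 : Tr := .c 1 v60 (.c 2 v36 .e)
noncomputable def q614 : Tr := .c 1 v59 (.c 2 v33 (.c 4 v33 (.c 5 v34 .e)))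
noncomputable def q615 : Tr := .c 2 v33 (.c 4 v33 (.c 5 v34 .e))
noncomputable def r672 : Tr := .c 3 q338 (.c 5 q613 (.c 6 q614 (.c 7 q615 (.c 8 q601 (.c 9 q602 .e)))))
noncomputable def r673 : Tr := .c 0 q71 (.c 1 q71 (.c 6 q614 (.c 7 q615 (.c 8 q601 (.c 9 q602 .e)))))
noncomputable def q616 : Tr := .c 1 v38 (.c 2 v42 (.c 4 v42 (.c 5 v35 .e)))
noncomputable def q617 : Tr := .c 2 v42 (.c 4 v42 (.c 5 v35 .e))
noncomputable def q618 : Tr := .c 2 v40 (.c 4 v40 (.c 5 v29 .e))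
noncomputable def r674 : Tr := .c 0 q65 (.c 1 q65 (.c 2 q260 (.c 6 q616 (.c 7 q617 (.c 8 q618 .e)))))
noncomputable def t181 : Tr := .c 1 r671 (.c 2 r672 (.c 4 r673 (.c 5 r674 .e)))
noncomputable def r675 : Tr := .c 1 q108 (.c 2 q109 (.c 7 q108 (.c 8 q608 (.c 9 q346 .e))))
noncomputable def r676 : Tr := .c 0 q111 (.c 1 q108 (.c 6 q610 (.c 7 q108 (.c 8 q608 (.c 9 q346 .e)))))
noncomputable def t182 : Tr := .c 0 r666 (.c 1 r667 (.c 2 r668 (.c 3 r675 (.c 4 r676 (.c 6 r669 (.c 7 r670 .e))))))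
noncomputable def q619 : Tr := .c 1 v69 (.c 8 v12 (.c 9 v12 .e))
noncomputable def q620 : Tr := .c 1 v69 (.c 2 v15 (.c 4 v15 (.c 5 v12 (.c 8 v12 (.c 9 v12 .e)))))
noncomputable def r677 : Tr := .c 3 q349 (.c 4 q619 (.c 6 q620 .e))
noncomputable def q621 : Tr := .c 1 v6 (.c 2 v0 (.c 4 v0 (.c 5 v1 (.c 8 v1 (.c 9 v1 .e)))))
noncomputable def q622 : Tr := .c 2 v0 (.c 4 v0 (.c 5 v1 (.c 9 v1 .e)))
noncomputable def q623 : Tr := .c 2 v3 (.c 4 v3 (.c 5 v4 .e))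
noncomputable def r678 : Tr := .c 3 q351 (.c 6 q621 (.c 7 q622 (.c 8 q623 .e)))
noncomputable def q624 : Tr := .c 4 v66 (.c 5 v12 (.c 8 v12 (.c 9 v12 .e)))
noncomputable def q625 : Tr := .c 5 v12 (.c 8 v12 (.c 9 v12 .e))
noncomputable def r679 : Tr := .c 0 q624 (.c 2 q625 (.c 3 q349 (.c 4 q619 .e)))
noncomputable def t183 : Tr := .c 1 r677 (.c 2 r678 (.c 7 r679 .e))
noncomputable def r680 : Tr := .c 4 q362 (.c 7 q36 (.c 8 q37 .e))
noncomputable def q626 : Tr := .c 1 v88 (.c 5 v18 (.c 8 v18 (.c 9 v18 .e)))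
noncomputable def r681 : Tr := .c 3 q362 (.c 4 q362 (.c 6 q626 .e))
noncomputable def q627 : Tr := .c 1 v24 (.c 5 v20 (.c 8 v20 (.c 9 v20 .e)))
noncomputable def r682 : Tr := .c 3 q364 (.c 6 q627 (.c 7 q36 (.c 8 q37 .e)))
noncomputable def r683 : Tr := .c 1 q36 (.c 2 q31 (.c 4 q362 (.c 8 q37 .e)))
noncomputable def r684 : Tr := .c 0 q31 (.c 2 q31 (.c 3 q362 (.c 4 q362 .e)))
noncomputable def t184 : Tr := .c 0 r680 (.c 1 r681 (.c 2 r682 (.c 6 r683 (.c 7 r684 .e))))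
noncomputable def q628 : Tr := .c 1 v69 .e
noncomputable def q629 : Tr := .c 1 v69 (.c 2 v15 (.c 4 v15 (.c 5 v12 .e)))
noncomputable def r685 : Tr := .c 3 q371 (.c 4 q628 (.c 6 q629 .e))
noncomputable def q630 : Tr := .c 1 v6 (.c 2 v0 (.c 4 v0 (.c 5 v1 .e)))
noncomputable def q631 : Tr := .c 2 v0 (.c 4 v0 (.c 5 v1 .e))
noncomputable def r686 : Tr := .c 3 q373 (.c 6 q630 (.c 7 q631 (.c 8 q623 .e)))
noncomputable def r687 : Tr := .c 0 q18 (.c 1 q18 (.c 6 q630 (.c 7 q631 (.c 8 q623 .e))))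
noncomputable def q632 : Tr := .c 5 v6 .e
noncomputable def q633 : Tr := .c 1 v12 (.c 2 v5 (.c 4 v5 (.c 5 v6 .e)))
noncomputable def q634 : Tr := .c 2 v5 (.c 4 v5 (.c 5 v6 .e))
noncomputable def q635 : Tr := .c 2 v8 (.c 4 v8 (.c 5 v9 .e))
noncomputable def r688 : Tr := .c 0 q21 (.c 1 q21 (.c 2 q632 (.c 6 q633 (.c 7 q634 (.c 8 q635 .e)))))
noncomputable def t185 : Tr := .c 1 r685 (.c 2 r686 (.c 4 r687 (.c 5 r688 .e)))
noncomputable def q636 : Tr := .c 1 v87 .e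
noncomputable def r689 : Tr := .c 4 q636 (.c 7 q631 (.c 8 q623 .e))
noncomputable def q637 : Tr := .c 5 v12 .e
noncomputable def r690 : Tr := .c 1 q18 (.c 2 q637 (.c 7 q631 (.c 8 q623 .e)))
noncomputable def t186 : Tr := .c 0 r689 (.c 2 r686 (.c 3 r690 (.c 4 r687 (.c 5 r688 .e))))
noncomputable def q638 : Tr := .c 2 v19 (.c 4 v19 (.c 5 v20 (.c 9 v20 .e)))
noncomputable def q639 : Tr := .c 2 v21 (.c 4 v21 (.c 5 v22 .e))
noncomputable def r691 : Tr := .c 4 q362 (.c 7 q638 (.c 8 q639 .e))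
noncomputable def q640 : Tr := .c 1 v24 (.c 2 v19 (.c 4 v19 (.c 5 v20 (.c 8 v20 (.c 9 v20 .e)))))
noncomputable def r692 : Tr := .c 3 q386 (.c 6 q640 (.c 7 q638 (.c 8 q639 .e)))
noncomputable def r693 : Tr := .c 1 q27 (.c 2 q31 (.c 7 q638 (.c 8 q639 .e)))
noncomputable def r694 : Tr := .c 0 q30 (.c 1 q27 (.c 6 q640 (.c 7 q638 (.c 8 q639 .e))))
noncomputable def q641 : Tr := .c 1 v18 (.c 2 v23 (.c 4 v23 (.c 5 v24 (.c 8 v24 (.c 9 v24 .e)))))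
noncomputable def q642 : Tr := .c 2 v23 (.c 4 v23 (.c 5 v24 (.c 9 v24 .e)))
noncomputable def q643 : Tr := .c 2 v25 (.c 4 v25 (.c 5 v26 .e))
noncomputable def r695 : Tr := .c 0 q32 (.c 1 q33 (.c 2 q34 (.c 6 q641 (.c 7 q642 (.c 8 q643 .e)))))
noncomputable def r696 : Tr := .c 1 q27 (.c 2 q31 (.c 4 q362 (.c 8 q639 .e)))
noncomputable def t187 : Tr := .c 0 r691 (.c 2 r692 (.c 3 r693 (.c 4 r694 (.c 5 r695 (.c 6 r696 .e)))))
noncomputable def r697 : Tr := .c 0 q38 (.c 1 q36 (.c 6 q627 (.c 7 q36 (.c 8 q37 .e))))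
noncomputable def t188 : Tr := .c 0 r680 (.c 1 r681 (.c 2 r682 (.c 3 r24 (.c 4 r697 (.c 6 r683 (.c 7 r684 .e))))))
noncomputable def r698 : Tr := .c 0 q2 (.c 1 q1 (.c 6 q621 (.c 7 q622 (.c 8 q623 .e))))
noncomputable def q644 : Tr := .c 5 v6 (.c 8 v6 (.c 9 v6 .e))
noncomputable def q645 : Tr := .c 1 v12 (.c 2 v5 (.c 4 v5 (.c 5 v6 (.c 8 v6 (.c 9 v6 .e)))))
noncomputable def q646 : Tr := .c 2 v5 (.c 4 v5 (.c 5 v6 (.c 9 v6 .e)))
noncomputable def r699 : Tr := .c 0 q7 (.c 1 q5 (.c 2 q644 (.c 6 q645 (.c 7 q646 (.c 8 q635 .e)))))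
noncomputable def q647 : Tr := .c 4 v10 (.c 5 v11 (.c 8 v11 (.c 9 v11 .e)))
noncomputable def q648 : Tr := .c 5 v11 (.c 8 v11 (.c 9 v11 .e))
noncomputable def v107 : Tr := .l 0x186146186186146105186146
noncomputable def q649 : Tr := .c 1 v107 (.c 2 v68 (.c 8 v11 (.c 9 v11 .e)))
noncomputable def q650 : Tr := .c 1 v107 (.c 8 v11 (.c 9 v11 .e))
noncomputable def r700 : Tr := .c 0 q647 (.c 2 q648 (.c 3 q649 (.c 4 q650 .e)))
noncomputable def t189 : Tr := .c 4 r698 (.c 5 r699 (.c 7 r700 .e))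
noncomputable def r701 : Tr := .c 1 q1 (.c 2 q625 (.c 7 q622 (.c 8 q623 .e)))
noncomputable def r702 : Tr := .c 1 q1 (.c 2 q625 (.c 4 q619 (.c 8 q623 .e)))
noncomputable def t190 : Tr := .c 3 r701 (.c 4 r698 (.c 5 r699 (.c 6 r702 .e)))
noncomputable def q651 : Tr := .c 1 v34 (.c 2 v27 (.c 4 v27 (.c 5 v28 (.c 8 v28 (.c 9 v28 .e)))))
noncomputable def q652 : Tr := .c 2 v27 (.c 4 v27 (.c 5 v28 (.c 9 v28 .e)))
noncomputable def q653 : Tr := .c 2 v30 (.c 4 v30 (.c 5 v31 .e))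
noncomputable def q654 : Tr := .c 1 v32 (.c 2 v30 (.c 4 v30 .e))
noncomputable def r703 : Tr := .c 0 q41 (.c 1 q40 (.c 6 q651 (.c 7 q652 (.c 8 q653 (.c 9 q654 .e)))))
noncomputable def q655 : Tr := .c 1 v35 (.c 2 v33 (.c 4 v33 (.c 5 v34 (.c 8 v34 (.c 9 v34 .e)))))
noncomputable def r704 : Tr := .c 0 q46 (.c 1 q45 (.c 6 q655 (.c 7 q600 (.c 8 q601 .e))))
noncomputable def q656 : Tr := .c 4 v37 (.c 5 v35 (.c 8 v35 (.c 9 v35 .e)))
noncomputable def q657 : Tr := .c 1 v39 (.c 2 v40 (.c 8 v38 .e))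
noncomputable def q658 : Tr := .c 1 v39 (.c 2 v40 (.c 4 v40 .e))
noncomputable def r705 : Tr := .c 0 q656 (.c 3 q315 (.c 5 q657 (.c 9 q658 .e)))
noncomputable def t191 : Tr := .c 4 r703 (.c 5 r704 (.c 7 r705 .e))
noncomputable def r706 : Tr := .c 1 q40 (.c 7 q652 (.c 8 q653 (.c 9 q654 .e)))
noncomputable def q659 : Tr := .c 1 v32 (.c 2 v30 (.c 8 v41 .e))
noncomputable def r707 : Tr := .c 1 q40 (.c 5 q659 (.c 8 q653 (.c 9 q654 .e)))
noncomputable def t192 : Tr := .c 3 r706 (.c 4 r703 (.c 5 r704 (.c 6 r707 .e)))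
noncomputable def q660 : Tr := .c 2 v42 (.c 4 v42 .e)
noncomputable def q661 : Tr := .c 2 v40 (.c 4 v40 .e)
noncomputable def r708 : Tr := .c 1 q55 (.c 7 q660 (.c 8 q661 (.c 9 q658 .e)))
noncomputable def q662 : Tr := .c 1 v35 (.c 2 v33 (.c 4 v33 (.c 8 v34 .e)))
noncomputable def q663 : Tr := .c 2 v33 (.c 4 v33 .e)
noncomputable def q664 : Tr := .c 2 v36 (.c 4 v36 .e)
noncomputable def r709 : Tr := .c 0 q59 (.c 1 q58 (.c 6 q662 (.c 7 q663 (.c 8 q664 .e))))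
noncomputable def r710 : Tr := .c 1 q55 (.c 5 q657 (.c 8 q661 (.c 9 q658 .e)))
noncomputable def q665 : Tr := .c 4 v37 (.c 8 v35 .e)
noncomputable def r711 : Tr := .c 0 q665 (.c 3 q323 (.c 5 q657 (.c 9 q658 .e)))
noncomputable def t193 : Tr := .c 3 r708 (.c 5 r709 (.c 6 r710 (.c 7 r711 .e)))
noncomputable def q666 : Tr := .c 1 v39 (.c 2 v40 .e)
noncomputable def r712 : Tr := .c 3 q341 (.c 5 q666 (.c 6 q616 (.c 9 q658 .e)))
noncomputable def q667 : Tr := .c 1 v34 (.c 2 v27 .e)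
noncomputable def q668 : Tr := .c 1 v32 (.c 2 v30 .e)
noncomputable def q669 : Tr := .c 1 v34 (.c 2 v27 (.c 4 v27 (.c 5 v28 .e)))
noncomputable def q670 : Tr := .c 2 v27 (.c 4 v27 (.c 5 v28 .e))
noncomputable def r713 : Tr := .c 3 q667 (.c 5 q668 (.c 6 q669 (.c 7 q670 (.c 8 q653 (.c 9 q654 .e)))))
noncomputable def r714 : Tr := .c 0 q68 (.c 1 q68 (.c 6 q669 (.c 7 q670 (.c 8 q653 (.c 9 q654 .e)))))
noncomputable def q671 : Tr := .c 1 v35 (.c 2 v33 (.c 4 v33 (.c 5 v34 .e)))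
noncomputable def r715 : Tr := .c 0 q71 (.c 1 q71 (.c 6 q671 (.c 7 q615 (.c 8 q601 .e))))
noncomputable def t194 : Tr := .c 1 r712 (.c 2 r713 (.c 4 r714 (.c 5 r715 .e)))
noncomputable def r716 : Tr := .c 5 q668 (.c 7 q670 (.c 8 q653 (.c 9 q654 .e)))
noncomputable def r717 : Tr := .c 1 q68 (.c 7 q670 (.c 8 q653 (.c 9 q654 .e)))
noncomputable def t195 : Tr := .c 0 r716 (.c 2 r713 (.c 3 r717 (.c 4 r714 (.c 5 r715 .e))))
noncomputable def v108 : Tr := .l 0xc20830830c41030c40c4105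
noncomputable def q672 : Tr := .c 1 v108 (.c 2 v46 (.c 8 v43 .e))
noncomputable def q673 : Tr := .c 2 v44 (.c 4 v44 (.c 5 v45 (.c 9 v45 .e)))
noncomputable def q674 : Tr := .c 2 v46 (.c 4 v46 (.c 5 v47 .e))
noncomputable def q675 : Tr := .c 1 v108 (.c 2 v46 (.c 4 v46 .e))
noncomputable def r718 : Tr := .c 5 q672 (.c 7 q673 (.c 8 q674 (.c 9 q675 .e)))
noncomputable def q676 : Tr := .c 1 v43 (.c 2 v44 (.c 8 v45 (.c 9 v45 .e)))
noncomputable def q677 : Tr := .c 1 v43 (.c 2 v44 (.c 4 v44 (.c 5 v45 (.c 8 v45 (.c 9 v45 .e)))))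
noncomputable def r719 : Tr := .c 3 q676 (.c 5 q672 (.c 6 q677 (.c 7 q673 (.c 8 q674 (.c 9 q675 .e)))))
noncomputable def r720 : Tr := .c 1 q74 (.c 7 q673 (.c 8 q674 (.c 9 q675 .e)))
noncomputable def r721 : Tr := .c 0 q78 (.c 1 q74 (.c 6 q677 (.c 7 q673 (.c 8 q674 (.c 9 q675 .e)))))
noncomputable def q678 : Tr := .c 1 v52 (.c 2 v48 (.c 4 v48 (.c 5 v43 (.c 8 v43 (.c 9 v43 .e)))))
noncomputable def q679 : Tr := .c 2 v48 (.c 4 v48 (.c 5 v43 (.c 9 v43 .e)))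
noncomputable def q680 : Tr := .c 2 v49 (.c 4 v49 (.c 5 v50 .e))
noncomputable def r722 : Tr := .c 0 q79 (.c 1 q80 (.c 6 q678 (.c 7 q679 (.c 8 q680 .e))))
noncomputable def r723 : Tr := .c 1 q74 (.c 5 q672 (.c 8 q674 (.c 9 q675 .e)))
noncomputable def t196 : Tr := .c 0 r718 (.c 2 r719 (.c 3 r720 (.c 4 r721 (.c 5 r722 (.c 6 r723 .e)))))
noncomputable def r724 : Tr := .c 0 q41 (.c 1 q40 (.c 8 q653 (.c 9 q654 .e)))
noncomputable def r725 : Tr := .c 0 q46 (.c 1 q45 (.c 2 q221 (.c 8 q601 .e)))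
noncomputable def r726 : Tr := .c 0 q656 (.c 2 q285 (.c 3 q315 (.c 4 q456 (.c 5 q657 (.c 9 q658 .e)))))
noncomputable def t197 : Tr := .c 4 r724 (.c 5 r725 (.c 7 r726 .e))
noncomputable def r727 : Tr := .c 1 q55 (.c 2 q233 (.c 8 q661 (.c 9 q658 .e)))
noncomputable def r728 : Tr := .c 0 q59 (.c 1 q58 (.c 2 q258 (.c 8 q664 .e)))
noncomputable def r729 : Tr := .c 1 q55 (.c 2 q233 (.c 4 q430 (.c 5 q657 (.c 8 q661 (.c 9 q658 .e)))))
noncomputable def r730 : Tr := .c 0 q665 (.c 2 q233 (.c 3 q323 (.c 4 q430 (.c 5 q657 (.c 9 q658 .e)))))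
noncomputable def t198 : Tr := .c 3 r727 (.c 5 r728 (.c 6 r729 (.c 7 r730 .e)))
noncomputable def r731 : Tr := .c 3 q315 (.c 4 q456 (.c 5 q657 (.c 9 q658 .e)))
noncomputable def q681 : Tr := .c 1 v34 (.c 2 v27 (.c 8 v35 (.c 9 v35 .e)))
noncomputable def q682 : Tr := .c 1 v32 (.c 2 v30 (.c 8 v29 .e))
noncomputable def r732 : Tr := .c 3 q681 (.c 5 q682 (.c 8 q653 (.c 9 q654 .e)))
noncomputable def t199 : Tr := .c 1 r731 (.c 2 r732 (.c 7 r726 .e))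
noncomputable def r733 : Tr := .c 4 q430 (.c 5 q657 (.c 8 q661 (.c 9 q658 .e)))
noncomputable def r734 : Tr := .c 3 q323 (.c 4 q430 (.c 5 q657 (.c 9 q658 .e)))
noncomputable def t200 : Tr := .c 0 r733 (.c 1 r734 (.c 6 r729 (.c 7 r730 .e)))
noncomputable def q683 : Tr := .c 1 v39 (.c 8 v38 (.c 9 v38 .e))
noncomputable def q684 : Tr := .c 1 v60 (.c 8 v63 .e)
noncomputable def q685 : Tr := .c 1 v60 .e
noncomputable def r735 : Tr := .c 4 q683 (.c 5 q684 (.c 8 q122 (.c 9 q685 .e)))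
noncomputable def r736 : Tr := .c 3 q683 (.c 4 q683 (.c 5 q684 (.c 9 q685 .e)))
noncomputable def q686 : Tr := .c 1 v59 (.c 8 v52 (.c 9 v52 .e))
noncomputable def r737 : Tr := .c 3 q686 (.c 5 q684 (.c 8 q122 (.c 9 q685 .e)))
noncomputable def r738 : Tr := .c 1 q125 (.c 2 q113 (.c 4 q683 (.c 5 q684 (.c 8 q122 (.c 9 q685 .e)))))
noncomputable def r739 : Tr := .c 0 q113 (.c 2 q113 (.c 3 q683 (.c 4 q683 (.c 5 q684 (.c 9 q685 .e)))))
noncomputable def t201 : Tr := .c 0 r735 (.c 1 r736 (.c 2 r737 (.c 6 r738 (.c 7 r739 .e))))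
noncomputable def r740 : Tr := .c 3 q341 (.c 4 q463 (.c 5 q666 (.c 9 q658 .e)))
noncomputable def r741 : Tr := .c 3 q667 (.c 5 q668 (.c 8 q653 (.c 9 q654 .e)))
noncomputable def r742 : Tr := .c 0 q68 (.c 1 q68 (.c 8 q653 (.c 9 q654 .e)))
noncomputable def r743 : Tr := .c 0 q71 (.c 1 q71 (.c 2 q238 (.c 8 q601 .e)))
noncomputable def t202 : Tr := .c 1 r740 (.c 2 r741 (.c 4 r742 (.c 5 r743 .e)))
noncomputable def r744 : Tr := .c 0 q46 (.c 1 q45 (.c 8 q601 .e))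
noncomputable def t203 : Tr := .c 4 r724 (.c 5 r744 (.c 7 r705 .e))
noncomputable def r745 : Tr := .c 1 q40 (.c 8 q653 (.c 9 q654 .e))
noncomputable def t204 : Tr := .c 3 r745 (.c 4 r724 (.c 5 r744 (.c 6 r707 .e)))
noncomputable def r746 : Tr := .c 1 q55 (.c 8 q661 (.c 9 q658 .e))
noncomputable def r747 : Tr := .c 0 q59 (.c 1 q58 (.c 8 q664 .e))
noncomputable def t205 : Tr := .c 3 r746 (.c 5 r747 (.c 6 r710 (.c 7 r711 .e)))
noncomputable def r748 : Tr := .c 3 q315 (.c 5 q657 (.c 9 q658 .e))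
noncomputable def t206 : Tr := .c 1 r748 (.c 2 r732 (.c 7 r705 .e))
noncomputable def r749 : Tr := .c 5 q657 (.c 8 q661 (.c 9 q658 .e))
noncomputable def r750 : Tr := .c 3 q323 (.c 5 q657 (.c 9 q658 .e))
noncomputable def t207 : Tr := .c 0 r749 (.c 1 r750 (.c 6 r710 (.c 7 r711 .e)))
noncomputable def r751 : Tr := .c 3 q341 (.c 5 q666 (.c 9 q658 .e))
noncomputable def r752 : Tr := .c 0 q71 (.c 1 q71 (.c 8 q601 .e))
noncomputable def t208 : Tr := .c 1 r751 (.c 2 r741 (.c 4 r742 (.c 5 r752 .e)))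
noncomputable def r753 : Tr := .c 5 q668 (.c 8 q653 (.c 9 q654 .e))
noncomputable def r754 : Tr := .c 1 q68 (.c 8 q653 (.c 9 q654 .e))
noncomputable def t209 : Tr := .c 0 r753 (.c 2 r741 (.c 3 r754 (.c 4 r742 (.c 5 r752 .e))))
noncomputable def q687 : Tr := .c 0 v37 (.c 2 v37 .e)
noncomputable def q688 : Tr := .c 0 v85 (.c 2 v85 (.c 3 v85 (.c 4 v85 .e)))
noncomputable def q689 : Tr := .c 0 v37 (.c 2 v37 (.c 3 v37 (.c 4 v37 .e)))
noncomputable def r755 : Tr := .c 4 q424 (.c 5 q687 (.c 7 q688 (.c 8 q689 (.c 9 q689 .e))))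
noncomputable def r756 : Tr := .c 3 q318 (.c 4 q424 (.c 5 q687 (.c 6 q604 (.c 9 q689 .e))))
noncomputable def q690 : Tr := .c 3 v105 (.c 4 v105 .e)
noncomputable def r757 : Tr := .c 1 q690 (.c 2 q271 (.c 4 q424 (.c 5 q687 (.c 8 q689 (.c 9 q689 .e)))))
noncomputable def r758 : Tr := .c 0 q104 (.c 2 q271 (.c 3 q318 (.c 4 q424 (.c 5 q687 (.c 9 q689 .e)))))
noncomputable def t210 : Tr := .c 0 r755 (.c 1 r756 (.c 6 r757 (.c 7 r758 .e)))
noncomputable def q691 : Tr := .c 0 v11 (.c 9 v18 .e)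
noncomputable def q692 : Tr := .c 0 v21 .e
noncomputable def q693 : Tr := .c 0 v19 (.c 3 v19 (.c 5 v20 (.c 9 v20 .e)))
noncomputable def q694 : Tr := .c 0 v21 (.c 3 v21 (.c 5 v22 .e))
noncomputable def q695 : Tr := .c 0 v21 (.c 3 v21 .e)
noncomputable def r759 : Tr := .c 4 q691 (.c 5 q692 (.c 7 q693 (.c 8 q694 (.c 9 q695 .e))))
noncomputable def r760 : Tr := .c 3 q162 (.c 4 q691 (.c 5 q692 (.c 6 q174 (.c 9 q695 .e))))
noncomputable def r761 : Tr := .c 3 q166 (.c 5 q692 (.c 6 q36 (.c 7 q693 (.c 8 q694 (.c 9 q695 .e)))))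
noncomputable def r762 : Tr := .c 1 q171 (.c 2 q167 (.c 4 q691 (.c 5 q692 (.c 8 q694 (.c 9 q695 .e)))))
noncomputable def r763 : Tr := .c 0 q174 (.c 2 q167 (.c 3 q162 (.c 4 q691 (.c 5 q692 (.c 9 q695 .e)))))
noncomputable def t211 : Tr := .c 0 r759 (.c 1 r760 (.c 2 r761 (.c 6 r762 (.c 7 r763 .e))))
noncomputable def q696 : Tr := .c 0 v87 .e
noncomputable def q697 : Tr := .c 0 v3 (.c 2 v3 .e)
noncomputable def q698 : Tr := .c 0 v0 (.c 2 v0 (.c 3 v0 (.c 4 v0 (.c 5 v1 .e))))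
noncomputable def q699 : Tr := .c 0 v3 (.c 2 v3 (.c 3 v3 (.c 4 v3 (.c 5 v4 .e))))
noncomputable def q700 : Tr := .c 0 v3 (.c 2 v3 (.c 3 v3 (.c 4 v3 .e)))
noncomputable def r764 : Tr := .c 4 q696 (.c 5 q697 (.c 7 q698 (.c 8 q699 (.c 9 q700 .e))))
noncomputable def r765 : Tr := .c 3 q374 (.c 5 q697 (.c 6 q631 (.c 7 q698 (.c 8 q699 (.c 9 q700 .e)))))
noncomputable def q701 : Tr := .c 3 v15 (.c 5 v12 .e)
noncomputable def r766 : Tr := .c 1 q155 (.c 2 q701 (.c 7 q698 (.c 8 q699 (.c 9 q700 .e))))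
noncomputable def r767 : Tr := .c 0 q18 (.c 1 q155 (.c 6 q631 (.c 7 q698 (.c 8 q699 (.c 9 q700 .e)))))
noncomputable def q702 : Tr := .c 3 v12 (.c 5 v6 .e)
noncomputable def q703 : Tr := .c 0 v5 (.c 2 v5 (.c 3 v5 (.c 4 v5 (.c 5 v6 .e))))
noncomputable def q704 : Tr := .c 0 v8 (.c 2 v8 (.c 3 v8 (.c 4 v8 (.c 5 v9 .e))))
noncomputable def r768 : Tr := .c 0 q21 (.c 1 q160 (.c 2 q702 (.c 6 q634 (.c 7 q703 (.c 8 q704 .e)))))
noncomputable def t212 : Tr := .c 0 r764 (.c 2 r765 (.c 3 r766 (.c 4 r767 (.c 5 r768 .e))))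
noncomputable def q705 : Tr := .c 0 v21 (.c 2 v21 .e)
noncomputable def q706 : Tr := .c 0 v19 (.c 2 v19 (.c 3 v19 (.c 4 v19 (.c 5 v20 (.c 9 v20 .e)))))
noncomputable def q707 : Tr := .c 0 v21 (.c 2 v21 (.c 3 v21 (.c 4 v21 (.c 5 v22 .e))))
noncomputable def q708 : Tr := .c 0 v21 (.c 2 v21 (.c 3 v21 (.c 4 v21 .e)))
noncomputable def r769 : Tr := .c 4 q691 (.c 5 q705 (.c 7 q706 (.c 8 q707 (.c 9 q708 .e))))
noncomputable def r770 : Tr := .c 3 q384 (.c 5 q705 (.c 6 q638 (.c 7 q706 (.c 8 q707 (.c 9 q708 .e)))))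
noncomputable def r771 : Tr := .c 1 q163 (.c 2 q167 (.c 7 q706 (.c 8 q707 (.c 9 q708 .e))))
noncomputable def r772 : Tr := .c 0 q27 (.c 1 q163 (.c 6 q638 (.c 7 q706 (.c 8 q707 (.c 9 q708 .e)))))
noncomputable def q709 : Tr := .c 0 v23 (.c 2 v23 (.c 3 v23 (.c 4 v23 (.c 5 v24 (.c 9 v24 .e)))))
noncomputable def q710 : Tr := .c 0 v25 (.c 2 v25 (.c 3 v25 (.c 4 v25 (.c 5 v26 .e))))
noncomputable def r773 : Tr := .c 0 q33 (.c 1 q168 (.c 2 q169 (.c 6 q642 (.c 7 q709 (.c 8 q710 .e)))))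
noncomputable def r774 : Tr := .c 1 q163 (.c 2 q167 (.c 4 q691 (.c 5 q705 (.c 8 q707 (.c 9 q708 .e)))))
noncomputable def t213 : Tr := .c 0 r769 (.c 2 r770 (.c 3 r771 (.c 4 r772 (.c 5 r773 (.c 6 r774 .e)))))
noncomputable def r775 : Tr := .c 1 q171 (.c 2 q167 (.c 7 q693 (.c 8 q694 (.c 9 q695 .e))))
noncomputable def r776 : Tr := .c 0 q36 (.c 1 q171 (.c 6 q36 (.c 7 q693 (.c 8 q694 (.c 9 q695 .e)))))
noncomputable def t214 : Tr := .c 0 r759 (.c 1 r760 (.c 2 r761 (.c 3 r775 (.c 4 r776 (.c 6 r762 (.c 7 r763 .e))))))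
noncomputable def q711 : Tr := .c 2 v15 (.c 9 v12 .e)
noncomputable def q712 : Tr := .c 0 v87 (.c 9 v12 .e)
noncomputable def q713 : Tr := .c 2 v15 (.c 4 v15 (.c 5 v12 (.c 9 v12 .e)))
noncomputable def r777 : Tr := .c 3 q711 (.c 4 q712 (.c 6 q713 .e))
noncomputable def q714 : Tr := .c 0 v0 (.c 2 v0 (.c 3 v0 (.c 4 v0 (.c 5 v1 (.c 9 v1 .e)))))
noncomputable def r778 : Tr := .c 3 q352 (.c 6 q622 (.c 7 q714 (.c 8 q699 .e)))
noncomputable def q715 : Tr := .c 4 v66 (.c 5 v12 (.c 9 v12 .e))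
noncomputable def v109 : Tr := .l 0x1851441461051441031050c4
noncomputable def q716 : Tr := .c 3 v109 (.c 5 v12 (.c 9 v12 .e))
noncomputable def r779 : Tr := .c 0 q715 (.c 2 q716 (.c 3 q711 (.c 4 q712 .e)))
noncomputable def t215 : Tr := .c 1 r777 (.c 2 r778 (.c 7 r779 .e))
noncomputable def r780 : Tr := .c 4 q691 (.c 7 q693 (.c 8 q694 .e))
noncomputable def r781 : Tr := .c 3 q162 (.c 4 q691 (.c 6 q174 .e))
noncomputable def r782 : Tr := .c 3 q166 (.c 6 q36 (.c 7 q693 (.c 8 q694 .e)))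
noncomputable def r783 : Tr := .c 1 q171 (.c 2 q167 (.c 4 q691 (.c 8 q694 .e)))
noncomputable def r784 : Tr := .c 0 q174 (.c 2 q167 (.c 3 q162 (.c 4 q691 .e)))
noncomputable def t216 : Tr := .c 0 r780 (.c 1 r781 (.c 2 r782 (.c 6 r783 (.c 7 r784 .e))))
noncomputable def q717 : Tr := .c 2 v15 .e
noncomputable def q718 : Tr := .c 2 v15 (.c 4 v15 (.c 5 v12 .e))
noncomputable def r785 : Tr := .c 3 q717 (.c 4 q696 (.c 6 q718 .e))
noncomputable def r786 : Tr := .c 3 q374 (.c 6 q631 (.c 7 q698 (.c 8 q699 .e)))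
noncomputable def r787 : Tr := .c 0 q18 (.c 1 q155 (.c 6 q631 (.c 7 q698 (.c 8 q699 .e))))
noncomputable def t217 : Tr := .c 1 r785 (.c 2 r786 (.c 4 r787 (.c 5 r768 .e)))
noncomputable def r788 : Tr := .c 4 q696 (.c 7 q698 (.c 8 q699 .e))
noncomputable def r789 : Tr := .c 1 q155 (.c 2 q701 (.c 7 q698 (.c 8 q699 .e)))
noncomputable def t218 : Tr := .c 0 r788 (.c 2 r786 (.c 3 r789 (.c 4 r787 (.c 5 r768 .e))))
noncomputable def r790 : Tr := .c 4 q691 (.c 7 q706 (.c 8 q707 .e))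
noncomputable def r791 : Tr := .c 3 q384 (.c 6 q638 (.c 7 q706 (.c 8 q707 .e)))
noncomputable def r792 : Tr := .c 1 q163 (.c 2 q167 (.c 7 q706 (.c 8 q707 .e)))
noncomputable def r793 : Tr := .c 0 q27 (.c 1 q163 (.c 6 q638 (.c 7 q706 (.c 8 q707 .e))))
noncomputable def r794 : Tr := .c 1 q163 (.c 2 q167 (.c 4 q691 (.c 8 q707 .e)))
noncomputable def t219 : Tr := .c 0 r790 (.c 2 r791 (.c 3 r792 (.c 4 r793 (.c 5 r773 (.c 6 r794 .e)))))
noncomputable def r795 : Tr := .c 1 q171 (.c 2 q167 (.c 7 q693 (.c 8 q694 .e)))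
noncomputable def r796 : Tr := .c 0 q36 (.c 1 q171 (.c 6 q36 (.c 7 q693 (.c 8 q694 .e))))
noncomputable def t220 : Tr := .c 0 r780 (.c 1 r781 (.c 2 r782 (.c 3 r795 (.c 4 r796 (.c 6 r783 (.c 7 r784 .e))))))
noncomputable def q719 : Tr := .c 3 v15 (.c 5 v12 (.c 9 v12 .e))
noncomputable def r797 : Tr := .c 1 q130 (.c 2 q719 (.c 7 q714 (.c 8 q699 (.c 9 q700 .e))))
noncomputable def r798 : Tr := .c 0 q1 (.c 1 q130 (.c 6 q622 (.c 7 q714 (.c 8 q699 (.c 9 q700 .e)))))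
noncomputable def q720 : Tr := .c 3 v12 (.c 5 v6 (.c 9 v6 .e))
noncomputable def q721 : Tr := .c 0 v5 (.c 2 v5 (.c 3 v5 (.c 4 v5 (.c 5 v6 (.c 9 v6 .e)))))
noncomputable def r799 : Tr := .c 0 q5 (.c 1 q135 (.c 2 q720 (.c 6 q646 (.c 7 q721 (.c 8 q704 .e)))))
noncomputable def q722 : Tr := .c 0 v107 (.c 9 v12 .e)
noncomputable def r800 : Tr := .c 1 q130 (.c 2 q719 (.c 4 q722 (.c 5 q697 (.c 8 q699 (.c 9 q700 .e)))))
noncomputable def t221 : Tr := .c 3 r797 (.c 4 r798 (.c 5 r799 (.c 6 r800 .e)))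
noncomputable def q723 : Tr := .c 3 v13 .e
noncomputable def q724 : Tr := .c 0 v15 (.c 2 v15 (.c 3 v15 (.c 4 v15 .e)))
noncomputable def q725 : Tr := .c 0 v64 (.c 2 v64 (.c 3 v64 (.c 4 v64 .e)))
noncomputable def r801 : Tr := .c 1 q143 (.c 2 q723 (.c 7 q724 (.c 8 q725 (.c 9 q725 .e))))
noncomputable def q726 : Tr := .c 3 v65 .e
noncomputable def q727 : Tr := .c 0 v42 (.c 2 v42 (.c 3 v42 (.c 4 v42 .e)))
noncomputable def q728 : Tr := .c 0 v40 (.c 2 v40 (.c 3 v40 (.c 4 v40 .e)))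
noncomputable def r802 : Tr := .c 0 q55 (.c 1 q147 (.c 2 q726 (.c 6 q660 (.c 7 q727 (.c 8 q728 .e)))))
noncomputable def q729 : Tr := .c 0 v64 (.c 2 v64 .e)
noncomputable def r803 : Tr := .c 1 q143 (.c 2 q723 (.c 4 q424 (.c 5 q729 (.c 8 q725 (.c 9 q725 .e)))))
noncomputable def v110 : Tr := .l 0x185144144103144185103144
noncomputable def q730 : Tr := .c 2 v110 .e
noncomputable def r804 : Tr := .c 0 q151 (.c 2 q723 (.c 3 q730 (.c 4 q424 (.c 5 q729 (.c 9 q725 .e)))))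
noncomputable def t222 : Tr := .c 3 r801 (.c 5 r802 (.c 6 r803 (.c 7 r804 .e)))
noncomputable def r805 : Tr := .c 0 q1 (.c 1 q130 (.c 6 q622 (.c 7 q714 (.c 8 q699 .e))))
noncomputable def q731 : Tr := .c 3 v68 (.c 5 v11 (.c 9 v11 .e))
noncomputable def q732 : Tr := .c 2 v68 (.c 9 v11 .e)
noncomputable def q733 : Tr := .c 0 v17 (.c 9 v11 .e)
noncomputable def r806 : Tr := .c 0 q175 (.c 2 q731 (.c 3 q732 (.c 4 q733 .e)))
noncomputable def t223 : Tr := .c 4 r805 (.c 5 r799 (.c 7 r806 .e))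
noncomputable def r807 : Tr := .c 1 q130 (.c 2 q719 (.c 7 q714 (.c 8 q699 .e)))
noncomputable def r808 : Tr := .c 1 q130 (.c 2 q719 (.c 4 q722 (.c 8 q699 .e)))
noncomputable def t224 : Tr := .c 3 r807 (.c 4 r805 (.c 5 r799 (.c 6 r808 .e)))
noncomputable def q734 : Tr := .c 0 v27 (.c 2 v27 (.c 3 v27 (.c 4 v27 (.c 5 v28 (.c 9 v28 .e)))))
noncomputable def q735 : Tr := .c 0 v30 (.c 2 v30 (.c 3 v30 (.c 4 v30 (.c 5 v31 .e))))
noncomputable def q736 : Tr := .c 0 v30 (.c 2 v30 (.c 3 v30 (.c 4 v30 .e)))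
noncomputable def r809 : Tr := .c 0 q40 (.c 1 q181 (.c 6 q652 (.c 7 q734 (.c 8 q735 (.c 9 q736 .e)))))
noncomputable def q737 : Tr := .c 0 v33 (.c 2 v33 (.c 3 v33 (.c 4 v33 (.c 5 v34 (.c 9 v34 .e)))))
noncomputable def q738 : Tr := .c 0 v36 (.c 2 v36 (.c 3 v36 (.c 4 v36 (.c 5 v32 .e))))
noncomputable def r810 : Tr := .c 0 q45 (.c 1 q185 (.c 6 q600 (.c 7 q737 (.c 8 q738 .e))))
noncomputable def q739 : Tr := .c 0 v40 (.c 2 v40 .e)
noncomputable def r811 : Tr := .c 0 q187 (.c 3 q316 (.c 5 q739 (.c 9 q728 .e)))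
noncomputable def t225 : Tr := .c 4 r809 (.c 5 r810 (.c 7 r811 .e))
noncomputable def r812 : Tr := .c 1 q181 (.c 7 q734 (.c 8 q735 (.c 9 q736 .e)))
noncomputable def q740 : Tr := .c 0 v30 (.c 2 v30 .e)
noncomputable def r813 : Tr := .c 1 q181 (.c 5 q740 (.c 8 q735 (.c 9 q736 .e)))
noncomputable def t226 : Tr := .c 3 r812 (.c 4 r809 (.c 5 r810 (.c 6 r813 .e)))
noncomputable def r814 : Tr := .c 1 q147 (.c 7 q727 (.c 8 q728 (.c 9 q728 .e)))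
noncomputable def q741 : Tr := .c 0 v33 (.c 2 v33 (.c 3 v33 (.c 4 v33 .e)))
noncomputable def q742 : Tr := .c 0 v36 (.c 2 v36 (.c 3 v36 (.c 4 v36 .e)))
noncomputable def r815 : Tr := .c 0 q58 (.c 1 q194 (.c 6 q663 (.c 7 q741 (.c 8 q742 .e))))
noncomputable def r816 : Tr := .c 1 q147 (.c 5 q739 (.c 8 q728 (.c 9 q728 .e)))
noncomputable def r817 : Tr := .c 0 q196 (.c 3 q324 (.c 5 q739 (.c 9 q728 .e)))
noncomputable def t227 : Tr := .c 3 r814 (.c 5 r815 (.c 6 r816 (.c 7 r817 .e)))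
noncomputable def r818 : Tr := .c 3 q324 (.c 5 q739 (.c 6 q617 (.c 9 q728 .e)))
noncomputable def q743 : Tr := .c 2 v27 .e
noncomputable def q744 : Tr := .c 0 v27 (.c 2 v27 (.c 3 v27 (.c 4 v27 (.c 5 v28 .e))))
noncomputable def r819 : Tr := .c 3 q743 (.c 5 q740 (.c 6 q670 (.c 7 q744 (.c 8 q735 (.c 9 q736 .e)))))
noncomputable def r820 : Tr := .c 0 q68 (.c 1 q197 (.c 6 q670 (.c 7 q744 (.c 8 q735 (.c 9 q736 .e)))))
noncomputable def q745 : Tr := .c 0 v33 (.c 2 v33 (.c 3 v33 (.c 4 v33 (.c 5 v34 .e))))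
noncomputable def r821 : Tr := .c 0 q71 (.c 1 q200 (.c 6 q615 (.c 7 q745 (.c 8 q738 .e))))
noncomputable def t228 : Tr := .c 1 r818 (.c 2 r819 (.c 4 r820 (.c 5 r821 .e)))
noncomputable def r822 : Tr := .c 5 q740 (.c 7 q744 (.c 8 q735 (.c 9 q736 .e)))
noncomputable def r823 : Tr := .c 1 q197 (.c 7 q744 (.c 8 q735 (.c 9 q736 .e)))
noncomputable def t229 : Tr := .c 0 r822 (.c 2 r819 (.c 3 r823 (.c 4 r820 (.c 5 r821 .e))))
noncomputable def q746 : Tr := .c 0 v46 (.c 2 v46 .e)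
noncomputable def q747 : Tr := .c 0 v44 (.c 2 v44 (.c 3 v44 (.c 4 v44 (.c 5 v45 (.c 9 v45 .e)))))
noncomputable def q748 : Tr := .c 0 v46 (.c 2 v46 (.c 3 v46 (.c 4 v46 (.c 5 v47 .e))))
noncomputable def q749 : Tr := .c 0 v46 (.c 2 v46 (.c 3 v46 (.c 4 v46 .e)))
noncomputable def r824 : Tr := .c 5 q746 (.c 7 q747 (.c 8 q748 (.c 9 q749 .e)))
noncomputable def q750 : Tr := .c 2 v44 (.c 9 v45 .e)
noncomputable def r825 : Tr := .c 3 q750 (.c 5 q746 (.c 6 q673 (.c 7 q747 (.c 8 q748 (.c 9 q749 .e)))))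
noncomputable def r826 : Tr := .c 1 q201 (.c 7 q747 (.c 8 q748 (.c 9 q749 .e)))
noncomputable def r827 : Tr := .c 0 q74 (.c 1 q201 (.c 6 q673 (.c 7 q747 (.c 8 q748 (.c 9 q749 .e)))))
noncomputable def q751 : Tr := .c 0 v48 (.c 2 v48 (.c 3 v48 (.c 4 v48 (.c 5 v43 (.c 9 v43 .e)))))
noncomputable def q752 : Tr := .c 0 v49 (.c 2 v49 (.c 3 v49 (.c 4 v49 (.c 5 v50 .e))))
noncomputable def r828 : Tr := .c 0 q80 (.c 1 q205 (.c 6 q679 (.c 7 q751 (.c 8 q752 .e))))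
noncomputable def r829 : Tr := .c 1 q201 (.c 5 q746 (.c 8 q748 (.c 9 q749 .e)))
noncomputable def t230 : Tr := .c 0 r824 (.c 2 r825 (.c 3 r826 (.c 4 r827 (.c 5 r828 (.c 6 r829 .e)))))
noncomputable def r830 : Tr := .c 0 q40 (.c 1 q181 (.c 8 q735 (.c 9 q736 .e)))
noncomputable def r831 : Tr := .c 0 q45 (.c 1 q185 (.c 8 q738 .e))
noncomputable def t231 : Tr := .c 4 r830 (.c 5 r831 (.c 7 r811 .e))
noncomputable def r832 : Tr := .c 1 q181 (.c 8 q735 (.c 9 q736 .e))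
noncomputable def t232 : Tr := .c 3 r832 (.c 4 r830 (.c 5 r831 (.c 6 r813 .e)))
noncomputable def r833 : Tr := .c 1 q147 (.c 8 q728 (.c 9 q728 .e))
noncomputable def r834 : Tr := .c 0 q58 (.c 1 q194 (.c 8 q742 .e))
noncomputable def t233 : Tr := .c 3 r833 (.c 5 r834 (.c 6 r816 (.c 7 r817 .e)))
noncomputable def r835 : Tr := .c 3 q316 (.c 5 q739 (.c 9 q728 .e))
noncomputable def q753 : Tr := .c 2 v27 (.c 9 v35 .e)
noncomputable def r836 : Tr := .c 3 q753 (.c 5 q740 (.c 8 q735 (.c 9 q736 .e)))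
noncomputable def t234 : Tr := .c 1 r835 (.c 2 r836 (.c 7 r811 .e))
noncomputable def r837 : Tr := .c 5 q739 (.c 8 q728 (.c 9 q728 .e))
noncomputable def r838 : Tr := .c 3 q324 (.c 5 q739 (.c 9 q728 .e))
noncomputable def t235 : Tr := .c 0 r837 (.c 1 r838 (.c 6 r816 (.c 7 r817 .e)))
noncomputable def r839 : Tr := .c 3 q743 (.c 5 q740 (.c 8 q735 (.c 9 q736 .e)))
noncomputable def r840 : Tr := .c 0 q68 (.c 1 q197 (.c 8 q735 (.c 9 q736 .e)))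
noncomputable def r841 : Tr := .c 0 q71 (.c 1 q200 (.c 8 q738 .e))
noncomputable def t236 : Tr := .c 1 r838 (.c 2 r839 (.c 4 r840 (.c 5 r841 .e)))
noncomputable def r842 : Tr := .c 5 q740 (.c 8 q735 (.c 9 q736 .e))
noncomputable def r843 : Tr := .c 1 q197 (.c 8 q735 (.c 9 q736 .e))
noncomputable def t237 : Tr := .c 0 r842 (.c 2 r839 (.c 3 r843 (.c 4 r840 (.c 5 r841 .e))))
noncomputable def q754 : Tr := .c 0 v92 (.c 6 v92 .e)
noncomputable def q755 : Tr := .c 0 v54 (.c 2 v54 (.c 3 v54 (.c 4 v54 .e)))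
noncomputable def q756 : Tr := .c 0 v71 (.c 2 v71 (.c 3 v71 (.c 4 v71 (.c 6 v71 .e))))
noncomputable def r844 : Tr := .c 4 q754 (.c 5 q494 (.c 7 q755 (.c 8 q756 (.c 9 q756 .e))))
noncomputable def q757 : Tr := .c 2 v95 .e
noncomputable def q758 : Tr := .c 2 v95 (.c 4 v95 .e)
noncomputable def r845 : Tr := .c 3 q757 (.c 4 q754 (.c 5 q494 (.c 6 q758 (.c 9 q756 .e))))
noncomputable def q759 : Tr := .c 3 v55 (.c 6 v55 .e)
noncomputable def q760 : Tr := .c 0 v55 (.c 6 v55 .e)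
noncomputable def q761 : Tr := .c 0 v95 (.c 2 v95 (.c 6 v95 .e))
noncomputable def q762 : Tr := .c 2 v70 (.c 4 v70 .e)
noncomputable def r846 : Tr := .c 0 q208 (.c 2 q759 (.c 3 q396 (.c 4 q760 (.c 5 q761 (.c 6 q762 .e)))))
noncomputable def q763 : Tr := .c 3 v70 (.c 4 v70 (.c 6 v70 .e))
noncomputable def q764 : Tr := .c 0 v70 (.c 2 v70 (.c 3 v70 (.c 4 v70 .e)))
noncomputable def r847 : Tr := .c 0 q208 (.c 1 q763 (.c 2 q759 (.c 3 q396 (.c 4 q760 (.c 6 q762 (.c 7 q764 .e))))))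
noncomputable def t238 : Tr := .c 0 r844 (.c 1 r845 (.c 8 r846 (.c 9 r847 .e)))
noncomputable def q765 : Tr := .c 0 v71 (.c 6 v71 .e)
noncomputable def q766 : Tr := .c 0 v23 (.c 3 v23 (.c 5 v24 .e))
noncomputable def q767 : Tr := .c 0 v25 (.c 3 v25 (.c 5 v26 (.c 6 v25 .e)))
noncomputable def q768 : Tr := .c 0 v25 (.c 3 v25 (.c 6 v25 .e))
noncomputable def r848 : Tr := .c 4 q765 (.c 5 q507 (.c 7 q766 (.c 8 q767 (.c 9 q768 .e))))
noncomputable def q769 : Tr := .c 5 v11 .e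
noncomputable def r849 : Tr := .c 4 q765 (.c 5 q507 (.c 6 q769 (.c 9 q768 .e)))
noncomputable def q770 : Tr := .c 5 v24 .e
noncomputable def r850 : Tr := .c 5 q507 (.c 6 q770 (.c 7 q766 (.c 8 q767 (.c 9 q768 .e))))
noncomputable def q771 : Tr := .c 5 v69 .e
noncomputable def q772 : Tr := .c 3 v98 (.c 5 v69 (.c 6 v98 .e))
noncomputable def q773 : Tr := .c 0 v98 (.c 6 v98 .e)
noncomputable def r851 : Tr := .c 0 q771 (.c 2 q772 (.c 4 q773 (.c 5 q765 (.c 6 q771 .e))))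
noncomputable def t239 : Tr := .c 0 r848 (.c 1 r849 (.c 2 r850 (.c 8 r851 .e)))
noncomputable def q774 : Tr := .c 0 v7 (.c 6 v7 .e)
noncomputable def q775 : Tr := .c 0 v8 (.c 2 v8 (.c 3 v8 (.c 4 v8 (.c 5 v9 (.c 6 v8 .e)))))
noncomputable def q776 : Tr := .c 0 v8 (.c 2 v8 (.c 3 v8 (.c 4 v8 (.c 6 v8 .e))))
noncomputable def r852 : Tr := .c 4 q774 (.c 5 q522 (.c 7 q703 (.c 8 q775 (.c 9 q776 .e))))
noncomputable def r853 : Tr := .c 3 q378 (.c 5 q522 (.c 6 q634 (.c 7 q703 (.c 8 q775 (.c 9 q776 .e)))))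
noncomputable def q777 : Tr := .c 3 v96 (.c 5 v69 (.c 6 v96 .e))
noncomputable def r854 : Tr := .c 1 q158 (.c 2 q777 (.c 7 q703 (.c 8 q775 (.c 9 q776 .e))))
noncomputable def r855 : Tr := .c 0 q21 (.c 1 q158 (.c 6 q634 (.c 7 q703 (.c 8 q775 (.c 9 q776 .e)))))
noncomputable def q778 : Tr := .c 3 v15 (.c 4 v15 (.c 5 v12 (.c 6 v15 .e)))
noncomputable def q779 : Tr := .c 3 v69 (.c 5 v12 (.c 6 v69 .e))
noncomputable def q780 : Tr := .c 0 v15 (.c 2 v15 (.c 3 v15 (.c 4 v15 (.c 5 v12 .e))))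
noncomputable def v111 : Tr := .l 0x1051460c41050c41050830c4
noncomputable def q781 : Tr := .c 0 v64 (.c 2 v64 (.c 3 v64 (.c 4 v64 (.c 5 v111 (.c 6 v64 .e)))))
noncomputable def r856 : Tr := .c 0 q16 (.c 1 q778 (.c 2 q779 (.c 6 q718 (.c 7 q780 (.c 8 q781 .e)))))
noncomputable def q782 : Tr := .c 0 v69 (.c 6 v69 .e)
noncomputable def r857 : Tr := .c 0 q16 (.c 1 q778 (.c 2 q779 (.c 3 q717 (.c 4 q782 (.c 6 q718 (.c 7 q780 .e))))))
noncomputable def t240 : Tr := .c 0 r852 (.c 2 r853 (.c 3 r854 (.c 4 r855 (.c 5 r856 (.c 9 r857 .e)))))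
noncomputable def q783 : Tr := .c 0 v71 .e
noncomputable def q784 : Tr := .c 0 v23 (.c 2 v23 (.c 3 v23 (.c 4 v23 (.c 5 v24 .e))))
noncomputable def q785 : Tr := .c 0 v25 (.c 2 v25 (.c 3 v25 (.c 4 v25 .e)))
noncomputable def r858 : Tr := .c 4 q783 (.c 5 q533 (.c 7 q784 (.c 8 q710 (.c 9 q785 .e))))
noncomputable def q786 : Tr := .c 2 v23 .e
noncomputable def q787 : Tr := .c 2 v23 (.c 4 v23 (.c 5 v24 .e))
noncomputable def r859 : Tr := .c 3 q786 (.c 5 q533 (.c 6 q787 (.c 7 q784 (.c 8 q710 (.c 9 q785 .e)))))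
noncomputable def q788 : Tr := .c 3 v23 (.c 4 v23 (.c 5 v24 .e))
noncomputable def q789 : Tr := .c 3 v68 (.c 5 v11 .e)
noncomputable def r860 : Tr := .c 1 q788 (.c 2 q789 (.c 7 q784 (.c 8 q710 (.c 9 q785 .e))))
noncomputable def q790 : Tr := .c 4 v23 (.c 5 v24 .e)
noncomputable def r861 : Tr := .c 0 q790 (.c 1 q788 (.c 6 q787 (.c 7 q784 (.c 8 q710 (.c 9 q785 .e)))))
noncomputable def q791 : Tr := .c 4 v67 (.c 5 v18 .e)
noncomputable def q792 : Tr := .c 3 v67 (.c 4 v67 (.c 5 v18 .e))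
noncomputable def q793 : Tr := .c 3 v11 (.c 5 v18 .e)
noncomputable def q794 : Tr := .c 2 v67 (.c 4 v67 (.c 5 v18 .e))
noncomputable def q795 : Tr := .c 0 v67 (.c 2 v67 (.c 3 v67 (.c 4 v67 (.c 5 v18 .e))))
noncomputable def v112 : Tr := .l 0xc41051051460830c40c4105
noncomputable def q796 : Tr := .c 0 v71 (.c 2 v71 (.c 3 v71 (.c 4 v71 (.c 5 v112 .e))))
noncomputable def r862 : Tr := .c 0 q791 (.c 1 q792 (.c 2 q793 (.c 6 q794 (.c 7 q795 (.c 8 q796 .e)))))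
noncomputable def t241 : Tr := .c 0 r858 (.c 2 r859 (.c 3 r860 (.c 4 r861 (.c 5 r862 .e))))
noncomputable def q797 : Tr := .c 0 v25 (.c 3 v25 (.c 5 v26 .e))
noncomputable def q798 : Tr := .c 0 v25 (.c 3 v25 .e)
noncomputable def r863 : Tr := .c 4 q783 (.c 5 q541 (.c 7 q766 (.c 8 q797 (.c 9 q798 .e))))
noncomputable def r864 : Tr := .c 4 q783 (.c 5 q541 (.c 6 q769 (.c 9 q798 .e)))
noncomputable def r865 : Tr := .c 5 q541 (.c 6 q770 (.c 7 q766 (.c 8 q797 (.c 9 q798 .e))))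
noncomputable def q799 : Tr := .c 3 v23 (.c 5 v24 .e)
noncomputable def r866 : Tr := .c 1 q799 (.c 2 q789 (.c 7 q766 (.c 8 q797 (.c 9 q798 .e))))
noncomputable def r867 : Tr := .c 0 q770 (.c 1 q799 (.c 6 q770 (.c 7 q766 (.c 8 q797 (.c 9 q798 .e)))))
noncomputable def t242 : Tr := .c 0 r863 (.c 1 r864 (.c 2 r865 (.c 3 r866 (.c 4 r867 .e))))
noncomputable def q800 : Tr := .c 2 v99 .e
noncomputable def q801 : Tr := .c 2 v99 (.c 4 v99 (.c 5 v87 .e))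
noncomputable def r868 : Tr := .c 3 q800 (.c 4 q773 (.c 6 q801 .e))
noncomputable def r869 : Tr := .c 3 q378 (.c 6 q634 (.c 7 q703 (.c 8 q775 .e)))
noncomputable def r870 : Tr := .c 0 q16 (.c 2 q779 (.c 3 q717 (.c 4 q782 (.c 6 q718 .e))))
noncomputable def t243 : Tr := .c 1 r868 (.c 2 r869 (.c 8 r870 (.c 9 r857 .e)))
noncomputable def r871 : Tr := .c 4 q765 (.c 7 q766 (.c 8 q767 .e))
noncomputable def r872 : Tr := .c 4 q765 (.c 6 q769 .e)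
noncomputable def r873 : Tr := .c 6 q770 (.c 7 q766 (.c 8 q767 .e))
noncomputable def r874 : Tr := .c 0 q771 (.c 2 q772 (.c 4 q773 (.c 6 q771 .e)))
noncomputable def t244 : Tr := .c 0 r871 (.c 1 r872 (.c 2 r873 (.c 8 r874 .e)))
noncomputable def r875 : Tr := .c 0 q21 (.c 1 q158 (.c 6 q634 (.c 7 q703 (.c 8 q775 .e))))
noncomputable def t245 : Tr := .c 1 r868 (.c 2 r869 (.c 4 r875 (.c 5 r856 (.c 8 r870 (.c 9 r857 .e)))))
noncomputable def r876 : Tr := .c 4 q774 (.c 7 q703 (.c 8 q775 .e))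
noncomputable def r877 : Tr := .c 1 q158 (.c 2 q777 (.c 7 q703 (.c 8 q775 .e)))
noncomputable def t246 : Tr := .c 0 r876 (.c 2 r869 (.c 3 r877 (.c 4 r875 (.c 5 r856 (.c 9 r857 .e)))))
noncomputable def r878 : Tr := .c 4 q783 (.c 7 q784 (.c 8 q710 .e))
noncomputable def r879 : Tr := .c 3 q786 (.c 6 q787 (.c 7 q784 (.c 8 q710 .e)))
noncomputable def r880 : Tr := .c 1 q788 (.c 2 q789 (.c 7 q784 (.c 8 q710 .e)))
noncomputable def r881 : Tr := .c 0 q790 (.c 1 q788 (.c 6 q787 (.c 7 q784 (.c 8 q710 .e))))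
noncomputable def t247 : Tr := .c 0 r878 (.c 2 r879 (.c 3 r880 (.c 4 r881 (.c 5 r862 .e))))
noncomputable def r882 : Tr := .c 4 q783 (.c 7 q766 (.c 8 q797 .e))
noncomputable def r883 : Tr := .c 4 q783 (.c 6 q769 .e)
noncomputable def r884 : Tr := .c 6 q770 (.c 7 q766 (.c 8 q797 .e))
noncomputable def r885 : Tr := .c 1 q799 (.c 2 q789 (.c 7 q766 (.c 8 q797 .e)))
noncomputable def r886 : Tr := .c 0 q770 (.c 1 q799 (.c 6 q770 (.c 7 q766 (.c 8 q797 .e))))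
noncomputable def t248 : Tr := .c 0 r882 (.c 1 r883 (.c 2 r884 (.c 3 r885 (.c 4 r886 .e))))
noncomputable def t249 : Tr := .c 3 r854 (.c 4 r855 (.c 5 r856 (.c 9 r857 .e)))
noncomputable def q802 : Tr := .c 3 v96 (.c 4 v96 (.c 6 v96 .e))
noncomputable def q803 : Tr := .c 3 v92 (.c 6 v92 .e)
noncomputable def q804 : Tr := .c 0 v96 (.c 2 v96 (.c 3 v96 (.c 4 v96 .e)))
noncomputable def q805 : Tr := .c 0 v66 (.c 2 v66 (.c 3 v66 (.c 4 v66 (.c 6 v66 .e))))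
noncomputable def r887 : Tr := .c 1 q802 (.c 2 q803 (.c 7 q804 (.c 8 q805 (.c 9 q805 .e))))
noncomputable def q806 : Tr := .c 0 v37 (.c 2 v37 (.c 3 v37 (.c 4 v37 (.c 6 v37 .e))))
noncomputable def r888 : Tr := .c 0 q208 (.c 1 q763 (.c 2 q759 (.c 6 q762 (.c 7 q764 (.c 8 q806 .e)))))
noncomputable def t250 : Tr := .c 3 r887 (.c 5 r888 (.c 8 r846 (.c 9 r847 .e)))
noncomputable def t251 : Tr := .c 4 r875 (.c 5 r856 (.c 8 r870 (.c 9 r857 .e)))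
noncomputable def t252 : Tr := .c 3 r877 (.c 4 r875 (.c 5 r856 (.c 9 r857 .e)))
noncomputable def q807 : Tr := .c 0 v36 (.c 2 v36 (.c 3 v36 (.c 4 v36 (.c 5 v32 (.c 6 v36 .e)))))
noncomputable def q808 : Tr := .c 0 v36 (.c 2 v36 (.c 3 v36 (.c 4 v36 (.c 6 v36 .e))))
noncomputable def r889 : Tr := .c 0 q71 (.c 1 q199 (.c 6 q615 (.c 7 q745 (.c 8 q807 (.c 9 q808 .e)))))
noncomputable def q809 : Tr := .c 3 v42 (.c 4 v42 (.c 5 v35 (.c 6 v42 .e)))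
noncomputable def q810 : Tr := .c 0 v42 (.c 2 v42 (.c 3 v42 (.c 4 v42 (.c 5 v35 .e))))
noncomputable def q811 : Tr := .c 0 v40 (.c 2 v40 (.c 3 v40 (.c 4 v40 (.c 5 v29 (.c 6 v40 .e)))))
noncomputable def r890 : Tr := .c 0 q65 (.c 1 q809 (.c 6 q617 (.c 7 q810 (.c 8 q811 .e))))
noncomputable def q812 : Tr := .c 0 v70 (.c 2 v70 (.c 6 v70 .e))
noncomputable def r891 : Tr := .c 0 q65 (.c 3 q324 (.c 5 q812 (.c 6 q617 .e)))
noncomputable def r892 : Tr := .c 0 q65 (.c 1 q809 (.c 3 q324 (.c 6 q617 (.c 7 q810 .e))))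
noncomputable def t253 : Tr := .c 4 r889 (.c 5 r890 (.c 8 r891 (.c 9 r892 .e)))
noncomputable def r893 : Tr := .c 1 q199 (.c 7 q745 (.c 8 q807 (.c 9 q808 .e)))
noncomputable def t254 : Tr := .c 3 r893 (.c 4 r889 (.c 5 r890 (.c 9 r892 .e)))
noncomputable def r894 : Tr := .c 1 q763 (.c 7 q764 (.c 8 q806 (.c 9 q806 .e)))
noncomputable def q813 : Tr := .c 0 v40 (.c 2 v40 (.c 3 v40 (.c 4 v40 (.c 6 v40 .e))))
noncomputable def r895 : Tr := .c 0 q55 (.c 1 q145 (.c 6 q660 (.c 7 q727 (.c 8 q813 .e))))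
noncomputable def r896 : Tr := .c 0 q55 (.c 3 q324 (.c 5 q812 (.c 6 q660 .e)))
noncomputable def r897 : Tr := .c 0 q55 (.c 1 q145 (.c 3 q324 (.c 6 q660 (.c 7 q727 .e))))
noncomputable def t255 : Tr := .c 3 r894 (.c 5 r895 (.c 8 r896 (.c 9 r897 .e)))
noncomputable def v113 : Tr := .l 0x1461051050c4186146146105
noncomputable def q814 : Tr := .c 2 v85 (.c 4 v85 (.c 5 v113 .e))
noncomputable def r898 : Tr := .c 3 q318 (.c 5 q548 (.c 6 q814 (.c 9 q806 .e)))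
noncomputable def q815 : Tr := .c 0 v36 (.c 2 v36 (.c 6 v36 .e))
noncomputable def r899 : Tr := .c 3 q339 (.c 5 q815 (.c 6 q615 (.c 7 q745 (.c 8 q807 (.c 9 q808 .e)))))
noncomputable def t256 : Tr := .c 1 r898 (.c 2 r899 (.c 4 r889 (.c 5 r890 (.c 8 r891 (.c 9 r892 .e)))))
noncomputable def r900 : Tr := .c 5 q815 (.c 7 q745 (.c 8 q807 (.c 9 q808 .e)))
noncomputable def t257 : Tr := .c 0 r900 (.c 2 r899 (.c 3 r893 (.c 4 r889 (.c 5 r890 (.c 9 r892 .e)))))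
noncomputable def q816 : Tr := .c 0 v49 (.c 2 v49 .e)
noncomputable def q817 : Tr := .c 0 v48 (.c 2 v48 (.c 3 v48 (.c 4 v48 (.c 5 v43 .e))))
noncomputable def q818 : Tr := .c 0 v49 (.c 2 v49 (.c 3 v49 (.c 4 v49 .e)))
noncomputable def r901 : Tr := .c 5 q816 (.c 7 q817 (.c 8 q752 (.c 9 q818 .e)))
noncomputable def q819 : Tr := .c 2 v48 .e
noncomputable def q820 : Tr := .c 2 v48 (.c 4 v48 (.c 5 v43 .e))
noncomputable def r902 : Tr := .c 3 q819 (.c 5 q816 (.c 6 q820 (.c 7 q817 (.c 8 q752 (.c 9 q818 .e)))))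
noncomputable def q821 : Tr := .c 3 v48 (.c 4 v48 (.c 5 v43 .e))
noncomputable def r903 : Tr := .c 1 q821 (.c 7 q817 (.c 8 q752 (.c 9 q818 .e)))
noncomputable def q822 : Tr := .c 4 v48 (.c 5 v43 .e)
noncomputable def r904 : Tr := .c 0 q822 (.c 1 q821 (.c 6 q820 (.c 7 q817 (.c 8 q752 (.c 9 q818 .e)))))
noncomputable def v114 : Tr := .l 0x1030c2144103144103185144
noncomputable def q823 : Tr := .c 4 v114 (.c 5 v52 .e)
noncomputable def q824 : Tr := .c 3 v114 (.c 4 v114 (.c 5 v52 .e))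
noncomputable def q825 : Tr := .c 2 v114 (.c 4 v114 (.c 5 v52 .e))
noncomputable def q826 : Tr := .c 0 v114 (.c 2 v114 (.c 3 v114 (.c 4 v114 (.c 5 v52 .e))))
noncomputable def v115 : Tr := .l 0xc2103103144103144144185
noncomputable def v116 : Tr := .l 0x830c40c41050c4105105146
noncomputable def q827 : Tr := .c 0 v115 (.c 2 v115 (.c 3 v115 (.c 4 v115 (.c 5 v116 .e))))
noncomputable def r905 : Tr := .c 0 q823 (.c 1 q824 (.c 6 q825 (.c 7 q826 (.c 8 q827 .e))))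
noncomputable def t258 : Tr := .c 0 r901 (.c 2 r902 (.c 3 r903 (.c 4 r904 (.c 5 r905 .e))))
noncomputable def r906 : Tr := .c 1 q158 (.c 2 q777 (.c 7 q703 .e))
noncomputable def r907 : Tr := .c 0 q21 (.c 1 q158 (.c 6 q634 (.c 7 q703 .e)))
noncomputable def r908 : Tr := .c 0 q16 (.c 1 q778 (.c 2 q779 (.c 6 q718 (.c 7 q780 .e))))
noncomputable def t259 : Tr := .c 3 r906 (.c 4 r907 (.c 5 r908 (.c 9 r857 .e)))
noncomputable def r909 : Tr := .c 1 q802 (.c 2 q803 (.c 7 q804 .e))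
noncomputable def r910 : Tr := .c 0 q208 (.c 1 q763 (.c 2 q759 (.c 6 q762 (.c 7 q764 .e))))
noncomputable def t260 : Tr := .c 3 r909 (.c 5 r910 (.c 8 r846 (.c 9 r847 .e)))
noncomputable def r911 : Tr := .c 4 q754 (.c 5 q494 (.c 7 q755 .e))
noncomputable def r912 : Tr := .c 3 q757 (.c 4 q754 (.c 5 q494 (.c 6 q758 .e)))
noncomputable def t261 : Tr := .c 0 r911 (.c 1 r912 (.c 8 r846 (.c 9 r847 .e)))
noncomputable def r913 : Tr := .c 4 q765 (.c 5 q507 (.c 7 q766 .e))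
noncomputable def r914 : Tr := .c 4 q765 (.c 5 q507 (.c 6 q769 .e))
noncomputable def r915 : Tr := .c 5 q507 (.c 6 q770 (.c 7 q766 .e))
noncomputable def t262 : Tr := .c 0 r913 (.c 1 r914 (.c 2 r915 (.c 8 r851 .e)))
noncomputable def r916 : Tr := .c 4 q783 (.c 5 q533 (.c 7 q784 .e))
noncomputable def r917 : Tr := .c 3 q786 (.c 5 q533 (.c 6 q787 (.c 7 q784 .e)))
noncomputable def r918 : Tr := .c 1 q788 (.c 2 q789 (.c 7 q784 .e))
noncomputable def r919 : Tr := .c 0 q790 (.c 1 q788 (.c 6 q787 (.c 7 q784 .e)))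
noncomputable def r920 : Tr := .c 0 q791 (.c 1 q792 (.c 2 q793 (.c 6 q794 (.c 7 q795 .e))))
noncomputable def t263 : Tr := .c 0 r916 (.c 2 r917 (.c 3 r918 (.c 4 r919 (.c 5 r920 .e))))
noncomputable def r921 : Tr := .c 4 q783 (.c 5 q541 (.c 7 q766 .e))
noncomputable def r922 : Tr := .c 4 q783 (.c 5 q541 (.c 6 q769 .e))
noncomputable def r923 : Tr := .c 5 q541 (.c 6 q770 (.c 7 q766 .e))
noncomputable def r924 : Tr := .c 1 q799 (.c 2 q789 (.c 7 q766 .e))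
noncomputable def r925 : Tr := .c 0 q770 (.c 1 q799 (.c 6 q770 (.c 7 q766 .e)))
noncomputable def t264 : Tr := .c 0 r921 (.c 1 r922 (.c 2 r923 (.c 3 r924 (.c 4 r925 .e))))
noncomputable def q828 : Tr := .c 0 v71 (.c 1 v71 (.c 2 v71 (.c 3 v71 (.c 4 v71 (.c 6 v71 (.c 7 v71 .e))))))
noncomputable def r926 : Tr := .c 4 q544 (.c 5 q495 (.c 7 q755 (.c 8 q756 (.c 9 q828 .e))))
noncomputable def q829 : Tr := .c 1 v92 (.c 2 v95 (.c 4 v95 .e))
noncomputable def r927 : Tr := .c 3 q543 (.c 4 q544 (.c 5 q495 (.c 6 q829 (.c 9 q828 .e))))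
noncomputable def q830 : Tr := .c 4 v70 (.c 7 v55 .e)
noncomputable def q831 : Tr := .c 3 v55 (.c 6 v55 (.c 7 v55 .e))
noncomputable def q832 : Tr := .c 1 v55 (.c 2 v70 (.c 4 v70 .e))
noncomputable def r928 : Tr := .c 0 q830 (.c 2 q831 (.c 3 q334 (.c 4 q457 (.c 5 q549 (.c 6 q832 .e)))))
noncomputable def r929 : Tr := .c 0 q830 (.c 1 q763 (.c 2 q831 (.c 3 q334 (.c 4 q457 (.c 6 q832 (.c 7 q764 .e))))))
noncomputable def t265 : Tr := .c 0 r926 (.c 1 r927 (.c 8 r928 (.c 9 r929 .e)))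
noncomputable def q833 : Tr := .c 0 v71 (.c 1 v71 (.c 6 v71 (.c 7 v71 .e)))
noncomputable def q834 : Tr := .c 0 v23 (.c 3 v23 .e)
noncomputable def q835 : Tr := .c 0 v25 (.c 1 v25 (.c 3 v25 (.c 6 v25 (.c 7 v25 .e))))
noncomputable def r930 : Tr := .c 4 q833 (.c 5 q508 (.c 7 q834 (.c 8 q768 (.c 9 q835 .e))))
noncomputable def q836 : Tr := .c 1 v71 (.c 7 v71 .e)
noncomputable def q837 : Tr := .c 1 v71 .e
noncomputable def r931 : Tr := .c 3 q836 (.c 4 q833 (.c 5 q508 (.c 6 q837 (.c 9 q835 .e))))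
noncomputable def q838 : Tr := .c 7 v98 .e
noncomputable def q839 : Tr := .c 3 v98 (.c 6 v98 (.c 7 v98 .e))
noncomputable def q840 : Tr := .c 1 v98 (.c 7 v98 .e)
noncomputable def q841 : Tr := .c 1 v98 .e
noncomputable def r932 : Tr := .c 0 q838 (.c 2 q839 (.c 3 q840 (.c 4 q561 (.c 5 q833 (.c 6 q841 .e)))))
noncomputable def t266 : Tr := .c 0 r930 (.c 1 r931 (.c 8 r932 .e))
noncomputable def q842 : Tr := .c 0 v5 (.c 2 v5 (.c 3 v5 (.c 4 v5 .e)))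
noncomputable def q843 : Tr := .c 0 v8 (.c 1 v8 (.c 2 v8 (.c 3 v8 (.c 4 v8 (.c 6 v8 (.c 7 v8 .e))))))
noncomputable def r933 : Tr := .c 4 q519 (.c 5 q520 (.c 7 q842 (.c 8 q776 (.c 9 q843 .e))))
noncomputable def q844 : Tr := .c 3 v5 (.c 4 v5 (.c 6 v5 .e))
noncomputable def q845 : Tr := .c 3 v96 (.c 6 v96 (.c 7 v96 .e))
noncomputable def r934 : Tr := .c 1 q844 (.c 2 q845 (.c 7 q842 (.c 8 q776 (.c 9 q843 .e))))
noncomputable def q846 : Tr := .c 4 v15 (.c 7 v69 .e)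
noncomputable def q847 : Tr := .c 3 v69 (.c 6 v69 (.c 7 v69 .e))
noncomputable def q848 : Tr := .c 1 v69 (.c 2 v15 (.c 4 v15 .e))
noncomputable def q849 : Tr := .c 0 v64 (.c 2 v64 (.c 3 v64 (.c 4 v64 (.c 6 v64 .e))))
noncomputable def r935 : Tr := .c 0 q846 (.c 1 q141 (.c 2 q847 (.c 6 q848 (.c 7 q724 (.c 8 q849 .e)))))
noncomputable def r936 : Tr := .c 0 q846 (.c 1 q141 (.c 2 q847 (.c 3 q369 (.c 4 q529 (.c 6 q848 (.c 7 q724 .e))))))
noncomputable def t267 : Tr := .c 0 r933 (.c 3 r934 (.c 5 r935 (.c 9 r936 .e)))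
noncomputable def q850 : Tr := .c 0 v71 (.c 1 v71 .e)
noncomputable def q851 : Tr := .c 0 v23 (.c 2 v23 (.c 3 v23 (.c 4 v23 .e)))
noncomputable def q852 : Tr := .c 0 v25 (.c 1 v25 (.c 2 v25 (.c 3 v25 (.c 4 v25 .e))))
noncomputable def r937 : Tr := .c 4 q850 (.c 5 q534 (.c 7 q851 (.c 8 q785 (.c 9 q852 .e))))
noncomputable def q853 : Tr := .c 3 v23 (.c 4 v23 .e)
noncomputable def q854 : Tr := .c 3 v68 .e
noncomputable def r938 : Tr := .c 1 q853 (.c 2 q854 (.c 7 q851 (.c 8 q785 (.c 9 q852 .e))))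
noncomputable def q855 : Tr := .c 4 v67 .e
noncomputable def q856 : Tr := .c 3 v67 (.c 4 v67 .e)
noncomputable def q857 : Tr := .c 3 v11 .e
noncomputable def q858 : Tr := .c 1 v11 (.c 2 v67 (.c 4 v67 .e))
noncomputable def q859 : Tr := .c 0 v67 (.c 2 v67 (.c 3 v67 (.c 4 v67 .e)))
noncomputable def q860 : Tr := .c 0 v71 (.c 2 v71 (.c 3 v71 (.c 4 v71 .e)))
noncomputable def r939 : Tr := .c 0 q855 (.c 1 q856 (.c 2 q857 (.c 6 q858 (.c 7 q859 (.c 8 q860 .e)))))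
noncomputable def t268 : Tr := .c 0 r937 (.c 3 r938 (.c 5 r939 .e))
noncomputable def q861 : Tr := .c 0 v25 (.c 1 v25 (.c 3 v25 .e))
noncomputable def r940 : Tr := .c 4 q850 (.c 5 q542 (.c 7 q834 (.c 8 q798 (.c 9 q861 .e))))
noncomputable def r941 : Tr := .c 3 q837 (.c 4 q850 (.c 5 q542 (.c 6 q837 (.c 9 q861 .e))))
noncomputable def q862 : Tr := .c 3 v23 .e
noncomputable def r942 : Tr := .c 1 q862 (.c 2 q854 (.c 7 q834 (.c 8 q798 (.c 9 q861 .e))))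
noncomputable def t269 : Tr := .c 0 r940 (.c 1 r941 (.c 3 r942 .e))
noncomputable def t270 : Tr := .c 1 r927 (.c 8 r928 (.c 9 r929 .e))
noncomputable def r943 : Tr := .c 0 q830 (.c 1 q763 (.c 2 q831 (.c 6 q832 (.c 7 q764 (.c 8 q806 .e)))))
noncomputable def t271 : Tr := .c 1 r927 (.c 5 r943 (.c 8 r928 (.c 9 r929 .e)))
noncomputable def q863 : Tr := .c 1 v98 (.c 2 v99 (.c 4 v99 .e))
noncomputable def r944 : Tr := .c 3 q560 (.c 4 q561 (.c 6 q863 .e))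
noncomputable def r945 : Tr := .c 0 q846 (.c 2 q847 (.c 3 q369 (.c 4 q529 (.c 6 q848 .e))))
noncomputable def t272 : Tr := .c 1 r944 (.c 8 r945 (.c 9 r936 .e))
noncomputable def r946 : Tr := .c 4 q833 (.c 7 q834 (.c 8 q768 .e))
noncomputable def r947 : Tr := .c 3 q836 (.c 4 q833 (.c 6 q837 .e))
noncomputable def r948 : Tr := .c 0 q838 (.c 2 q839 (.c 3 q840 (.c 4 q561 (.c 6 q841 .e))))
noncomputable def t273 : Tr := .c 0 r946 (.c 1 r947 (.c 8 r948 .e))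
noncomputable def t274 : Tr := .c 1 r944 (.c 5 r935 (.c 8 r945 (.c 9 r936 .e)))
noncomputable def r949 : Tr := .c 4 q519 (.c 7 q842 (.c 8 q776 .e))
noncomputable def r950 : Tr := .c 1 q844 (.c 2 q845 (.c 7 q842 (.c 8 q776 .e)))
noncomputable def t275 : Tr := .c 0 r949 (.c 3 r950 (.c 5 r935 (.c 9 r936 .e)))
noncomputable def r951 : Tr := .c 4 q850 (.c 7 q851 (.c 8 q785 .e))
noncomputable def r952 : Tr := .c 1 q853 (.c 2 q854 (.c 7 q851 (.c 8 q785 .e)))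
noncomputable def t276 : Tr := .c 0 r951 (.c 3 r952 (.c 5 r939 .e))
noncomputable def r953 : Tr := .c 4 q850 (.c 7 q834 (.c 8 q798 .e))
noncomputable def r954 : Tr := .c 3 q837 (.c 4 q850 (.c 6 q837 .e))
noncomputable def r955 : Tr := .c 1 q862 (.c 2 q854 (.c 7 q834 (.c 8 q798 .e)))
noncomputable def t277 : Tr := .c 0 r953 (.c 1 r954 (.c 3 r955 .e))
noncomputable def t278 : Tr := .c 3 r934 (.c 5 r935 (.c 9 r936 .e))
noncomputable def q864 : Tr := .c 3 v92 (.c 6 v92 (.c 7 v92 .e))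
noncomputable def q865 : Tr := .c 0 v66 (.c 1 v66 (.c 2 v66 (.c 3 v66 (.c 4 v66 (.c 6 v66 (.c 7 v66 .e))))))
noncomputable def r956 : Tr := .c 1 q802 (.c 2 q864 (.c 7 q804 (.c 8 q805 (.c 9 q865 .e))))
noncomputable def t279 : Tr := .c 3 r956 (.c 5 r943 (.c 8 r928 (.c 9 r929 .e)))
noncomputable def t280 : Tr := .c 5 r935 (.c 8 r945 (.c 9 r936 .e))
noncomputable def t281 : Tr := .c 3 r950 (.c 5 r935 (.c 9 r936 .e))
noncomputable def r957 : Tr := .c 1 q844 (.c 2 q845 (.c 7 q842 .e))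
noncomputable def r958 : Tr := .c 0 q846 (.c 1 q141 (.c 2 q847 (.c 6 q848 (.c 7 q724 .e))))
noncomputable def t282 : Tr := .c 3 r957 (.c 5 r958 (.c 9 r936 .e))
noncomputable def r959 : Tr := .c 1 q802 (.c 2 q864 (.c 7 q804 .e))
noncomputable def r960 : Tr := .c 0 q830 (.c 1 q763 (.c 2 q831 (.c 6 q832 (.c 7 q764 .e))))
noncomputable def t283 : Tr := .c 3 r959 (.c 5 r960 (.c 8 r928 (.c 9 r929 .e)))
noncomputable def r961 : Tr := .c 4 q544 (.c 5 q495 (.c 7 q755 .e))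
noncomputable def r962 : Tr := .c 3 q543 (.c 4 q544 (.c 5 q495 (.c 6 q829 .e)))
noncomputable def t284 : Tr := .c 0 r961 (.c 1 r962 (.c 8 r928 (.c 9 r929 .e)))
noncomputable def r963 : Tr := .c 4 q833 (.c 5 q508 (.c 7 q834 .e))
noncomputable def r964 : Tr := .c 3 q836 (.c 4 q833 (.c 5 q508 (.c 6 q837 .e)))
noncomputable def t285 : Tr := .c 0 r963 (.c 1 r964 (.c 8 r932 .e))
noncomputable def r965 : Tr := .c 4 q850 (.c 5 q534 (.c 7 q851 .e))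
noncomputable def r966 : Tr := .c 1 q853 (.c 2 q854 (.c 7 q851 .e))
noncomputable def r967 : Tr := .c 0 q855 (.c 1 q856 (.c 2 q857 (.c 6 q858 (.c 7 q859 .e))))
noncomputable def t286 : Tr := .c 0 r965 (.c 3 r966 (.c 5 r967 .e))
noncomputable def r968 : Tr := .c 4 q850 (.c 5 q542 (.c 7 q834 .e))
noncomputable def r969 : Tr := .c 3 q837 (.c 4 q850 (.c 5 q542 (.c 6 q837 .e)))
noncomputable def r970 : Tr := .c 1 q862 (.c 2 q854 (.c 7 q834 .e))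
noncomputable def t287 : Tr := .c 0 r968 (.c 1 r969 (.c 3 r970 .e))
noncomputable def t288 : Tr := .c 5 r960 (.c 8 r928 (.c 9 r929 .e))
noncomputable def t289 : Tr := .c 1 r962 (.c 8 r928 (.c 9 r929 .e))

/-- the diagram -/
noncomputable def T : Tr := (.c 0 (.c 4 (.c 0 t0 (.c 1 t1 (.c 6 t2 (.c 7 t3 (.c 8 t4 (.c 9 t5 .e)))))) (.c 5 (.c 0 t6 (.c 1
t7 (.c 2 t8 (.c 6 t9 (.c 7 t10 (.c 8 t11 .e)))))) (.c 7 (.c 0 t12 (.c 2 t13 (.c 3 t14 (.c 4 t15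
(.c 5 t16 (.c 9 t17 .e)))))) (.c 8 (.c 0 t18 (.c 2 t19 (.c 3 t20 (.c 4 t21 (.c 5 t22 (.c 6 t23
.e)))))) (.c 9 (.c 0 t24 (.c 1 t25 (.c 2 t26 (.c 3 t27 (.c 4 t28 (.c 6 t29 (.c 7 t30 .e)))))))
.e))))) (.c 1 (.c 3 (.c 1 t31 (.c 2 t32 (.c 7 t33 (.c 8 t34 (.c 9 t35 .e))))) (.c 4 (.c 0 t36
(.c 1 t37 (.c 6 t38 (.c 7 t39 (.c 8 t40 (.c 9 t41 .e)))))) (.c 5 (.c 0 t42 (.c 1 t43 (.c 2 t44
(.c 6 t45 (.c 7 t46 (.c 8 t47 .e)))))) (.c 6 (.c 1 t48 (.c 2 t49 (.c 4 t50 (.c 5 t51 (.c 8 t52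
(.c 9 t53 .e)))))) (.c 9 (.c 0 t54 (.c 1 t55 (.c 2 t56 (.c 3 t57 (.c 4 t58 (.c 6 t59 (.c 7 t60
.e))))))) .e))))) (.c 2 (.c 3 (.c 1 t61 (.c 2 t62 (.c 7 t63 (.c 8 t64 (.c 9 t65 .e))))) (.c 5
(.c 0 t66 (.c 1 t67 (.c 2 t68 (.c 6 t69 (.c 7 t70 (.c 8 t71 .e)))))) (.c 6 (.c 1 t72 (.c 2 t73
(.c 4 t74 (.c 5 t75 (.c 8 t76 (.c 9 t77 .e)))))) (.c 7 (.c 0 t78 (.c 2 t73 (.c 3 t79 (.c 4 t74
(.c 5 t75 (.c 9 t77 .e)))))) (.c 8 (.c 0 t80 (.c 2 t81 (.c 3 t82 (.c 4 t83 (.c 5 t84 (.c 6 t85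
.e)))))) (.c 9 (.c 0 t86 (.c 1 t87 (.c 2 t88 (.c 3 t89 (.c 4 t90 (.c 6 t91 (.c 7 t92 .e)))))))
.e)))))) (.c 3 (.c 1 (.c 3 t93 (.c 4 t94 (.c 5 t95 (.c 6 t96 (.c 9 t97 .e))))) (.c 2 (.c 3 t98
(.c 5 t99 (.c 6 t100 (.c 7 t101 (.c 8 t102 (.c 9 t103 .e)))))) (.c 7 (.c 0 t104 (.c 2 t105 (.c
3 t106 (.c 4 t107 (.c 5 t108 (.c 9 t109 .e)))))) (.c 8 (.c 0 t110 (.c 2 t111 (.c 3 t112 (.c 4
t113 (.c 5 t114 (.c 6 t115 .e)))))) (.c 9 (.c 0 t116 (.c 1 t117 (.c 2 t118 (.c 3 t119 (.c 4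
t120 (.c 6 t121 (.c 7 t122 .e))))))) .e))))) (.c 4 (.c 0 (.c 4 t123 (.c 5 t124 (.c 7 t125 (.c 8
t126 (.c 9 t127 .e))))) (.c 1 (.c 3 t128 (.c 4 t123 (.c 5 t124 (.c 6 t129 (.c 9 t127 .e)))))
(.c 6 (.c 1 t130 (.c 2 t131 (.c 4 t132 (.c 5 t133 (.c 8 t134 (.c 9 t135 .e)))))) (.c 7 (.c 0
t136 (.c 2 t131 (.c 3 t137 (.c 4 t132 (.c 5 t133 (.c 9 t135 .e)))))) (.c 8 (.c 0 t138 (.c 2
t139 (.c 3 t140 (.c 4 t141 (.c 5 t142 (.c 6 t143 .e)))))) (.c 9 (.c 0 t144 (.c 1 t145 (.c 2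
t146 (.c 3 t147 (.c 4 t148 (.c 6 t149 (.c 7 t150 .e))))))) .e)))))) (.c 5 (.c 0 (.c 4 t151 (.c
5 t152 (.c 7 t153 (.c 8 t154 (.c 9 t155 .e))))) (.c 1 (.c 3 t156 (.c 4 t151 (.c 5 t152 (.c 6
t157 (.c 9 t155 .e))))) (.c 2 (.c 3 t158 (.c 5 t159 (.c 6 t160 (.c 7 t161 (.c 8 t162 (.c 9 t163
.e)))))) (.c 6 (.c 1 t164 (.c 2 t165 (.c 4 t166 (.c 5 t167 (.c 8 t168 (.c 9 t169 .e)))))) (.c 7
(.c 0 t170 (.c 2 t165 (.c 3 t171 (.c 4 t166 (.c 5 t167 (.c 9 t169 .e)))))) (.c 8 (.c 0 t172 (.c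
2 t173 (.c 3 t174 (.c 4 t175 (.c 5 t176 (.c 6 t177 .e)))))) .e)))))) (.c 6 (.c 1 (.c 3 t178 (.c
4 t179 (.c 5 t180 (.c 6 t181 (.c 9 t182 .e))))) (.c 2 (.c 3 t183 (.c 5 t184 (.c 6 t185 (.c 7
t186 (.c 8 t187 (.c 9 t188 .e)))))) (.c 4 (.c 0 t189 (.c 1 t190 (.c 6 t185 (.c 7 t186 (.c 8
t187 (.c 9 t188 .e)))))) (.c 5 (.c 0 t191 (.c 1 t192 (.c 2 t193 (.c 6 t194 (.c 7 t195 (.c 8
t196 .e)))))) (.c 8 (.c 0 t197 (.c 2 t198 (.c 3 t199 (.c 4 t200 (.c 5 t201 (.c 6 t202 .e))))))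
(.c 9 (.c 0 t203 (.c 1 t204 (.c 2 t205 (.c 3 t206 (.c 4 t207 (.c 6 t208 (.c 7 t209 .e)))))))
.e)))))) (.c 7 (.c 0 (.c 4 t210 (.c 5 t211 (.c 7 t212 (.c 8 t213 (.c 9 t214 .e))))) (.c 2 (.c 3
t215 (.c 5 t216 (.c 6 t217 (.c 7 t218 (.c 8 t219 (.c 9 t220 .e)))))) (.c 3 (.c 1 t221 (.c 2
t222 (.c 7 t212 (.c 8 t213 (.c 9 t214 .e))))) (.c 4 (.c 0 t223 (.c 1 t224 (.c 6 t217 (.c 7 t218
(.c 8 t219 (.c 9 t220 .e)))))) (.c 5 (.c 0 t225 (.c 1 t226 (.c 2 t227 (.c 6 t228 (.c 7 t229 (.c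
8 t230 .e)))))) (.c 9 (.c 0 t231 (.c 1 t232 (.c 2 t233 (.c 3 t234 (.c 4 t235 (.c 6 t236 (.c 7
t237 .e))))))) .e)))))) (.c 8 (.c 0 (.c 4 t238 (.c 5 t239 (.c 7 t240 (.c 8 t241 (.c 9 t242
.e))))) (.c 2 (.c 3 t243 (.c 5 t244 (.c 6 t245 (.c 7 t246 (.c 8 t247 (.c 9 t248 .e)))))) (.c 3
(.c 1 t249 (.c 2 t250 (.c 7 t240 (.c 8 t241 (.c 9 t242 .e))))) (.c 4 (.c 0 t251 (.c 1 t252 (.c
6 t245 (.c 7 t246 (.c 8 t247 (.c 9 t248 .e)))))) (.c 5 (.c 0 t253 (.c 1 t254 (.c 2 t255 (.c 6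
t256 (.c 7 t257 (.c 8 t258 .e)))))) (.c 6 (.c 1 t259 (.c 2 t260 (.c 4 t261 (.c 5 t262 (.c 8
t263 (.c 9 t264 .e)))))) .e)))))) (.c 9 (.c 0 (.c 4 t265 (.c 5 t266 (.c 7 t267 (.c 8 t268 (.c 9
t269 .e))))) (.c 1 (.c 3 t270 (.c 4 t265 (.c 5 t266 (.c 6 t271 (.c 9 t269 .e))))) (.c 2 (.c 3
t272 (.c 5 t273 (.c 6 t274 (.c 7 t275 (.c 8 t276 (.c 9 t277 .e)))))) (.c 3 (.c 1 t278 (.c 2
t279 (.c 7 t267 (.c 8 t268 (.c 9 t269 .e))))) (.c 4 (.c 0 t280 (.c 1 t281 (.c 6 t274 (.c 7 t275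
(.c 8 t276 (.c 9 t277 .e)))))) (.c 6 (.c 1 t282 (.c 2 t283 (.c 4 t284 (.c 5 t285 (.c 8 t286 (.c
9 t287 .e)))))) (.c 7 (.c 0 t288 (.c 2 t283 (.c 3 t289 (.c 4 t284 (.c 5 t285 (.c 9 t287
.e)))))) .e))))))) .e))))))))))

theorem chk : chk [0, 0, 0, 1, 0, 0, 2, 1] 16 6 2 0 T = true := by decide +kernel

end Vale.Agent.P032.Words.Trie.BetaF7
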