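import Vale.Agent.P032.Words.H151.Beta

/-!
# BETA pair, special end far: Qf+Pf ≥ 2

Decision diagram of 1 potentials.
-/

namespace Vale.Agent.P032.Words.Trie.BetaF8

noncomputable def v0 : Tr := .l 0
noncomputable def v1 : Tr := .l 1
noncomputable def q0 : Tr := .c 4 v0 (.c 5 v0 (.c 7 v1 (.c 8 v1 (.c 9 v0 .e))))
noncomputable def q1 : Tr := .c 4 v0 (.c 5 v0 (.c 9 v0 .e))
noncomputable def q2 : Tr := .c 4 v0 (.c 5 v0 (.c 8 v1 (.c 9 v0 .e)))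
noncomputable def q3 : Tr := .c 4 v0 (.c 5 v0 .e)
noncomputable def r0 : Tr := .c 0 q0 (.c 1 q1 (.c 6 q2 (.c 7 q1 (.c 8 q3 .e))))
noncomputable def q4 : Tr := .c 5 v0 (.c 7 v1 (.c 8 v1 (.c 9 v0 .e)))
noncomputable def r1 : Tr := .c 0 q0 (.c 1 q1 (.c 2 q4 (.c 6 q2 (.c 7 q1 (.c 8 q3 .e)))))
noncomputable def v2 : Tr := .l 2
noncomputable def q5 : Tr := .c 4 v1 (.c 5 v1 (.c 7 v2 (.c 8 v2 (.c 9 v1 .e))))
noncomputable def q6 : Tr := .c 5 v1 (.c 7 v2 (.c 8 v2 (.c 9 v1 .e)))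
noncomputable def q7 : Tr := .c 7 v2 (.c 8 v2 (.c 9 v1 .e))
noncomputable def r2 : Tr := .c 0 q5 (.c 2 q6 (.c 3 q7 (.c 4 q7 .e)))
noncomputable def q8 : Tr := .c 4 v1 (.c 5 v1 (.c 8 v2 (.c 9 v1 .e)))
noncomputable def r3 : Tr := .c 0 q5 (.c 2 q6 (.c 3 q7 (.c 4 q7 (.c 6 q8 .e))))
noncomputable def q9 : Tr := .c 7 v1 (.c 8 v1 (.c 9 v0 .e))
noncomputable def r4 : Tr := .c 0 q0 (.c 1 q1 (.c 2 q4 (.c 3 q9 (.c 4 q9 (.c 6 q2 (.c 7 q1 .e))))))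
noncomputable def t0 : Tr := .c 4 r0 (.c 5 r1 (.c 7 r2 (.c 8 r3 (.c 9 r4 .e))))
noncomputable def r5 : Tr := .c 1 q1 (.c 2 q4 (.c 7 q1 (.c 8 q3 .e)))
noncomputable def r6 : Tr := .c 1 q1 (.c 2 q4 (.c 4 q9 (.c 8 q3 .e)))
noncomputable def t1 : Tr := .c 3 r5 (.c 4 r0 (.c 5 r1 (.c 6 r6 (.c 9 r4 .e))))
noncomputable def q10 : Tr := .c 7 v2 .e
noncomputable def q11 : Tr := .c 4 v1 (.c 5 v1 .e)
noncomputable def r7 : Tr := .c 3 q10 (.c 4 q10 (.c 6 q11 .e))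
noncomputable def q12 : Tr := .c 7 v1 .e
noncomputable def r8 : Tr := .c 3 q12 (.c 6 q3 (.c 7 q3 (.c 8 q3 .e)))
noncomputable def q13 : Tr := .c 4 v0 (.c 5 v0 (.c 7 v1 .e))
noncomputable def r9 : Tr := .c 0 q13 (.c 1 q3 (.c 6 q3 (.c 7 q3 (.c 8 q3 .e))))
noncomputable def q14 : Tr := .c 5 v0 (.c 7 v1 .e)
noncomputable def r10 : Tr := .c 0 q13 (.c 1 q3 (.c 2 q14 (.c 6 q3 (.c 7 q3 (.c 8 q3 .e)))))
noncomputable def q15 : Tr := .c 4 v1 (.c 5 v1 (.c 7 v2 .e))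
noncomputable def q16 : Tr := .c 5 v1 (.c 7 v2 .e)
noncomputable def r11 : Tr := .c 0 q15 (.c 2 q16 (.c 3 q10 (.c 4 q10 (.c 6 q11 .e))))
noncomputable def r12 : Tr := .c 0 q13 (.c 1 q3 (.c 2 q14 (.c 3 q12 (.c 4 q12 (.c 6 q3 (.c 7 q3 .e))))))
noncomputable def t2 : Tr := .c 1 r7 (.c 2 r8 (.c 4 r9 (.c 5 r10 (.c 8 r11 (.c 9 r12 .e)))))
noncomputable def r13 : Tr := .c 4 q10 (.c 7 q3 (.c 8 q3 .e))
noncomputable def r14 : Tr := .c 1 q3 (.c 2 q14 (.c 7 q3 (.c 8 q3 .e)))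
noncomputable def t3 : Tr := .c 0 r13 (.c 2 r8 (.c 3 r14 (.c 4 r9 (.c 5 r10 (.c 9 r12 .e)))))
noncomputable def q17 : Tr := .c 8 v1 (.c 9 v0 .e)
noncomputable def r15 : Tr := .c 4 q17 (.c 7 q1 (.c 8 q3 .e))
noncomputable def r16 : Tr := .c 3 q17 (.c 6 q2 (.c 7 q1 (.c 8 q3 .e)))
noncomputable def q18 : Tr := .c 5 v0 (.c 8 v1 (.c 9 v0 .e))
noncomputable def r17 : Tr := .c 1 q1 (.c 2 q18 (.c 7 q1 (.c 8 q3 .e)))
noncomputable def r18 : Tr := .c 0 q2 (.c 1 q1 (.c 6 q2 (.c 7 q1 (.c 8 q3 .e))))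
noncomputable def r19 : Tr := .c 0 q2 (.c 1 q1 (.c 2 q18 (.c 6 q2 (.c 7 q1 (.c 8 q3 .e)))))
noncomputable def r20 : Tr := .c 1 q1 (.c 2 q18 (.c 4 q17 (.c 8 q3 .e)))
noncomputable def t4 : Tr := .c 0 r15 (.c 2 r16 (.c 3 r17 (.c 4 r18 (.c 5 r19 (.c 6 r20 .e)))))
noncomputable def q19 : Tr := .c 8 v2 (.c 9 v1 .e)
noncomputable def q20 : Tr := .c 5 v0 (.c 9 v0 .e)
noncomputable def q21 : Tr := .c 5 v0 .e
noncomputable def r21 : Tr := .c 4 q19 (.c 7 q20 (.c 8 q21 .e))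
noncomputable def q22 : Tr := .c 5 v1 (.c 8 v2 (.c 9 v1 .e))
noncomputable def r22 : Tr := .c 3 q19 (.c 4 q19 (.c 6 q22 .e))
noncomputable def r23 : Tr := .c 3 q17 (.c 6 q18 (.c 7 q20 (.c 8 q21 .e)))
noncomputable def r24 : Tr := .c 1 q20 (.c 2 q22 (.c 7 q20 (.c 8 q21 .e)))
noncomputable def r25 : Tr := .c 0 q18 (.c 1 q20 (.c 6 q18 (.c 7 q20 (.c 8 q21 .e))))
noncomputable def r26 : Tr := .c 1 q20 (.c 2 q22 (.c 4 q19 (.c 8 q21 .e)))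
noncomputable def r27 : Tr := .c 0 q22 (.c 2 q22 (.c 3 q19 (.c 4 q19 .e)))
noncomputable def t5 : Tr := .c 0 r21 (.c 1 r22 (.c 2 r23 (.c 3 r24 (.c 4 r25 (.c 6 r26 (.c 7 r27 .e))))))
noncomputable def q23 : Tr := .c 4 v0 (.c 7 v1 .e)
noncomputable def r28 : Tr := .c 0 q0 (.c 1 q1 (.c 6 q2 (.c 7 q1 (.c 8 q3 (.c 9 q23 .e)))))
noncomputable def q24 : Tr := .c 7 v2 (.c 8 v2 .e)
noncomputable def q25 : Tr := .c 4 v1 (.c 7 v2 .e)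
noncomputable def r29 : Tr := .c 0 q5 (.c 3 q7 (.c 5 q24 (.c 9 q25 .e)))
noncomputable def r30 : Tr := .c 0 q5 (.c 3 q7 (.c 5 q24 (.c 6 q8 .e)))
noncomputable def r31 : Tr := .c 0 q0 (.c 1 q1 (.c 3 q9 (.c 6 q2 (.c 7 q1 .e))))
noncomputable def t6 : Tr := .c 4 r28 (.c 5 r0 (.c 7 r29 (.c 8 r30 (.c 9 r31 .e))))
noncomputable def r32 : Tr := .c 1 q1 (.c 7 q1 (.c 8 q3 (.c 9 q23 .e)))
noncomputable def q26 : Tr := .c 7 v1 (.c 8 v1 .e)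
noncomputable def r33 : Tr := .c 1 q1 (.c 5 q26 (.c 8 q3 (.c 9 q23 .e)))
noncomputable def t7 : Tr := .c 3 r32 (.c 4 r28 (.c 5 r0 (.c 6 r33 (.c 9 r31 .e))))
noncomputable def q27 : Tr := .c 4 v0 .e
noncomputable def r34 : Tr := .c 1 q27 (.c 7 q27 (.c 8 q27 (.c 9 q25 .e)))
noncomputable def q28 : Tr := .c 4 v0 (.c 7 v1 (.c 8 v1 .e))
noncomputable def q29 : Tr := .c 4 v0 (.c 8 v1 .e)
noncomputable def r35 : Tr := .c 0 q28 (.c 1 q27 (.c 6 q29 (.c 7 q27 (.c 8 q27 .e))))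
noncomputable def r36 : Tr := .c 1 q27 (.c 5 q24 (.c 8 q27 (.c 9 q25 .e)))
noncomputable def q30 : Tr := .c 4 v1 (.c 7 v2 (.c 8 v2 .e))
noncomputable def r37 : Tr := .c 0 q30 (.c 3 q24 (.c 5 q24 (.c 9 q25 .e)))
noncomputable def q31 : Tr := .c 4 v1 (.c 8 v2 .e)
noncomputable def r38 : Tr := .c 0 q30 (.c 3 q24 (.c 5 q24 (.c 6 q31 .e)))
noncomputable def r39 : Tr := .c 0 q28 (.c 1 q27 (.c 3 q26 (.c 6 q29 (.c 7 q27 .e))))
noncomputable def t8 : Tr := .c 3 r34 (.c 5 r35 (.c 6 r36 (.c 7 r37 (.c 8 r38 (.c 9 r39 .e)))))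
noncomputable def r40 : Tr := .c 3 q10 (.c 5 q10 (.c 6 q11 (.c 9 q25 .e)))
noncomputable def r41 : Tr := .c 3 q12 (.c 5 q12 (.c 6 q3 (.c 7 q3 (.c 8 q3 (.c 9 q23 .e)))))
noncomputable def r42 : Tr := .c 0 q13 (.c 1 q3 (.c 6 q3 (.c 7 q3 (.c 8 q3 (.c 9 q23 .e)))))
noncomputable def r43 : Tr := .c 0 q15 (.c 3 q10 (.c 5 q10 (.c 6 q11 .e)))
noncomputable def r44 : Tr := .c 0 q13 (.c 1 q3 (.c 3 q12 (.c 6 q3 (.c 7 q3 .e))))
noncomputable def t9 : Tr := .c 1 r40 (.c 2 r41 (.c 4 r42 (.c 5 r9 (.c 8 r43 (.c 9 r44 .e)))))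
noncomputable def r45 : Tr := .c 5 q12 (.c 7 q3 (.c 8 q3 (.c 9 q23 .e)))
noncomputable def r46 : Tr := .c 1 q3 (.c 7 q3 (.c 8 q3 (.c 9 q23 .e)))
noncomputable def t10 : Tr := .c 0 r45 (.c 2 r41 (.c 3 r46 (.c 4 r42 (.c 5 r9 (.c 9 r44 .e)))))
noncomputable def q32 : Tr := .c 8 v1 .e
noncomputable def r47 : Tr := .c 5 q32 (.c 7 q1 (.c 8 q3 (.c 9 q27 .e)))
noncomputable def r48 : Tr := .c 3 q17 (.c 5 q32 (.c 6 q2 (.c 7 q1 (.c 8 q3 (.c 9 q27 .e)))))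
noncomputable def r49 : Tr := .c 1 q1 (.c 7 q1 (.c 8 q3 (.c 9 q27 .e)))
noncomputable def r50 : Tr := .c 0 q2 (.c 1 q1 (.c 6 q2 (.c 7 q1 (.c 8 q3 (.c 9 q27 .e)))))
noncomputable def r51 : Tr := .c 1 q1 (.c 5 q32 (.c 8 q3 (.c 9 q27 .e)))
noncomputable def t11 : Tr := .c 0 r47 (.c 2 r48 (.c 3 r49 (.c 4 r50 (.c 5 r18 (.c 6 r51 .e)))))
noncomputable def q33 : Tr := .c 4 v1 (.c 5 v1 (.c 9 v1 .e))
noncomputable def r52 : Tr := .c 0 q5 (.c 1 q33 (.c 6 q8 (.c 7 q33 .e)))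
noncomputable def r53 : Tr := .c 0 q5 (.c 1 q33 (.c 2 q6 (.c 6 q8 (.c 7 q33 .e))))
noncomputable def q34 : Tr := .c 4 v2 (.c 5 v2 (.c 7 v2 (.c 8 v2 (.c 9 v2 .e))))
noncomputable def q35 : Tr := .c 5 v2 (.c 7 v2 (.c 8 v2 (.c 9 v2 .e)))
noncomputable def q36 : Tr := .c 7 v2 (.c 8 v2 (.c 9 v2 .e))
noncomputable def r54 : Tr := .c 0 q34 (.c 2 q35 (.c 3 q36 (.c 4 q36 (.c 5 q24 .e))))
noncomputable def q37 : Tr := .c 4 v2 (.c 5 v2 (.c 8 v2 (.c 9 v2 .e)))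
noncomputable def r55 : Tr := .c 0 q34 (.c 2 q35 (.c 3 q36 (.c 4 q36 (.c 5 q24 (.c 6 q37 .e)))))
noncomputable def r56 : Tr := .c 0 q5 (.c 1 q33 (.c 2 q6 (.c 3 q7 (.c 4 q7 (.c 6 q8 (.c 7 q33 .e))))))
noncomputable def t12 : Tr := .c 4 r52 (.c 5 r53 (.c 7 r54 (.c 8 r55 (.c 9 r56 .e))))
noncomputable def q38 : Tr := .c 4 v1 .e
noncomputable def r57 : Tr := .c 1 q38 (.c 2 q24 (.c 7 q38 .e))
noncomputable def r58 : Tr := .c 0 q30 (.c 1 q38 (.c 2 q24 (.c 6 q31 (.c 7 q38 .e))))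
noncomputable def r59 : Tr := .c 1 q38 (.c 2 q24 (.c 4 q24 (.c 5 q24 .e)))
noncomputable def q39 : Tr := .c 4 v2 (.c 7 v2 (.c 8 v2 .e))
noncomputable def r60 : Tr := .c 0 q39 (.c 2 q24 (.c 3 q24 (.c 4 q24 (.c 5 q24 .e))))
noncomputable def q40 : Tr := .c 4 v2 (.c 8 v2 .e)
noncomputable def r61 : Tr := .c 0 q39 (.c 2 q24 (.c 3 q24 (.c 4 q24 (.c 5 q24 (.c 6 q40 .e)))))
noncomputable def r62 : Tr := .c 0 q30 (.c 1 q38 (.c 2 q24 (.c 3 q24 (.c 4 q24 (.c 6 q31 (.c 7 q38 .e))))))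
noncomputable def t13 : Tr := .c 3 r57 (.c 5 r58 (.c 6 r59 (.c 7 r60 (.c 8 r61 (.c 9 r62 .e)))))
noncomputable def r63 : Tr := .c 3 q36 (.c 4 q36 (.c 5 q24 (.c 6 q37 .e)))
noncomputable def r64 : Tr := .c 3 q7 (.c 5 q24 (.c 6 q8 (.c 7 q33 .e)))
noncomputable def t14 : Tr := .c 1 r63 (.c 2 r64 (.c 7 r54 (.c 8 r55 (.c 9 r56 .e))))
noncomputable def q41 : Tr := .c 4 v2 .e
noncomputable def r65 : Tr := .c 4 q24 (.c 5 q24 (.c 7 q41 .e))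
noncomputable def r66 : Tr := .c 3 q24 (.c 4 q24 (.c 5 q24 (.c 6 q40 .e)))
noncomputable def t15 : Tr := .c 0 r65 (.c 1 r66 (.c 6 r59 (.c 7 r60 (.c 8 r61 (.c 9 r62 .e)))))
noncomputable def q42 : Tr := .c 5 v1 (.c 9 v1 .e)
noncomputable def r67 : Tr := .c 4 q36 (.c 5 q24 (.c 7 q42 .e))
noncomputable def q43 : Tr := .c 5 v2 (.c 8 v2 (.c 9 v2 .e))
noncomputable def r68 : Tr := .c 3 q36 (.c 4 q36 (.c 5 q24 (.c 6 q43 .e)))
noncomputable def r69 : Tr := .c 3 q7 (.c 5 q24 (.c 6 q22 (.c 7 q42 .e)))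
noncomputable def r70 : Tr := .c 1 q42 (.c 2 q35 (.c 4 q36 (.c 5 q24 .e)))
noncomputable def r71 : Tr := .c 0 q35 (.c 2 q35 (.c 3 q36 (.c 4 q36 (.c 5 q24 .e))))
noncomputable def r72 : Tr := .c 0 q35 (.c 2 q35 (.c 3 q36 (.c 4 q36 (.c 5 q24 (.c 6 q43 .e)))))
noncomputable def t16 : Tr := .c 0 r67 (.c 1 r68 (.c 2 r69 (.c 6 r70 (.c 7 r71 (.c 8 r72 .e)))))
noncomputable def q44 : Tr := .c 8 v2 (.c 9 v2 .e)
noncomputable def q45 : Tr := .c 8 v2 .e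
noncomputable def r73 : Tr := .c 4 q44 (.c 5 q45 (.c 7 q42 .e))
noncomputable def r74 : Tr := .c 3 q44 (.c 4 q44 (.c 5 q45 (.c 6 q43 .e)))
noncomputable def r75 : Tr := .c 3 q19 (.c 5 q45 (.c 6 q22 (.c 7 q42 .e)))
noncomputable def r76 : Tr := .c 1 q42 (.c 2 q43 (.c 7 q42 .e))
noncomputable def r77 : Tr := .c 0 q22 (.c 1 q42 (.c 6 q22 (.c 7 q42 .e)))
noncomputable def r78 : Tr := .c 1 q42 (.c 2 q43 (.c 4 q44 (.c 5 q45 .e)))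
noncomputable def r79 : Tr := .c 0 q43 (.c 2 q43 (.c 3 q44 (.c 4 q44 (.c 5 q45 .e))))
noncomputable def t17 : Tr := .c 0 r73 (.c 1 r74 (.c 2 r75 (.c 3 r76 (.c 4 r77 (.c 6 r78 (.c 7 r79 .e))))))
noncomputable def r80 : Tr := .c 0 q5 (.c 1 q33 (.c 8 q11 (.c 9 q25 .e)))
noncomputable def r81 : Tr := .c 0 q5 (.c 1 q33 (.c 2 q6 (.c 8 q11 .e)))
noncomputable def q46 : Tr := .c 4 v2 (.c 7 v2 .e)
noncomputable def r82 : Tr := .c 0 q34 (.c 2 q35 (.c 3 q36 (.c 4 q36 (.c 5 q24 (.c 9 q46 .e)))))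
noncomputable def r83 : Tr := .c 0 q5 (.c 1 q33 (.c 2 q6 (.c 3 q7 (.c 4 q7 .e))))
noncomputable def t18 : Tr := .c 4 r80 (.c 5 r81 (.c 7 r82 (.c 8 r54 (.c 9 r83 .e))))
noncomputable def r84 : Tr := .c 1 q38 (.c 2 q24 (.c 8 q38 (.c 9 q46 .e)))
noncomputable def r85 : Tr := .c 0 q30 (.c 1 q38 (.c 2 q24 (.c 8 q38 .e)))
noncomputable def r86 : Tr := .c 1 q38 (.c 2 q24 (.c 4 q24 (.c 5 q24 (.c 8 q38 (.c 9 q46 .e)))))
noncomputable def r87 : Tr := .c 0 q39 (.c 2 q24 (.c 3 q24 (.c 4 q24 (.c 5 q24 (.c 9 q46 .e)))))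
noncomputable def r88 : Tr := .c 0 q30 (.c 1 q38 (.c 2 q24 (.c 3 q24 (.c 4 q24 .e))))
noncomputable def t19 : Tr := .c 3 r84 (.c 5 r85 (.c 6 r86 (.c 7 r87 (.c 8 r60 (.c 9 r88 .e)))))
noncomputable def r89 : Tr := .c 3 q36 (.c 4 q36 (.c 5 q24 (.c 9 q46 .e)))
noncomputable def r90 : Tr := .c 3 q7 (.c 5 q24 (.c 8 q11 (.c 9 q25 .e)))
noncomputable def t20 : Tr := .c 1 r89 (.c 2 r90 (.c 7 r82 (.c 8 r54 (.c 9 r83 .e))))
noncomputable def r91 : Tr := .c 4 q24 (.c 5 q24 (.c 8 q38 (.c 9 q46 .e)))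
noncomputable def r92 : Tr := .c 3 q24 (.c 4 q24 (.c 5 q24 (.c 9 q46 .e)))
noncomputable def t21 : Tr := .c 0 r91 (.c 1 r92 (.c 6 r86 (.c 7 r87 (.c 8 r60 (.c 9 r88 .e)))))
noncomputable def q47 : Tr := .c 5 v1 .e
noncomputable def r93 : Tr := .c 4 q36 (.c 5 q24 (.c 8 q47 (.c 9 q10 .e)))
noncomputable def r94 : Tr := .c 3 q36 (.c 4 q36 (.c 5 q24 (.c 9 q10 .e)))
noncomputable def r95 : Tr := .c 3 q7 (.c 5 q24 (.c 8 q47 (.c 9 q10 .e)))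
noncomputable def r96 : Tr := .c 1 q42 (.c 2 q35 (.c 4 q36 (.c 5 q24 (.c 8 q47 (.c 9 q10 .e)))))
noncomputable def r97 : Tr := .c 0 q35 (.c 2 q35 (.c 3 q36 (.c 4 q36 (.c 5 q24 (.c 9 q10 .e)))))
noncomputable def t22 : Tr := .c 0 r93 (.c 1 r94 (.c 2 r95 (.c 6 r96 (.c 7 r97 (.c 8 r71 .e)))))
noncomputable def r98 : Tr := .c 3 q10 (.c 4 q10 (.c 5 q10 (.c 9 q46 .e)))
noncomputable def r99 : Tr := .c 3 q10 (.c 5 q10 (.c 8 q11 (.c 9 q25 .e)))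
noncomputable def r100 : Tr := .c 0 q15 (.c 1 q11 (.c 8 q11 (.c 9 q25 .e)))
noncomputable def r101 : Tr := .c 0 q15 (.c 1 q11 (.c 2 q16 (.c 8 q11 .e)))
noncomputable def q48 : Tr := .c 4 v2 (.c 5 v2 (.c 7 v2 .e))
noncomputable def q49 : Tr := .c 5 v2 (.c 7 v2 .e)
noncomputable def r102 : Tr := .c 0 q48 (.c 2 q49 (.c 3 q10 (.c 4 q10 (.c 5 q10 .e))))
noncomputable def r103 : Tr := .c 0 q15 (.c 1 q11 (.c 2 q16 (.c 3 q10 (.c 4 q10 .e))))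
noncomputable def t23 : Tr := .c 1 r98 (.c 2 r99 (.c 4 r100 (.c 5 r101 (.c 8 r102 (.c 9 r103 .e)))))
noncomputable def r104 : Tr := .c 0 q0 (.c 1 q1 (.c 8 q3 (.c 9 q23 .e)))
noncomputable def r105 : Tr := .c 0 q0 (.c 1 q1 (.c 8 q3 .e))
noncomputable def r106 : Tr := .c 0 q5 (.c 3 q7 (.c 5 q24 .e))
noncomputable def r107 : Tr := .c 0 q0 (.c 1 q1 (.c 3 q9 .e))
noncomputable def t24 : Tr := .c 4 r104 (.c 5 r105 (.c 7 r29 (.c 8 r106 (.c 9 r107 .e))))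
noncomputable def r108 : Tr := .c 1 q1 (.c 8 q3 (.c 9 q23 .e))
noncomputable def t25 : Tr := .c 3 r108 (.c 4 r104 (.c 5 r105 (.c 6 r33 (.c 9 r107 .e))))
noncomputable def r109 : Tr := .c 1 q27 (.c 8 q27 (.c 9 q25 .e))
noncomputable def r110 : Tr := .c 0 q28 (.c 1 q27 (.c 8 q27 .e))
noncomputable def r111 : Tr := .c 0 q30 (.c 3 q24 (.c 5 q24 .e))
noncomputable def r112 : Tr := .c 0 q28 (.c 1 q27 (.c 3 q26 .e))
noncomputable def t26 : Tr := .c 3 r109 (.c 5 r110 (.c 6 r36 (.c 7 r37 (.c 8 r111 (.c 9 r112 .e)))))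
noncomputable def r113 : Tr := .c 3 q7 (.c 5 q24 (.c 9 q25 .e))
noncomputable def q50 : Tr := .c 7 v1 (.c 8 v1 (.c 9 v2 .e))
noncomputable def r114 : Tr := .c 3 q50 (.c 5 q26 (.c 8 q3 (.c 9 q23 .e)))
noncomputable def t27 : Tr := .c 1 r113 (.c 2 r114 (.c 7 r29 (.c 8 r106 (.c 9 r107 .e))))
noncomputable def r115 : Tr := .c 5 q24 (.c 8 q27 (.c 9 q25 .e))
noncomputable def r116 : Tr := .c 3 q24 (.c 5 q24 (.c 9 q25 .e))
noncomputable def t28 : Tr := .c 0 r115 (.c 1 r116 (.c 6 r36 (.c 7 r37 (.c 8 r111 (.c 9 r112 .e)))))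
noncomputable def r117 : Tr := .c 3 q10 (.c 5 q10 (.c 9 q25 .e))
noncomputable def r118 : Tr := .c 3 q12 (.c 5 q12 (.c 8 q3 (.c 9 q23 .e)))
noncomputable def r119 : Tr := .c 0 q13 (.c 1 q3 (.c 8 q3 (.c 9 q23 .e)))
noncomputable def r120 : Tr := .c 0 q13 (.c 1 q3 (.c 8 q3 .e))
noncomputable def r121 : Tr := .c 0 q15 (.c 3 q10 (.c 5 q10 .e))
noncomputable def r122 : Tr := .c 0 q13 (.c 1 q3 (.c 3 q12 .e))
noncomputable def t29 : Tr := .c 1 r117 (.c 2 r118 (.c 4 r119 (.c 5 r120 (.c 8 r121 (.c 9 r122 .e)))))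
noncomputable def r123 : Tr := .c 5 q12 (.c 8 q3 (.c 9 q23 .e))
noncomputable def r124 : Tr := .c 1 q3 (.c 8 q3 (.c 9 q23 .e))
noncomputable def t30 : Tr := .c 0 r123 (.c 2 r118 (.c 3 r124 (.c 4 r119 (.c 5 r120 (.c 9 r122 .e)))))
noncomputable def q51 : Tr := .c 3 v0 (.c 4 v0 (.c 5 v0 (.c 6 v0 (.c 9 v0 .e))))
noncomputable def q52 : Tr := .c 3 v0 (.c 5 v0 (.c 6 v0 (.c 9 v0 .e)))
noncomputable def q53 : Tr := .c 3 v0 (.c 4 v0 (.c 5 v0 (.c 9 v0 .e)))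
noncomputable def q54 : Tr := .c 3 v0 (.c 4 v0 (.c 5 v0 (.c 6 v0 .e)))
noncomputable def q55 : Tr := .c 3 v0 (.c 4 v0 (.c 6 v0 .e))
noncomputable def r125 : Tr := .c 1 q51 (.c 2 q52 (.c 7 q53 (.c 8 q54 (.c 9 q55 .e))))
noncomputable def r126 : Tr := .c 0 q1 (.c 1 q51 (.c 6 q1 (.c 7 q53 (.c 8 q54 (.c 9 q55 .e)))))
noncomputable def r127 : Tr := .c 0 q1 (.c 1 q51 (.c 2 q52 (.c 6 q1 (.c 7 q53 (.c 8 q54 .e)))))
noncomputable def q56 : Tr := .c 6 v0 (.c 9 v0 .e)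
noncomputable def q57 : Tr := .c 6 v0 .e
noncomputable def r128 : Tr := .c 1 q51 (.c 2 q52 (.c 4 q56 (.c 5 q57 (.c 8 q54 (.c 9 q55 .e)))))
noncomputable def q58 : Tr := .c 9 v0 .e
noncomputable def r129 : Tr := .c 0 q1 (.c 1 q51 (.c 2 q52 (.c 3 q58 (.c 4 q56 (.c 6 q1 (.c 7 q53 .e))))))
noncomputable def t31 : Tr := .c 3 r125 (.c 4 r126 (.c 5 r127 (.c 6 r128 (.c 9 r129 .e))))
noncomputable def q59 : Tr := .c 3 v1 (.c 6 v1 .e)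
noncomputable def q60 : Tr := .c 3 v0 (.c 4 v0 .e)
noncomputable def q61 : Tr := .c 3 v1 (.c 4 v1 (.c 6 v1 .e))
noncomputable def r130 : Tr := .c 1 q55 (.c 2 q59 (.c 7 q60 (.c 8 q55 (.c 9 q61 .e))))
noncomputable def r131 : Tr := .c 0 q27 (.c 1 q55 (.c 2 q59 (.c 6 q27 (.c 7 q60 (.c 8 q55 .e)))))
noncomputable def q62 : Tr := .c 6 v1 .e
noncomputable def r132 : Tr := .c 1 q55 (.c 2 q59 (.c 4 q62 (.c 5 q62 (.c 8 q55 (.c 9 q61 .e)))))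
noncomputable def r133 : Tr := .c 0 q38 (.c 2 q59 (.c 4 q62 (.c 5 q62 (.c 9 q61 .e))))
noncomputable def r134 : Tr := .c 0 q38 (.c 2 q59 (.c 4 q62 (.c 5 q62 (.c 6 q38 .e))))
noncomputable def r135 : Tr := .c 0 q27 (.c 1 q55 (.c 2 q59 (.c 4 q62 (.c 6 q27 (.c 7 q60 .e)))))
noncomputable def t32 : Tr := .c 3 r130 (.c 5 r131 (.c 6 r132 (.c 7 r133 (.c 8 r134 (.c 9 r135 .e)))))
noncomputable def q63 : Tr := .c 6 v2 .e
noncomputable def q64 : Tr := .c 3 v0 (.c 4 v0 (.c 5 v0 .e))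
noncomputable def r136 : Tr := .c 4 q63 (.c 5 q57 (.c 7 q64 (.c 8 q54 (.c 9 q55 .e))))
noncomputable def r137 : Tr := .c 5 q57 (.c 6 q3 (.c 7 q64 (.c 8 q54 (.c 9 q55 .e))))
noncomputable def q65 : Tr := .c 3 v0 (.c 5 v0 (.c 6 v0 .e))
noncomputable def r138 : Tr := .c 1 q54 (.c 2 q65 (.c 7 q64 (.c 8 q54 (.c 9 q55 .e))))
noncomputable def r139 : Tr := .c 0 q3 (.c 1 q54 (.c 6 q3 (.c 7 q64 (.c 8 q54 (.c 9 q55 .e)))))
noncomputable def r140 : Tr := .c 0 q3 (.c 1 q54 (.c 2 q65 (.c 6 q3 (.c 7 q64 (.c 8 q54 .e)))))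
noncomputable def r141 : Tr := .c 0 q3 (.c 1 q54 (.c 2 q65 (.c 4 q57 (.c 6 q3 (.c 7 q64 .e)))))
noncomputable def t33 : Tr := .c 0 r136 (.c 2 r137 (.c 3 r138 (.c 4 r139 (.c 5 r140 (.c 9 r141 .e)))))
noncomputable def r142 : Tr := .c 4 q58 (.c 7 q53 (.c 8 q64 (.c 9 q60 .e)))
noncomputable def r143 : Tr := .c 3 q58 (.c 6 q1 (.c 7 q53 (.c 8 q64 (.c 9 q60 .e))))
noncomputable def q66 : Tr := .c 3 v0 (.c 5 v0 (.c 9 v0 .e))
noncomputable def r144 : Tr := .c 1 q53 (.c 2 q66 (.c 7 q53 (.c 8 q64 (.c 9 q60 .e))))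
noncomputable def r145 : Tr := .c 0 q1 (.c 1 q53 (.c 6 q1 (.c 7 q53 (.c 8 q64 (.c 9 q60 .e)))))
noncomputable def r146 : Tr := .c 0 q1 (.c 1 q53 (.c 2 q66 (.c 6 q1 (.c 7 q53 (.c 8 q64 .e)))))
noncomputable def r147 : Tr := .c 1 q53 (.c 2 q66 (.c 4 q58 (.c 8 q64 (.c 9 q60 .e))))
noncomputable def t34 : Tr := .c 0 r142 (.c 2 r143 (.c 3 r144 (.c 4 r145 (.c 5 r146 (.c 6 r147 .e)))))
noncomputable def q67 : Tr := .c 9 v1 .e
noncomputable def q68 : Tr := .c 3 v0 (.c 5 v0 .e)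
noncomputable def q69 : Tr := .c 3 v1 .e
noncomputable def r148 : Tr := .c 4 q67 (.c 7 q66 (.c 8 q68 (.c 9 q69 .e)))
noncomputable def r149 : Tr := .c 3 q67 (.c 4 q67 (.c 6 q42 (.c 9 q69 .e)))
noncomputable def r150 : Tr := .c 3 q58 (.c 6 q20 (.c 7 q66 (.c 8 q68 (.c 9 q69 .e))))
noncomputable def q70 : Tr := .c 3 v1 (.c 5 v1 (.c 9 v1 .e))
noncomputable def r151 : Tr := .c 1 q66 (.c 2 q70 (.c 7 q66 (.c 8 q68 (.c 9 q69 .e))))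
noncomputable def r152 : Tr := .c 0 q20 (.c 1 q66 (.c 6 q20 (.c 7 q66 (.c 8 q68 (.c 9 q69 .e)))))
noncomputable def r153 : Tr := .c 1 q66 (.c 2 q70 (.c 4 q67 (.c 8 q68 (.c 9 q69 .e))))
noncomputable def r154 : Tr := .c 0 q42 (.c 2 q70 (.c 3 q67 (.c 4 q67 (.c 9 q69 .e))))
noncomputable def t35 : Tr := .c 0 r148 (.c 1 r149 (.c 2 r150 (.c 3 r151 (.c 4 r152 (.c 6 r153 (.c 7 r154 .e))))))
noncomputable def r155 : Tr := .c 0 q1 (.c 1 q51 (.c 6 q1 (.c 7 q53 (.c 8 q54 .e))))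
noncomputable def q71 : Tr := .c 3 v1 (.c 5 v1 (.c 6 v1 (.c 9 v1 .e)))
noncomputable def q72 : Tr := .c 6 v1 (.c 9 v1 .e)
noncomputable def r156 : Tr := .c 0 q33 (.c 2 q71 (.c 3 q67 (.c 4 q72 .e)))
noncomputable def r157 : Tr := .c 0 q33 (.c 2 q71 (.c 3 q67 (.c 4 q72 (.c 6 q33 .e))))
noncomputable def t36 : Tr := .c 4 r155 (.c 5 r127 (.c 7 r156 (.c 8 r157 (.c 9 r129 .e))))
noncomputable def r158 : Tr := .c 1 q51 (.c 2 q52 (.c 7 q53 (.c 8 q54 .e)))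
noncomputable def r159 : Tr := .c 1 q51 (.c 2 q52 (.c 4 q56 (.c 8 q54 .e)))
noncomputable def t37 : Tr := .c 3 r158 (.c 4 r155 (.c 5 r127 (.c 6 r159 (.c 9 r129 .e))))
noncomputable def r160 : Tr := .c 4 q62 (.c 6 q11 .e)
noncomputable def r161 : Tr := .c 6 q3 (.c 7 q64 (.c 8 q54 .e))
noncomputable def r162 : Tr := .c 0 q3 (.c 1 q54 (.c 6 q3 (.c 7 q64 (.c 8 q54 .e))))
noncomputable def q73 : Tr := .c 3 v1 (.c 5 v1 (.c 6 v1 .e))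
noncomputable def r163 : Tr := .c 0 q11 (.c 2 q73 (.c 4 q62 (.c 6 q11 .e)))
noncomputable def t38 : Tr := .c 1 r160 (.c 2 r161 (.c 4 r162 (.c 5 r140 (.c 8 r163 (.c 9 r141 .e)))))
noncomputable def r164 : Tr := .c 4 q63 (.c 7 q64 (.c 8 q54 .e))
noncomputable def r165 : Tr := .c 1 q54 (.c 2 q65 (.c 7 q64 (.c 8 q54 .e)))
noncomputable def t39 : Tr := .c 0 r164 (.c 2 r161 (.c 3 r165 (.c 4 r162 (.c 5 r140 (.c 9 r141 .e)))))
noncomputable def r166 : Tr := .c 4 q58 (.c 7 q53 (.c 8 q64 .e))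
noncomputable def r167 : Tr := .c 3 q58 (.c 6 q1 (.c 7 q53 (.c 8 q64 .e)))
noncomputable def r168 : Tr := .c 1 q53 (.c 2 q66 (.c 7 q53 (.c 8 q64 .e)))
noncomputable def r169 : Tr := .c 0 q1 (.c 1 q53 (.c 6 q1 (.c 7 q53 (.c 8 q64 .e))))
noncomputable def r170 : Tr := .c 1 q53 (.c 2 q66 (.c 4 q58 (.c 8 q64 .e)))
noncomputable def t40 : Tr := .c 0 r166 (.c 2 r167 (.c 3 r168 (.c 4 r169 (.c 5 r146 (.c 6 r170 .e)))))
noncomputable def r171 : Tr := .c 4 q67 (.c 7 q66 (.c 8 q68 .e))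
noncomputable def r172 : Tr := .c 3 q67 (.c 4 q67 (.c 6 q42 .e))
noncomputable def r173 : Tr := .c 3 q58 (.c 6 q20 (.c 7 q66 (.c 8 q68 .e)))
noncomputable def r174 : Tr := .c 1 q66 (.c 2 q70 (.c 7 q66 (.c 8 q68 .e)))
noncomputable def r175 : Tr := .c 0 q20 (.c 1 q66 (.c 6 q20 (.c 7 q66 (.c 8 q68 .e))))
noncomputable def r176 : Tr := .c 1 q66 (.c 2 q70 (.c 4 q67 (.c 8 q68 .e)))
noncomputable def r177 : Tr := .c 0 q42 (.c 2 q70 (.c 3 q67 (.c 4 q67 .e)))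
noncomputable def t41 : Tr := .c 0 r171 (.c 1 r172 (.c 2 r173 (.c 3 r174 (.c 4 r175 (.c 6 r176 (.c 7 r177 .e))))))
noncomputable def r178 : Tr := .c 0 q33 (.c 3 q67 (.c 5 q62 (.c 9 q61 .e)))
noncomputable def r179 : Tr := .c 0 q33 (.c 3 q67 (.c 5 q62 (.c 6 q33 .e)))
noncomputable def r180 : Tr := .c 0 q1 (.c 1 q51 (.c 3 q58 (.c 6 q1 (.c 7 q53 .e))))
noncomputable def t42 : Tr := .c 4 r126 (.c 5 r155 (.c 7 r178 (.c 8 r179 (.c 9 r180 .e))))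
noncomputable def r181 : Tr := .c 1 q51 (.c 7 q53 (.c 8 q54 (.c 9 q55 .e)))
noncomputable def r182 : Tr := .c 1 q51 (.c 5 q57 (.c 8 q54 (.c 9 q55 .e)))
noncomputable def t43 : Tr := .c 3 r181 (.c 4 r126 (.c 5 r155 (.c 6 r182 (.c 9 r180 .e))))
noncomputable def r183 : Tr := .c 1 q55 (.c 7 q60 (.c 8 q55 (.c 9 q61 .e)))
noncomputable def r184 : Tr := .c 0 q27 (.c 1 q55 (.c 6 q27 (.c 7 q60 (.c 8 q55 .e))))
noncomputable def r185 : Tr := .c 1 q55 (.c 5 q62 (.c 8 q55 (.c 9 q61 .e)))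
noncomputable def r186 : Tr := .c 0 q38 (.c 5 q62 (.c 9 q61 .e))
noncomputable def r187 : Tr := .c 0 q38 (.c 5 q62 (.c 6 q38 .e))
noncomputable def r188 : Tr := .c 0 q27 (.c 1 q55 (.c 6 q27 (.c 7 q60 .e)))
noncomputable def t44 : Tr := .c 3 r183 (.c 5 r184 (.c 6 r185 (.c 7 r186 (.c 8 r187 (.c 9 r188 .e)))))
noncomputable def r189 : Tr := .c 5 q62 (.c 6 q11 (.c 9 q61 .e))
noncomputable def r190 : Tr := .c 0 q11 (.c 5 q62 (.c 6 q11 .e))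
noncomputable def r191 : Tr := .c 0 q3 (.c 1 q54 (.c 6 q3 (.c 7 q64 .e)))
noncomputable def t45 : Tr := .c 1 r189 (.c 2 r137 (.c 4 r139 (.c 5 r162 (.c 8 r190 (.c 9 r191 .e)))))
noncomputable def r192 : Tr := .c 5 q57 (.c 7 q64 (.c 8 q54 (.c 9 q55 .e)))
noncomputable def r193 : Tr := .c 1 q54 (.c 7 q64 (.c 8 q54 (.c 9 q55 .e)))
noncomputable def t46 : Tr := .c 0 r192 (.c 2 r137 (.c 3 r193 (.c 4 r139 (.c 5 r162 (.c 9 r191 .e)))))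
noncomputable def r194 : Tr := .c 7 q53 (.c 8 q64 (.c 9 q60 .e))
noncomputable def r195 : Tr := .c 1 q53 (.c 7 q53 (.c 8 q64 (.c 9 q60 .e)))
noncomputable def r196 : Tr := .c 1 q53 (.c 8 q64 (.c 9 q60 .e))
noncomputable def t47 : Tr := .c 0 r194 (.c 2 r143 (.c 3 r195 (.c 4 r145 (.c 5 r169 (.c 6 r196 .e)))))
noncomputable def r197 : Tr := .c 1 q51 (.c 2 q52 (.c 7 q53 .e))
noncomputable def r198 : Tr := .c 0 q1 (.c 1 q51 (.c 6 q1 (.c 7 q53 .e)))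
noncomputable def r199 : Tr := .c 0 q1 (.c 1 q51 (.c 2 q52 (.c 6 q1 (.c 7 q53 .e))))
noncomputable def r200 : Tr := .c 1 q51 (.c 2 q52 (.c 4 q56 (.c 5 q57 .e)))
noncomputable def t48 : Tr := .c 3 r197 (.c 4 r198 (.c 5 r199 (.c 6 r200 (.c 9 r129 .e))))
noncomputable def r201 : Tr := .c 1 q55 (.c 2 q59 (.c 7 q60 .e))
noncomputable def r202 : Tr := .c 0 q27 (.c 1 q55 (.c 2 q59 (.c 6 q27 (.c 7 q60 .e))))
noncomputable def r203 : Tr := .c 1 q55 (.c 2 q59 (.c 4 q62 (.c 5 q62 .e)))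
noncomputable def r204 : Tr := .c 0 q38 (.c 2 q59 (.c 4 q62 (.c 5 q62 .e)))
noncomputable def t49 : Tr := .c 3 r201 (.c 5 r202 (.c 6 r203 (.c 7 r204 (.c 8 r134 (.c 9 r135 .e)))))
noncomputable def q74 : Tr := .c 3 v2 (.c 4 v2 .e)
noncomputable def r205 : Tr := .c 4 q62 (.c 5 q62 (.c 7 q74 .e))
noncomputable def r206 : Tr := .c 4 q62 (.c 5 q62 (.c 6 q38 .e))
noncomputable def t50 : Tr := .c 0 r205 (.c 1 r206 (.c 6 r203 (.c 7 r204 (.c 8 r134 (.c 9 r135 .e)))))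
noncomputable def r207 : Tr := .c 4 q72 (.c 5 q62 (.c 7 q66 .e))
noncomputable def r208 : Tr := .c 3 q67 (.c 4 q72 (.c 5 q62 (.c 6 q42 .e)))
noncomputable def r209 : Tr := .c 3 q58 (.c 5 q62 (.c 6 q20 (.c 7 q66 .e)))
noncomputable def r210 : Tr := .c 1 q52 (.c 2 q71 (.c 4 q72 (.c 5 q62 .e)))
noncomputable def r211 : Tr := .c 0 q42 (.c 2 q71 (.c 3 q67 (.c 4 q72 (.c 5 q62 .e))))
noncomputable def r212 : Tr := .c 0 q42 (.c 2 q71 (.c 3 q67 (.c 4 q72 (.c 5 q62 (.c 6 q42 .e)))))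
noncomputable def t51 : Tr := .c 0 r207 (.c 1 r208 (.c 2 r209 (.c 6 r210 (.c 7 r211 (.c 8 r212 .e)))))
noncomputable def r213 : Tr := .c 4 q58 (.c 7 q53 .e)
noncomputable def r214 : Tr := .c 3 q58 (.c 6 q1 (.c 7 q53 .e))
noncomputable def r215 : Tr := .c 1 q53 (.c 2 q66 (.c 7 q53 .e))
noncomputable def r216 : Tr := .c 0 q1 (.c 1 q53 (.c 6 q1 (.c 7 q53 .e)))
noncomputable def r217 : Tr := .c 0 q1 (.c 1 q53 (.c 2 q66 (.c 6 q1 (.c 7 q53 .e))))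
noncomputable def r218 : Tr := .c 1 q53 (.c 2 q66 (.c 4 q58 .e))
noncomputable def t52 : Tr := .c 0 r213 (.c 2 r214 (.c 3 r215 (.c 4 r216 (.c 5 r217 (.c 6 r218 .e)))))
noncomputable def r219 : Tr := .c 4 q67 (.c 7 q66 .e)
noncomputable def r220 : Tr := .c 3 q58 (.c 6 q20 (.c 7 q66 .e))
noncomputable def r221 : Tr := .c 1 q66 (.c 2 q70 (.c 7 q66 .e))
noncomputable def r222 : Tr := .c 0 q20 (.c 1 q66 (.c 6 q20 (.c 7 q66 .e)))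
noncomputable def r223 : Tr := .c 1 q66 (.c 2 q70 (.c 4 q67 .e))
noncomputable def t53 : Tr := .c 0 r219 (.c 1 r172 (.c 2 r220 (.c 3 r221 (.c 4 r222 (.c 6 r223 (.c 7 r177 .e))))))
noncomputable def r224 : Tr := .c 0 q1 (.c 1 q51 (.c 8 q54 (.c 9 q55 .e)))
noncomputable def r225 : Tr := .c 0 q1 (.c 1 q51 (.c 8 q54 .e))
noncomputable def r226 : Tr := .c 0 q33 (.c 3 q67 (.c 5 q62 .e))
noncomputable def r227 : Tr := .c 0 q1 (.c 1 q51 (.c 3 q58 .e))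
noncomputable def t54 : Tr := .c 4 r224 (.c 5 r225 (.c 7 r178 (.c 8 r226 (.c 9 r227 .e))))
noncomputable def r228 : Tr := .c 1 q51 (.c 8 q54 (.c 9 q55 .e))
noncomputable def t55 : Tr := .c 3 r228 (.c 4 r224 (.c 5 r225 (.c 6 r182 (.c 9 r227 .e))))
noncomputable def r229 : Tr := .c 1 q55 (.c 8 q55 (.c 9 q61 .e))
noncomputable def r230 : Tr := .c 0 q27 (.c 1 q55 (.c 8 q55 .e))
noncomputable def r231 : Tr := .c 0 q38 (.c 5 q62 .e)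
noncomputable def r232 : Tr := .c 0 q27 (.c 1 q55 .e)
noncomputable def t56 : Tr := .c 3 r229 (.c 5 r230 (.c 6 r185 (.c 7 r186 (.c 8 r231 (.c 9 r232 .e)))))
noncomputable def r233 : Tr := .c 3 q67 (.c 5 q62 (.c 9 q61 .e))
noncomputable def q75 : Tr := .c 9 v2 .e
noncomputable def r234 : Tr := .c 3 q75 (.c 5 q57 (.c 8 q54 (.c 9 q55 .e)))
noncomputable def t57 : Tr := .c 1 r233 (.c 2 r234 (.c 7 r178 (.c 8 r226 (.c 9 r227 .e))))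
noncomputable def r235 : Tr := .c 5 q62 (.c 8 q55 (.c 9 q61 .e))
noncomputable def r236 : Tr := .c 5 q62 (.c 9 q61 .e)
noncomputable def t58 : Tr := .c 0 r235 (.c 1 r236 (.c 6 r185 (.c 7 r186 (.c 8 r231 (.c 9 r232 .e)))))
noncomputable def r237 : Tr := .c 5 q57 (.c 8 q54 (.c 9 q55 .e))
noncomputable def r238 : Tr := .c 0 q3 (.c 1 q54 (.c 8 q54 (.c 9 q55 .e)))
noncomputable def r239 : Tr := .c 0 q3 (.c 1 q54 (.c 8 q54 .e))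
noncomputable def r240 : Tr := .c 0 q11 (.c 5 q62 .e)
noncomputable def r241 : Tr := .c 0 q3 (.c 1 q54 .e)
noncomputable def t59 : Tr := .c 1 r236 (.c 2 r237 (.c 4 r238 (.c 5 r239 (.c 8 r240 (.c 9 r241 .e)))))
noncomputable def r242 : Tr := .c 1 q54 (.c 8 q54 (.c 9 q55 .e))
noncomputable def t60 : Tr := .c 0 r237 (.c 2 r237 (.c 3 r242 (.c 4 r238 (.c 5 r239 (.c 9 r241 .e)))))
noncomputable def q76 : Tr := .c 3 v1 (.c 5 v1 (.c 6 v1 (.c 7 v1 (.c 8 v1 (.c 9 v1 .e)))))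
noncomputable def q77 : Tr := .c 3 v1 (.c 6 v1 (.c 7 v1 .e))
noncomputable def r243 : Tr := .c 1 q52 (.c 2 q76 (.c 7 q66 (.c 8 q65 (.c 9 q77 .e))))
noncomputable def r244 : Tr := .c 0 q4 (.c 1 q52 (.c 6 q18 (.c 7 q66 (.c 8 q65 (.c 9 q77 .e)))))
noncomputable def q78 : Tr := .c 6 v1 (.c 7 v1 (.c 8 v1 (.c 9 v1 .e)))
noncomputable def q79 : Tr := .c 6 v1 (.c 7 v1 (.c 8 v1 .e))
noncomputable def r245 : Tr := .c 1 q52 (.c 2 q76 (.c 4 q78 (.c 5 q79 (.c 8 q65 (.c 9 q77 .e)))))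
noncomputable def t61 : Tr := .c 3 r243 (.c 4 r244 (.c 6 r245 .e))
noncomputable def q80 : Tr := .c 3 v2 (.c 6 v2 (.c 7 v2 (.c 8 v2 .e)))
noncomputable def q81 : Tr := .c 3 v2 (.c 6 v2 (.c 7 v2 .e))
noncomputable def r246 : Tr := .c 1 q59 (.c 2 q80 (.c 7 q69 (.c 8 q59 (.c 9 q81 .e))))
noncomputable def q82 : Tr := .c 6 v2 (.c 7 v2 (.c 8 v2 .e))
noncomputable def r247 : Tr := .c 1 q59 (.c 2 q80 (.c 4 q82 (.c 5 q82 (.c 8 q59 (.c 9 q81 .e)))))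
noncomputable def r248 : Tr := .c 0 q24 (.c 2 q80 (.c 3 q24 (.c 4 q82 (.c 5 q82 (.c 9 q81 .e)))))
noncomputable def r249 : Tr := .c 0 q24 (.c 2 q80 (.c 3 q24 (.c 4 q82 (.c 5 q82 (.c 6 q45 .e)))))
noncomputable def t62 : Tr := .c 3 r246 (.c 6 r247 (.c 7 r248 (.c 8 r249 .e)))
noncomputable def q83 : Tr := .c 6 v2 (.c 7 v2 .e)
noncomputable def q84 : Tr := .c 6 v1 (.c 7 v1 .e)
noncomputable def r250 : Tr := .c 4 q83 (.c 5 q84 (.c 7 q68 (.c 8 q65 (.c 9 q77 .e))))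
noncomputable def r251 : Tr := .c 3 q12 (.c 5 q84 (.c 6 q21 (.c 7 q68 (.c 8 q65 (.c 9 q77 .e)))))
noncomputable def q85 : Tr := .c 3 v1 (.c 5 v1 (.c 6 v1 (.c 7 v1 .e)))
noncomputable def r252 : Tr := .c 1 q65 (.c 2 q85 (.c 7 q68 (.c 8 q65 (.c 9 q77 .e))))
noncomputable def r253 : Tr := .c 0 q14 (.c 1 q65 (.c 6 q21 (.c 7 q68 (.c 8 q65 (.c 9 q77 .e)))))
noncomputable def t63 : Tr := .c 0 r250 (.c 2 r251 (.c 3 r252 (.c 4 r253 .e)))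
noncomputable def q86 : Tr := .c 8 v1 (.c 9 v1 .e)
noncomputable def r254 : Tr := .c 4 q86 (.c 5 q32 (.c 7 q66 (.c 8 q68 (.c 9 q69 .e))))
noncomputable def r255 : Tr := .c 3 q17 (.c 5 q32 (.c 6 q18 (.c 7 q66 (.c 8 q68 (.c 9 q69 .e)))))
noncomputable def q87 : Tr := .c 3 v1 (.c 5 v1 (.c 8 v1 (.c 9 v1 .e)))
noncomputable def r256 : Tr := .c 1 q66 (.c 2 q87 (.c 7 q66 (.c 8 q68 (.c 9 q69 .e))))
noncomputable def r257 : Tr := .c 0 q18 (.c 1 q66 (.c 6 q18 (.c 7 q66 (.c 8 q68 (.c 9 q69 .e)))))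
noncomputable def r258 : Tr := .c 1 q66 (.c 2 q87 (.c 4 q86 (.c 5 q32 (.c 8 q68 (.c 9 q69 .e)))))
noncomputable def t64 : Tr := .c 0 r254 (.c 2 r255 (.c 3 r256 (.c 4 r257 (.c 6 r258 .e))))
noncomputable def q88 : Tr := .c 3 v1 (.c 5 v1 .e)
noncomputable def q89 : Tr := .c 3 v2 .e
noncomputable def r259 : Tr := .c 4 q44 (.c 5 q45 (.c 7 q70 (.c 8 q88 (.c 9 q89 .e))))
noncomputable def r260 : Tr := .c 3 q44 (.c 4 q44 (.c 5 q45 (.c 6 q43 (.c 9 q89 .e))))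
noncomputable def r261 : Tr := .c 3 q19 (.c 5 q45 (.c 6 q22 (.c 7 q70 (.c 8 q88 (.c 9 q89 .e)))))
noncomputable def q90 : Tr := .c 3 v2 (.c 5 v2 (.c 8 v2 (.c 9 v2 .e)))
noncomputable def r262 : Tr := .c 1 q70 (.c 2 q90 (.c 7 q70 (.c 8 q88 (.c 9 q89 .e))))
noncomputable def r263 : Tr := .c 0 q22 (.c 1 q70 (.c 6 q22 (.c 7 q70 (.c 8 q88 (.c 9 q89 .e)))))
noncomputable def r264 : Tr := .c 1 q70 (.c 2 q90 (.c 4 q44 (.c 5 q45 (.c 8 q88 (.c 9 q89 .e)))))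
noncomputable def r265 : Tr := .c 0 q43 (.c 2 q90 (.c 3 q44 (.c 4 q44 (.c 5 q45 (.c 9 q89 .e)))))
noncomputable def t65 : Tr := .c 0 r259 (.c 1 r260 (.c 2 r261 (.c 3 r262 (.c 4 r263 (.c 6 r264 (.c 7 r265 .e))))))
noncomputable def r266 : Tr := .c 0 q6 (.c 3 q7 (.c 5 q82 (.c 9 q81 .e)))
noncomputable def r267 : Tr := .c 0 q6 (.c 3 q7 (.c 5 q82 (.c 6 q22 .e)))
noncomputable def t66 : Tr := .c 4 r244 (.c 7 r266 (.c 8 r267 .e))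
noncomputable def r268 : Tr := .c 1 q52 (.c 7 q66 (.c 8 q65 (.c 9 q77 .e)))
noncomputable def r269 : Tr := .c 1 q52 (.c 5 q79 (.c 8 q65 (.c 9 q77 .e)))
noncomputable def t67 : Tr := .c 3 r268 (.c 4 r244 (.c 6 r269 .e))
noncomputable def r270 : Tr := .c 1 q59 (.c 7 q69 (.c 8 q59 (.c 9 q81 .e)))
noncomputable def r271 : Tr := .c 1 q59 (.c 5 q82 (.c 8 q59 (.c 9 q81 .e)))
noncomputable def r272 : Tr := .c 0 q24 (.c 3 q24 (.c 5 q82 (.c 9 q81 .e)))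
noncomputable def r273 : Tr := .c 0 q24 (.c 3 q24 (.c 5 q82 (.c 6 q45 .e)))
noncomputable def t68 : Tr := .c 3 r270 (.c 6 r271 (.c 7 r272 (.c 8 r273 .e)))
noncomputable def r274 : Tr := .c 3 q10 (.c 5 q83 (.c 6 q47 (.c 9 q81 .e)))
noncomputable def r275 : Tr := .c 0 q16 (.c 3 q10 (.c 5 q83 (.c 6 q47 .e)))
noncomputable def t69 : Tr := .c 1 r274 (.c 2 r251 (.c 4 r253 (.c 8 r275 .e)))
noncomputable def r276 : Tr := .c 5 q84 (.c 7 q68 (.c 8 q65 (.c 9 q77 .e)))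
noncomputable def r277 : Tr := .c 1 q65 (.c 7 q68 (.c 8 q65 (.c 9 q77 .e)))
noncomputable def t70 : Tr := .c 0 r276 (.c 2 r251 (.c 3 r277 (.c 4 r253 .e)))
noncomputable def r278 : Tr := .c 5 q32 (.c 7 q66 (.c 8 q68 (.c 9 q69 .e)))
noncomputable def r279 : Tr := .c 1 q66 (.c 7 q66 (.c 8 q68 (.c 9 q69 .e)))
noncomputable def r280 : Tr := .c 1 q66 (.c 5 q32 (.c 8 q68 (.c 9 q69 .e)))
noncomputable def t71 : Tr := .c 0 r278 (.c 2 r255 (.c 3 r279 (.c 4 r257 (.c 6 r280 .e))))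
noncomputable def r281 : Tr := .c 1 q52 (.c 2 q76 (.c 7 q66 .e))
noncomputable def r282 : Tr := .c 0 q4 (.c 1 q52 (.c 6 q18 (.c 7 q66 .e)))
noncomputable def r283 : Tr := .c 1 q52 (.c 2 q76 (.c 4 q78 (.c 5 q79 .e)))
noncomputable def t72 : Tr := .c 3 r281 (.c 4 r282 (.c 6 r283 .e))
noncomputable def r284 : Tr := .c 1 q59 (.c 2 q80 (.c 7 q69 .e))
noncomputable def r285 : Tr := .c 1 q59 (.c 2 q80 (.c 4 q82 (.c 5 q82 .e)))
noncomputable def r286 : Tr := .c 0 q24 (.c 2 q80 (.c 3 q24 (.c 4 q82 (.c 5 q82 .e))))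
noncomputable def t73 : Tr := .c 3 r284 (.c 6 r285 (.c 7 r286 (.c 8 r249 .e)))
noncomputable def r287 : Tr := .c 4 q82 (.c 5 q82 (.c 7 q89 .e))
noncomputable def r288 : Tr := .c 3 q24 (.c 4 q82 (.c 5 q82 (.c 6 q45 .e)))
noncomputable def t74 : Tr := .c 0 r287 (.c 1 r288 (.c 6 r285 (.c 7 r286 (.c 8 r249 .e))))
noncomputable def q91 : Tr := .c 6 v2 (.c 7 v2 (.c 8 v2 (.c 9 v2 .e)))
noncomputable def r289 : Tr := .c 4 q91 (.c 5 q82 (.c 7 q70 .e))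
noncomputable def r290 : Tr := .c 3 q36 (.c 4 q91 (.c 5 q82 (.c 6 q43 .e)))
noncomputable def r291 : Tr := .c 3 q7 (.c 5 q82 (.c 6 q22 (.c 7 q70 .e)))
noncomputable def q92 : Tr := .c 3 v2 (.c 5 v2 (.c 6 v2 (.c 7 v2 (.c 8 v2 (.c 9 v2 .e)))))
noncomputable def r292 : Tr := .c 1 q71 (.c 2 q92 (.c 4 q91 (.c 5 q82 .e)))
noncomputable def r293 : Tr := .c 0 q35 (.c 2 q92 (.c 3 q36 (.c 4 q91 (.c 5 q82 .e))))
noncomputable def r294 : Tr := .c 0 q35 (.c 2 q92 (.c 3 q36 (.c 4 q91 (.c 5 q82 (.c 6 q43 .e)))))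
noncomputable def t75 : Tr := .c 0 r289 (.c 1 r290 (.c 2 r291 (.c 6 r292 (.c 7 r293 (.c 8 r294 .e)))))
noncomputable def r295 : Tr := .c 4 q86 (.c 5 q32 (.c 7 q66 .e))
noncomputable def r296 : Tr := .c 3 q17 (.c 5 q32 (.c 6 q18 (.c 7 q66 .e)))
noncomputable def r297 : Tr := .c 1 q66 (.c 2 q87 (.c 7 q66 .e))
noncomputable def r298 : Tr := .c 0 q18 (.c 1 q66 (.c 6 q18 (.c 7 q66 .e)))
noncomputable def r299 : Tr := .c 1 q66 (.c 2 q87 (.c 4 q86 (.c 5 q32 .e)))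
noncomputable def t76 : Tr := .c 0 r295 (.c 2 r296 (.c 3 r297 (.c 4 r298 (.c 6 r299 .e))))
noncomputable def r300 : Tr := .c 4 q44 (.c 5 q45 (.c 7 q70 .e))
noncomputable def r301 : Tr := .c 3 q19 (.c 5 q45 (.c 6 q22 (.c 7 q70 .e)))
noncomputable def r302 : Tr := .c 1 q70 (.c 2 q90 (.c 7 q70 .e))
noncomputable def r303 : Tr := .c 0 q22 (.c 1 q70 (.c 6 q22 (.c 7 q70 .e)))
noncomputable def r304 : Tr := .c 1 q70 (.c 2 q90 (.c 4 q44 (.c 5 q45 .e)))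
noncomputable def r305 : Tr := .c 0 q43 (.c 2 q90 (.c 3 q44 (.c 4 q44 (.c 5 q45 .e))))
noncomputable def t77 : Tr := .c 0 r300 (.c 1 r74 (.c 2 r301 (.c 3 r302 (.c 4 r303 (.c 6 r304 (.c 7 r305 .e))))))
noncomputable def r306 : Tr := .c 0 q6 (.c 1 q71 (.c 6 q22 (.c 7 q70 .e)))
noncomputable def t78 : Tr := .c 4 r306 (.c 7 r293 (.c 8 r294 .e))
noncomputable def t79 : Tr := .c 1 r290 (.c 2 r291 (.c 7 r293 (.c 8 r294 .e)))
noncomputable def r307 : Tr := .c 0 q6 (.c 1 q71 (.c 8 q73 (.c 9 q81 .e)))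
noncomputable def r308 : Tr := .c 0 q35 (.c 2 q92 (.c 3 q36 (.c 4 q91 (.c 5 q82 (.c 9 q81 .e)))))
noncomputable def t80 : Tr := .c 4 r307 (.c 7 r308 (.c 8 r293 .e))
noncomputable def r309 : Tr := .c 1 q59 (.c 2 q80 (.c 8 q59 (.c 9 q81 .e)))
noncomputable def t81 : Tr := .c 3 r309 (.c 6 r247 (.c 7 r248 (.c 8 r286 .e)))
noncomputable def r310 : Tr := .c 3 q36 (.c 4 q91 (.c 5 q82 (.c 9 q81 .e)))
noncomputable def r311 : Tr := .c 3 q7 (.c 5 q82 (.c 8 q73 (.c 9 q81 .e)))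
noncomputable def t82 : Tr := .c 1 r310 (.c 2 r311 (.c 7 r308 (.c 8 r293 .e)))
noncomputable def r312 : Tr := .c 4 q82 (.c 5 q82 (.c 8 q59 (.c 9 q81 .e)))
noncomputable def r313 : Tr := .c 3 q24 (.c 4 q82 (.c 5 q82 (.c 9 q81 .e)))
noncomputable def t83 : Tr := .c 0 r312 (.c 1 r313 (.c 6 r247 (.c 7 r248 (.c 8 r286 .e))))
noncomputable def r314 : Tr := .c 4 q91 (.c 5 q82 (.c 8 q73 (.c 9 q81 .e)))
noncomputable def r315 : Tr := .c 1 q71 (.c 2 q92 (.c 4 q91 (.c 5 q82 (.c 8 q73 (.c 9 q81 .e)))))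
noncomputable def t84 : Tr := .c 0 r314 (.c 1 r310 (.c 2 r311 (.c 6 r315 (.c 7 r308 (.c 8 r293 .e)))))
noncomputable def r316 : Tr := .c 3 q10 (.c 4 q83 (.c 5 q83 (.c 9 q81 .e)))
noncomputable def r317 : Tr := .c 3 q10 (.c 5 q83 (.c 8 q73 (.c 9 q81 .e)))
noncomputable def r318 : Tr := .c 0 q16 (.c 1 q73 (.c 8 q73 (.c 9 q81 .e)))
noncomputable def q93 : Tr := .c 3 v2 (.c 5 v2 (.c 6 v2 (.c 7 v2 .e)))
noncomputable def r319 : Tr := .c 0 q49 (.c 2 q93 (.c 3 q10 (.c 4 q83 (.c 5 q83 .e))))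
noncomputable def t85 : Tr := .c 1 r316 (.c 2 r317 (.c 4 r318 (.c 8 r319 .e)))
noncomputable def r320 : Tr := .c 0 q4 (.c 1 q52 (.c 8 q65 (.c 9 q77 .e)))
noncomputable def r321 : Tr := .c 0 q6 (.c 3 q7 (.c 5 q82 .e))
noncomputable def t86 : Tr := .c 4 r320 (.c 7 r266 (.c 8 r321 .e))
noncomputable def r322 : Tr := .c 1 q52 (.c 8 q65 (.c 9 q77 .e))
noncomputable def t87 : Tr := .c 3 r322 (.c 4 r320 (.c 6 r269 .e))
noncomputable def r323 : Tr := .c 1 q59 (.c 8 q59 (.c 9 q81 .e))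
noncomputable def r324 : Tr := .c 0 q24 (.c 3 q24 (.c 5 q82 .e))
noncomputable def t88 : Tr := .c 3 r323 (.c 6 r271 (.c 7 r272 (.c 8 r324 .e)))
noncomputable def r325 : Tr := .c 3 q7 (.c 5 q82 (.c 9 q81 .e))
noncomputable def r326 : Tr := .c 3 q50 (.c 5 q79 (.c 8 q65 (.c 9 q77 .e)))
noncomputable def t89 : Tr := .c 1 r325 (.c 2 r326 (.c 7 r266 (.c 8 r321 .e)))
noncomputable def r327 : Tr := .c 5 q82 (.c 8 q59 (.c 9 q81 .e))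
noncomputable def r328 : Tr := .c 3 q24 (.c 5 q82 (.c 9 q81 .e))
noncomputable def t90 : Tr := .c 0 r327 (.c 1 r328 (.c 6 r271 (.c 7 r272 (.c 8 r324 .e))))
noncomputable def r329 : Tr := .c 3 q10 (.c 5 q83 (.c 9 q81 .e))
noncomputable def r330 : Tr := .c 3 q12 (.c 5 q84 (.c 8 q65 (.c 9 q77 .e)))
noncomputable def r331 : Tr := .c 0 q14 (.c 1 q65 (.c 8 q65 (.c 9 q77 .e)))
noncomputable def r332 : Tr := .c 0 q16 (.c 3 q10 (.c 5 q83 .e))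
noncomputable def t91 : Tr := .c 1 r329 (.c 2 r330 (.c 4 r331 (.c 8 r332 .e)))
noncomputable def r333 : Tr := .c 5 q84 (.c 8 q65 (.c 9 q77 .e))
noncomputable def r334 : Tr := .c 1 q65 (.c 8 q65 (.c 9 q77 .e))
noncomputable def t92 : Tr := .c 0 r333 (.c 2 r330 (.c 3 r334 (.c 4 r331 .e)))
noncomputable def q94 : Tr := .c 1 v2 (.c 2 v2 (.c 7 v2 (.c 8 v2 (.c 9 v2 .e))))
noncomputable def q95 : Tr := .c 1 v2 (.c 7 v2 (.c 8 v2 (.c 9 v2 .e)))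
noncomputable def q96 : Tr := .c 1 v2 (.c 2 v2 (.c 7 v2 (.c 8 v2 .e)))
noncomputable def q97 : Tr := .c 1 v2 (.c 2 v2 (.c 8 v2 (.c 9 v2 .e)))
noncomputable def q98 : Tr := .c 1 v2 (.c 2 v2 (.c 7 v2 .e))
noncomputable def r335 : Tr := .c 3 q94 (.c 4 q95 (.c 5 q96 (.c 6 q97 (.c 9 q98 .e))))
noncomputable def q99 : Tr := .c 1 v2 (.c 2 v1 (.c 7 v2 (.c 8 v2 (.c 9 v1 .e))))
noncomputable def q100 : Tr := .c 1 v2 (.c 2 v1 (.c 7 v2 (.c 8 v2 .e)))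
noncomputable def q101 : Tr := .c 1 v2 (.c 2 v1 (.c 8 v2 (.c 9 v1 .e)))
noncomputable def q102 : Tr := .c 2 v1 (.c 9 v1 .e)
noncomputable def q103 : Tr := .c 2 v1 .e
noncomputable def q104 : Tr := .c 1 v2 (.c 2 v1 (.c 7 v2 .e))
noncomputable def r336 : Tr := .c 3 q99 (.c 5 q100 (.c 6 q101 (.c 7 q102 (.c 8 q103 (.c 9 q104 .e)))))
noncomputable def r337 : Tr := .c 0 q36 (.c 2 q36 (.c 3 q94 (.c 4 q95 (.c 5 q96 (.c 9 q98 .e)))))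
noncomputable def r338 : Tr := .c 0 q36 (.c 2 q36 (.c 3 q94 (.c 4 q95 (.c 5 q96 (.c 6 q97 .e)))))
noncomputable def q105 : Tr := .c 1 v2 (.c 7 v2 (.c 8 v2 (.c 9 v1 .e)))
noncomputable def r339 : Tr := .c 0 q7 (.c 1 q67 (.c 2 q7 (.c 3 q99 (.c 4 q105 (.c 6 q101 (.c 7 q102 .e))))))
noncomputable def t93 : Tr := .c 1 r335 (.c 2 r336 (.c 7 r337 (.c 8 r338 (.c 9 r339 .e))))
noncomputable def q106 : Tr := .c 1 v2 (.c 7 v2 (.c 8 v2 .e))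
noncomputable def r340 : Tr := .c 4 q106 (.c 5 q96 (.c 7 q103 (.c 8 q103 (.c 9 q98 .e))))
noncomputable def q107 : Tr := .c 1 v2 (.c 2 v2 (.c 8 v2 .e))
noncomputable def r341 : Tr := .c 3 q96 (.c 4 q106 (.c 5 q96 (.c 6 q107 (.c 9 q98 .e))))
noncomputable def r342 : Tr := .c 2 q24 (.c 4 q106 (.c 5 q96 (.c 8 q103 (.c 9 q98 .e))))
noncomputable def r343 : Tr := .c 0 q24 (.c 2 q24 (.c 3 q96 (.c 4 q106 (.c 5 q96 (.c 9 q98 .e)))))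
noncomputable def r344 : Tr := .c 0 q24 (.c 2 q24 (.c 3 q96 (.c 4 q106 (.c 5 q96 (.c 6 q107 .e)))))
noncomputable def q108 : Tr := .c 1 v2 (.c 2 v1 (.c 8 v2 .e))
noncomputable def r345 : Tr := .c 0 q24 (.c 2 q24 (.c 3 q100 (.c 4 q106 (.c 6 q108 (.c 7 q103 .e)))))
noncomputable def t94 : Tr := .c 0 r340 (.c 1 r341 (.c 6 r342 (.c 7 r343 (.c 8 r344 (.c 9 r345 .e)))))
noncomputable def q109 : Tr := .c 1 v2 (.c 7 v2 .e)
noncomputable def r346 : Tr := .c 4 q95 (.c 5 q106 (.c 7 q67 (.c 9 q109 .e)))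
noncomputable def q110 : Tr := .c 1 v2 (.c 8 v2 (.c 9 v2 .e))
noncomputable def r347 : Tr := .c 3 q95 (.c 4 q95 (.c 5 q106 (.c 6 q110 (.c 9 q109 .e))))
noncomputable def q111 : Tr := .c 1 v2 (.c 8 v2 (.c 9 v1 .e))
noncomputable def r348 : Tr := .c 3 q105 (.c 5 q106 (.c 6 q111 (.c 7 q67 (.c 9 q109 .e))))
noncomputable def r349 : Tr := .c 1 q67 (.c 2 q36 (.c 4 q95 (.c 5 q106 (.c 9 q109 .e))))
noncomputable def r350 : Tr := .c 0 q36 (.c 2 q36 (.c 3 q95 (.c 4 q95 (.c 5 q106 (.c 9 q109 .e)))))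
noncomputable def r351 : Tr := .c 0 q36 (.c 2 q36 (.c 3 q95 (.c 4 q95 (.c 5 q106 (.c 6 q110 .e)))))
noncomputable def t95 : Tr := .c 0 r346 (.c 1 r347 (.c 2 r348 (.c 6 r349 (.c 7 r350 (.c 8 r351 .e)))))
noncomputable def q112 : Tr := .c 1 v2 (.c 2 v2 .e)
noncomputable def r352 : Tr := .c 3 q98 (.c 4 q109 (.c 5 q98 (.c 6 q112 (.c 9 q98 .e))))
noncomputable def q113 : Tr := .c 1 v2 (.c 2 v1 .e)
noncomputable def r353 : Tr := .c 3 q104 (.c 5 q104 (.c 6 q113 (.c 7 q103 (.c 8 q103 (.c 9 q104 .e)))))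
noncomputable def r354 : Tr := .c 0 q10 (.c 6 q113 (.c 7 q103 (.c 8 q103 (.c 9 q104 .e))))
noncomputable def r355 : Tr := .c 0 q10 (.c 2 q10 (.c 6 q113 (.c 7 q103 (.c 8 q103 .e))))
noncomputable def r356 : Tr := .c 0 q10 (.c 2 q10 (.c 3 q98 (.c 4 q109 (.c 5 q98 (.c 6 q112 .e)))))
noncomputable def r357 : Tr := .c 0 q10 (.c 2 q10 (.c 3 q104 (.c 4 q109 (.c 6 q113 (.c 7 q103 .e)))))
noncomputable def t96 : Tr := .c 1 r352 (.c 2 r353 (.c 4 r354 (.c 5 r355 (.c 8 r356 (.c 9 r357 .e)))))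
noncomputable def q114 : Tr := .c 1 v2 (.c 8 v2 .e)
noncomputable def q115 : Tr := .c 1 v2 .e
noncomputable def r358 : Tr := .c 4 q110 (.c 5 q114 (.c 7 q67 (.c 9 q115 .e)))
noncomputable def r359 : Tr := .c 3 q110 (.c 4 q110 (.c 5 q114 (.c 6 q110 (.c 9 q115 .e))))
noncomputable def r360 : Tr := .c 3 q111 (.c 5 q114 (.c 6 q111 (.c 7 q67 (.c 9 q115 .e))))
noncomputable def r361 : Tr := .c 1 q67 (.c 2 q44 (.c 7 q67 (.c 9 q115 .e)))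
noncomputable def r362 : Tr := .c 0 q19 (.c 1 q67 (.c 6 q111 (.c 7 q67 (.c 9 q115 .e))))
noncomputable def r363 : Tr := .c 1 q67 (.c 2 q44 (.c 4 q110 (.c 5 q114 (.c 9 q115 .e))))
noncomputable def r364 : Tr := .c 0 q44 (.c 2 q44 (.c 3 q110 (.c 4 q110 (.c 5 q114 (.c 9 q115 .e)))))
noncomputable def t97 : Tr := .c 0 r358 (.c 1 r359 (.c 2 r360 (.c 3 r361 (.c 4 r362 (.c 6 r363 (.c 7 r364 .e))))))
noncomputable def r365 : Tr := .c 3 q99 (.c 4 q105 (.c 6 q101 .e))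
noncomputable def q116 : Tr := .c 1 v1 (.c 2 v0 (.c 7 v1 (.c 8 v1 (.c 9 v0 .e))))
noncomputable def q117 : Tr := .c 1 v1 (.c 2 v0 (.c 8 v1 (.c 9 v0 .e)))
noncomputable def q118 : Tr := .c 2 v0 (.c 9 v0 .e)
noncomputable def q119 : Tr := .c 2 v0 .e
noncomputable def r366 : Tr := .c 3 q116 (.c 6 q117 (.c 7 q118 (.c 8 q119 .e)))
noncomputable def r367 : Tr := .c 0 q7 (.c 2 q7 (.c 3 q99 (.c 4 q105 .e)))
noncomputable def r368 : Tr := .c 0 q7 (.c 2 q7 (.c 3 q99 (.c 4 q105 (.c 6 q101 .e))))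
noncomputable def q120 : Tr := .c 1 v1 (.c 2 v0 (.c 7 v1 (.c 8 v1 (.c 9 v2 .e))))
noncomputable def q121 : Tr := .c 1 v1 (.c 7 v1 (.c 8 v1 (.c 9 v2 .e)))
noncomputable def q122 : Tr := .c 1 v1 (.c 2 v0 (.c 8 v1 (.c 9 v2 .e)))
noncomputable def q123 : Tr := .c 2 v0 (.c 9 v2 .e)
noncomputable def r369 : Tr := .c 0 q50 (.c 1 q75 (.c 2 q50 (.c 3 q120 (.c 4 q121 (.c 6 q122 (.c 7 q123 .e))))))
noncomputable def t98 : Tr := .c 1 r365 (.c 2 r366 (.c 7 r367 (.c 8 r368 (.c 9 r369 .e))))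
noncomputable def r370 : Tr := .c 4 q105 (.c 7 q58 .e)
noncomputable def r371 : Tr := .c 3 q105 (.c 4 q105 (.c 6 q111 .e))
noncomputable def q124 : Tr := .c 1 v1 (.c 7 v1 (.c 8 v1 (.c 9 v0 .e)))
noncomputable def q125 : Tr := .c 1 v1 (.c 8 v1 (.c 9 v0 .e))
noncomputable def r372 : Tr := .c 3 q124 (.c 6 q125 (.c 7 q58 .e))
noncomputable def r373 : Tr := .c 1 q58 (.c 2 q7 (.c 4 q105 .e))
noncomputable def r374 : Tr := .c 0 q7 (.c 2 q7 (.c 3 q105 (.c 4 q105 .e)))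
noncomputable def r375 : Tr := .c 0 q7 (.c 2 q7 (.c 3 q105 (.c 4 q105 (.c 6 q111 .e))))
noncomputable def t99 : Tr := .c 0 r370 (.c 1 r371 (.c 2 r372 (.c 6 r373 (.c 7 r374 (.c 8 r375 .e)))))
noncomputable def r376 : Tr := .c 3 q104 (.c 4 q109 (.c 6 q113 .e))
noncomputable def q126 : Tr := .c 1 v1 (.c 2 v0 (.c 7 v1 .e))
noncomputable def q127 : Tr := .c 1 v1 (.c 2 v0 .e)
noncomputable def r377 : Tr := .c 3 q126 (.c 6 q127 (.c 7 q119 (.c 8 q119 .e)))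
noncomputable def r378 : Tr := .c 0 q12 (.c 6 q127 (.c 7 q119 (.c 8 q119 .e)))
noncomputable def r379 : Tr := .c 0 q12 (.c 2 q12 (.c 6 q127 (.c 7 q119 (.c 8 q119 .e))))
noncomputable def r380 : Tr := .c 0 q10 (.c 2 q10 (.c 3 q104 (.c 4 q109 (.c 6 q113 .e))))
noncomputable def q128 : Tr := .c 1 v1 (.c 7 v1 .e)
noncomputable def r381 : Tr := .c 0 q12 (.c 2 q12 (.c 3 q126 (.c 4 q128 (.c 6 q127 (.c 7 q119 .e)))))
noncomputable def t100 : Tr := .c 1 r376 (.c 2 r377 (.c 4 r378 (.c 5 r379 (.c 8 r380 (.c 9 r381 .e)))))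
noncomputable def r382 : Tr := .c 4 q128 (.c 7 q119 (.c 8 q119 .e))
noncomputable def r383 : Tr := .c 2 q12 (.c 7 q119 (.c 8 q119 .e))
noncomputable def t101 : Tr := .c 0 r382 (.c 2 r377 (.c 3 r383 (.c 4 r378 (.c 5 r379 (.c 9 r381 .e)))))
noncomputable def r384 : Tr := .c 4 q125 (.c 7 q118 (.c 8 q119 .e))
noncomputable def r385 : Tr := .c 3 q117 (.c 6 q117 (.c 7 q118 (.c 8 q119 .e)))
noncomputable def r386 : Tr := .c 1 q58 (.c 2 q17 (.c 7 q118 (.c 8 q119 .e)))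
noncomputable def r387 : Tr := .c 0 q17 (.c 1 q58 (.c 6 q117 (.c 7 q118 (.c 8 q119 .e))))
noncomputable def r388 : Tr := .c 0 q17 (.c 1 q58 (.c 2 q17 (.c 6 q117 (.c 7 q118 (.c 8 q119 .e)))))
noncomputable def r389 : Tr := .c 1 q58 (.c 2 q17 (.c 4 q125 (.c 8 q119 .e)))
noncomputable def t102 : Tr := .c 0 r384 (.c 2 r385 (.c 3 r386 (.c 4 r387 (.c 5 r388 (.c 6 r389 .e)))))
noncomputable def r390 : Tr := .c 4 q111 (.c 7 q58 .e)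
noncomputable def r391 : Tr := .c 3 q111 (.c 4 q111 (.c 6 q111 .e))
noncomputable def r392 : Tr := .c 3 q125 (.c 6 q125 (.c 7 q58 .e))
noncomputable def r393 : Tr := .c 1 q58 (.c 2 q19 (.c 7 q58 .e))
noncomputable def r394 : Tr := .c 0 q17 (.c 1 q58 (.c 6 q125 (.c 7 q58 .e)))
noncomputable def r395 : Tr := .c 1 q58 (.c 2 q19 (.c 4 q111 .e))
noncomputable def r396 : Tr := .c 0 q19 (.c 2 q19 (.c 3 q111 (.c 4 q111 .e)))
noncomputable def t103 : Tr := .c 0 r390 (.c 1 r391 (.c 2 r392 (.c 3 r393 (.c 4 r394 (.c 6 r395 (.c 7 r396 .e))))))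
noncomputable def r397 : Tr := .c 0 q7 (.c 1 q67 (.c 6 q101 (.c 7 q102 .e)))
noncomputable def r398 : Tr := .c 0 q7 (.c 1 q67 (.c 2 q7 (.c 6 q101 (.c 7 q102 .e))))
noncomputable def r399 : Tr := .c 0 q36 (.c 2 q36 (.c 3 q94 (.c 4 q95 (.c 5 q96 .e))))
noncomputable def t104 : Tr := .c 4 r397 (.c 5 r398 (.c 7 r399 (.c 8 r338 (.c 9 r339 .e))))
noncomputable def r400 : Tr := .c 2 q24 (.c 7 q103 .e)
noncomputable def r401 : Tr := .c 0 q24 (.c 2 q24 (.c 6 q108 (.c 7 q103 .e)))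
noncomputable def r402 : Tr := .c 2 q24 (.c 4 q106 (.c 5 q96 .e))
noncomputable def r403 : Tr := .c 0 q24 (.c 2 q24 (.c 3 q96 (.c 4 q106 (.c 5 q96 .e))))
noncomputable def t105 : Tr := .c 3 r400 (.c 5 r401 (.c 6 r402 (.c 7 r403 (.c 8 r344 (.c 9 r345 .e)))))
noncomputable def r404 : Tr := .c 3 q94 (.c 4 q95 (.c 5 q96 (.c 6 q97 .e)))
noncomputable def r405 : Tr := .c 3 q99 (.c 5 q100 (.c 6 q101 (.c 7 q102 .e)))
noncomputable def t106 : Tr := .c 1 r404 (.c 2 r405 (.c 7 r399 (.c 8 r338 (.c 9 r339 .e))))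
noncomputable def r406 : Tr := .c 4 q106 (.c 5 q96 (.c 7 q103 .e))
noncomputable def r407 : Tr := .c 3 q96 (.c 4 q106 (.c 5 q96 (.c 6 q107 .e)))
noncomputable def t107 : Tr := .c 0 r406 (.c 1 r407 (.c 6 r402 (.c 7 r403 (.c 8 r344 (.c 9 r345 .e)))))
noncomputable def r408 : Tr := .c 4 q95 (.c 5 q106 (.c 7 q67 .e))
noncomputable def r409 : Tr := .c 3 q95 (.c 4 q95 (.c 5 q106 (.c 6 q110 .e)))
noncomputable def r410 : Tr := .c 3 q105 (.c 5 q106 (.c 6 q111 (.c 7 q67 .e)))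
noncomputable def r411 : Tr := .c 1 q67 (.c 2 q36 (.c 4 q95 (.c 5 q106 .e)))
noncomputable def r412 : Tr := .c 0 q36 (.c 2 q36 (.c 3 q95 (.c 4 q95 (.c 5 q106 .e))))
noncomputable def t108 : Tr := .c 0 r408 (.c 1 r409 (.c 2 r410 (.c 6 r411 (.c 7 r412 (.c 8 r351 .e)))))
noncomputable def r413 : Tr := .c 4 q110 (.c 5 q114 (.c 7 q67 .e))
noncomputable def r414 : Tr := .c 3 q110 (.c 4 q110 (.c 5 q114 (.c 6 q110 .e)))
noncomputable def r415 : Tr := .c 3 q111 (.c 5 q114 (.c 6 q111 (.c 7 q67 .e)))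
noncomputable def r416 : Tr := .c 1 q67 (.c 2 q44 (.c 7 q67 .e))
noncomputable def r417 : Tr := .c 0 q19 (.c 1 q67 (.c 6 q111 (.c 7 q67 .e)))
noncomputable def r418 : Tr := .c 1 q67 (.c 2 q44 (.c 4 q110 (.c 5 q114 .e)))
noncomputable def r419 : Tr := .c 0 q44 (.c 2 q44 (.c 3 q110 (.c 4 q110 (.c 5 q114 .e))))
noncomputable def t109 : Tr := .c 0 r413 (.c 1 r414 (.c 2 r415 (.c 3 r416 (.c 4 r417 (.c 6 r418 (.c 7 r419 .e))))))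
noncomputable def r420 : Tr := .c 0 q7 (.c 1 q67 (.c 8 q103 (.c 9 q104 .e)))
noncomputable def r421 : Tr := .c 0 q7 (.c 1 q67 (.c 2 q7 (.c 8 q103 .e)))
noncomputable def r422 : Tr := .c 0 q7 (.c 1 q67 (.c 2 q7 (.c 3 q99 (.c 4 q105 .e))))
noncomputable def t110 : Tr := .c 4 r420 (.c 5 r421 (.c 7 r337 (.c 8 r399 (.c 9 r422 .e))))
noncomputable def r423 : Tr := .c 2 q24 (.c 8 q103 (.c 9 q98 .e))
noncomputable def r424 : Tr := .c 0 q24 (.c 2 q24 (.c 8 q103 .e))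
noncomputable def r425 : Tr := .c 0 q24 (.c 2 q24 (.c 3 q100 (.c 4 q106 .e)))
noncomputable def t111 : Tr := .c 3 r423 (.c 5 r424 (.c 6 r342 (.c 7 r343 (.c 8 r403 (.c 9 r425 .e)))))
noncomputable def r426 : Tr := .c 3 q94 (.c 4 q95 (.c 5 q96 (.c 9 q98 .e)))
noncomputable def r427 : Tr := .c 3 q99 (.c 5 q100 (.c 8 q103 (.c 9 q104 .e)))
noncomputable def t112 : Tr := .c 1 r426 (.c 2 r427 (.c 7 r337 (.c 8 r399 (.c 9 r422 .e))))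
noncomputable def r428 : Tr := .c 4 q106 (.c 5 q96 (.c 8 q103 (.c 9 q98 .e)))
noncomputable def r429 : Tr := .c 3 q96 (.c 4 q106 (.c 5 q96 (.c 9 q98 .e)))
noncomputable def t113 : Tr := .c 0 r428 (.c 1 r429 (.c 6 r342 (.c 7 r343 (.c 8 r403 (.c 9 r425 .e)))))
noncomputable def r430 : Tr := .c 4 q95 (.c 5 q106 (.c 9 q109 .e))
noncomputable def r431 : Tr := .c 3 q95 (.c 4 q95 (.c 5 q106 (.c 9 q109 .e)))
noncomputable def r432 : Tr := .c 3 q105 (.c 5 q106 (.c 9 q109 .e))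
noncomputable def t114 : Tr := .c 0 r430 (.c 1 r431 (.c 2 r432 (.c 6 r349 (.c 7 r350 (.c 8 r412 .e)))))
noncomputable def r433 : Tr := .c 3 q98 (.c 4 q109 (.c 5 q98 (.c 9 q98 .e)))
noncomputable def r434 : Tr := .c 3 q104 (.c 5 q104 (.c 8 q103 (.c 9 q104 .e)))
noncomputable def r435 : Tr := .c 0 q10 (.c 8 q103 (.c 9 q104 .e))
noncomputable def r436 : Tr := .c 0 q10 (.c 2 q10 (.c 8 q103 .e))
noncomputable def r437 : Tr := .c 0 q10 (.c 2 q10 (.c 3 q98 (.c 4 q109 (.c 5 q98 .e))))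
noncomputable def r438 : Tr := .c 0 q10 (.c 2 q10 (.c 3 q104 (.c 4 q109 .e)))
noncomputable def t115 : Tr := .c 1 r433 (.c 2 r434 (.c 4 r435 (.c 5 r436 (.c 8 r437 (.c 9 r438 .e)))))
noncomputable def r439 : Tr := .c 0 q9 (.c 1 q58 (.c 8 q119 (.c 9 q126 .e)))
noncomputable def r440 : Tr := .c 0 q9 (.c 1 q58 (.c 8 q119 .e))
noncomputable def r441 : Tr := .c 0 q7 (.c 3 q99 (.c 5 q100 (.c 9 q104 .e)))
noncomputable def r442 : Tr := .c 0 q7 (.c 3 q99 (.c 5 q100 .e))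
noncomputable def q129 : Tr := .c 1 v1 (.c 2 v2 (.c 7 v1 (.c 8 v1 (.c 9 v0 .e))))
noncomputable def r443 : Tr := .c 0 q9 (.c 1 q58 (.c 3 q129 .e))
noncomputable def t116 : Tr := .c 4 r439 (.c 5 r440 (.c 7 r441 (.c 8 r442 (.c 9 r443 .e))))
noncomputable def r444 : Tr := .c 1 q58 (.c 8 q119 (.c 9 q126 .e))
noncomputable def q130 : Tr := .c 1 v1 (.c 2 v0 (.c 7 v1 (.c 8 v1 .e)))
noncomputable def r445 : Tr := .c 1 q58 (.c 5 q130 (.c 8 q119 (.c 9 q126 .e)))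
noncomputable def t117 : Tr := .c 3 r444 (.c 4 r439 (.c 5 r440 (.c 6 r445 (.c 9 r443 .e))))
noncomputable def r446 : Tr := .c 8 q119 (.c 9 q104 .e)
noncomputable def r447 : Tr := .c 0 q26 (.c 8 q119 .e)
noncomputable def r448 : Tr := .c 5 q100 (.c 8 q119 (.c 9 q104 .e))
noncomputable def r449 : Tr := .c 0 q24 (.c 3 q100 (.c 5 q100 (.c 9 q104 .e)))
noncomputable def r450 : Tr := .c 0 q24 (.c 3 q100 (.c 5 q100 .e))
noncomputable def q131 : Tr := .c 1 v1 (.c 2 v2 (.c 7 v1 (.c 8 v1 .e)))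
noncomputable def r451 : Tr := .c 0 q26 (.c 3 q131 .e)
noncomputable def t118 : Tr := .c 3 r446 (.c 5 r447 (.c 6 r448 (.c 7 r449 (.c 8 r450 (.c 9 r451 .e)))))
noncomputable def r452 : Tr := .c 3 q99 (.c 5 q100 (.c 9 q104 .e))
noncomputable def r453 : Tr := .c 3 q120 (.c 5 q130 (.c 8 q119 (.c 9 q126 .e)))
noncomputable def t119 : Tr := .c 1 r452 (.c 2 r453 (.c 7 r441 (.c 8 r442 (.c 9 r443 .e))))
noncomputable def r454 : Tr := .c 3 q100 (.c 5 q100 (.c 9 q104 .e))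
noncomputable def t120 : Tr := .c 0 r448 (.c 1 r454 (.c 6 r448 (.c 7 r449 (.c 8 r450 (.c 9 r451 .e)))))
noncomputable def r455 : Tr := .c 3 q104 (.c 5 q104 (.c 9 q104 .e))
noncomputable def r456 : Tr := .c 3 q126 (.c 5 q126 (.c 8 q119 (.c 9 q126 .e)))
noncomputable def r457 : Tr := .c 0 q12 (.c 8 q119 (.c 9 q126 .e))
noncomputable def r458 : Tr := .c 0 q12 (.c 8 q119 .e)
noncomputable def r459 : Tr := .c 0 q10 (.c 3 q104 (.c 5 q104 .e))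
noncomputable def q132 : Tr := .c 1 v1 (.c 2 v2 (.c 7 v1 .e))
noncomputable def r460 : Tr := .c 0 q12 (.c 3 q132 .e)
noncomputable def t121 : Tr := .c 1 r455 (.c 2 r456 (.c 4 r457 (.c 5 r458 (.c 8 r459 (.c 9 r460 .e)))))
noncomputable def r461 : Tr := .c 5 q126 (.c 8 q119 (.c 9 q126 .e))
noncomputable def r462 : Tr := .c 8 q119 (.c 9 q126 .e)
noncomputable def t122 : Tr := .c 0 r461 (.c 2 r456 (.c 3 r462 (.c 4 r457 (.c 5 r458 (.c 9 r460 .e)))))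
noncomputable def q133 : Tr := .c 0 v2 (.c 1 v2 (.c 6 v2 (.c 7 v2 (.c 8 v2 .e))))
noncomputable def q134 : Tr := .c 0 v2 .e
noncomputable def q135 : Tr := .c 0 v1 (.c 6 v1 .e)
noncomputable def q136 : Tr := .c 0 v2 (.c 1 v2 (.c 6 v2 (.c 7 v2 .e)))
noncomputable def r463 : Tr := .c 4 q133 (.c 5 q133 (.c 7 q134 (.c 8 q135 (.c 9 q136 .e))))
noncomputable def r464 : Tr := .c 3 q106 (.c 4 q133 (.c 5 q133 (.c 6 q114 (.c 9 q136 .e))))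
noncomputable def r465 : Tr := .c 1 q62 (.c 2 q82 (.c 4 q133 (.c 5 q133 (.c 8 q135 (.c 9 q136 .e)))))
noncomputable def r466 : Tr := .c 0 q24 (.c 2 q82 (.c 3 q106 (.c 4 q133 (.c 5 q133 (.c 9 q136 .e)))))
noncomputable def r467 : Tr := .c 0 q24 (.c 2 q82 (.c 3 q106 (.c 4 q133 (.c 5 q133 (.c 6 q114 .e)))))
noncomputable def t123 : Tr := .c 0 r463 (.c 1 r464 (.c 6 r465 (.c 7 r466 (.c 8 r467 .e))))
noncomputable def q137 : Tr := .c 0 v2 (.c 1 v2 (.c 6 v2 (.c 7 v2 (.c 8 v2 (.c 9 v2 .e)))))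
noncomputable def q138 : Tr := .c 0 v1 (.c 9 v1 .e)
noncomputable def r468 : Tr := .c 4 q137 (.c 5 q133 (.c 7 q138 (.c 8 q135 (.c 9 q136 .e))))
noncomputable def r469 : Tr := .c 3 q95 (.c 4 q137 (.c 5 q133 (.c 6 q110 (.c 9 q136 .e))))
noncomputable def r470 : Tr := .c 3 q105 (.c 5 q133 (.c 6 q111 (.c 7 q138 (.c 8 q135 (.c 9 q136 .e)))))
noncomputable def r471 : Tr := .c 1 q72 (.c 2 q91 (.c 4 q137 (.c 5 q133 (.c 8 q135 (.c 9 q136 .e)))))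
noncomputable def r472 : Tr := .c 0 q36 (.c 2 q91 (.c 3 q95 (.c 4 q137 (.c 5 q133 (.c 9 q136 .e)))))
noncomputable def r473 : Tr := .c 0 q36 (.c 2 q91 (.c 3 q95 (.c 4 q137 (.c 5 q133 (.c 6 q110 .e)))))
noncomputable def t124 : Tr := .c 0 r468 (.c 1 r469 (.c 2 r470 (.c 6 r471 (.c 7 r472 (.c 8 r473 .e)))))
noncomputable def q139 : Tr := .c 0 v1 (.c 1 v1 (.c 6 v1 (.c 7 v1 .e)))
noncomputable def q140 : Tr := .c 0 v0 .e
noncomputable def q141 : Tr := .c 0 v2 (.c 6 v2 .e)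
noncomputable def r474 : Tr := .c 4 q136 (.c 5 q139 (.c 7 q140 (.c 8 q141 (.c 9 q139 .e))))
noncomputable def q142 : Tr := .c 1 v1 .e
noncomputable def r475 : Tr := .c 3 q128 (.c 5 q139 (.c 6 q142 (.c 7 q140 (.c 8 q141 (.c 9 q139 .e)))))
noncomputable def r476 : Tr := .c 1 q63 (.c 2 q83 (.c 7 q140 (.c 8 q141 (.c 9 q139 .e))))
noncomputable def r477 : Tr := .c 0 q10 (.c 1 q63 (.c 6 q142 (.c 7 q140 (.c 8 q141 (.c 9 q139 .e)))))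
noncomputable def t125 : Tr := .c 0 r474 (.c 2 r475 (.c 3 r476 (.c 4 r477 .e)))
noncomputable def q143 : Tr := .c 0 v1 (.c 1 v1 (.c 8 v1 (.c 9 v1 .e)))
noncomputable def q144 : Tr := .c 0 v1 (.c 1 v1 (.c 8 v1 .e))
noncomputable def q145 : Tr := .c 0 v2 (.c 9 v0 .e)
noncomputable def q146 : Tr := .c 0 v1 (.c 1 v1 .e)
noncomputable def r478 : Tr := .c 4 q143 (.c 5 q144 (.c 7 q145 (.c 8 q134 (.c 9 q146 .e))))
noncomputable def r479 : Tr := .c 3 q125 (.c 5 q144 (.c 6 q125 (.c 7 q145 (.c 8 q134 (.c 9 q146 .e)))))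
noncomputable def r480 : Tr := .c 1 q58 (.c 2 q86 (.c 7 q145 (.c 8 q134 (.c 9 q146 .e))))
noncomputable def r481 : Tr := .c 0 q17 (.c 1 q58 (.c 6 q125 (.c 7 q145 (.c 8 q134 (.c 9 q146 .e)))))
noncomputable def r482 : Tr := .c 1 q58 (.c 2 q86 (.c 4 q143 (.c 5 q144 (.c 8 q134 (.c 9 q146 .e)))))
noncomputable def t126 : Tr := .c 0 r478 (.c 2 r479 (.c 3 r480 (.c 4 r481 (.c 6 r482 .e))))
noncomputable def q147 : Tr := .c 0 v2 (.c 1 v2 (.c 8 v2 (.c 9 v2 .e)))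
noncomputable def q148 : Tr := .c 0 v2 (.c 1 v2 (.c 8 v2 .e))
noncomputable def q149 : Tr := .c 0 v1 .e
noncomputable def q150 : Tr := .c 0 v2 (.c 1 v2 .e)
noncomputable def r483 : Tr := .c 4 q147 (.c 5 q148 (.c 7 q138 (.c 8 q149 (.c 9 q150 .e))))
noncomputable def r484 : Tr := .c 3 q110 (.c 4 q147 (.c 5 q148 (.c 6 q110 (.c 9 q150 .e))))
noncomputable def r485 : Tr := .c 3 q111 (.c 5 q148 (.c 6 q111 (.c 7 q138 (.c 8 q149 (.c 9 q150 .e)))))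
noncomputable def r486 : Tr := .c 1 q67 (.c 2 q44 (.c 7 q138 (.c 8 q149 (.c 9 q150 .e))))
noncomputable def r487 : Tr := .c 0 q19 (.c 1 q67 (.c 6 q111 (.c 7 q138 (.c 8 q149 (.c 9 q150 .e)))))
noncomputable def r488 : Tr := .c 1 q67 (.c 2 q44 (.c 4 q147 (.c 5 q148 (.c 8 q149 (.c 9 q150 .e)))))
noncomputable def r489 : Tr := .c 0 q44 (.c 2 q44 (.c 3 q110 (.c 4 q147 (.c 5 q148 (.c 9 q150 .e)))))
noncomputable def t127 : Tr := .c 0 r483 (.c 1 r484 (.c 2 r485 (.c 3 r486 (.c 4 r487 (.c 6 r488 (.c 7 r489 .e))))))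
noncomputable def t128 : Tr := .c 1 r469 (.c 2 r470 (.c 7 r472 (.c 8 r473 .e)))
noncomputable def r490 : Tr := .c 3 q109 (.c 4 q136 (.c 5 q136 (.c 6 q115 (.c 9 q136 .e))))
noncomputable def r491 : Tr := .c 3 q109 (.c 5 q136 (.c 6 q115 (.c 7 q149 (.c 8 q135 (.c 9 q136 .e)))))
noncomputable def r492 : Tr := .c 0 q10 (.c 1 q62 (.c 6 q115 (.c 7 q149 (.c 8 q135 (.c 9 q136 .e)))))
noncomputable def r493 : Tr := .c 0 q10 (.c 2 q83 (.c 3 q109 (.c 4 q136 (.c 5 q136 (.c 6 q115 .e)))))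
noncomputable def t129 : Tr := .c 1 r490 (.c 2 r491 (.c 4 r492 (.c 8 r493 .e)))
noncomputable def r494 : Tr := .c 1 q56 (.c 2 q78 (.c 7 q145 .e))
noncomputable def r495 : Tr := .c 0 q9 (.c 1 q56 (.c 6 q125 (.c 7 q145 .e)))
noncomputable def q151 : Tr := .c 0 v1 (.c 1 v1 (.c 6 v1 (.c 7 v1 (.c 8 v1 (.c 9 v1 .e)))))
noncomputable def q152 : Tr := .c 0 v1 (.c 1 v1 (.c 6 v1 (.c 7 v1 (.c 8 v1 .e))))
noncomputable def r496 : Tr := .c 1 q56 (.c 2 q78 (.c 4 q151 (.c 5 q152 .e)))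
noncomputable def t130 : Tr := .c 3 r494 (.c 4 r495 (.c 6 r496 .e))
noncomputable def r497 : Tr := .c 1 q62 (.c 2 q82 (.c 7 q134 .e))
noncomputable def r498 : Tr := .c 1 q62 (.c 2 q82 (.c 4 q133 (.c 5 q133 .e)))
noncomputable def r499 : Tr := .c 0 q24 (.c 2 q82 (.c 3 q106 (.c 4 q133 (.c 5 q133 .e))))
noncomputable def t131 : Tr := .c 3 r497 (.c 6 r498 (.c 7 r499 (.c 8 r467 .e)))
noncomputable def r500 : Tr := .c 4 q133 (.c 5 q133 (.c 7 q134 .e))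
noncomputable def r501 : Tr := .c 3 q106 (.c 4 q133 (.c 5 q133 (.c 6 q114 .e)))
noncomputable def t132 : Tr := .c 0 r500 (.c 1 r501 (.c 6 r498 (.c 7 r499 (.c 8 r467 .e))))
noncomputable def r502 : Tr := .c 4 q137 (.c 5 q133 (.c 7 q138 .e))
noncomputable def r503 : Tr := .c 3 q95 (.c 4 q137 (.c 5 q133 (.c 6 q110 .e)))
noncomputable def r504 : Tr := .c 3 q105 (.c 5 q133 (.c 6 q111 (.c 7 q138 .e)))
noncomputable def r505 : Tr := .c 1 q72 (.c 2 q91 (.c 4 q137 (.c 5 q133 .e)))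
noncomputable def r506 : Tr := .c 0 q36 (.c 2 q91 (.c 3 q95 (.c 4 q137 (.c 5 q133 .e))))
noncomputable def t133 : Tr := .c 0 r502 (.c 1 r503 (.c 2 r504 (.c 6 r505 (.c 7 r506 (.c 8 r473 .e)))))
noncomputable def r507 : Tr := .c 4 q143 (.c 5 q144 (.c 7 q145 .e))
noncomputable def r508 : Tr := .c 3 q125 (.c 5 q144 (.c 6 q125 (.c 7 q145 .e)))
noncomputable def r509 : Tr := .c 1 q58 (.c 2 q86 (.c 7 q145 .e))
noncomputable def r510 : Tr := .c 0 q17 (.c 1 q58 (.c 6 q125 (.c 7 q145 .e)))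
noncomputable def r511 : Tr := .c 1 q58 (.c 2 q86 (.c 4 q143 (.c 5 q144 .e)))
noncomputable def t134 : Tr := .c 0 r507 (.c 2 r508 (.c 3 r509 (.c 4 r510 (.c 6 r511 .e))))
noncomputable def r512 : Tr := .c 4 q147 (.c 5 q148 (.c 7 q138 .e))
noncomputable def r513 : Tr := .c 3 q110 (.c 4 q147 (.c 5 q148 (.c 6 q110 .e)))
noncomputable def r514 : Tr := .c 3 q111 (.c 5 q148 (.c 6 q111 (.c 7 q138 .e)))
noncomputable def r515 : Tr := .c 1 q67 (.c 2 q44 (.c 7 q138 .e))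
noncomputable def r516 : Tr := .c 0 q19 (.c 1 q67 (.c 6 q111 (.c 7 q138 .e)))
noncomputable def r517 : Tr := .c 1 q67 (.c 2 q44 (.c 4 q147 (.c 5 q148 .e)))
noncomputable def r518 : Tr := .c 0 q44 (.c 2 q44 (.c 3 q110 (.c 4 q147 (.c 5 q148 .e))))
noncomputable def t135 : Tr := .c 0 r512 (.c 1 r513 (.c 2 r514 (.c 3 r515 (.c 4 r516 (.c 6 r517 (.c 7 r518 .e))))))
noncomputable def q153 : Tr := .c 0 v2 (.c 9 v1 .e)
noncomputable def r519 : Tr := .c 0 q7 (.c 1 q72 (.c 6 q111 (.c 7 q153 .e)))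
noncomputable def t136 : Tr := .c 4 r519 (.c 7 r506 (.c 8 r473 .e))
noncomputable def t137 : Tr := .c 1 r503 (.c 2 r504 (.c 7 r506 (.c 8 r473 .e)))
noncomputable def r520 : Tr := .c 0 q7 (.c 1 q72 (.c 8 q135 (.c 9 q136 .e)))
noncomputable def t138 : Tr := .c 4 r520 (.c 7 r472 (.c 8 r506 .e))
noncomputable def r521 : Tr := .c 1 q62 (.c 2 q82 (.c 8 q135 (.c 9 q136 .e)))
noncomputable def t139 : Tr := .c 3 r521 (.c 6 r465 (.c 7 r466 (.c 8 r499 .e)))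
noncomputable def r522 : Tr := .c 3 q95 (.c 4 q137 (.c 5 q133 (.c 9 q136 .e)))
noncomputable def r523 : Tr := .c 3 q105 (.c 5 q133 (.c 8 q135 (.c 9 q136 .e)))
noncomputable def t140 : Tr := .c 1 r522 (.c 2 r523 (.c 7 r472 (.c 8 r506 .e)))
noncomputable def r524 : Tr := .c 4 q133 (.c 5 q133 (.c 8 q135 (.c 9 q136 .e)))
noncomputable def r525 : Tr := .c 3 q106 (.c 4 q133 (.c 5 q133 (.c 9 q136 .e)))
noncomputable def t141 : Tr := .c 0 r524 (.c 1 r525 (.c 6 r465 (.c 7 r466 (.c 8 r499 .e))))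
noncomputable def r526 : Tr := .c 4 q137 (.c 5 q133 (.c 8 q135 (.c 9 q136 .e)))
noncomputable def t142 : Tr := .c 0 r526 (.c 1 r522 (.c 2 r523 (.c 6 r471 (.c 7 r472 (.c 8 r506 .e)))))
noncomputable def r527 : Tr := .c 3 q109 (.c 4 q136 (.c 5 q136 (.c 9 q136 .e)))
noncomputable def r528 : Tr := .c 3 q109 (.c 5 q136 (.c 8 q135 (.c 9 q136 .e)))
noncomputable def r529 : Tr := .c 0 q10 (.c 1 q62 (.c 8 q135 (.c 9 q136 .e)))
noncomputable def r530 : Tr := .c 0 q10 (.c 2 q83 (.c 3 q109 (.c 4 q136 (.c 5 q136 .e))))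
noncomputable def t143 : Tr := .c 1 r527 (.c 2 r528 (.c 4 r529 (.c 8 r530 .e)))
noncomputable def q154 : Tr := .c 0 v0 (.c 6 v0 .e)
noncomputable def r531 : Tr := .c 0 q9 (.c 1 q56 (.c 8 q154 (.c 9 q139 .e)))
noncomputable def r532 : Tr := .c 0 q7 (.c 3 q105 (.c 5 q133 (.c 9 q136 .e)))
noncomputable def r533 : Tr := .c 0 q7 (.c 3 q105 (.c 5 q133 .e))
noncomputable def t144 : Tr := .c 4 r531 (.c 7 r532 (.c 8 r533 .e))
noncomputable def r534 : Tr := .c 1 q56 (.c 8 q154 (.c 9 q139 .e))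
noncomputable def r535 : Tr := .c 1 q56 (.c 5 q152 (.c 8 q154 (.c 9 q139 .e)))
noncomputable def t145 : Tr := .c 3 r534 (.c 4 r531 (.c 6 r535 .e))
noncomputable def r536 : Tr := .c 1 q62 (.c 8 q135 (.c 9 q136 .e))
noncomputable def r537 : Tr := .c 1 q62 (.c 5 q133 (.c 8 q135 (.c 9 q136 .e)))
noncomputable def r538 : Tr := .c 0 q24 (.c 3 q106 (.c 5 q133 (.c 9 q136 .e)))
noncomputable def r539 : Tr := .c 0 q24 (.c 3 q106 (.c 5 q133 .e))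
noncomputable def t146 : Tr := .c 3 r536 (.c 6 r537 (.c 7 r538 (.c 8 r539 .e)))
noncomputable def r540 : Tr := .c 3 q105 (.c 5 q133 (.c 9 q136 .e))
noncomputable def r541 : Tr := .c 3 q121 (.c 5 q152 (.c 8 q154 (.c 9 q139 .e)))
noncomputable def t147 : Tr := .c 1 r540 (.c 2 r541 (.c 7 r532 (.c 8 r533 .e)))
noncomputable def r542 : Tr := .c 5 q133 (.c 8 q135 (.c 9 q136 .e))
noncomputable def r543 : Tr := .c 3 q106 (.c 5 q133 (.c 9 q136 .e))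
noncomputable def t148 : Tr := .c 0 r542 (.c 1 r543 (.c 6 r537 (.c 7 r538 (.c 8 r539 .e))))
noncomputable def r544 : Tr := .c 3 q109 (.c 5 q136 (.c 9 q136 .e))
noncomputable def r545 : Tr := .c 3 q128 (.c 5 q139 (.c 8 q154 (.c 9 q139 .e)))
noncomputable def r546 : Tr := .c 0 q12 (.c 1 q57 (.c 8 q154 (.c 9 q139 .e)))
noncomputable def r547 : Tr := .c 0 q10 (.c 3 q109 (.c 5 q136 .e))
noncomputable def t149 : Tr := .c 1 r544 (.c 2 r545 (.c 4 r546 (.c 8 r547 .e)))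
noncomputable def r548 : Tr := .c 5 q139 (.c 8 q154 (.c 9 q139 .e))
noncomputable def r549 : Tr := .c 1 q57 (.c 8 q154 (.c 9 q139 .e))
noncomputable def t150 : Tr := .c 0 r548 (.c 2 r545 (.c 3 r549 (.c 4 r546 .e)))
noncomputable def q155 : Tr := .c 0 v2 (.c 1 v2 (.c 2 v2 (.c 6 v2 (.c 7 v2 (.c 8 v2 .e)))))
noncomputable def q156 : Tr := .c 0 v1 (.c 2 v1 .e)
noncomputable def q157 : Tr := .c 0 v1 (.c 2 v1 (.c 6 v1 .e))
noncomputable def q158 : Tr := .c 0 v2 (.c 1 v2 (.c 2 v2 (.c 6 v2 (.c 7 v2 .e))))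
noncomputable def r550 : Tr := .c 4 q133 (.c 5 q155 (.c 7 q156 (.c 8 q157 (.c 9 q158 .e))))
noncomputable def r551 : Tr := .c 3 q96 (.c 4 q133 (.c 5 q155 (.c 6 q107 (.c 9 q158 .e))))
noncomputable def r552 : Tr := .c 1 q62 (.c 2 q82 (.c 4 q133 (.c 5 q155 (.c 8 q157 (.c 9 q158 .e)))))
noncomputable def r553 : Tr := .c 0 q24 (.c 2 q82 (.c 3 q96 (.c 4 q133 (.c 5 q155 (.c 9 q158 .e)))))
noncomputable def r554 : Tr := .c 0 q24 (.c 2 q82 (.c 3 q96 (.c 4 q133 (.c 5 q155 (.c 6 q107 .e)))))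
noncomputable def r555 : Tr := .c 0 q24 (.c 1 q62 (.c 2 q82 (.c 3 q100 (.c 4 q133 (.c 6 q108 (.c 7 q156 .e))))))
noncomputable def t151 : Tr := .c 0 r550 (.c 1 r551 (.c 6 r552 (.c 7 r553 (.c 8 r554 (.c 9 r555 .e)))))
noncomputable def r556 : Tr := .c 4 q133 (.c 5 q133 (.c 7 q149 (.c 8 q135 (.c 9 q136 .e))))
noncomputable def t152 : Tr := .c 0 r556 (.c 1 r464 (.c 6 r465 (.c 7 r466 (.c 8 r467 .e))))
noncomputable def q159 : Tr := .c 0 v1 (.c 1 v1 (.c 2 v1 (.c 6 v1 (.c 7 v1 .e))))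
noncomputable def q160 : Tr := .c 0 v0 (.c 2 v0 .e)
noncomputable def q161 : Tr := .c 0 v0 (.c 2 v0 (.c 6 v0 .e))
noncomputable def r557 : Tr := .c 4 q139 (.c 5 q159 (.c 7 q160 (.c 8 q161 (.c 9 q159 .e))))
noncomputable def r558 : Tr := .c 1 q57 (.c 2 q84 (.c 7 q160 (.c 8 q161 (.c 9 q159 .e))))
noncomputable def r559 : Tr := .c 0 q12 (.c 1 q57 (.c 2 q84 (.c 6 q127 (.c 7 q160 (.c 8 q161 .e)))))
noncomputable def r560 : Tr := .c 0 q12 (.c 1 q57 (.c 2 q84 (.c 3 q126 (.c 4 q139 (.c 6 q127 (.c 7 q160 .e))))))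
noncomputable def t153 : Tr := .c 0 r557 (.c 3 r558 (.c 5 r559 (.c 9 r560 .e)))
noncomputable def q162 : Tr := .c 0 v1 (.c 1 v1 (.c 2 v1 (.c 8 v1 .e)))
noncomputable def q163 : Tr := .c 0 v1 (.c 1 v1 (.c 2 v1 .e))
noncomputable def r561 : Tr := .c 4 q144 (.c 5 q162 (.c 7 q160 (.c 8 q160 (.c 9 q163 .e))))
noncomputable def r562 : Tr := .c 2 q32 (.c 7 q160 (.c 8 q160 (.c 9 q163 .e)))
noncomputable def q164 : Tr := .c 1 v1 (.c 2 v0 (.c 8 v1 .e))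
noncomputable def r563 : Tr := .c 0 q32 (.c 2 q32 (.c 6 q164 (.c 7 q160 (.c 8 q160 .e))))
noncomputable def r564 : Tr := .c 2 q32 (.c 4 q144 (.c 5 q162 (.c 8 q160 (.c 9 q163 .e))))
noncomputable def t154 : Tr := .c 0 r561 (.c 3 r562 (.c 5 r563 (.c 6 r564 .e)))
noncomputable def r565 : Tr := .c 4 q148 (.c 5 q148 (.c 7 q149 (.c 8 q149 (.c 9 q150 .e))))
noncomputable def r566 : Tr := .c 3 q114 (.c 4 q148 (.c 5 q148 (.c 6 q114 (.c 9 q150 .e))))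
noncomputable def r567 : Tr := .c 2 q45 (.c 7 q149 (.c 8 q149 (.c 9 q150 .e)))
noncomputable def r568 : Tr := .c 2 q45 (.c 4 q148 (.c 5 q148 (.c 8 q149 (.c 9 q150 .e))))
noncomputable def r569 : Tr := .c 0 q45 (.c 2 q45 (.c 3 q114 (.c 4 q148 (.c 5 q148 (.c 9 q150 .e)))))
noncomputable def t155 : Tr := .c 0 r565 (.c 1 r566 (.c 3 r567 (.c 6 r568 (.c 7 r569 .e))))
noncomputable def t156 : Tr := .c 1 r551 (.c 7 r553 (.c 8 r554 (.c 9 r555 .e)))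
noncomputable def r570 : Tr := .c 3 q98 (.c 4 q136 (.c 5 q158 (.c 6 q112 (.c 9 q158 .e))))
noncomputable def r571 : Tr := .c 0 q10 (.c 1 q62 (.c 2 q83 (.c 6 q113 (.c 7 q156 (.c 8 q157 .e)))))
noncomputable def r572 : Tr := .c 0 q10 (.c 2 q83 (.c 3 q98 (.c 4 q136 (.c 5 q158 (.c 6 q112 .e)))))
noncomputable def r573 : Tr := .c 0 q10 (.c 1 q62 (.c 2 q83 (.c 3 q104 (.c 4 q136 (.c 6 q113 (.c 7 q156 .e))))))
noncomputable def t157 : Tr := .c 1 r570 (.c 5 r571 (.c 8 r572 (.c 9 r573 .e)))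
noncomputable def r574 : Tr := .c 3 q100 (.c 4 q133 (.c 6 q108 .e))
noncomputable def r575 : Tr := .c 0 q24 (.c 2 q82 (.c 3 q100 (.c 4 q133 .e)))
noncomputable def r576 : Tr := .c 0 q24 (.c 2 q82 (.c 3 q100 (.c 4 q133 (.c 6 q108 .e))))
noncomputable def r577 : Tr := .c 0 q26 (.c 1 q57 (.c 2 q79 (.c 3 q130 (.c 4 q152 (.c 6 q164 (.c 7 q160 .e))))))
noncomputable def t158 : Tr := .c 1 r574 (.c 7 r575 (.c 8 r576 (.c 9 r577 .e)))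
noncomputable def r578 : Tr := .c 4 q133 (.c 7 q149 (.c 8 q135 .e))
noncomputable def r579 : Tr := .c 3 q106 (.c 4 q133 (.c 6 q114 .e))
noncomputable def r580 : Tr := .c 1 q62 (.c 2 q82 (.c 4 q133 (.c 8 q135 .e)))
noncomputable def r581 : Tr := .c 0 q24 (.c 2 q82 (.c 3 q106 (.c 4 q133 .e)))
noncomputable def r582 : Tr := .c 0 q24 (.c 2 q82 (.c 3 q106 (.c 4 q133 (.c 6 q114 .e))))
noncomputable def t159 : Tr := .c 0 r578 (.c 1 r579 (.c 6 r580 (.c 7 r581 (.c 8 r582 .e))))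
noncomputable def r583 : Tr := .c 3 q104 (.c 4 q136 (.c 6 q113 .e))
noncomputable def r584 : Tr := .c 0 q10 (.c 2 q83 (.c 3 q104 (.c 4 q136 (.c 6 q113 .e))))
noncomputable def t160 : Tr := .c 1 r583 (.c 5 r559 (.c 8 r584 (.c 9 r560 .e)))
noncomputable def r585 : Tr := .c 4 q139 (.c 7 q160 (.c 8 q161 .e))
noncomputable def r586 : Tr := .c 1 q57 (.c 2 q84 (.c 7 q160 (.c 8 q161 .e)))
noncomputable def t161 : Tr := .c 0 r585 (.c 3 r586 (.c 5 r559 (.c 9 r560 .e)))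
noncomputable def r587 : Tr := .c 4 q144 (.c 7 q160 (.c 8 q160 .e))
noncomputable def r588 : Tr := .c 2 q32 (.c 7 q160 (.c 8 q160 .e))
noncomputable def r589 : Tr := .c 2 q32 (.c 4 q144 (.c 8 q160 .e))
noncomputable def t162 : Tr := .c 0 r587 (.c 3 r588 (.c 5 r563 (.c 6 r589 .e)))
noncomputable def r590 : Tr := .c 4 q148 (.c 7 q149 (.c 8 q149 .e))
noncomputable def r591 : Tr := .c 3 q114 (.c 4 q148 (.c 6 q114 .e))
noncomputable def r592 : Tr := .c 2 q45 (.c 7 q149 (.c 8 q149 .e))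
noncomputable def r593 : Tr := .c 2 q45 (.c 4 q148 (.c 8 q149 .e))
noncomputable def r594 : Tr := .c 0 q45 (.c 2 q45 (.c 3 q114 (.c 4 q148 .e)))
noncomputable def t163 : Tr := .c 0 r590 (.c 1 r591 (.c 3 r592 (.c 6 r593 (.c 7 r594 .e))))
noncomputable def r595 : Tr := .c 1 q57 (.c 2 q79 (.c 7 q160 .e))
noncomputable def r596 : Tr := .c 0 q26 (.c 1 q57 (.c 2 q79 (.c 6 q164 (.c 7 q160 .e))))
noncomputable def q165 : Tr := .c 0 v1 (.c 1 v1 (.c 2 v1 (.c 6 v1 (.c 7 v1 (.c 8 v1 .e)))))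
noncomputable def r597 : Tr := .c 1 q57 (.c 2 q79 (.c 4 q152 (.c 5 q165 .e)))
noncomputable def t164 : Tr := .c 3 r595 (.c 5 r596 (.c 6 r597 (.c 9 r577 .e)))
noncomputable def r598 : Tr := .c 1 q62 (.c 2 q82 (.c 7 q156 .e))
noncomputable def r599 : Tr := .c 0 q24 (.c 1 q62 (.c 2 q82 (.c 6 q108 (.c 7 q156 .e))))
noncomputable def r600 : Tr := .c 1 q62 (.c 2 q82 (.c 4 q133 (.c 5 q155 .e)))
noncomputable def r601 : Tr := .c 0 q24 (.c 2 q82 (.c 3 q96 (.c 4 q133 (.c 5 q155 .e))))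
noncomputable def t165 : Tr := .c 3 r598 (.c 5 r599 (.c 6 r600 (.c 7 r601 (.c 8 r554 (.c 9 r555 .e)))))
noncomputable def r602 : Tr := .c 4 q133 (.c 5 q155 (.c 7 q156 .e))
noncomputable def r603 : Tr := .c 3 q96 (.c 4 q133 (.c 5 q155 (.c 6 q107 .e)))
noncomputable def t166 : Tr := .c 0 r602 (.c 1 r603 (.c 6 r600 (.c 7 r601 (.c 8 r554 (.c 9 r555 .e)))))
noncomputable def r604 : Tr := .c 4 q133 (.c 5 q133 (.c 7 q149 .e))
noncomputable def t167 : Tr := .c 0 r604 (.c 1 r501 (.c 6 r498 (.c 7 r499 (.c 8 r467 .e))))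
noncomputable def r605 : Tr := .c 4 q144 (.c 5 q162 (.c 7 q160 .e))
noncomputable def r606 : Tr := .c 2 q32 (.c 7 q160 .e)
noncomputable def r607 : Tr := .c 0 q32 (.c 2 q32 (.c 6 q164 (.c 7 q160 .e)))
noncomputable def r608 : Tr := .c 2 q32 (.c 4 q144 (.c 5 q162 .e))
noncomputable def t168 : Tr := .c 0 r605 (.c 3 r606 (.c 5 r607 (.c 6 r608 .e)))
noncomputable def r609 : Tr := .c 4 q148 (.c 5 q148 (.c 7 q149 .e))
noncomputable def r610 : Tr := .c 3 q114 (.c 4 q148 (.c 5 q148 (.c 6 q114 .e)))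
noncomputable def r611 : Tr := .c 2 q45 (.c 7 q149 .e)
noncomputable def r612 : Tr := .c 2 q45 (.c 4 q148 (.c 5 q148 .e))
noncomputable def r613 : Tr := .c 0 q45 (.c 2 q45 (.c 3 q114 (.c 4 q148 (.c 5 q148 .e))))
noncomputable def t169 : Tr := .c 0 r609 (.c 1 r610 (.c 3 r611 (.c 6 r612 (.c 7 r613 .e))))
noncomputable def t170 : Tr := .c 5 r599 (.c 7 r601 (.c 8 r554 (.c 9 r555 .e)))
noncomputable def t171 : Tr := .c 1 r603 (.c 7 r601 (.c 8 r554 (.c 9 r555 .e)))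
noncomputable def r614 : Tr := .c 0 q24 (.c 1 q62 (.c 2 q82 (.c 8 q157 .e)))
noncomputable def r615 : Tr := .c 0 q24 (.c 1 q62 (.c 2 q82 (.c 3 q100 (.c 4 q133 .e))))
noncomputable def t172 : Tr := .c 5 r614 (.c 7 r553 (.c 8 r601 (.c 9 r615 .e)))
noncomputable def r616 : Tr := .c 1 q62 (.c 2 q82 (.c 8 q157 (.c 9 q158 .e)))
noncomputable def t173 : Tr := .c 3 r616 (.c 5 r614 (.c 6 r552 (.c 7 r553 (.c 8 r601 (.c 9 r615 .e)))))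
noncomputable def r617 : Tr := .c 3 q96 (.c 4 q133 (.c 5 q155 (.c 9 q158 .e)))
noncomputable def t174 : Tr := .c 1 r617 (.c 7 r553 (.c 8 r601 (.c 9 r615 .e)))
noncomputable def r618 : Tr := .c 4 q133 (.c 5 q155 (.c 8 q157 (.c 9 q158 .e)))
noncomputable def t175 : Tr := .c 0 r618 (.c 1 r617 (.c 6 r552 (.c 7 r553 (.c 8 r601 (.c 9 r615 .e)))))
noncomputable def r619 : Tr := .c 3 q98 (.c 4 q136 (.c 5 q158 (.c 9 q158 .e)))
noncomputable def r620 : Tr := .c 0 q10 (.c 1 q62 (.c 2 q83 (.c 8 q157 .e)))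
noncomputable def r621 : Tr := .c 0 q10 (.c 2 q83 (.c 3 q98 (.c 4 q136 (.c 5 q158 .e))))
noncomputable def r622 : Tr := .c 0 q10 (.c 1 q62 (.c 2 q83 (.c 3 q104 (.c 4 q136 .e))))
noncomputable def t176 : Tr := .c 1 r619 (.c 5 r620 (.c 8 r621 (.c 9 r622 .e)))
noncomputable def q166 : Tr := .c 1 v2 (.c 2 v2 (.c 4 v2 (.c 5 v2 (.c 8 v2 (.c 9 v2 .e)))))
noncomputable def q167 : Tr := .c 1 v2 (.c 2 v2 (.c 4 v2 .e))
noncomputable def r623 : Tr := .c 3 q97 (.c 4 q110 (.c 5 q107 (.c 6 q166 (.c 9 q167 .e))))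
noncomputable def q168 : Tr := .c 1 v2 (.c 2 v1 (.c 4 v1 (.c 5 v1 (.c 8 v2 (.c 9 v1 .e)))))
noncomputable def q169 : Tr := .c 2 v1 (.c 4 v1 (.c 5 v1 (.c 9 v1 .e)))
noncomputable def q170 : Tr := .c 2 v1 (.c 4 v1 (.c 5 v1 .e))
noncomputable def q171 : Tr := .c 1 v2 (.c 2 v1 (.c 4 v1 .e))
noncomputable def r624 : Tr := .c 3 q101 (.c 5 q108 (.c 6 q168 (.c 7 q169 (.c 8 q170 (.c 9 q171 .e)))))
noncomputable def r625 : Tr := .c 0 q37 (.c 2 q43 (.c 3 q97 (.c 4 q110 (.c 5 q107 (.c 9 q167 .e)))))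
noncomputable def t177 : Tr := .c 1 r623 (.c 2 r624 (.c 7 r625 .e))
noncomputable def q172 : Tr := .c 2 v1 (.c 4 v1 .e)
noncomputable def r626 : Tr := .c 4 q114 (.c 5 q107 (.c 7 q172 (.c 8 q172 (.c 9 q167 .e))))
noncomputable def q173 : Tr := .c 1 v2 (.c 2 v2 (.c 4 v2 (.c 8 v2 .e)))
noncomputable def r627 : Tr := .c 3 q107 (.c 4 q114 (.c 5 q107 (.c 6 q173 (.c 9 q167 .e))))
noncomputable def r628 : Tr := .c 1 q38 (.c 2 q45 (.c 4 q114 (.c 5 q107 (.c 8 q172 (.c 9 q167 .e)))))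
noncomputable def r629 : Tr := .c 0 q40 (.c 2 q45 (.c 3 q107 (.c 4 q114 (.c 5 q107 (.c 9 q167 .e)))))
noncomputable def t178 : Tr := .c 0 r626 (.c 1 r627 (.c 6 r628 (.c 7 r629 .e)))
noncomputable def r630 : Tr := .c 4 q110 (.c 5 q114 (.c 7 q42 (.c 8 q47 (.c 9 q115 .e))))
noncomputable def q174 : Tr := .c 1 v2 (.c 5 v2 (.c 8 v2 (.c 9 v2 .e)))
noncomputable def r631 : Tr := .c 3 q110 (.c 4 q110 (.c 5 q114 (.c 6 q174 (.c 9 q115 .e))))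
noncomputable def q175 : Tr := .c 1 v2 (.c 5 v1 (.c 8 v2 (.c 9 v1 .e)))
noncomputable def r632 : Tr := .c 3 q111 (.c 5 q114 (.c 6 q175 (.c 7 q42 (.c 8 q47 (.c 9 q115 .e)))))
noncomputable def r633 : Tr := .c 1 q42 (.c 2 q43 (.c 4 q110 (.c 5 q114 (.c 8 q47 (.c 9 q115 .e)))))
noncomputable def r634 : Tr := .c 0 q43 (.c 2 q43 (.c 3 q110 (.c 4 q110 (.c 5 q114 (.c 9 q115 .e)))))
noncomputable def t179 : Tr := .c 0 r630 (.c 1 r631 (.c 2 r632 (.c 6 r633 (.c 7 r634 .e))))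
noncomputable def q176 : Tr := .c 1 v2 (.c 2 v2 (.c 4 v2 (.c 5 v2 .e)))
noncomputable def r635 : Tr := .c 3 q112 (.c 4 q115 (.c 5 q112 (.c 6 q176 (.c 9 q167 .e))))
noncomputable def q177 : Tr := .c 1 v2 (.c 2 v1 (.c 4 v1 (.c 5 v1 .e)))
noncomputable def r636 : Tr := .c 3 q113 (.c 5 q113 (.c 6 q177 (.c 7 q170 (.c 8 q170 (.c 9 q171 .e)))))
noncomputable def r637 : Tr := .c 0 q11 (.c 1 q11 (.c 6 q177 (.c 7 q170 (.c 8 q170 (.c 9 q171 .e)))))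
noncomputable def r638 : Tr := .c 0 q11 (.c 1 q11 (.c 2 q47 (.c 6 q177 (.c 7 q170 (.c 8 q170 .e)))))
noncomputable def t180 : Tr := .c 1 r635 (.c 2 r636 (.c 4 r637 (.c 5 r638 .e)))
noncomputable def r639 : Tr := .c 1 q42 (.c 2 q43 (.c 7 q42 (.c 8 q47 (.c 9 q115 .e))))
noncomputable def r640 : Tr := .c 0 q22 (.c 1 q42 (.c 6 q175 (.c 7 q42 (.c 8 q47 (.c 9 q115 .e)))))
noncomputable def t181 : Tr := .c 0 r630 (.c 1 r631 (.c 2 r632 (.c 3 r639 (.c 4 r640 (.c 6 r633 (.c 7 r634 .e))))))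
noncomputable def r641 : Tr := .c 3 q101 (.c 4 q111 (.c 6 q168 .e))
noncomputable def q178 : Tr := .c 1 v1 (.c 2 v0 (.c 4 v0 (.c 5 v0 (.c 8 v1 (.c 9 v0 .e)))))
noncomputable def q179 : Tr := .c 2 v0 (.c 4 v0 (.c 5 v0 (.c 9 v0 .e)))
noncomputable def q180 : Tr := .c 2 v0 (.c 4 v0 (.c 5 v0 .e))
noncomputable def r642 : Tr := .c 3 q117 (.c 6 q178 (.c 7 q179 (.c 8 q180 .e)))
noncomputable def r643 : Tr := .c 0 q8 (.c 2 q22 (.c 3 q101 (.c 4 q111 .e)))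
noncomputable def t182 : Tr := .c 1 r641 (.c 2 r642 (.c 7 r643 .e))
noncomputable def r644 : Tr := .c 4 q111 (.c 7 q20 (.c 8 q21 .e))
noncomputable def r645 : Tr := .c 3 q111 (.c 4 q111 (.c 6 q175 .e))
noncomputable def q181 : Tr := .c 1 v1 (.c 5 v0 (.c 8 v1 (.c 9 v0 .e)))
noncomputable def r646 : Tr := .c 3 q125 (.c 6 q181 (.c 7 q20 (.c 8 q21 .e)))
noncomputable def r647 : Tr := .c 1 q20 (.c 2 q22 (.c 4 q111 (.c 8 q21 .e)))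
noncomputable def r648 : Tr := .c 0 q22 (.c 2 q22 (.c 3 q111 (.c 4 q111 .e)))
noncomputable def t183 : Tr := .c 0 r644 (.c 1 r645 (.c 2 r646 (.c 6 r647 (.c 7 r648 .e))))
noncomputable def r649 : Tr := .c 3 q113 (.c 4 q115 (.c 6 q177 .e))
noncomputable def q182 : Tr := .c 1 v1 (.c 2 v0 (.c 4 v0 (.c 5 v0 .e)))
noncomputable def r650 : Tr := .c 3 q127 (.c 6 q182 (.c 7 q180 (.c 8 q180 .e)))
noncomputable def r651 : Tr := .c 0 q3 (.c 1 q3 (.c 6 q182 (.c 7 q180 (.c 8 q180 .e))))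
noncomputable def r652 : Tr := .c 0 q3 (.c 1 q3 (.c 2 q21 (.c 6 q182 (.c 7 q180 (.c 8 q180 .e)))))
noncomputable def t184 : Tr := .c 1 r649 (.c 2 r650 (.c 4 r651 (.c 5 r652 .e)))
noncomputable def r653 : Tr := .c 4 q142 (.c 7 q180 (.c 8 q180 .e))
noncomputable def r654 : Tr := .c 1 q3 (.c 2 q21 (.c 7 q180 (.c 8 q180 .e)))
noncomputable def t185 : Tr := .c 0 r653 (.c 2 r650 (.c 3 r654 (.c 4 r651 (.c 5 r652 .e))))
noncomputable def r655 : Tr := .c 4 q125 (.c 7 q179 (.c 8 q180 .e))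
noncomputable def r656 : Tr := .c 1 q1 (.c 2 q18 (.c 7 q179 (.c 8 q180 .e)))
noncomputable def r657 : Tr := .c 0 q2 (.c 1 q1 (.c 6 q178 (.c 7 q179 (.c 8 q180 .e))))
noncomputable def r658 : Tr := .c 0 q2 (.c 1 q1 (.c 2 q18 (.c 6 q178 (.c 7 q179 (.c 8 q180 .e)))))
noncomputable def r659 : Tr := .c 1 q1 (.c 2 q18 (.c 4 q125 (.c 8 q180 .e)))
noncomputable def t186 : Tr := .c 0 r655 (.c 2 r642 (.c 3 r656 (.c 4 r657 (.c 5 r658 (.c 6 r659 .e)))))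
noncomputable def r660 : Tr := .c 0 q18 (.c 1 q20 (.c 6 q181 (.c 7 q20 (.c 8 q21 .e))))
noncomputable def t187 : Tr := .c 0 r644 (.c 1 r645 (.c 2 r646 (.c 3 r24 (.c 4 r660 (.c 6 r647 (.c 7 r648 .e))))))
noncomputable def t188 : Tr := .c 4 r657 (.c 5 r658 (.c 7 r643 .e))
noncomputable def t189 : Tr := .c 3 r656 (.c 4 r657 (.c 5 r658 (.c 6 r659 .e)))
noncomputable def q183 : Tr := .c 1 v1 (.c 2 v0 (.c 4 v0 .e))
noncomputable def r661 : Tr := .c 0 q2 (.c 1 q1 (.c 6 q178 (.c 7 q179 (.c 8 q180 (.c 9 q183 .e)))))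
noncomputable def r662 : Tr := .c 0 q8 (.c 3 q101 (.c 5 q108 (.c 9 q171 .e)))
noncomputable def t190 : Tr := .c 4 r661 (.c 5 r657 (.c 7 r662 .e))
noncomputable def r663 : Tr := .c 1 q1 (.c 7 q179 (.c 8 q180 (.c 9 q183 .e)))
noncomputable def r664 : Tr := .c 1 q1 (.c 5 q164 (.c 8 q180 (.c 9 q183 .e)))
noncomputable def t191 : Tr := .c 3 r663 (.c 4 r661 (.c 5 r657 (.c 6 r664 .e)))
noncomputable def q184 : Tr := .c 2 v0 (.c 4 v0 .e)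
noncomputable def r665 : Tr := .c 1 q27 (.c 7 q184 (.c 8 q184 (.c 9 q171 .e)))
noncomputable def q185 : Tr := .c 1 v1 (.c 2 v0 (.c 4 v0 (.c 8 v1 .e)))
noncomputable def r666 : Tr := .c 0 q29 (.c 1 q27 (.c 6 q185 (.c 7 q184 (.c 8 q184 .e))))
noncomputable def r667 : Tr := .c 1 q27 (.c 5 q108 (.c 8 q184 (.c 9 q171 .e)))
noncomputable def r668 : Tr := .c 0 q31 (.c 3 q108 (.c 5 q108 (.c 9 q171 .e)))
noncomputable def t192 : Tr := .c 3 r665 (.c 5 r666 (.c 6 r667 (.c 7 r668 .e)))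
noncomputable def r669 : Tr := .c 3 q113 (.c 5 q113 (.c 6 q177 (.c 9 q171 .e)))
noncomputable def r670 : Tr := .c 3 q127 (.c 5 q127 (.c 6 q182 (.c 7 q180 (.c 8 q180 (.c 9 q183 .e)))))
noncomputable def r671 : Tr := .c 0 q3 (.c 1 q3 (.c 6 q182 (.c 7 q180 (.c 8 q180 (.c 9 q183 .e)))))
noncomputable def t193 : Tr := .c 1 r669 (.c 2 r670 (.c 4 r671 (.c 5 r651 .e)))
noncomputable def r672 : Tr := .c 5 q127 (.c 7 q180 (.c 8 q180 (.c 9 q183 .e)))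
noncomputable def r673 : Tr := .c 1 q3 (.c 7 q180 (.c 8 q180 (.c 9 q183 .e)))
noncomputable def t194 : Tr := .c 0 r672 (.c 2 r670 (.c 3 r673 (.c 4 r671 (.c 5 r651 .e))))
noncomputable def r674 : Tr := .c 5 q164 (.c 7 q179 (.c 8 q180 (.c 9 q183 .e)))
noncomputable def r675 : Tr := .c 3 q117 (.c 5 q164 (.c 6 q178 (.c 7 q179 (.c 8 q180 (.c 9 q183 .e)))))
noncomputable def t195 : Tr := .c 0 r674 (.c 2 r675 (.c 3 r663 (.c 4 r661 (.c 5 r657 (.c 6 r664 .e)))))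
noncomputable def r676 : Tr := .c 0 q8 (.c 1 q33 (.c 8 q170 (.c 9 q171 .e)))
noncomputable def r677 : Tr := .c 0 q8 (.c 1 q33 (.c 2 q22 (.c 8 q170 .e)))
noncomputable def t196 : Tr := .c 4 r676 (.c 5 r677 (.c 7 r625 .e))
noncomputable def r678 : Tr := .c 1 q38 (.c 2 q45 (.c 8 q172 (.c 9 q167 .e)))
noncomputable def r679 : Tr := .c 0 q31 (.c 1 q38 (.c 2 q45 (.c 8 q172 .e)))
noncomputable def t197 : Tr := .c 3 r678 (.c 5 r679 (.c 6 r628 (.c 7 r629 .e)))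
noncomputable def r680 : Tr := .c 3 q97 (.c 4 q110 (.c 5 q107 (.c 9 q167 .e)))
noncomputable def r681 : Tr := .c 3 q101 (.c 5 q108 (.c 8 q170 (.c 9 q171 .e)))
noncomputable def t198 : Tr := .c 1 r680 (.c 2 r681 (.c 7 r625 .e))
noncomputable def r682 : Tr := .c 4 q114 (.c 5 q107 (.c 8 q172 (.c 9 q167 .e)))
noncomputable def r683 : Tr := .c 3 q107 (.c 4 q114 (.c 5 q107 (.c 9 q167 .e)))
noncomputable def t199 : Tr := .c 0 r682 (.c 1 r683 (.c 6 r628 (.c 7 r629 .e)))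
noncomputable def r684 : Tr := .c 4 q110 (.c 5 q114 (.c 8 q47 (.c 9 q115 .e)))
noncomputable def r685 : Tr := .c 3 q110 (.c 4 q110 (.c 5 q114 (.c 9 q115 .e)))
noncomputable def r686 : Tr := .c 3 q111 (.c 5 q114 (.c 8 q47 (.c 9 q115 .e)))
noncomputable def t200 : Tr := .c 0 r684 (.c 1 r685 (.c 2 r686 (.c 6 r633 (.c 7 r634 .e))))
noncomputable def r687 : Tr := .c 3 q112 (.c 4 q115 (.c 5 q112 (.c 9 q167 .e)))
noncomputable def r688 : Tr := .c 3 q113 (.c 5 q113 (.c 8 q170 (.c 9 q171 .e)))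
noncomputable def r689 : Tr := .c 0 q11 (.c 1 q11 (.c 8 q170 (.c 9 q171 .e)))
noncomputable def r690 : Tr := .c 0 q11 (.c 1 q11 (.c 2 q47 (.c 8 q170 .e)))
noncomputable def t201 : Tr := .c 1 r687 (.c 2 r688 (.c 4 r689 (.c 5 r690 .e)))
noncomputable def r691 : Tr := .c 0 q2 (.c 1 q1 (.c 8 q180 (.c 9 q183 .e)))
noncomputable def r692 : Tr := .c 0 q2 (.c 1 q1 (.c 8 q180 .e))
noncomputable def t202 : Tr := .c 4 r691 (.c 5 r692 (.c 7 r662 .e))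
noncomputable def r693 : Tr := .c 1 q1 (.c 8 q180 (.c 9 q183 .e))
noncomputable def t203 : Tr := .c 3 r693 (.c 4 r691 (.c 5 r692 (.c 6 r664 .e)))
noncomputable def r694 : Tr := .c 1 q27 (.c 8 q184 (.c 9 q171 .e))
noncomputable def r695 : Tr := .c 0 q29 (.c 1 q27 (.c 8 q184 .e))
noncomputable def t204 : Tr := .c 3 r694 (.c 5 r695 (.c 6 r667 (.c 7 r668 .e)))
noncomputable def r696 : Tr := .c 3 q101 (.c 5 q108 (.c 9 q171 .e))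
noncomputable def r697 : Tr := .c 3 q122 (.c 5 q164 (.c 8 q180 (.c 9 q183 .e)))
noncomputable def t205 : Tr := .c 1 r696 (.c 2 r697 (.c 7 r662 .e))
noncomputable def r698 : Tr := .c 5 q108 (.c 8 q184 (.c 9 q171 .e))
noncomputable def r699 : Tr := .c 3 q108 (.c 5 q108 (.c 9 q171 .e))
noncomputable def t206 : Tr := .c 0 r698 (.c 1 r699 (.c 6 r667 (.c 7 r668 .e)))
noncomputable def r700 : Tr := .c 3 q113 (.c 5 q113 (.c 9 q171 .e))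
noncomputable def r701 : Tr := .c 3 q127 (.c 5 q127 (.c 8 q180 (.c 9 q183 .e)))
noncomputable def r702 : Tr := .c 0 q3 (.c 1 q3 (.c 8 q180 (.c 9 q183 .e)))
noncomputable def r703 : Tr := .c 0 q3 (.c 1 q3 (.c 8 q180 .e))
noncomputable def t207 : Tr := .c 1 r700 (.c 2 r701 (.c 4 r702 (.c 5 r703 .e)))
noncomputable def r704 : Tr := .c 5 q127 (.c 8 q180 (.c 9 q183 .e))
noncomputable def r705 : Tr := .c 1 q3 (.c 8 q180 (.c 9 q183 .e))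
noncomputable def t208 : Tr := .c 0 r704 (.c 2 r701 (.c 3 r705 (.c 4 r702 (.c 5 r703 .e))))
noncomputable def q186 : Tr := .c 0 v0 (.c 2 v0 (.c 3 v0 (.c 4 v0 .e)))
noncomputable def q187 : Tr := .c 0 v2 (.c 2 v2 (.c 3 v2 (.c 4 v2 .e)))
noncomputable def q188 : Tr := .c 0 v1 (.c 2 v1 (.c 3 v1 (.c 4 v1 .e)))
noncomputable def r706 : Tr := .c 4 q134 (.c 5 q156 (.c 7 q186 (.c 8 q187 (.c 9 q188 .e))))
noncomputable def r707 : Tr := .c 3 q103 (.c 4 q134 (.c 5 q156 (.c 6 q172 (.c 9 q188 .e))))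
noncomputable def r708 : Tr := .c 1 q74 (.c 2 q89 (.c 4 q134 (.c 5 q156 (.c 8 q187 (.c 9 q188 .e)))))
noncomputable def r709 : Tr := .c 0 q41 (.c 2 q89 (.c 3 q103 (.c 4 q134 (.c 5 q156 (.c 9 q188 .e)))))
noncomputable def t209 : Tr := .c 0 r706 (.c 1 r707 (.c 6 r708 (.c 7 r709 .e)))
noncomputable def q189 : Tr := .c 0 v0 (.c 3 v0 (.c 5 v0 (.c 9 v0 .e)))
noncomputable def q190 : Tr := .c 0 v0 (.c 3 v0 (.c 5 v0 .e))
noncomputable def q191 : Tr := .c 0 v1 (.c 3 v1 .e)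
noncomputable def r710 : Tr := .c 4 q138 (.c 5 q149 (.c 7 q189 (.c 8 q190 (.c 9 q191 .e))))
noncomputable def r711 : Tr := .c 3 q67 (.c 4 q138 (.c 5 q149 (.c 6 q42 (.c 9 q191 .e))))
noncomputable def r712 : Tr := .c 3 q58 (.c 5 q149 (.c 6 q20 (.c 7 q189 (.c 8 q190 (.c 9 q191 .e)))))
noncomputable def r713 : Tr := .c 1 q66 (.c 2 q70 (.c 4 q138 (.c 5 q149 (.c 8 q190 (.c 9 q191 .e)))))
noncomputable def r714 : Tr := .c 0 q42 (.c 2 q70 (.c 3 q67 (.c 4 q138 (.c 5 q149 (.c 9 q191 .e)))))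
noncomputable def t210 : Tr := .c 0 r710 (.c 1 r711 (.c 2 r712 (.c 6 r713 (.c 7 r714 .e))))
noncomputable def q192 : Tr := .c 0 v0 (.c 2 v0 (.c 3 v0 (.c 4 v0 (.c 5 v0 .e))))
noncomputable def r715 : Tr := .c 4 q140 (.c 5 q160 (.c 7 q192 (.c 8 q192 (.c 9 q186 .e))))
noncomputable def r716 : Tr := .c 3 q119 (.c 5 q160 (.c 6 q180 (.c 7 q192 (.c 8 q192 (.c 9 q186 .e)))))
noncomputable def r717 : Tr := .c 1 q64 (.c 2 q68 (.c 7 q192 (.c 8 q192 (.c 9 q186 .e))))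
noncomputable def r718 : Tr := .c 0 q3 (.c 1 q64 (.c 6 q180 (.c 7 q192 (.c 8 q192 (.c 9 q186 .e)))))
noncomputable def r719 : Tr := .c 0 q3 (.c 1 q64 (.c 2 q68 (.c 6 q180 (.c 7 q192 (.c 8 q192 .e)))))
noncomputable def t211 : Tr := .c 0 r715 (.c 2 r716 (.c 3 r717 (.c 4 r718 (.c 5 r719 .e))))
noncomputable def q193 : Tr := .c 0 v0 (.c 2 v0 (.c 3 v0 (.c 4 v0 (.c 5 v0 (.c 9 v0 .e)))))
noncomputable def r720 : Tr := .c 4 q145 (.c 5 q160 (.c 7 q193 (.c 8 q192 (.c 9 q186 .e))))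
noncomputable def r721 : Tr := .c 3 q118 (.c 5 q160 (.c 6 q179 (.c 7 q193 (.c 8 q192 (.c 9 q186 .e)))))
noncomputable def r722 : Tr := .c 1 q53 (.c 2 q66 (.c 7 q193 (.c 8 q192 (.c 9 q186 .e))))
noncomputable def r723 : Tr := .c 0 q1 (.c 1 q53 (.c 6 q179 (.c 7 q193 (.c 8 q192 (.c 9 q186 .e)))))
noncomputable def r724 : Tr := .c 0 q1 (.c 1 q53 (.c 2 q66 (.c 6 q179 (.c 7 q193 (.c 8 q192 .e)))))
noncomputable def r725 : Tr := .c 1 q53 (.c 2 q66 (.c 4 q145 (.c 5 q160 (.c 8 q192 (.c 9 q186 .e)))))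
noncomputable def t212 : Tr := .c 0 r720 (.c 2 r721 (.c 3 r722 (.c 4 r723 (.c 5 r724 (.c 6 r725 .e)))))
noncomputable def r726 : Tr := .c 1 q66 (.c 2 q70 (.c 7 q189 (.c 8 q190 (.c 9 q191 .e))))
noncomputable def r727 : Tr := .c 0 q20 (.c 1 q66 (.c 6 q20 (.c 7 q189 (.c 8 q190 (.c 9 q191 .e)))))
noncomputable def t213 : Tr := .c 0 r710 (.c 1 r711 (.c 2 r712 (.c 3 r726 (.c 4 r727 (.c 6 r713 (.c 7 r714 .e))))))
noncomputable def r728 : Tr := .c 3 q102 (.c 4 q138 (.c 6 q169 .e))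
noncomputable def r729 : Tr := .c 3 q118 (.c 6 q179 (.c 7 q193 (.c 8 q192 .e)))
noncomputable def r730 : Tr := .c 0 q33 (.c 2 q70 (.c 3 q102 (.c 4 q138 .e)))
noncomputable def t214 : Tr := .c 1 r728 (.c 2 r729 (.c 7 r730 .e))
noncomputable def r731 : Tr := .c 4 q138 (.c 7 q189 (.c 8 q190 .e))
noncomputable def r732 : Tr := .c 3 q67 (.c 4 q138 (.c 6 q42 .e))
noncomputable def r733 : Tr := .c 3 q58 (.c 6 q20 (.c 7 q189 (.c 8 q190 .e)))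
noncomputable def r734 : Tr := .c 1 q66 (.c 2 q70 (.c 4 q138 (.c 8 q190 .e)))
noncomputable def r735 : Tr := .c 0 q42 (.c 2 q70 (.c 3 q67 (.c 4 q138 .e)))
noncomputable def t215 : Tr := .c 0 r731 (.c 1 r732 (.c 2 r733 (.c 6 r734 (.c 7 r735 .e))))
noncomputable def r736 : Tr := .c 3 q103 (.c 4 q149 (.c 6 q170 .e))
noncomputable def r737 : Tr := .c 3 q119 (.c 6 q180 (.c 7 q192 (.c 8 q192 .e)))
noncomputable def r738 : Tr := .c 0 q3 (.c 1 q64 (.c 6 q180 (.c 7 q192 (.c 8 q192 .e))))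
noncomputable def t216 : Tr := .c 1 r736 (.c 2 r737 (.c 4 r738 (.c 5 r719 .e)))
noncomputable def r739 : Tr := .c 4 q140 (.c 7 q192 (.c 8 q192 .e))
noncomputable def r740 : Tr := .c 1 q64 (.c 2 q68 (.c 7 q192 (.c 8 q192 .e)))
noncomputable def t217 : Tr := .c 0 r739 (.c 2 r737 (.c 3 r740 (.c 4 r738 (.c 5 r719 .e))))
noncomputable def r741 : Tr := .c 4 q145 (.c 7 q193 (.c 8 q192 .e))
noncomputable def r742 : Tr := .c 1 q53 (.c 2 q66 (.c 7 q193 (.c 8 q192 .e)))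
noncomputable def r743 : Tr := .c 0 q1 (.c 1 q53 (.c 6 q179 (.c 7 q193 (.c 8 q192 .e))))
noncomputable def r744 : Tr := .c 1 q53 (.c 2 q66 (.c 4 q145 (.c 8 q192 .e)))
noncomputable def t218 : Tr := .c 0 r741 (.c 2 r729 (.c 3 r742 (.c 4 r743 (.c 5 r724 (.c 6 r744 .e)))))
noncomputable def r745 : Tr := .c 1 q66 (.c 2 q70 (.c 7 q189 (.c 8 q190 .e)))
noncomputable def r746 : Tr := .c 0 q20 (.c 1 q66 (.c 6 q20 (.c 7 q189 (.c 8 q190 .e))))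
noncomputable def t219 : Tr := .c 0 r731 (.c 1 r732 (.c 2 r733 (.c 3 r745 (.c 4 r746 (.c 6 r734 (.c 7 r735 .e))))))
noncomputable def t220 : Tr := .c 3 r722 (.c 4 r723 (.c 5 r724 (.c 6 r725 .e)))
noncomputable def r747 : Tr := .c 1 q60 (.c 2 q69 (.c 7 q186 (.c 8 q186 (.c 9 q188 .e))))
noncomputable def r748 : Tr := .c 0 q27 (.c 1 q60 (.c 2 q69 (.c 6 q184 (.c 7 q186 (.c 8 q186 .e)))))
noncomputable def r749 : Tr := .c 1 q60 (.c 2 q69 (.c 4 q134 (.c 5 q156 (.c 8 q186 (.c 9 q188 .e)))))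
noncomputable def r750 : Tr := .c 0 q38 (.c 2 q69 (.c 3 q103 (.c 4 q134 (.c 5 q156 (.c 9 q188 .e)))))
noncomputable def t221 : Tr := .c 3 r747 (.c 5 r748 (.c 6 r749 (.c 7 r750 .e)))
noncomputable def r751 : Tr := .c 0 q33 (.c 2 q70 (.c 3 q102 (.c 4 q153 .e)))
noncomputable def t222 : Tr := .c 4 r743 (.c 5 r724 (.c 7 r751 .e))
noncomputable def t223 : Tr := .c 3 r742 (.c 4 r743 (.c 5 r724 (.c 6 r744 .e)))
noncomputable def r752 : Tr := .c 0 q33 (.c 3 q102 (.c 5 q156 (.c 9 q188 .e)))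
noncomputable def t224 : Tr := .c 4 r723 (.c 5 r743 (.c 7 r752 .e))
noncomputable def r753 : Tr := .c 1 q53 (.c 7 q193 (.c 8 q192 (.c 9 q186 .e)))
noncomputable def r754 : Tr := .c 1 q53 (.c 5 q160 (.c 8 q192 (.c 9 q186 .e)))
noncomputable def t225 : Tr := .c 3 r753 (.c 4 r723 (.c 5 r743 (.c 6 r754 .e)))
noncomputable def r755 : Tr := .c 1 q60 (.c 7 q186 (.c 8 q186 (.c 9 q188 .e)))
noncomputable def r756 : Tr := .c 0 q27 (.c 1 q60 (.c 6 q184 (.c 7 q186 (.c 8 q186 .e))))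
noncomputable def r757 : Tr := .c 1 q60 (.c 5 q156 (.c 8 q186 (.c 9 q188 .e)))
noncomputable def r758 : Tr := .c 0 q38 (.c 3 q103 (.c 5 q156 (.c 9 q188 .e)))
noncomputable def t226 : Tr := .c 3 r755 (.c 5 r756 (.c 6 r757 (.c 7 r758 .e)))
noncomputable def r759 : Tr := .c 3 q103 (.c 5 q156 (.c 6 q170 (.c 9 q188 .e)))
noncomputable def t227 : Tr := .c 1 r759 (.c 2 r716 (.c 4 r718 (.c 5 r738 .e)))
noncomputable def r760 : Tr := .c 5 q160 (.c 7 q192 (.c 8 q192 (.c 9 q186 .e)))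
noncomputable def r761 : Tr := .c 1 q64 (.c 7 q192 (.c 8 q192 (.c 9 q186 .e)))
noncomputable def t228 : Tr := .c 0 r760 (.c 2 r716 (.c 3 r761 (.c 4 r718 (.c 5 r738 .e))))
noncomputable def r762 : Tr := .c 5 q160 (.c 7 q193 (.c 8 q192 (.c 9 q186 .e)))
noncomputable def t229 : Tr := .c 0 r762 (.c 2 r721 (.c 3 r753 (.c 4 r723 (.c 5 r743 (.c 6 r754 .e)))))
noncomputable def r763 : Tr := .c 0 q1 (.c 1 q53 (.c 8 q192 (.c 9 q186 .e)))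
noncomputable def r764 : Tr := .c 0 q1 (.c 1 q53 (.c 8 q192 .e))
noncomputable def t230 : Tr := .c 4 r763 (.c 5 r764 (.c 7 r752 .e))
noncomputable def r765 : Tr := .c 1 q53 (.c 8 q192 (.c 9 q186 .e))
noncomputable def t231 : Tr := .c 3 r765 (.c 4 r763 (.c 5 r764 (.c 6 r754 .e)))
noncomputable def r766 : Tr := .c 1 q60 (.c 8 q186 (.c 9 q188 .e))
noncomputable def r767 : Tr := .c 0 q27 (.c 1 q60 (.c 8 q186 .e))
noncomputable def t232 : Tr := .c 3 r766 (.c 5 r767 (.c 6 r757 (.c 7 r758 .e)))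
noncomputable def r768 : Tr := .c 3 q102 (.c 5 q156 (.c 9 q188 .e))
noncomputable def r769 : Tr := .c 3 q123 (.c 5 q160 (.c 8 q192 (.c 9 q186 .e)))
noncomputable def t233 : Tr := .c 1 r768 (.c 2 r769 (.c 7 r752 .e))
noncomputable def r770 : Tr := .c 5 q156 (.c 8 q186 (.c 9 q188 .e))
noncomputable def r771 : Tr := .c 3 q103 (.c 5 q156 (.c 9 q188 .e))
noncomputable def t234 : Tr := .c 0 r770 (.c 1 r771 (.c 6 r757 (.c 7 r758 .e)))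
noncomputable def r772 : Tr := .c 3 q119 (.c 5 q160 (.c 8 q192 (.c 9 q186 .e)))
noncomputable def r773 : Tr := .c 0 q3 (.c 1 q64 (.c 8 q192 (.c 9 q186 .e)))
noncomputable def r774 : Tr := .c 0 q3 (.c 1 q64 (.c 8 q192 .e))
noncomputable def t235 : Tr := .c 1 r771 (.c 2 r772 (.c 4 r773 (.c 5 r774 .e)))
noncomputable def r775 : Tr := .c 5 q160 (.c 8 q192 (.c 9 q186 .e))
noncomputable def r776 : Tr := .c 1 q64 (.c 8 q192 (.c 9 q186 .e))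
noncomputable def t236 : Tr := .c 0 r775 (.c 2 r772 (.c 3 r776 (.c 4 r773 (.c 5 r774 .e))))
noncomputable def q194 : Tr := .c 0 v2 (.c 2 v2 (.c 3 v2 (.c 4 v2 (.c 6 v2 .e))))
noncomputable def q195 : Tr := .c 0 v1 (.c 2 v1 (.c 3 v1 (.c 4 v1 (.c 6 v1 .e))))
noncomputable def r777 : Tr := .c 4 q135 (.c 5 q157 (.c 7 q187 (.c 8 q194 (.c 9 q195 .e))))
noncomputable def r778 : Tr := .c 3 q103 (.c 4 q135 (.c 5 q157 (.c 6 q172 (.c 9 q195 .e))))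
noncomputable def r779 : Tr := .c 0 q38 (.c 2 q59 (.c 3 q103 (.c 4 q135 (.c 5 q157 (.c 6 q172 .e)))))
noncomputable def r780 : Tr := .c 0 q27 (.c 1 q55 (.c 2 q59 (.c 3 q119 (.c 4 q135 (.c 6 q184 (.c 7 q186 .e))))))
noncomputable def t237 : Tr := .c 0 r777 (.c 1 r778 (.c 8 r779 (.c 9 r780 .e)))
noncomputable def q196 : Tr := .c 0 v0 (.c 3 v0 (.c 5 v0 (.c 6 v0 .e)))
noncomputable def q197 : Tr := .c 0 v1 (.c 3 v1 (.c 6 v1 .e))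
noncomputable def r781 : Tr := .c 4 q135 (.c 5 q135 (.c 7 q190 (.c 8 q196 (.c 9 q197 .e))))
noncomputable def r782 : Tr := .c 4 q135 (.c 5 q135 (.c 6 q47 (.c 9 q197 .e)))
noncomputable def r783 : Tr := .c 5 q135 (.c 6 q21 (.c 7 q190 (.c 8 q196 (.c 9 q197 .e))))
noncomputable def r784 : Tr := .c 0 q47 (.c 2 q73 (.c 4 q135 (.c 5 q135 (.c 6 q47 .e))))
noncomputable def t238 : Tr := .c 0 r781 (.c 1 r782 (.c 2 r783 (.c 8 r784 .e)))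
noncomputable def q198 : Tr := .c 0 v0 (.c 2 v0 (.c 3 v0 (.c 4 v0 (.c 5 v0 (.c 6 v0 .e)))))
noncomputable def q199 : Tr := .c 0 v0 (.c 2 v0 (.c 3 v0 (.c 4 v0 (.c 6 v0 .e))))
noncomputable def r785 : Tr := .c 4 q141 (.c 5 q161 (.c 7 q192 (.c 8 q198 (.c 9 q199 .e))))
noncomputable def r786 : Tr := .c 3 q119 (.c 5 q161 (.c 6 q180 (.c 7 q192 (.c 8 q198 (.c 9 q199 .e)))))
noncomputable def r787 : Tr := .c 1 q54 (.c 2 q65 (.c 7 q192 (.c 8 q198 (.c 9 q199 .e))))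
noncomputable def r788 : Tr := .c 0 q3 (.c 1 q54 (.c 6 q180 (.c 7 q192 (.c 8 q198 (.c 9 q199 .e)))))
noncomputable def r789 : Tr := .c 0 q3 (.c 1 q54 (.c 2 q65 (.c 6 q180 (.c 7 q192 (.c 8 q198 .e)))))
noncomputable def r790 : Tr := .c 0 q3 (.c 1 q54 (.c 2 q65 (.c 3 q119 (.c 4 q154 (.c 6 q180 (.c 7 q192 .e))))))
noncomputable def t239 : Tr := .c 0 r785 (.c 2 r786 (.c 3 r787 (.c 4 r788 (.c 5 r789 (.c 9 r790 .e)))))
noncomputable def r791 : Tr := .c 4 q134 (.c 5 q160 (.c 7 q192 (.c 8 q192 (.c 9 q186 .e))))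
noncomputable def t240 : Tr := .c 0 r791 (.c 2 r716 (.c 3 r717 (.c 4 r718 (.c 5 r719 .e))))
noncomputable def r792 : Tr := .c 4 q149 (.c 5 q149 (.c 7 q190 (.c 8 q190 (.c 9 q191 .e))))
noncomputable def r793 : Tr := .c 4 q149 (.c 5 q149 (.c 6 q47 (.c 9 q191 .e)))
noncomputable def r794 : Tr := .c 5 q149 (.c 6 q21 (.c 7 q190 (.c 8 q190 (.c 9 q191 .e))))
noncomputable def r795 : Tr := .c 1 q68 (.c 2 q88 (.c 7 q190 (.c 8 q190 (.c 9 q191 .e))))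
noncomputable def r796 : Tr := .c 0 q21 (.c 1 q68 (.c 6 q21 (.c 7 q190 (.c 8 q190 (.c 9 q191 .e)))))
noncomputable def t241 : Tr := .c 0 r792 (.c 1 r793 (.c 2 r794 (.c 3 r795 (.c 4 r796 .e))))
noncomputable def r797 : Tr := .c 3 q103 (.c 4 q135 (.c 6 q170 .e))
noncomputable def r798 : Tr := .c 3 q119 (.c 6 q180 (.c 7 q192 (.c 8 q198 .e)))
noncomputable def r799 : Tr := .c 0 q11 (.c 2 q73 (.c 3 q103 (.c 4 q135 (.c 6 q170 .e))))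
noncomputable def t242 : Tr := .c 1 r797 (.c 2 r798 (.c 8 r799 (.c 9 r790 .e)))
noncomputable def r800 : Tr := .c 4 q135 (.c 7 q190 (.c 8 q196 .e))
noncomputable def r801 : Tr := .c 4 q135 (.c 6 q47 .e)
noncomputable def r802 : Tr := .c 6 q21 (.c 7 q190 (.c 8 q196 .e))
noncomputable def r803 : Tr := .c 0 q47 (.c 2 q73 (.c 4 q135 (.c 6 q47 .e)))
noncomputable def t243 : Tr := .c 0 r800 (.c 1 r801 (.c 2 r802 (.c 8 r803 .e)))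
noncomputable def r804 : Tr := .c 0 q3 (.c 1 q54 (.c 6 q180 (.c 7 q192 (.c 8 q198 .e))))
noncomputable def t244 : Tr := .c 1 r797 (.c 2 r798 (.c 4 r804 (.c 5 r789 (.c 8 r799 (.c 9 r790 .e)))))
noncomputable def r805 : Tr := .c 4 q141 (.c 7 q192 (.c 8 q198 .e))
noncomputable def r806 : Tr := .c 1 q54 (.c 2 q65 (.c 7 q192 (.c 8 q198 .e)))
noncomputable def t245 : Tr := .c 0 r805 (.c 2 r798 (.c 3 r806 (.c 4 r804 (.c 5 r789 (.c 9 r790 .e)))))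
noncomputable def r807 : Tr := .c 4 q134 (.c 7 q192 (.c 8 q192 .e))
noncomputable def t246 : Tr := .c 0 r807 (.c 2 r737 (.c 3 r740 (.c 4 r738 (.c 5 r719 .e))))
noncomputable def r808 : Tr := .c 4 q149 (.c 7 q190 (.c 8 q190 .e))
noncomputable def r809 : Tr := .c 4 q149 (.c 6 q47 .e)
noncomputable def r810 : Tr := .c 6 q21 (.c 7 q190 (.c 8 q190 .e))
noncomputable def r811 : Tr := .c 1 q68 (.c 2 q88 (.c 7 q190 (.c 8 q190 .e)))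
noncomputable def r812 : Tr := .c 0 q21 (.c 1 q68 (.c 6 q21 (.c 7 q190 (.c 8 q190 .e))))
noncomputable def t247 : Tr := .c 0 r808 (.c 1 r809 (.c 2 r810 (.c 3 r811 (.c 4 r812 .e))))
noncomputable def t248 : Tr := .c 3 r787 (.c 4 r788 (.c 5 r789 (.c 9 r790 .e)))
noncomputable def r813 : Tr := .c 1 q55 (.c 2 q59 (.c 7 q186 (.c 8 q199 (.c 9 q195 .e))))
noncomputable def r814 : Tr := .c 0 q27 (.c 1 q55 (.c 2 q59 (.c 6 q184 (.c 7 q186 (.c 8 q199 .e)))))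
noncomputable def t249 : Tr := .c 3 r813 (.c 5 r814 (.c 8 r779 (.c 9 r780 .e)))
noncomputable def t250 : Tr := .c 4 r804 (.c 5 r789 (.c 8 r799 (.c 9 r790 .e)))
noncomputable def t251 : Tr := .c 3 r806 (.c 4 r804 (.c 5 r789 (.c 9 r790 .e)))
noncomputable def r815 : Tr := .c 0 q11 (.c 3 q103 (.c 5 q157 (.c 6 q170 .e)))
noncomputable def r816 : Tr := .c 0 q3 (.c 1 q54 (.c 3 q119 (.c 6 q180 (.c 7 q192 .e))))
noncomputable def t252 : Tr := .c 4 r788 (.c 5 r804 (.c 8 r815 (.c 9 r816 .e)))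
noncomputable def r817 : Tr := .c 1 q54 (.c 7 q192 (.c 8 q198 (.c 9 q199 .e)))
noncomputable def t253 : Tr := .c 3 r817 (.c 4 r788 (.c 5 r804 (.c 9 r816 .e)))
noncomputable def r818 : Tr := .c 1 q55 (.c 7 q186 (.c 8 q199 (.c 9 q195 .e)))
noncomputable def r819 : Tr := .c 0 q27 (.c 1 q55 (.c 6 q184 (.c 7 q186 (.c 8 q199 .e))))
noncomputable def r820 : Tr := .c 0 q38 (.c 3 q103 (.c 5 q157 (.c 6 q172 .e)))
noncomputable def r821 : Tr := .c 0 q27 (.c 1 q55 (.c 3 q119 (.c 6 q184 (.c 7 q186 .e))))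
noncomputable def t254 : Tr := .c 3 r818 (.c 5 r819 (.c 8 r820 (.c 9 r821 .e)))
noncomputable def r822 : Tr := .c 3 q103 (.c 5 q157 (.c 6 q170 (.c 9 q195 .e)))
noncomputable def t255 : Tr := .c 1 r822 (.c 2 r786 (.c 4 r788 (.c 5 r804 (.c 8 r815 (.c 9 r816 .e)))))
noncomputable def r823 : Tr := .c 5 q161 (.c 7 q192 (.c 8 q198 (.c 9 q199 .e)))
noncomputable def t256 : Tr := .c 0 r823 (.c 2 r786 (.c 3 r817 (.c 4 r788 (.c 5 r804 (.c 9 r816 .e)))))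
noncomputable def r824 : Tr := .c 1 q54 (.c 2 q65 (.c 7 q192 .e))
noncomputable def r825 : Tr := .c 0 q3 (.c 1 q54 (.c 6 q180 (.c 7 q192 .e)))
noncomputable def r826 : Tr := .c 0 q3 (.c 1 q54 (.c 2 q65 (.c 6 q180 (.c 7 q192 .e))))
noncomputable def t257 : Tr := .c 3 r824 (.c 4 r825 (.c 5 r826 (.c 9 r790 .e)))
noncomputable def r827 : Tr := .c 1 q55 (.c 2 q59 (.c 7 q186 .e))
noncomputable def r828 : Tr := .c 0 q27 (.c 1 q55 (.c 2 q59 (.c 6 q184 (.c 7 q186 .e))))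
noncomputable def t258 : Tr := .c 3 r827 (.c 5 r828 (.c 8 r779 (.c 9 r780 .e)))
noncomputable def r829 : Tr := .c 4 q135 (.c 5 q157 (.c 7 q187 .e))
noncomputable def r830 : Tr := .c 3 q103 (.c 4 q135 (.c 5 q157 (.c 6 q172 .e)))
noncomputable def t259 : Tr := .c 0 r829 (.c 1 r830 (.c 8 r779 (.c 9 r780 .e)))
noncomputable def r831 : Tr := .c 4 q135 (.c 5 q135 (.c 7 q190 .e))
noncomputable def r832 : Tr := .c 4 q135 (.c 5 q135 (.c 6 q47 .e))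
noncomputable def r833 : Tr := .c 5 q135 (.c 6 q21 (.c 7 q190 .e))
noncomputable def t260 : Tr := .c 0 r831 (.c 1 r832 (.c 2 r833 (.c 8 r784 .e)))
noncomputable def r834 : Tr := .c 4 q134 (.c 5 q160 (.c 7 q192 .e))
noncomputable def r835 : Tr := .c 3 q119 (.c 5 q160 (.c 6 q180 (.c 7 q192 .e)))
noncomputable def r836 : Tr := .c 1 q64 (.c 2 q68 (.c 7 q192 .e))
noncomputable def r837 : Tr := .c 0 q3 (.c 1 q64 (.c 6 q180 (.c 7 q192 .e)))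
noncomputable def r838 : Tr := .c 0 q3 (.c 1 q64 (.c 2 q68 (.c 6 q180 (.c 7 q192 .e))))
noncomputable def t261 : Tr := .c 0 r834 (.c 2 r835 (.c 3 r836 (.c 4 r837 (.c 5 r838 .e))))
noncomputable def r839 : Tr := .c 4 q149 (.c 5 q149 (.c 7 q190 .e))
noncomputable def r840 : Tr := .c 4 q149 (.c 5 q149 (.c 6 q47 .e))
noncomputable def r841 : Tr := .c 5 q149 (.c 6 q21 (.c 7 q190 .e))
noncomputable def r842 : Tr := .c 1 q68 (.c 2 q88 (.c 7 q190 .e))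
noncomputable def r843 : Tr := .c 0 q21 (.c 1 q68 (.c 6 q21 (.c 7 q190 .e)))
noncomputable def t262 : Tr := .c 0 r839 (.c 1 r840 (.c 2 r841 (.c 3 r842 (.c 4 r843 .e))))
noncomputable def q200 : Tr := .c 0 v2 (.c 1 v2 (.c 2 v2 (.c 3 v2 (.c 4 v2 (.c 6 v2 (.c 7 v2 .e))))))
noncomputable def r844 : Tr := .c 4 q136 (.c 5 q158 (.c 7 q188 (.c 8 q195 (.c 9 q200 .e))))
noncomputable def r845 : Tr := .c 3 q98 (.c 4 q136 (.c 5 q158 (.c 6 q167 (.c 9 q200 .e))))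
noncomputable def r846 : Tr := .c 0 q46 (.c 2 q81 (.c 3 q98 (.c 4 q136 (.c 5 q158 (.c 6 q167 .e)))))
noncomputable def r847 : Tr := .c 0 q25 (.c 1 q61 (.c 2 q81 (.c 3 q104 (.c 4 q136 (.c 6 q171 (.c 7 q188 .e))))))
noncomputable def t263 : Tr := .c 0 r844 (.c 1 r845 (.c 8 r846 (.c 9 r847 .e)))
noncomputable def q201 : Tr := .c 0 v2 (.c 1 v2 (.c 3 v2 (.c 6 v2 (.c 7 v2 .e))))
noncomputable def r848 : Tr := .c 4 q136 (.c 5 q136 (.c 7 q191 (.c 8 q197 (.c 9 q201 .e))))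
noncomputable def r849 : Tr := .c 3 q109 (.c 4 q136 (.c 5 q136 (.c 6 q115 (.c 9 q201 .e))))
noncomputable def r850 : Tr := .c 0 q10 (.c 2 q81 (.c 3 q109 (.c 4 q136 (.c 5 q136 (.c 6 q115 .e)))))
noncomputable def t264 : Tr := .c 0 r848 (.c 1 r849 (.c 8 r850 .e))
noncomputable def q202 : Tr := .c 0 v1 (.c 1 v1 (.c 2 v1 (.c 3 v1 (.c 4 v1 (.c 6 v1 (.c 7 v1 .e))))))
noncomputable def r851 : Tr := .c 4 q139 (.c 5 q159 (.c 7 q186 (.c 8 q199 (.c 9 q202 .e))))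
noncomputable def r852 : Tr := .c 1 q55 (.c 2 q77 (.c 7 q186 (.c 8 q199 (.c 9 q202 .e))))
noncomputable def r853 : Tr := .c 0 q23 (.c 1 q55 (.c 2 q77 (.c 6 q183 (.c 7 q186 (.c 8 q199 .e)))))
noncomputable def r854 : Tr := .c 0 q23 (.c 1 q55 (.c 2 q77 (.c 3 q126 (.c 4 q139 (.c 6 q183 (.c 7 q186 .e))))))
noncomputable def t265 : Tr := .c 0 r851 (.c 3 r852 (.c 5 r853 (.c 9 r854 .e)))
noncomputable def q203 : Tr := .c 0 v1 (.c 1 v1 (.c 2 v1 (.c 3 v1 (.c 4 v1 .e))))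
noncomputable def r855 : Tr := .c 4 q146 (.c 5 q163 (.c 7 q186 (.c 8 q186 (.c 9 q203 .e))))
noncomputable def r856 : Tr := .c 1 q60 (.c 2 q69 (.c 7 q186 (.c 8 q186 (.c 9 q203 .e))))
noncomputable def r857 : Tr := .c 0 q27 (.c 1 q60 (.c 2 q69 (.c 6 q183 (.c 7 q186 (.c 8 q186 .e)))))
noncomputable def t266 : Tr := .c 0 r855 (.c 3 r856 (.c 5 r857 .e))
noncomputable def q204 : Tr := .c 0 v2 (.c 1 v2 (.c 3 v2 .e))
noncomputable def r858 : Tr := .c 4 q150 (.c 5 q150 (.c 7 q191 (.c 8 q191 (.c 9 q204 .e))))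
noncomputable def r859 : Tr := .c 3 q115 (.c 4 q150 (.c 5 q150 (.c 6 q115 (.c 9 q204 .e))))
noncomputable def r860 : Tr := .c 1 q69 (.c 2 q89 (.c 7 q191 (.c 8 q191 (.c 9 q204 .e))))
noncomputable def t267 : Tr := .c 0 r858 (.c 1 r859 (.c 3 r860 .e))
noncomputable def t268 : Tr := .c 1 r845 (.c 8 r846 (.c 9 r847 .e))
noncomputable def r861 : Tr := .c 0 q25 (.c 1 q61 (.c 2 q81 (.c 6 q171 (.c 7 q188 (.c 8 q195 .e)))))
noncomputable def t269 : Tr := .c 1 r845 (.c 5 r861 (.c 8 r846 (.c 9 r847 .e)))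
noncomputable def r862 : Tr := .c 3 q104 (.c 4 q136 (.c 6 q171 .e))
noncomputable def r863 : Tr := .c 0 q25 (.c 2 q81 (.c 3 q104 (.c 4 q136 (.c 6 q171 .e))))
noncomputable def t270 : Tr := .c 1 r862 (.c 8 r863 (.c 9 r854 .e))
noncomputable def r864 : Tr := .c 4 q136 (.c 7 q191 (.c 8 q197 .e))
noncomputable def r865 : Tr := .c 3 q109 (.c 4 q136 (.c 6 q115 .e))
noncomputable def r866 : Tr := .c 0 q10 (.c 2 q81 (.c 3 q109 (.c 4 q136 (.c 6 q115 .e))))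
noncomputable def t271 : Tr := .c 0 r864 (.c 1 r865 (.c 8 r866 .e))
noncomputable def t272 : Tr := .c 1 r862 (.c 5 r853 (.c 8 r863 (.c 9 r854 .e)))
noncomputable def r867 : Tr := .c 4 q139 (.c 7 q186 (.c 8 q199 .e))
noncomputable def r868 : Tr := .c 1 q55 (.c 2 q77 (.c 7 q186 (.c 8 q199 .e)))
noncomputable def t273 : Tr := .c 0 r867 (.c 3 r868 (.c 5 r853 (.c 9 r854 .e)))
noncomputable def r869 : Tr := .c 4 q146 (.c 7 q186 (.c 8 q186 .e))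
noncomputable def r870 : Tr := .c 1 q60 (.c 2 q69 (.c 7 q186 (.c 8 q186 .e)))
noncomputable def t274 : Tr := .c 0 r869 (.c 3 r870 (.c 5 r857 .e))
noncomputable def r871 : Tr := .c 4 q150 (.c 7 q191 (.c 8 q191 .e))
noncomputable def r872 : Tr := .c 3 q115 (.c 4 q150 (.c 6 q115 .e))
noncomputable def r873 : Tr := .c 1 q69 (.c 2 q89 (.c 7 q191 (.c 8 q191 .e)))
noncomputable def t275 : Tr := .c 0 r871 (.c 1 r872 (.c 3 r873 .e))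
noncomputable def t276 : Tr := .c 3 r852 (.c 5 r853 (.c 9 r854 .e))
noncomputable def r874 : Tr := .c 1 q61 (.c 2 q81 (.c 7 q188 (.c 8 q195 (.c 9 q200 .e))))
noncomputable def t277 : Tr := .c 3 r874 (.c 5 r861 (.c 8 r846 (.c 9 r847 .e)))
noncomputable def t278 : Tr := .c 5 r853 (.c 8 r863 (.c 9 r854 .e))
noncomputable def t279 : Tr := .c 3 r868 (.c 5 r853 (.c 9 r854 .e))
noncomputable def r875 : Tr := .c 1 q55 (.c 2 q77 (.c 7 q186 .e))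
noncomputable def r876 : Tr := .c 0 q23 (.c 1 q55 (.c 2 q77 (.c 6 q183 (.c 7 q186 .e))))
noncomputable def t280 : Tr := .c 3 r875 (.c 5 r876 (.c 9 r854 .e))
noncomputable def r877 : Tr := .c 1 q61 (.c 2 q81 (.c 7 q188 .e))
noncomputable def r878 : Tr := .c 0 q25 (.c 1 q61 (.c 2 q81 (.c 6 q171 (.c 7 q188 .e))))
noncomputable def t281 : Tr := .c 3 r877 (.c 5 r878 (.c 8 r846 (.c 9 r847 .e)))
noncomputable def r879 : Tr := .c 4 q136 (.c 5 q158 (.c 7 q188 .e))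
noncomputable def r880 : Tr := .c 3 q98 (.c 4 q136 (.c 5 q158 (.c 6 q167 .e)))
noncomputable def t282 : Tr := .c 0 r879 (.c 1 r880 (.c 8 r846 (.c 9 r847 .e)))
noncomputable def r881 : Tr := .c 4 q136 (.c 5 q136 (.c 7 q191 .e))
noncomputable def r882 : Tr := .c 3 q109 (.c 4 q136 (.c 5 q136 (.c 6 q115 .e)))
noncomputable def t283 : Tr := .c 0 r881 (.c 1 r882 (.c 8 r850 .e))
noncomputable def r883 : Tr := .c 4 q146 (.c 5 q163 (.c 7 q186 .e))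
noncomputable def r884 : Tr := .c 1 q60 (.c 2 q69 (.c 7 q186 .e))
noncomputable def r885 : Tr := .c 0 q27 (.c 1 q60 (.c 2 q69 (.c 6 q183 (.c 7 q186 .e))))
noncomputable def t284 : Tr := .c 0 r883 (.c 3 r884 (.c 5 r885 .e))
noncomputable def r886 : Tr := .c 4 q150 (.c 5 q150 (.c 7 q191 .e))
noncomputable def r887 : Tr := .c 3 q115 (.c 4 q150 (.c 5 q150 (.c 6 q115 .e)))
noncomputable def r888 : Tr := .c 1 q69 (.c 2 q89 (.c 7 q191 .e))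
noncomputable def t285 : Tr := .c 0 r886 (.c 1 r887 (.c 3 r888 .e))
noncomputable def t286 : Tr := .c 5 r878 (.c 8 r846 (.c 9 r847 .e))
noncomputable def t287 : Tr := .c 1 r880 (.c 8 r846 (.c 9 r847 .e))

/-- the diagram -/
noncomputable def T : Tr := (.c 0 (.c 4 (.c 0 t0 (.c 1 t1 (.c 6 t2 (.c 7 t3 (.c 8 t4 (.c 9 t5 .e)))))) (.c 5 (.c 0 t6 (.c 1
t7 (.c 2 t8 (.c 6 t9 (.c 7 t10 (.c 8 t11 .e)))))) (.c 7 (.c 0 t12 (.c 2 t13 (.c 3 t14 (.c 4 t15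
(.c 5 t16 (.c 9 t17 .e)))))) (.c 8 (.c 0 t18 (.c 2 t19 (.c 3 t20 (.c 4 t21 (.c 5 t22 (.c 6 t23
.e)))))) (.c 9 (.c 0 t24 (.c 1 t25 (.c 2 t26 (.c 3 t27 (.c 4 t28 (.c 6 t29 (.c 7 t30 .e)))))))
.e))))) (.c 1 (.c 3 (.c 1 t31 (.c 2 t32 (.c 7 t33 (.c 8 t34 (.c 9 t35 .e))))) (.c 4 (.c 0 t36
(.c 1 t37 (.c 6 t38 (.c 7 t39 (.c 8 t40 (.c 9 t41 .e)))))) (.c 5 (.c 0 t42 (.c 1 t43 (.c 2 t44
(.c 6 t45 (.c 7 t46 (.c 8 t47 .e)))))) (.c 6 (.c 1 t48 (.c 2 t49 (.c 4 t50 (.c 5 t51 (.c 8 t52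
(.c 9 t53 .e)))))) (.c 9 (.c 0 t54 (.c 1 t55 (.c 2 t56 (.c 3 t57 (.c 4 t58 (.c 6 t59 (.c 7 t60
.e))))))) .e))))) (.c 2 (.c 3 (.c 1 t61 (.c 2 t62 (.c 7 t63 (.c 8 t64 (.c 9 t65 .e))))) (.c 5
(.c 0 t66 (.c 1 t67 (.c 2 t68 (.c 6 t69 (.c 7 t70 (.c 8 t71 .e)))))) (.c 6 (.c 1 t72 (.c 2 t73
(.c 4 t74 (.c 5 t75 (.c 8 t76 (.c 9 t77 .e)))))) (.c 7 (.c 0 t78 (.c 2 t73 (.c 3 t79 (.c 4 t74
(.c 5 t75 (.c 9 t77 .e)))))) (.c 8 (.c 0 t80 (.c 2 t81 (.c 3 t82 (.c 4 t83 (.c 5 t84 (.c 6 t85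
.e)))))) (.c 9 (.c 0 t86 (.c 1 t87 (.c 2 t88 (.c 3 t89 (.c 4 t90 (.c 6 t91 (.c 7 t92 .e)))))))
.e)))))) (.c 3 (.c 1 (.c 3 t93 (.c 4 t94 (.c 5 t95 (.c 6 t96 (.c 9 t97 .e))))) (.c 2 (.c 3 t98
(.c 5 t99 (.c 6 t100 (.c 7 t101 (.c 8 t102 (.c 9 t103 .e)))))) (.c 7 (.c 0 t104 (.c 2 t105 (.c
3 t106 (.c 4 t107 (.c 5 t108 (.c 9 t109 .e)))))) (.c 8 (.c 0 t110 (.c 2 t111 (.c 3 t112 (.c 4
t113 (.c 5 t114 (.c 6 t115 .e)))))) (.c 9 (.c 0 t116 (.c 1 t117 (.c 2 t118 (.c 3 t119 (.c 4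
t120 (.c 6 t121 (.c 7 t122 .e))))))) .e))))) (.c 4 (.c 0 (.c 4 t123 (.c 5 t124 (.c 7 t125 (.c 8
t126 (.c 9 t127 .e))))) (.c 1 (.c 3 t128 (.c 4 t123 (.c 5 t124 (.c 6 t129 (.c 9 t127 .e)))))
(.c 6 (.c 1 t130 (.c 2 t131 (.c 4 t132 (.c 5 t133 (.c 8 t134 (.c 9 t135 .e)))))) (.c 7 (.c 0
t136 (.c 2 t131 (.c 3 t137 (.c 4 t132 (.c 5 t133 (.c 9 t135 .e)))))) (.c 8 (.c 0 t138 (.c 2
t139 (.c 3 t140 (.c 4 t141 (.c 5 t142 (.c 6 t143 .e)))))) (.c 9 (.c 0 t144 (.c 1 t145 (.c 2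
t146 (.c 3 t147 (.c 4 t148 (.c 6 t149 (.c 7 t150 .e))))))) .e)))))) (.c 5 (.c 0 (.c 4 t151 (.c
5 t152 (.c 7 t153 (.c 8 t154 (.c 9 t155 .e))))) (.c 1 (.c 3 t156 (.c 4 t151 (.c 5 t152 (.c 6
t157 (.c 9 t155 .e))))) (.c 2 (.c 3 t158 (.c 5 t159 (.c 6 t160 (.c 7 t161 (.c 8 t162 (.c 9 t163
.e)))))) (.c 6 (.c 1 t164 (.c 2 t165 (.c 4 t166 (.c 5 t167 (.c 8 t168 (.c 9 t169 .e)))))) (.c 7
(.c 0 t170 (.c 2 t165 (.c 3 t171 (.c 4 t166 (.c 5 t167 (.c 9 t169 .e)))))) (.c 8 (.c 0 t172 (.c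
2 t173 (.c 3 t174 (.c 4 t175 (.c 5 t141 (.c 6 t176 .e)))))) .e)))))) (.c 6 (.c 1 (.c 3 t177 (.c
4 t178 (.c 5 t179 (.c 6 t180 (.c 9 t181 .e))))) (.c 2 (.c 3 t182 (.c 5 t183 (.c 6 t184 (.c 7
t185 (.c 8 t186 (.c 9 t187 .e)))))) (.c 4 (.c 0 t188 (.c 1 t189 (.c 6 t184 (.c 7 t185 (.c 8
t186 (.c 9 t187 .e)))))) (.c 5 (.c 0 t190 (.c 1 t191 (.c 2 t192 (.c 6 t193 (.c 7 t194 (.c 8
t195 .e)))))) (.c 8 (.c 0 t196 (.c 2 t197 (.c 3 t198 (.c 4 t199 (.c 5 t200 (.c 6 t201 .e))))))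
(.c 9 (.c 0 t202 (.c 1 t203 (.c 2 t204 (.c 3 t205 (.c 4 t206 (.c 6 t207 (.c 7 t208 .e)))))))
.e)))))) (.c 7 (.c 0 (.c 4 t209 (.c 5 t210 (.c 7 t211 (.c 8 t212 (.c 9 t213 .e))))) (.c 2 (.c 3
t214 (.c 5 t215 (.c 6 t216 (.c 7 t217 (.c 8 t218 (.c 9 t219 .e)))))) (.c 3 (.c 1 t220 (.c 2
t221 (.c 7 t211 (.c 8 t212 (.c 9 t213 .e))))) (.c 4 (.c 0 t222 (.c 1 t223 (.c 6 t216 (.c 7 t217
(.c 8 t218 (.c 9 t219 .e)))))) (.c 5 (.c 0 t224 (.c 1 t225 (.c 2 t226 (.c 6 t227 (.c 7 t228 (.c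
8 t229 .e)))))) (.c 9 (.c 0 t230 (.c 1 t231 (.c 2 t232 (.c 3 t233 (.c 4 t234 (.c 6 t235 (.c 7
t236 .e))))))) .e)))))) (.c 8 (.c 0 (.c 4 t237 (.c 5 t238 (.c 7 t239 (.c 8 t240 (.c 9 t241
.e))))) (.c 2 (.c 3 t242 (.c 5 t243 (.c 6 t244 (.c 7 t245 (.c 8 t246 (.c 9 t247 .e)))))) (.c 3
(.c 1 t248 (.c 2 t249 (.c 7 t239 (.c 8 t240 (.c 9 t241 .e))))) (.c 4 (.c 0 t250 (.c 1 t251 (.c
6 t244 (.c 7 t245 (.c 8 t246 (.c 9 t247 .e)))))) (.c 5 (.c 0 t252 (.c 1 t253 (.c 2 t254 (.c 6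
t255 (.c 7 t256 (.c 8 t228 .e)))))) (.c 6 (.c 1 t257 (.c 2 t258 (.c 4 t259 (.c 5 t260 (.c 8
t261 (.c 9 t262 .e)))))) .e)))))) (.c 9 (.c 0 (.c 4 t263 (.c 5 t264 (.c 7 t265 (.c 8 t266 (.c 9
t267 .e))))) (.c 1 (.c 3 t268 (.c 4 t263 (.c 5 t264 (.c 6 t269 (.c 9 t267 .e))))) (.c 2 (.c 3
t270 (.c 5 t271 (.c 6 t272 (.c 7 t273 (.c 8 t274 (.c 9 t275 .e)))))) (.c 3 (.c 1 t276 (.c 2
t277 (.c 7 t265 (.c 8 t266 (.c 9 t267 .e))))) (.c 4 (.c 0 t278 (.c 1 t279 (.c 6 t272 (.c 7 t273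
(.c 8 t274 (.c 9 t275 .e)))))) (.c 6 (.c 1 t280 (.c 2 t281 (.c 4 t282 (.c 5 t283 (.c 8 t284 (.c
9 t285 .e)))))) (.c 7 (.c 0 t286 (.c 2 t281 (.c 3 t287 (.c 4 t282 (.c 5 t283 (.c 9 t285
.e)))))) .e))))))) .e))))))))))

theorem chk : chk [0, 0, 0, 0, 0, 1, 1, 0] 1 2 2 0 T = true := by decide +kernel

end Vale.Agent.P032.Words.Trie.BetaF8
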