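import Vale.Agent.P032.Words.H151.Beta

/-!
# BETA pair, special end near: 3Ae+3Ce+2Pd ≥ 9

Decision diagram of 36 potentials.
-/

namespace Vale.Agent.P032.Words.Trie.BetaN2

noncomputable def v0 : Tr := .l 0x1c52082491c52482481c51c5102143206188143206206143143080
noncomputable def v1 : Tr := .l 0x1472492071472092091471470840c51882060c51881880c50c5002
noncomputable def v2 : Tr := .l 0x249249249249249249249249249249249249249249249249249249
noncomputable def q0 : Tr := .c 4 v0 (.c 5 v1 (.c 7 v2 (.c 8 v1 (.c 9 v1 .e))))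
noncomputable def q1 : Tr := .c 4 v0 (.c 5 v1 (.c 9 v1 .e))
noncomputable def v3 : Tr := .l 0x2482451c92082491c52481021c52062490c5206249143206080143
noncomputable def v4 : Tr := .l 0x2092471491882491472090841471882491431882490c51880020c5
noncomputable def q2 : Tr := .c 4 v3 (.c 5 v4 (.c 8 v4 (.c 9 v4 .e)))
noncomputable def q3 : Tr := .c 4 v3 (.c 5 v4 (.c 9 v4 .e))
noncomputable def v5 : Tr := .l 0x2481492472481c52491022481c5206143249206143249080206143
noncomputable def v6 : Tr := .l 0x2091c92452091472490842091471880c52491880c52490021880c5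
noncomputable def q4 : Tr := .c 4 v5 (.c 5 v6 .e)
noncomputable def r0 : Tr := .c 0 q0 (.c 1 q1 (.c 6 q2 (.c 7 q3 (.c 8 q4 .e))))
noncomputable def v7 : Tr := .l 0x2072492491842472472071871841c52482071c52481c81c5105102
noncomputable def v8 : Tr := .l 0x1882491c71061c91c91881061061472091c5147209147147084084
noncomputable def v9 : Tr := .l 0x249249249209249249249209209249249249249249249249249249
noncomputable def q5 : Tr := .c 4 v7 (.c 5 v8 (.c 7 v9 (.c 8 v8 (.c 9 v8 .e))))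
noncomputable def q6 : Tr := .c 4 v7 (.c 5 v8 (.c 9 v8 .e))
noncomputable def v10 : Tr := .l 0x209249249188249249209188188249249249209249249249209208
noncomputable def q7 : Tr := .c 5 v8 (.c 7 v10 (.c 8 v8 (.c 9 v8 .e)))
noncomputable def v11 : Tr := .l 0x2092472491872492472091841871c82491471c82491c51c8102105
noncomputable def q8 : Tr := .c 4 v11 (.c 5 v8 (.c 8 v8 (.c 9 v8 .e)))
noncomputable def q9 : Tr := .c 4 v11 (.c 5 v8 (.c 9 v8 .e))
noncomputable def v12 : Tr := .l 0x2491c92472072472491842092072481c52492481c52491021c81c5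
noncomputable def v13 : Tr := .l 0x2091c92451881c9249106188186209147248209147209084147147
noncomputable def q10 : Tr := .c 4 v12 (.c 5 v13 .e)
noncomputable def r1 : Tr := .c 0 q5 (.c 1 q6 (.c 2 q7 (.c 6 q8 (.c 7 q9 (.c 8 q10 .e)))))
noncomputable def v14 : Tr := .l 0x188247147209249249249209209209249206249249249249249209
noncomputable def v15 : Tr := .l 0x209249249249249249209249249249249249249249249249249249
noncomputable def q11 : Tr := .c 4 v2 (.c 5 v14 (.c 7 v15 (.c 8 v14 (.c 9 v14 .e))))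
noncomputable def v16 : Tr := .l 0x1061c91c51882492492091881881881c9248209249249249209188
noncomputable def v17 : Tr := .l 0x188249247209249249249209209209249249249249249249249209
noncomputable def q12 : Tr := .c 5 v16 (.c 7 v17 (.c 8 v16 (.c 9 v16 .e)))
noncomputable def q13 : Tr := .c 7 v15 (.c 8 v14 (.c 9 v14 .e))
noncomputable def q14 : Tr := .c 7 v17 (.c 8 v16 (.c 9 v16 .e))
noncomputable def r2 : Tr := .c 0 q11 (.c 2 q12 (.c 3 q13 (.c 4 q14 .e)))
noncomputable def q15 : Tr := .c 7 v9 (.c 8 v8 (.c 9 v8 .e))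
noncomputable def q16 : Tr := .c 7 v10 (.c 8 v8 (.c 9 v8 .e))
noncomputable def r3 : Tr := .c 0 q5 (.c 2 q7 (.c 3 q15 (.c 4 q16 (.c 6 q8 .e))))
noncomputable def r4 : Tr := .c 0 q5 (.c 1 q6 (.c 2 q7 (.c 3 q15 (.c 4 q16 (.c 6 q8 (.c 7 q9 .e))))))
noncomputable def t0 : Tr := .c 4 r0 (.c 5 r1 (.c 7 r2 (.c 8 r3 (.c 9 r4 .e))))
noncomputable def r5 : Tr := .c 1 q6 (.c 2 q7 (.c 7 q9 (.c 8 q10 .e)))
noncomputable def r6 : Tr := .c 1 q6 (.c 2 q7 (.c 4 q16 (.c 8 q10 .e)))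
noncomputable def t1 : Tr := .c 3 r5 (.c 4 r0 (.c 5 r1 (.c 6 r6 (.c 9 r4 .e))))
noncomputable def q17 : Tr := .c 7 v2 .e
noncomputable def v18 : Tr := .l 0x2492082061c52081022491c5248249209188143206080249143206
noncomputable def v19 : Tr := .l 0x2492492081472090842491472092492492060c51880022490c5188
noncomputable def q18 : Tr := .c 4 v18 (.c 5 v19 .e)
noncomputable def r7 : Tr := .c 3 q17 (.c 4 q17 (.c 6 q18 .e))
noncomputable def v20 : Tr := .l 0x2492082061c51022481c5249248249206188143080206143249206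
noncomputable def v21 : Tr := .l 0x2492492481470842091472492092491882090c50021880c5249188
noncomputable def q19 : Tr := .c 4 v20 (.c 5 v21 .e)
noncomputable def r8 : Tr := .c 3 q17 (.c 6 q18 (.c 7 q18 (.c 8 q19 .e)))
noncomputable def v22 : Tr := .l 0x2482492491021c51c52482081c5206249249080143143206206143
noncomputable def v23 : Tr := .l 0x2092492490841471472091881471882492490020c50c51881880c5
noncomputable def q20 : Tr := .c 4 v22 (.c 5 v23 (.c 7 v2 .e))
noncomputable def q21 : Tr := .c 4 v22 (.c 5 v23 .e)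
noncomputable def r9 : Tr := .c 0 q20 (.c 1 q21 (.c 6 q18 (.c 7 q18 (.c 8 q19 .e))))
noncomputable def v24 : Tr := .l 0x2072492491842472472071871842482492491021c51c52481c81c5
noncomputable def v25 : Tr := .l 0x1882491c71061c91c9188106106209249248084147147209147147
noncomputable def q22 : Tr := .c 4 v24 (.c 5 v25 (.c 7 v2 .e))
noncomputable def q23 : Tr := .c 4 v24 (.c 5 v25 .e)
noncomputable def q24 : Tr := .c 5 v25 (.c 7 v2 .e)
noncomputable def v26 : Tr := .l 0x2492492482472491842492472472492492091c52481022491c51c8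
noncomputable def v27 : Tr := .l 0x2492492491c92491062491c91c9209249248147209084209147147
noncomputable def q25 : Tr := .c 4 v26 (.c 5 v27 .e)
noncomputable def v28 : Tr := .l 0x2492492482471842492472492472492482091c51022481c5249248
noncomputable def v29 : Tr := .l 0x2492492481c91062491c91c91c9249209249147084209147209209
noncomputable def q26 : Tr := .c 4 v28 (.c 5 v29 .e)
noncomputable def r10 : Tr := .c 0 q22 (.c 1 q23 (.c 2 q24 (.c 6 q25 (.c 7 q25 (.c 8 q26 .e)))))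
noncomputable def r11 : Tr := .c 0 q22 (.c 2 q24 (.c 3 q17 (.c 4 q17 (.c 6 q25 .e))))
noncomputable def r12 : Tr := .c 0 q22 (.c 1 q23 (.c 2 q24 (.c 3 q17 (.c 4 q17 (.c 6 q25 (.c 7 q25 .e))))))
noncomputable def t2 : Tr := .c 1 r7 (.c 2 r8 (.c 4 r9 (.c 5 r10 (.c 8 r11 (.c 9 r12 .e)))))
noncomputable def r13 : Tr := .c 4 q17 (.c 7 q25 (.c 8 q26 .e))
noncomputable def r14 : Tr := .c 1 q23 (.c 2 q24 (.c 7 q25 (.c 8 q26 .e)))
noncomputable def t3 : Tr := .c 0 r13 (.c 2 r8 (.c 3 r14 (.c 4 r9 (.c 5 r10 (.c 9 r12 .e)))))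
noncomputable def v30 : Tr := .l 0x1c92461082492492492491c9249147209102249249209249147209
noncomputable def q27 : Tr := .c 8 v30 (.c 9 v30 .e)
noncomputable def v31 : Tr := .l 0x2472441882492492492492472491c52480842492482482491c51c8
noncomputable def v32 : Tr := .l 0x1c92461081c92492492491c91c9147209102209249209209147147
noncomputable def q28 : Tr := .c 4 v31 (.c 5 v32 (.c 9 v32 .e))
noncomputable def v33 : Tr := .l 0x1c71092442492492491c72492491c51022092492482481c5249248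
noncomputable def v34 : Tr := .l 0x147108202249208248147249209147084188249206206147209209
noncomputable def q29 : Tr := .c 4 v33 (.c 5 v34 .e)
noncomputable def r15 : Tr := .c 4 q27 (.c 7 q28 (.c 8 q29 .e))
noncomputable def v35 : Tr := .l 0x1472440882492492092491472090c51880802492481882490c5188
noncomputable def q30 : Tr := .c 8 v35 (.c 9 v35 .e)
noncomputable def v36 : Tr := .l 0x1c52021062492082482491c5248143206002249206206249143206
noncomputable def q31 : Tr := .c 4 v36 (.c 5 v35 (.c 8 v35 (.c 9 v35 .e)))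
noncomputable def q32 : Tr := .c 4 v36 (.c 5 v35 (.c 9 v35 .e))
noncomputable def v37 : Tr := .l 0x1c50882442492482491c5249248143080188249206249143249206
noncomputable def v38 : Tr := .l 0x1471092022492092491472492090c50022062491882480c5249188
noncomputable def q33 : Tr := .c 4 v37 (.c 5 v38 .e)
noncomputable def r16 : Tr := .c 3 q30 (.c 6 q31 (.c 7 q32 (.c 8 q33 .e)))
noncomputable def v39 : Tr := .l 0x1841c72472072492492492092071021c51472482492492481c81c5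
noncomputable def v40 : Tr := .l 0x1061c91c51882492492091881880841471c5209249209209147147
noncomputable def q34 : Tr := .c 4 v39 (.c 5 v40 (.c 9 v40 .e))
noncomputable def q35 : Tr := .c 5 v40 (.c 8 v40 (.c 9 v40 .e))
noncomputable def r17 : Tr := .c 1 q34 (.c 2 q35 (.c 7 q28 (.c 8 q29 .e)))
noncomputable def v41 : Tr := .l 0x1021451c72482492492482481c50801430c5206249249206206143
noncomputable def v42 : Tr := .l 0x841c71452092492492092091470020c51431882492491881880c5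
noncomputable def q36 : Tr := .c 4 v41 (.c 5 v42 (.c 8 v42 (.c 9 v42 .e)))
noncomputable def q37 : Tr := .c 4 v41 (.c 5 v42 (.c 9 v42 .e))
noncomputable def r18 : Tr := .c 0 q36 (.c 1 q37 (.c 6 q31 (.c 7 q32 (.c 8 q33 .e))))
noncomputable def q38 : Tr := .c 4 v39 (.c 5 v40 (.c 8 v40 (.c 9 v40 .e)))
noncomputable def q39 : Tr := .c 4 v31 (.c 5 v32 (.c 8 v32 (.c 9 v32 .e)))
noncomputable def r19 : Tr := .c 0 q38 (.c 1 q34 (.c 2 q35 (.c 6 q39 (.c 7 q28 (.c 8 q29 .e)))))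
noncomputable def q40 : Tr := .c 8 v40 (.c 9 v40 .e)
noncomputable def r20 : Tr := .c 1 q34 (.c 2 q35 (.c 4 q40 (.c 8 q29 .e)))
noncomputable def t4 : Tr := .c 0 r15 (.c 2 r16 (.c 3 r17 (.c 4 r18 (.c 5 r19 (.c 6 r20 .e)))))
noncomputable def q41 : Tr := .c 5 v32 (.c 9 v32 .e)
noncomputable def q42 : Tr := .c 5 v34 .e
noncomputable def r21 : Tr := .c 4 q27 (.c 7 q41 (.c 8 q42 .e))
noncomputable def q43 : Tr := .c 5 v35 (.c 8 v35 (.c 9 v35 .e))
noncomputable def r22 : Tr := .c 3 q30 (.c 4 q27 (.c 6 q43 .e))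
noncomputable def q44 : Tr := .c 5 v35 (.c 9 v35 .e)
noncomputable def q45 : Tr := .c 5 v38 .e
noncomputable def r23 : Tr := .c 3 q30 (.c 6 q43 (.c 7 q44 (.c 8 q45 .e)))
noncomputable def q46 : Tr := .c 5 v40 (.c 9 v40 .e)
noncomputable def r24 : Tr := .c 1 q46 (.c 2 q35 (.c 7 q41 (.c 8 q42 .e)))
noncomputable def q47 : Tr := .c 5 v42 (.c 8 v42 (.c 9 v42 .e))
noncomputable def q48 : Tr := .c 5 v42 (.c 9 v42 .e)
noncomputable def r25 : Tr := .c 0 q47 (.c 1 q48 (.c 6 q43 (.c 7 q44 (.c 8 q45 .e))))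
noncomputable def r26 : Tr := .c 1 q46 (.c 2 q35 (.c 4 q40 (.c 8 q42 .e)))
noncomputable def v43 : Tr := .l 0x1882471472092492492492092091061c91432492492492491881c9
noncomputable def q49 : Tr := .c 5 v43 (.c 8 v43 (.c 9 v43 .e))
noncomputable def q50 : Tr := .c 8 v43 (.c 9 v43 .e)
noncomputable def r27 : Tr := .c 0 q49 (.c 2 q35 (.c 3 q50 (.c 4 q40 .e)))
noncomputable def t5 : Tr := .c 0 r21 (.c 1 r22 (.c 2 r23 (.c 3 r24 (.c 4 r25 (.c 6 r26 (.c 7 r27 .e))))))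
noncomputable def v44 : Tr := .l 0x1431862071432062061431430801c52482091c52482481c51c5102
noncomputable def v45 : Tr := .l 0xc52081860c51881880c50c5002147209248147209209147147084
noncomputable def v46 : Tr := .l 0x249249247209249249188209208249249249249249249209249249
noncomputable def q51 : Tr := .c 4 v44 (.c 5 v45 (.c 7 v46 (.c 8 v45 (.c 9 v45 .e))))
noncomputable def q52 : Tr := .c 4 v44 (.c 5 v45 (.c 9 v45 .e))
noncomputable def v47 : Tr := .l 0x2062431491862491432060801432482491472082491c52481021c5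
noncomputable def v48 : Tr := .l 0x1882450c71061c90c51880020c52092491c5188249147209084147
noncomputable def q53 : Tr := .c 4 v47 (.c 5 v48 (.c 8 v48 (.c 9 v48 .e)))
noncomputable def q54 : Tr := .c 4 v47 (.c 5 v48 (.c 9 v48 .e))
noncomputable def v49 : Tr := .l 0x2060c92452061432490802061432481c52492481c52491022481c5
noncomputable def v50 : Tr := .l 0x1881492431880c52490021880c5209147249209147249084209147
noncomputable def q55 : Tr := .c 4 v49 (.c 5 v50 .e)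
noncomputable def v51 : Tr := .l 0x2091c92452091472490842091472491c92492491c92491062491c9
noncomputable def q56 : Tr := .c 4 v49 (.c 7 v51 .e)
noncomputable def r28 : Tr := .c 0 q51 (.c 1 q52 (.c 6 q53 (.c 7 q54 (.c 8 q55 (.c 9 q56 .e)))))
noncomputable def v52 : Tr := .l 0x1852081c71021c51c5185105102207249249184247247207187184
noncomputable def v53 : Tr := .l 0x1061c71450841471471060840841881c92471061c91c9188106106
noncomputable def v54 : Tr := .l 0x2092492491881472492091881882492492492091c9249249209209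
noncomputable def q57 : Tr := .c 4 v52 (.c 5 v53 (.c 7 v54 (.c 8 v53 (.c 9 v53 .e))))
noncomputable def q58 : Tr := .c 4 v52 (.c 5 v53 (.c 9 v53 .e))
noncomputable def v55 : Tr := .l 0x1882451c71051c81c51881021052092491c9187249247209184187
noncomputable def q59 : Tr := .c 4 v55 (.c 5 v53 (.c 8 v53 (.c 9 v53 .e)))
noncomputable def q60 : Tr := .c 4 v55 (.c 5 v53 (.c 9 v53 .e))
noncomputable def v56 : Tr := .l 0x2081492451851c52481021881852491c7249207247249184209207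
noncomputable def v57 : Tr := .l 0x1871491c31061471c90841061042091472491881c9249106188186
noncomputable def q61 : Tr := .c 4 v56 (.c 5 v57 .e)
noncomputable def r29 : Tr := .c 0 q57 (.c 1 q58 (.c 6 q59 (.c 7 q60 (.c 8 q61 .e))))
noncomputable def v58 : Tr := .l 0x2492492472091462491882092082492492492491c8249209249249
noncomputable def v59 : Tr := .l 0x2092491c91881c9249209188188249249249209249249249209209
noncomputable def v60 : Tr := .l 0x2492492472091472491882092082492492492491c9249209249249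
noncomputable def q62 : Tr := .c 4 v58 (.c 5 v59 (.c 7 v60 (.c 8 v59 (.c 9 v59 .e))))
noncomputable def q63 : Tr := .c 7 v60 (.c 8 v59 (.c 9 v59 .e))
noncomputable def q64 : Tr := .c 7 v60 (.c 8 v59 .e)
noncomputable def v61 : Tr := .l 0x2491c92472061432491842092072492492492481c5249206249249
noncomputable def q65 : Tr := .c 4 v61 (.c 7 v60 .e)
noncomputable def r30 : Tr := .c 0 q62 (.c 3 q63 (.c 5 q64 (.c 9 q65 .e)))
noncomputable def q66 : Tr := .c 7 v54 (.c 8 v53 (.c 9 v53 .e))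
noncomputable def q67 : Tr := .c 7 v54 (.c 8 v53 .e)
noncomputable def r31 : Tr := .c 0 q57 (.c 3 q66 (.c 5 q67 (.c 6 q59 .e)))
noncomputable def r32 : Tr := .c 0 q57 (.c 1 q58 (.c 3 q66 (.c 6 q59 (.c 7 q60 .e))))
noncomputable def t6 : Tr := .c 4 r28 (.c 5 r29 (.c 7 r30 (.c 8 r31 (.c 9 r32 .e))))
noncomputable def v62 : Tr := .l 0x2091c92451881c92491061881862491c9249209249249188209208
noncomputable def q68 : Tr := .c 4 v56 (.c 7 v62 .e)
noncomputable def r33 : Tr := .c 1 q58 (.c 7 q60 (.c 8 q61 (.c 9 q68 .e)))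
noncomputable def v63 : Tr := .l 0x2092491c9188249249208188188249249249209249249249209209
noncomputable def q69 : Tr := .c 7 v62 (.c 8 v63 .e)
noncomputable def r34 : Tr := .c 1 q58 (.c 5 q69 (.c 8 q61 (.c 9 q68 .e)))
noncomputable def t7 : Tr := .c 3 r33 (.c 4 r28 (.c 5 r29 (.c 6 r34 (.c 9 r32 .e))))
noncomputable def q70 : Tr := .c 4 v52 .e
noncomputable def q71 : Tr := .c 4 v55 .e
noncomputable def q72 : Tr := .c 4 v56 .e
noncomputable def r35 : Tr := .c 1 q70 (.c 7 q71 (.c 8 q72 (.c 9 q68 .e)))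
noncomputable def q73 : Tr := .c 4 v52 (.c 7 v54 (.c 8 v53 .e))
noncomputable def q74 : Tr := .c 4 v55 (.c 8 v53 .e)
noncomputable def r36 : Tr := .c 0 q73 (.c 1 q70 (.c 6 q74 (.c 7 q71 (.c 8 q72 .e))))
noncomputable def r37 : Tr := .c 1 q70 (.c 5 q69 (.c 8 q72 (.c 9 q68 .e)))
noncomputable def v64 : Tr := .l 0x2091c92451881c82491061881862491c9249209249249188209208
noncomputable def q75 : Tr := .c 4 v64 (.c 7 v62 (.c 8 v63 .e))
noncomputable def r38 : Tr := .c 0 q75 (.c 3 q69 (.c 5 q69 (.c 9 q68 .e)))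
noncomputable def r39 : Tr := .c 0 q73 (.c 3 q67 (.c 5 q67 (.c 6 q74 .e)))
noncomputable def r40 : Tr := .c 0 q73 (.c 1 q70 (.c 3 q67 (.c 6 q74 (.c 7 q71 .e))))
noncomputable def t8 : Tr := .c 3 r35 (.c 5 r36 (.c 6 r37 (.c 7 r38 (.c 8 r39 (.c 9 r40 .e)))))
noncomputable def v65 : Tr := .l 0x2492082061470842061472492092492091881c91062061c9249249
noncomputable def q76 : Tr := .c 7 v65 .e
noncomputable def v66 : Tr := .l 0x2492462081432060802491432062492492091c52481022491c5248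
noncomputable def v67 : Tr := .l 0x2492481890c51880022490c5188249249248147209084249147209
noncomputable def q77 : Tr := .c 4 v66 (.c 5 v67 .e)
noncomputable def v68 : Tr := .l 0x2491892481430802061432492062492482091c51022481c5249248
noncomputable def q78 : Tr := .c 4 v68 (.c 7 v65 .e)
noncomputable def r41 : Tr := .c 3 q76 (.c 5 q76 (.c 6 q77 (.c 9 q78 .e)))
noncomputable def v69 : Tr := .l 0x2492092460c50021880c51c9188249209209147084208147249209
noncomputable def q79 : Tr := .c 4 v68 (.c 5 v69 .e)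
noncomputable def r42 : Tr := .c 3 q76 (.c 5 q76 (.c 6 q77 (.c 7 q77 (.c 8 q79 (.c 9 q78 .e)))))
noncomputable def v70 : Tr := .l 0x2062492490801431432061861432482492491021c51c52482081c5
noncomputable def v71 : Tr := .l 0x1882491c70020c50c51881060c5209249249084147147209188147
noncomputable def q80 : Tr := .c 4 v70 (.c 5 v71 (.c 7 v2 .e))
noncomputable def q81 : Tr := .c 4 v70 (.c 5 v71 .e)
noncomputable def r43 : Tr := .c 0 q80 (.c 1 q81 (.c 6 q77 (.c 7 q77 (.c 8 q79 (.c 9 q78 .e)))))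
noncomputable def q82 : Tr := .c 4 v52 (.c 5 v53 (.c 7 v54 .e))
noncomputable def q83 : Tr := .c 4 v52 (.c 5 v53 .e)
noncomputable def v72 : Tr := .l 0x2482482491c52481022481c51c5249249249247249184249247247
noncomputable def v73 : Tr := .l 0x1c92492081472090841c91471472492492491c92491062491c91c9
noncomputable def q84 : Tr := .c 4 v72 (.c 5 v73 .e)
noncomputable def v74 : Tr := .l 0x2482092481c51022481c51c81c5249249249247184249247249247
noncomputable def v75 : Tr := .l 0x1c92092061470842081471471472492092491c91062491c91c91c9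
noncomputable def q85 : Tr := .c 4 v74 (.c 5 v75 .e)
noncomputable def r44 : Tr := .c 0 q82 (.c 1 q83 (.c 6 q84 (.c 7 q84 (.c 8 q85 .e))))
noncomputable def q86 : Tr := .c 7 v54 .e
noncomputable def r45 : Tr := .c 0 q82 (.c 3 q86 (.c 5 q86 (.c 6 q84 .e)))
noncomputable def r46 : Tr := .c 0 q82 (.c 1 q83 (.c 3 q86 (.c 6 q84 (.c 7 q84 .e))))
noncomputable def t9 : Tr := .c 1 r41 (.c 2 r42 (.c 4 r43 (.c 5 r44 (.c 8 r45 (.c 9 r46 .e)))))
noncomputable def v76 : Tr := .l 0x2492492481c91062481c91c91c9249249209249188248249249249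
noncomputable def q87 : Tr := .c 7 v76 .e
noncomputable def q88 : Tr := .c 4 v74 (.c 7 v76 .e)
noncomputable def r47 : Tr := .c 5 q87 (.c 7 q84 (.c 8 q85 (.c 9 q88 .e)))
noncomputable def r48 : Tr := .c 1 q83 (.c 7 q84 (.c 8 q85 (.c 9 q88 .e)))
noncomputable def t10 : Tr := .c 0 r47 (.c 2 r42 (.c 3 r48 (.c 4 r43 (.c 5 r44 (.c 9 r46 .e)))))
noncomputable def v77 : Tr := .l 0x1472440882492492092491472091c92491842492492492491c9249
noncomputable def q89 : Tr := .c 8 v77 .e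
noncomputable def v78 : Tr := .l 0x1c52021081c82492482491c51c8247249106249249249249247249
noncomputable def v79 : Tr := .l 0x1472040861472092091c91471471c92091841c92492092491c91c9
noncomputable def q90 : Tr := .c 4 v78 (.c 5 v79 (.c 9 v79 .e))
noncomputable def v80 : Tr := .l 0x1450882022482082481452492081c71041882492062061c7249249
noncomputable def v81 : Tr := .l 0xc50881801c91882480c51c91871470841882492062061472491c9
noncomputable def q91 : Tr := .c 4 v80 (.c 5 v81 .e)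
noncomputable def q92 : Tr := .c 4 v80 .e
noncomputable def r49 : Tr := .c 5 q89 (.c 7 q90 (.c 8 q91 (.c 9 q92 .e)))
noncomputable def v82 : Tr := .l 0xc52020061c92491882490c5188147209102249248208249147209
noncomputable def q93 : Tr := .c 8 v82 (.c 9 v82 .e)
noncomputable def q94 : Tr := .c 8 v82 .e
noncomputable def v83 : Tr := .l 0x1431800882492492062491432061c52480842492482482491c5248
noncomputable def q95 : Tr := .c 4 v83 (.c 5 v82 (.c 8 v82 (.c 9 v82 .e)))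
noncomputable def q96 : Tr := .c 4 v83 (.c 5 v82 (.c 9 v82 .e))
noncomputable def v84 : Tr := .l 0x1430062022492062491432492061c51022092492482481c5249248
noncomputable def q97 : Tr := .c 4 v84 (.c 5 v81 .e)
noncomputable def q98 : Tr := .c 4 v84 .e
noncomputable def r50 : Tr := .c 3 q93 (.c 5 q94 (.c 6 q95 (.c 7 q96 (.c 8 q97 (.c 9 q98 .e)))))
noncomputable def v85 : Tr := .l 0x1021451c51852482482081881851841c71c9207249249249209187
noncomputable def v86 : Tr := .l 0x841471431061c91c91881061061061472471882492491c9188106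
noncomputable def q99 : Tr := .c 4 v85 (.c 5 v86 (.c 9 v86 .e))
noncomputable def r51 : Tr := .c 1 q99 (.c 7 q90 (.c 8 q91 (.c 9 q92 .e)))
noncomputable def v87 : Tr := .l 0x800c31452062492492062061431021c51472482492492482481c5
noncomputable def v88 : Tr := .l 0x21450c31882492491881880c50841471c5209249249209209147
noncomputable def q100 : Tr := .c 4 v87 (.c 5 v88 (.c 8 v88 (.c 9 v88 .e)))
noncomputable def q101 : Tr := .c 4 v87 (.c 5 v88 (.c 9 v88 .e))
noncomputable def r52 : Tr := .c 0 q100 (.c 1 q101 (.c 6 q95 (.c 7 q96 (.c 8 q97 (.c 9 q98 .e)))))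
noncomputable def q102 : Tr := .c 4 v85 (.c 5 v86 (.c 8 v86 (.c 9 v86 .e)))
noncomputable def q103 : Tr := .c 4 v78 (.c 5 v79 (.c 8 v79 (.c 9 v79 .e)))
noncomputable def r53 : Tr := .c 0 q102 (.c 1 q99 (.c 6 q103 (.c 7 q90 (.c 8 q91 .e))))
noncomputable def v89 : Tr := .l 0x188247147209249249249209209209249247249249249249249209
noncomputable def q104 : Tr := .c 8 v89 .e
noncomputable def r54 : Tr := .c 1 q99 (.c 5 q104 (.c 8 q91 (.c 9 q92 .e)))
noncomputable def t11 : Tr := .c 0 r49 (.c 2 r50 (.c 3 r51 (.c 4 r52 (.c 5 r53 (.c 6 r54 .e)))))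
noncomputable def q105 : Tr := .c 4 v2 (.c 5 v17 (.c 7 v15 (.c 8 v17 (.c 9 v17 .e))))
noncomputable def q106 : Tr := .c 4 v2 (.c 5 v17 (.c 9 v17 .e))
noncomputable def q107 : Tr := .c 4 v2 (.c 5 v2 (.c 8 v2 (.c 9 v2 .e)))
noncomputable def q108 : Tr := .c 4 v2 (.c 5 v2 (.c 9 v2 .e))
noncomputable def r55 : Tr := .c 0 q105 (.c 1 q106 (.c 6 q107 (.c 7 q108 .e)))
noncomputable def v90 : Tr := .l 0x209247149188249249209188188249249247209249249249209209
noncomputable def q109 : Tr := .c 4 v9 (.c 5 v90 (.c 7 v9 (.c 8 v90 (.c 9 v90 .e))))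
noncomputable def q110 : Tr := .c 4 v9 (.c 5 v90 (.c 9 v90 .e))
noncomputable def v91 : Tr := .l 0x2092491c9188249249209188188249249249209249249249209208
noncomputable def q111 : Tr := .c 5 v90 (.c 7 v91 (.c 8 v90 (.c 9 v90 .e)))
noncomputable def q112 : Tr := .c 4 v2 (.c 5 v90 (.c 8 v90 (.c 9 v90 .e)))
noncomputable def q113 : Tr := .c 4 v2 (.c 5 v90 (.c 9 v90 .e))
noncomputable def r56 : Tr := .c 0 q109 (.c 1 q110 (.c 2 q111 (.c 6 q112 (.c 7 q113 .e))))
noncomputable def v92 : Tr := .l 0x188249247209249249188209208209249249249249249209249209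
noncomputable def q114 : Tr := .c 4 v15 (.c 5 v89 (.c 7 v92 (.c 8 v89 (.c 9 v89 .e))))
noncomputable def v93 : Tr := .l 0x1061c91c51882492492091881881881c9249209249249249209188
noncomputable def q115 : Tr := .c 5 v93 (.c 7 v93 (.c 8 v93 (.c 9 v93 .e)))
noncomputable def q116 : Tr := .c 7 v92 (.c 8 v89 (.c 9 v89 .e))
noncomputable def q117 : Tr := .c 7 v93 (.c 8 v93 (.c 9 v93 .e))
noncomputable def q118 : Tr := .c 7 v92 (.c 8 v89 .e)
noncomputable def r57 : Tr := .c 0 q114 (.c 2 q115 (.c 3 q116 (.c 4 q117 (.c 5 q118 .e))))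
noncomputable def q119 : Tr := .c 7 v9 (.c 8 v90 (.c 9 v90 .e))
noncomputable def q120 : Tr := .c 7 v91 (.c 8 v90 (.c 9 v90 .e))
noncomputable def q121 : Tr := .c 7 v9 (.c 8 v90 .e)
noncomputable def r58 : Tr := .c 0 q109 (.c 2 q111 (.c 3 q119 (.c 4 q120 (.c 5 q121 (.c 6 q112 .e)))))
noncomputable def r59 : Tr := .c 0 q109 (.c 1 q110 (.c 2 q111 (.c 3 q119 (.c 4 q120 (.c 6 q112 (.c 7 q113 .e))))))
noncomputable def t12 : Tr := .c 4 r55 (.c 5 r56 (.c 7 r57 (.c 8 r58 (.c 9 r59 .e))))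
noncomputable def q122 : Tr := .c 4 v10 .e
noncomputable def v94 : Tr := .l 0x1882491c71061c91c9188106106209249249188249249209188186
noncomputable def v95 : Tr := .l 0x1882491c71061c91c9188106106209249249188249249209188188
noncomputable def q123 : Tr := .c 7 v94 (.c 8 v95 .e)
noncomputable def q124 : Tr := .c 4 v2 .e
noncomputable def r60 : Tr := .c 1 q122 (.c 2 q123 (.c 7 q124 .e))
noncomputable def v96 : Tr := .l 0x2092492491881c9249209188188249249249209249249249209208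
noncomputable def v97 : Tr := .l 0x2092491c9188249249209188188249249249209249249249209209
noncomputable def q125 : Tr := .c 4 v10 (.c 7 v96 (.c 8 v97 .e))
noncomputable def q126 : Tr := .c 4 v2 (.c 8 v97 .e)
noncomputable def r61 : Tr := .c 0 q125 (.c 1 q122 (.c 2 q123 (.c 6 q126 (.c 7 q124 .e))))
noncomputable def q127 : Tr := .c 7 v62 (.c 8 v97 .e)
noncomputable def r62 : Tr := .c 1 q122 (.c 2 q123 (.c 4 q123 (.c 5 q127 .e)))
noncomputable def q128 : Tr := .c 4 v46 (.c 7 v62 (.c 8 v97 .e))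
noncomputable def r63 : Tr := .c 0 q128 (.c 2 q123 (.c 3 q127 (.c 4 q123 (.c 5 q127 .e))))
noncomputable def q129 : Tr := .c 7 v96 (.c 8 v97 .e)
noncomputable def r64 : Tr := .c 0 q125 (.c 2 q123 (.c 3 q129 (.c 4 q123 (.c 5 q129 (.c 6 q126 .e)))))
noncomputable def r65 : Tr := .c 0 q125 (.c 1 q122 (.c 2 q123 (.c 3 q129 (.c 4 q123 (.c 6 q126 (.c 7 q124 .e))))))
noncomputable def t13 : Tr := .c 3 r60 (.c 5 r61 (.c 6 r62 (.c 7 r63 (.c 8 r64 (.c 9 r65 .e)))))
noncomputable def v98 : Tr := .l 0x249208206249208248249249249249209188249206206249249249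
noncomputable def v99 : Tr := .l 0x1472040862492082082491472091c92091842492061862491c9249
noncomputable def q130 : Tr := .c 7 v98 (.c 8 v99 (.c 9 v99 .e))
noncomputable def v100 : Tr := .l 0x1c9249248249249249249249249249249209249248248249249249
noncomputable def v101 : Tr := .l 0x1c92461082492492492491c9249249249206249248208249249249
noncomputable def q131 : Tr := .c 7 v100 (.c 8 v101 (.c 9 v101 .e))
noncomputable def q132 : Tr := .c 7 v98 (.c 8 v99 .e)
noncomputable def q133 : Tr := .c 4 v2 (.c 5 v99 (.c 8 v99 (.c 9 v99 .e)))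
noncomputable def r66 : Tr := .c 3 q130 (.c 4 q131 (.c 5 q132 (.c 6 q133 .e)))
noncomputable def q134 : Tr := .c 4 v2 (.c 5 v99 (.c 9 v99 .e))
noncomputable def r67 : Tr := .c 3 q130 (.c 5 q132 (.c 6 q133 (.c 7 q134 .e)))
noncomputable def t14 : Tr := .c 1 r66 (.c 2 r67 (.c 7 r57 (.c 8 r58 (.c 9 r59 .e))))
noncomputable def v102 : Tr := .l 0x2492492491c92492492491c91c9249249249249249249249249249
noncomputable def v103 : Tr := .l 0x2492481891c92492492491c91c9249249248249249249249249249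
noncomputable def q135 : Tr := .c 7 v102 (.c 8 v103 .e)
noncomputable def v104 : Tr := .l 0x2492492482492492491c9249249249249209249248248249249249
noncomputable def q136 : Tr := .c 7 v104 (.c 8 v101 .e)
noncomputable def r68 : Tr := .c 4 q135 (.c 5 q136 (.c 7 q124 .e))
noncomputable def q137 : Tr := .c 4 v2 (.c 8 v101 .e)
noncomputable def r69 : Tr := .c 3 q136 (.c 4 q135 (.c 5 q136 (.c 6 q137 .e)))
noncomputable def t15 : Tr := .c 0 r68 (.c 1 r69 (.c 6 r62 (.c 7 r63 (.c 8 r64 (.c 9 r65 .e)))))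
noncomputable def v105 : Tr := .l 0x1c92461081c92492492491c91c9249249206249248208249249249
noncomputable def q138 : Tr := .c 5 v105 (.c 9 v105 .e)
noncomputable def r70 : Tr := .c 4 q131 (.c 5 q132 (.c 7 q138 .e))
noncomputable def q139 : Tr := .c 5 v99 (.c 8 v99 (.c 9 v99 .e))
noncomputable def r71 : Tr := .c 3 q130 (.c 4 q131 (.c 5 q132 (.c 6 q139 .e)))
noncomputable def q140 : Tr := .c 5 v99 (.c 9 v99 .e)
noncomputable def r72 : Tr := .c 3 q130 (.c 5 q132 (.c 6 q139 (.c 7 q140 .e)))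
noncomputable def q141 : Tr := .c 5 v93 (.c 9 v93 .e)
noncomputable def r73 : Tr := .c 1 q141 (.c 2 q115 (.c 4 q117 (.c 5 q118 .e)))
noncomputable def q142 : Tr := .c 5 v89 (.c 7 v92 (.c 8 v89 (.c 9 v89 .e)))
noncomputable def r74 : Tr := .c 0 q142 (.c 2 q115 (.c 3 q116 (.c 4 q117 (.c 5 q118 .e))))
noncomputable def q143 : Tr := .c 5 v90 (.c 7 v9 (.c 8 v90 (.c 9 v90 .e)))
noncomputable def q144 : Tr := .c 5 v90 (.c 8 v90 (.c 9 v90 .e))
noncomputable def r75 : Tr := .c 0 q143 (.c 2 q111 (.c 3 q119 (.c 4 q120 (.c 5 q121 (.c 6 q144 .e)))))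
noncomputable def t16 : Tr := .c 0 r70 (.c 1 r71 (.c 2 r72 (.c 6 r73 (.c 7 r74 (.c 8 r75 .e)))))
noncomputable def q145 : Tr := .c 8 v101 (.c 9 v101 .e)
noncomputable def q146 : Tr := .c 8 v99 .e
noncomputable def r76 : Tr := .c 4 q145 (.c 5 q146 (.c 7 q138 .e))
noncomputable def q147 : Tr := .c 8 v99 (.c 9 v99 .e)
noncomputable def r77 : Tr := .c 3 q147 (.c 4 q145 (.c 5 q146 (.c 6 q139 .e)))
noncomputable def r78 : Tr := .c 3 q147 (.c 5 q146 (.c 6 q139 (.c 7 q140 .e)))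
noncomputable def q148 : Tr := .c 5 v93 (.c 8 v93 (.c 9 v93 .e))
noncomputable def r79 : Tr := .c 1 q141 (.c 2 q148 (.c 7 q138 .e))
noncomputable def v106 : Tr := .l 0x841c71452092492492092091471061c92472492492492492491c9
noncomputable def q149 : Tr := .c 5 v106 (.c 8 v106 (.c 9 v106 .e))
noncomputable def q150 : Tr := .c 5 v106 (.c 9 v106 .e)
noncomputable def r80 : Tr := .c 0 q149 (.c 1 q150 (.c 6 q139 (.c 7 q140 .e)))
noncomputable def q151 : Tr := .c 8 v93 (.c 9 v93 .e)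
noncomputable def r81 : Tr := .c 1 q141 (.c 2 q148 (.c 4 q151 (.c 5 q104 .e)))
noncomputable def q152 : Tr := .c 5 v89 (.c 8 v89 (.c 9 v89 .e))
noncomputable def q153 : Tr := .c 8 v89 (.c 9 v89 .e)
noncomputable def r82 : Tr := .c 0 q152 (.c 2 q148 (.c 3 q153 (.c 4 q151 (.c 5 q104 .e))))
noncomputable def t17 : Tr := .c 0 r76 (.c 1 r77 (.c 2 r78 (.c 3 r79 (.c 4 r80 (.c 6 r81 (.c 7 r82 .e))))))
noncomputable def r83 : Tr := .c 0 q51 (.c 1 q52 (.c 8 q55 (.c 9 q56 .e)))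
noncomputable def v107 : Tr := .l 0x2092492491881c9249209188188249249249209249249249209209
noncomputable def q154 : Tr := .c 5 v53 (.c 7 v107 (.c 8 v53 (.c 9 v53 .e)))
noncomputable def r84 : Tr := .c 0 q57 (.c 1 q58 (.c 2 q154 (.c 8 q61 .e)))
noncomputable def v108 : Tr := .l 0x2092492491881c9249209188188209249249209249249249209209
noncomputable def q155 : Tr := .c 5 v108 (.c 7 v107 (.c 8 v108 (.c 9 v108 .e)))
noncomputable def q156 : Tr := .c 7 v107 (.c 8 v108 (.c 9 v108 .e))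
noncomputable def r85 : Tr := .c 0 q62 (.c 2 q155 (.c 3 q63 (.c 4 q156 (.c 5 q64 (.c 9 q65 .e)))))
noncomputable def q157 : Tr := .c 7 v107 (.c 8 v53 (.c 9 v53 .e))
noncomputable def r86 : Tr := .c 0 q57 (.c 2 q154 (.c 3 q66 (.c 4 q157 (.c 5 q67 .e))))
noncomputable def r87 : Tr := .c 0 q57 (.c 1 q58 (.c 2 q154 (.c 3 q66 (.c 4 q157 .e))))
noncomputable def t18 : Tr := .c 4 r83 (.c 5 r84 (.c 7 r85 (.c 8 r86 (.c 9 r87 .e))))
noncomputable def q158 : Tr := .c 7 v95 (.c 8 v95 .e)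
noncomputable def r88 : Tr := .c 1 q70 (.c 2 q158 (.c 8 q72 (.c 9 q68 .e)))
noncomputable def r89 : Tr := .c 0 q73 (.c 1 q70 (.c 2 q158 (.c 8 q72 .e)))
noncomputable def r90 : Tr := .c 1 q70 (.c 2 q158 (.c 4 q158 (.c 5 q69 (.c 8 q72 (.c 9 q68 .e)))))
noncomputable def r91 : Tr := .c 0 q75 (.c 2 q158 (.c 3 q69 (.c 4 q158 (.c 5 q69 (.c 9 q68 .e)))))
noncomputable def r92 : Tr := .c 0 q73 (.c 2 q158 (.c 3 q67 (.c 4 q158 (.c 5 q67 .e))))
noncomputable def r93 : Tr := .c 0 q73 (.c 1 q70 (.c 2 q158 (.c 3 q67 (.c 4 q158 .e))))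
noncomputable def t19 : Tr := .c 3 r88 (.c 5 r89 (.c 6 r90 (.c 7 r91 (.c 8 r92 (.c 9 r93 .e)))))
noncomputable def v109 : Tr := .l 0x1c92481881471862061c91471472492492061c92081882491c91c9
noncomputable def q159 : Tr := .c 7 v65 (.c 8 v109 (.c 9 v109 .e))
noncomputable def v110 : Tr := .l 0x2492492481c91062481c9249249249249209249188248249249249
noncomputable def v111 : Tr := .l 0x1c92492081472082081c91471472492492481c92492092491c91c9
noncomputable def q160 : Tr := .c 7 v110 (.c 8 v111 (.c 9 v111 .e))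
noncomputable def q161 : Tr := .c 7 v65 (.c 8 v109 .e)
noncomputable def r94 : Tr := .c 3 q159 (.c 4 q160 (.c 5 q161 (.c 9 q78 .e)))
noncomputable def r95 : Tr := .c 3 q159 (.c 5 q161 (.c 8 q79 (.c 9 q78 .e)))
noncomputable def t20 : Tr := .c 1 r94 (.c 2 r95 (.c 7 r85 (.c 8 r86 (.c 9 r87 .e))))
noncomputable def v112 : Tr := .l 0x2492492491c91882492491c91c9249249249249209249249249249
noncomputable def q162 : Tr := .c 7 v112 (.c 8 v102 .e)
noncomputable def q163 : Tr := .c 7 v110 (.c 8 v111 .e)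
noncomputable def v113 : Tr := .l 0x2492092481c51022481c5249248249249249247184249247249249
noncomputable def q164 : Tr := .c 4 v113 .e
noncomputable def q165 : Tr := .c 4 v113 (.c 7 v110 .e)
noncomputable def r96 : Tr := .c 4 q162 (.c 5 q163 (.c 8 q164 (.c 9 q165 .e)))
noncomputable def r97 : Tr := .c 3 q163 (.c 4 q162 (.c 5 q163 (.c 9 q165 .e)))
noncomputable def t21 : Tr := .c 0 r96 (.c 1 r97 (.c 6 r90 (.c 7 r91 (.c 8 r92 (.c 9 r93 .e)))))
noncomputable def v114 : Tr := .l 0x2492492481470842091472492092492492491c91062491c9249249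
noncomputable def q166 : Tr := .c 5 v114 .e
noncomputable def r98 : Tr := .c 4 q160 (.c 5 q161 (.c 8 q166 (.c 9 q76 .e)))
noncomputable def r99 : Tr := .c 3 q159 (.c 4 q160 (.c 5 q161 (.c 9 q76 .e)))
noncomputable def q167 : Tr := .c 5 v69 .e
noncomputable def r100 : Tr := .c 3 q159 (.c 5 q161 (.c 8 q167 (.c 9 q76 .e)))
noncomputable def q168 : Tr := .c 5 v108 (.c 9 v108 .e)
noncomputable def q169 : Tr := .c 5 v60 .e
noncomputable def q170 : Tr := .c 7 v60 .e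
noncomputable def r101 : Tr := .c 1 q168 (.c 2 q155 (.c 4 q156 (.c 5 q64 (.c 8 q169 (.c 9 q170 .e)))))
noncomputable def q171 : Tr := .c 5 v59 (.c 7 v60 (.c 8 v59 (.c 9 v59 .e)))
noncomputable def r102 : Tr := .c 0 q171 (.c 2 q155 (.c 3 q63 (.c 4 q156 (.c 5 q64 (.c 9 q170 .e)))))
noncomputable def q172 : Tr := .c 5 v53 (.c 7 v54 (.c 8 v53 (.c 9 v53 .e)))
noncomputable def r103 : Tr := .c 0 q172 (.c 2 q154 (.c 3 q66 (.c 4 q157 (.c 5 q67 .e))))
noncomputable def t22 : Tr := .c 0 r98 (.c 1 r99 (.c 2 r100 (.c 6 r101 (.c 7 r102 (.c 8 r103 .e)))))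
noncomputable def q173 : Tr := .c 7 v110 .e
noncomputable def r104 : Tr := .c 3 q76 (.c 4 q173 (.c 5 q76 (.c 9 q78 .e)))
noncomputable def r105 : Tr := .c 3 q76 (.c 5 q76 (.c 8 q79 (.c 9 q78 .e)))
noncomputable def r106 : Tr := .c 0 q80 (.c 1 q81 (.c 8 q79 (.c 9 q78 .e)))
noncomputable def q174 : Tr := .c 5 v53 (.c 7 v107 .e)
noncomputable def r107 : Tr := .c 0 q82 (.c 1 q83 (.c 2 q174 (.c 8 q85 .e)))
noncomputable def q175 : Tr := .c 7 v107 .e
noncomputable def r108 : Tr := .c 0 q82 (.c 2 q174 (.c 3 q86 (.c 4 q175 (.c 5 q86 .e))))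
noncomputable def r109 : Tr := .c 0 q82 (.c 1 q83 (.c 2 q174 (.c 3 q86 (.c 4 q175 .e))))
noncomputable def t23 : Tr := .c 1 r104 (.c 2 r105 (.c 4 r106 (.c 5 r107 (.c 8 r108 (.c 9 r109 .e)))))
noncomputable def r110 : Tr := .c 0 q57 (.c 1 q58 (.c 8 q61 .e))
noncomputable def r111 : Tr := .c 0 q57 (.c 3 q66 (.c 5 q67 .e))
noncomputable def r112 : Tr := .c 0 q57 (.c 1 q58 (.c 3 q66 .e))
noncomputable def t24 : Tr := .c 4 r83 (.c 5 r110 (.c 7 r30 (.c 8 r111 (.c 9 r112 .e))))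
noncomputable def r113 : Tr := .c 1 q58 (.c 8 q61 (.c 9 q68 .e))
noncomputable def t25 : Tr := .c 3 r113 (.c 4 r83 (.c 5 r110 (.c 6 r34 (.c 9 r112 .e))))
noncomputable def r114 : Tr := .c 1 q70 (.c 8 q72 (.c 9 q68 .e))
noncomputable def r115 : Tr := .c 0 q73 (.c 1 q70 (.c 8 q72 .e))
noncomputable def r116 : Tr := .c 0 q73 (.c 3 q67 (.c 5 q67 .e))
noncomputable def r117 : Tr := .c 0 q73 (.c 1 q70 (.c 3 q67 .e))
noncomputable def t26 : Tr := .c 3 r114 (.c 5 r115 (.c 6 r37 (.c 7 r38 (.c 8 r116 (.c 9 r117 .e)))))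
noncomputable def r118 : Tr := .c 3 q159 (.c 5 q161 (.c 9 q78 .e))
noncomputable def t27 : Tr := .c 1 r118 (.c 2 r95 (.c 7 r30 (.c 8 r111 (.c 9 r112 .e))))
noncomputable def r119 : Tr := .c 5 q163 (.c 8 q164 (.c 9 q165 .e))
noncomputable def r120 : Tr := .c 3 q163 (.c 5 q163 (.c 9 q165 .e))
noncomputable def t28 : Tr := .c 0 r119 (.c 1 r120 (.c 6 r37 (.c 7 r38 (.c 8 r116 (.c 9 r117 .e)))))
noncomputable def r121 : Tr := .c 3 q76 (.c 5 q76 (.c 9 q78 .e))
noncomputable def r122 : Tr := .c 0 q82 (.c 1 q83 (.c 8 q85 .e))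
noncomputable def r123 : Tr := .c 0 q82 (.c 3 q86 (.c 5 q86 .e))
noncomputable def r124 : Tr := .c 0 q82 (.c 1 q83 (.c 3 q86 .e))
noncomputable def t29 : Tr := .c 1 r121 (.c 2 r105 (.c 4 r106 (.c 5 r122 (.c 8 r123 (.c 9 r124 .e)))))
noncomputable def r125 : Tr := .c 5 q87 (.c 8 q85 (.c 9 q88 .e))
noncomputable def r126 : Tr := .c 1 q83 (.c 8 q85 (.c 9 q88 .e))
noncomputable def t30 : Tr := .c 0 r125 (.c 2 r105 (.c 3 r126 (.c 4 r106 (.c 5 r122 (.c 9 r124 .e)))))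
noncomputable def q176 : Tr := .c 3 v53 (.c 4 v52 (.c 5 v53 (.c 6 v53 (.c 9 v53 .e))))
noncomputable def q177 : Tr := .c 3 v53 (.c 5 v53 (.c 6 v53 (.c 9 v53 .e)))
noncomputable def q178 : Tr := .c 3 v53 (.c 4 v55 (.c 5 v53 (.c 9 v53 .e)))
noncomputable def q179 : Tr := .c 3 v57 (.c 4 v56 (.c 5 v57 (.c 6 v57 .e)))
noncomputable def q180 : Tr := .c 3 v57 (.c 4 v56 (.c 6 v57 .e))
noncomputable def r127 : Tr := .c 1 q176 (.c 2 q177 (.c 7 q178 (.c 8 q179 (.c 9 q180 .e))))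
noncomputable def q181 : Tr := .c 3 v45 (.c 4 v44 (.c 5 v45 (.c 6 v45 (.c 9 v45 .e))))
noncomputable def q182 : Tr := .c 3 v48 (.c 4 v47 (.c 5 v48 (.c 9 v48 .e)))
noncomputable def q183 : Tr := .c 3 v50 (.c 4 v49 (.c 5 v50 (.c 6 v50 .e)))
noncomputable def q184 : Tr := .c 3 v50 (.c 4 v49 (.c 6 v50 .e))
noncomputable def r128 : Tr := .c 0 q52 (.c 1 q181 (.c 6 q54 (.c 7 q182 (.c 8 q183 (.c 9 q184 .e)))))
noncomputable def r129 : Tr := .c 0 q58 (.c 1 q176 (.c 2 q177 (.c 6 q60 (.c 7 q178 (.c 8 q179 .e)))))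
noncomputable def q185 : Tr := .c 6 v53 (.c 9 v53 .e)
noncomputable def q186 : Tr := .c 6 v57 .e
noncomputable def r130 : Tr := .c 1 q176 (.c 2 q177 (.c 4 q185 (.c 5 q186 (.c 8 q179 (.c 9 q180 .e)))))
noncomputable def q187 : Tr := .c 9 v53 .e
noncomputable def r131 : Tr := .c 0 q58 (.c 1 q176 (.c 2 q177 (.c 3 q187 (.c 4 q185 (.c 6 q60 (.c 7 q178 .e))))))
noncomputable def t31 : Tr := .c 3 r127 (.c 4 r128 (.c 5 r129 (.c 6 r130 (.c 9 r131 .e))))
noncomputable def q188 : Tr := .c 3 v53 (.c 4 v52 (.c 6 v53 .e))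
noncomputable def q189 : Tr := .c 3 v53 (.c 6 v53 .e)
noncomputable def q190 : Tr := .c 3 v53 (.c 4 v55 .e)
noncomputable def r132 : Tr := .c 1 q188 (.c 2 q189 (.c 7 q190 (.c 8 q180 (.c 9 q180 .e))))
noncomputable def r133 : Tr := .c 0 q70 (.c 1 q188 (.c 2 q189 (.c 6 q71 (.c 7 q190 (.c 8 q180 .e)))))
noncomputable def q191 : Tr := .c 6 v53 .e
noncomputable def r134 : Tr := .c 1 q188 (.c 2 q189 (.c 4 q191 (.c 5 q186 (.c 8 q180 (.c 9 q180 .e)))))
noncomputable def q192 : Tr := .c 4 v64 .e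
noncomputable def r135 : Tr := .c 0 q192 (.c 2 q189 (.c 4 q191 (.c 5 q186 (.c 9 q180 .e))))
noncomputable def v115 : Tr := .l 0x1882491c71061471c91881061062092492491881c9249209188188
noncomputable def q193 : Tr := .c 6 v115 .e
noncomputable def r136 : Tr := .c 0 q70 (.c 2 q189 (.c 4 q191 (.c 5 q193 (.c 6 q71 .e))))
noncomputable def r137 : Tr := .c 0 q70 (.c 1 q188 (.c 2 q189 (.c 4 q191 (.c 6 q71 (.c 7 q190 .e)))))
noncomputable def t32 : Tr := .c 3 r132 (.c 5 r133 (.c 6 r134 (.c 7 r135 (.c 8 r136 (.c 9 r137 .e)))))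
noncomputable def q194 : Tr := .c 6 v9 .e
noncomputable def q195 : Tr := .c 6 v75 .e
noncomputable def q196 : Tr := .c 3 v73 (.c 4 v72 (.c 5 v73 .e))
noncomputable def q197 : Tr := .c 3 v75 (.c 4 v74 (.c 5 v75 (.c 6 v75 .e)))
noncomputable def q198 : Tr := .c 3 v75 (.c 4 v74 (.c 6 v75 .e))
noncomputable def r138 : Tr := .c 4 q194 (.c 5 q195 (.c 7 q196 (.c 8 q197 (.c 9 q198 .e))))
noncomputable def q199 : Tr := .c 6 v69 .e
noncomputable def q200 : Tr := .c 3 v67 (.c 4 v66 (.c 5 v67 .e))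
noncomputable def q201 : Tr := .c 3 v69 (.c 4 v68 (.c 5 v69 (.c 6 v69 .e)))
noncomputable def q202 : Tr := .c 3 v69 (.c 4 v68 (.c 6 v69 .e))
noncomputable def r139 : Tr := .c 5 q199 (.c 6 q77 (.c 7 q200 (.c 8 q201 (.c 9 q202 .e))))
noncomputable def q203 : Tr := .c 3 v53 (.c 4 v52 (.c 5 v53 (.c 6 v53 .e)))
noncomputable def q204 : Tr := .c 3 v53 (.c 5 v53 (.c 6 v53 .e))
noncomputable def r140 : Tr := .c 1 q203 (.c 2 q204 (.c 7 q196 (.c 8 q197 (.c 9 q198 .e))))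
noncomputable def q205 : Tr := .c 3 v71 (.c 4 v70 (.c 5 v71 (.c 6 v71 .e)))
noncomputable def r141 : Tr := .c 0 q81 (.c 1 q205 (.c 6 q77 (.c 7 q200 (.c 8 q201 (.c 9 q202 .e)))))
noncomputable def r142 : Tr := .c 0 q83 (.c 1 q203 (.c 2 q204 (.c 6 q84 (.c 7 q196 (.c 8 q197 .e)))))
noncomputable def r143 : Tr := .c 0 q83 (.c 1 q203 (.c 2 q204 (.c 4 q191 (.c 6 q84 (.c 7 q196 .e)))))
noncomputable def t33 : Tr := .c 0 r138 (.c 2 r139 (.c 3 r140 (.c 4 r141 (.c 5 r142 (.c 9 r143 .e)))))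
noncomputable def v116 : Tr := .l 0x1472040861c92492092491471c91c92091842492492492491c91c9
noncomputable def q206 : Tr := .c 9 v116 .e
noncomputable def q207 : Tr := .c 3 v79 (.c 4 v78 (.c 5 v79 (.c 9 v79 .e)))
noncomputable def q208 : Tr := .c 3 v81 (.c 4 v80 (.c 5 v81 .e))
noncomputable def q209 : Tr := .c 3 v81 (.c 4 v80 .e)
noncomputable def r144 : Tr := .c 4 q206 (.c 7 q207 (.c 8 q208 (.c 9 q209 .e)))
noncomputable def q210 : Tr := .c 9 v82 .e
noncomputable def q211 : Tr := .c 3 v82 (.c 4 v83 (.c 5 v82 (.c 9 v82 .e)))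
noncomputable def q212 : Tr := .c 3 v81 (.c 4 v84 (.c 5 v81 .e))
noncomputable def q213 : Tr := .c 3 v81 (.c 4 v84 .e)
noncomputable def r145 : Tr := .c 3 q210 (.c 6 q96 (.c 7 q211 (.c 8 q212 (.c 9 q213 .e))))
noncomputable def q214 : Tr := .c 3 v86 (.c 4 v85 (.c 5 v86 (.c 9 v86 .e)))
noncomputable def q215 : Tr := .c 3 v86 (.c 5 v86 (.c 9 v86 .e))
noncomputable def r146 : Tr := .c 1 q214 (.c 2 q215 (.c 7 q207 (.c 8 q208 (.c 9 q209 .e))))
noncomputable def q216 : Tr := .c 3 v88 (.c 4 v87 (.c 5 v88 (.c 9 v88 .e)))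
noncomputable def r147 : Tr := .c 0 q101 (.c 1 q216 (.c 6 q96 (.c 7 q211 (.c 8 q212 (.c 9 q213 .e)))))
noncomputable def r148 : Tr := .c 0 q99 (.c 1 q214 (.c 2 q215 (.c 6 q90 (.c 7 q207 (.c 8 q208 .e)))))
noncomputable def q217 : Tr := .c 9 v86 .e
noncomputable def r149 : Tr := .c 1 q214 (.c 2 q215 (.c 4 q217 (.c 8 q208 (.c 9 q209 .e))))
noncomputable def t34 : Tr := .c 0 r144 (.c 2 r145 (.c 3 r146 (.c 4 r147 (.c 5 r148 (.c 6 r149 .e)))))
noncomputable def q218 : Tr := .c 3 v79 (.c 5 v79 (.c 9 v79 .e))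
noncomputable def q219 : Tr := .c 3 v81 (.c 5 v81 .e)
noncomputable def q220 : Tr := .c 3 v81 .e
noncomputable def r150 : Tr := .c 4 q206 (.c 7 q218 (.c 8 q219 (.c 9 q220 .e)))
noncomputable def q221 : Tr := .c 5 v82 (.c 9 v82 .e)
noncomputable def r151 : Tr := .c 3 q210 (.c 4 q206 (.c 6 q221 (.c 9 q220 .e)))
noncomputable def q222 : Tr := .c 3 v82 (.c 5 v82 (.c 9 v82 .e))
noncomputable def r152 : Tr := .c 3 q210 (.c 6 q221 (.c 7 q222 (.c 8 q219 (.c 9 q220 .e))))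
noncomputable def r153 : Tr := .c 1 q215 (.c 2 q215 (.c 7 q218 (.c 8 q219 (.c 9 q220 .e))))
noncomputable def q223 : Tr := .c 5 v88 (.c 9 v88 .e)
noncomputable def q224 : Tr := .c 3 v88 (.c 5 v88 (.c 9 v88 .e))
noncomputable def r154 : Tr := .c 0 q223 (.c 1 q224 (.c 6 q221 (.c 7 q222 (.c 8 q219 (.c 9 q220 .e)))))
noncomputable def r155 : Tr := .c 1 q215 (.c 2 q215 (.c 4 q217 (.c 8 q219 (.c 9 q220 .e))))
noncomputable def v117 : Tr := .l 0x1061c50c51882492492091881881881c91c5209249249249209188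
noncomputable def q225 : Tr := .c 5 v117 (.c 9 v117 .e)
noncomputable def q226 : Tr := .c 9 v117 .e
noncomputable def r156 : Tr := .c 0 q225 (.c 2 q215 (.c 3 q226 (.c 4 q217 (.c 9 q220 .e))))
noncomputable def t35 : Tr := .c 0 r150 (.c 1 r151 (.c 2 r152 (.c 3 r153 (.c 4 r154 (.c 6 r155 (.c 7 r156 .e))))))
noncomputable def q227 : Tr := .c 3 v1 (.c 4 v0 (.c 5 v1 (.c 6 v1 (.c 9 v1 .e))))
noncomputable def q228 : Tr := .c 3 v4 (.c 4 v3 (.c 5 v4 (.c 9 v4 .e)))
noncomputable def q229 : Tr := .c 3 v6 (.c 4 v5 (.c 5 v6 (.c 6 v6 .e)))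
noncomputable def r157 : Tr := .c 0 q1 (.c 1 q227 (.c 6 q3 (.c 7 q228 (.c 8 q229 .e))))
noncomputable def q230 : Tr := .c 3 v8 (.c 4 v7 (.c 5 v8 (.c 6 v8 (.c 9 v8 .e))))
noncomputable def q231 : Tr := .c 3 v8 (.c 5 v8 (.c 6 v8 (.c 9 v8 .e)))
noncomputable def q232 : Tr := .c 3 v8 (.c 4 v11 (.c 5 v8 (.c 9 v8 .e)))
noncomputable def q233 : Tr := .c 3 v13 (.c 4 v12 (.c 5 v13 (.c 6 v13 .e)))
noncomputable def r158 : Tr := .c 0 q6 (.c 1 q230 (.c 2 q231 (.c 6 q9 (.c 7 q232 (.c 8 q233 .e)))))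
noncomputable def q234 : Tr := .c 4 v2 (.c 5 v14 (.c 9 v14 .e))
noncomputable def q235 : Tr := .c 3 v16 (.c 5 v16 (.c 6 v16 (.c 9 v16 .e)))
noncomputable def q236 : Tr := .c 9 v14 .e
noncomputable def q237 : Tr := .c 6 v16 (.c 9 v16 .e)
noncomputable def r159 : Tr := .c 0 q234 (.c 2 q235 (.c 3 q236 (.c 4 q237 .e)))
noncomputable def q238 : Tr := .c 9 v8 .e
noncomputable def q239 : Tr := .c 6 v8 (.c 9 v8 .e)
noncomputable def r160 : Tr := .c 0 q6 (.c 2 q231 (.c 3 q238 (.c 4 q239 (.c 6 q9 .e))))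
noncomputable def r161 : Tr := .c 0 q6 (.c 1 q230 (.c 2 q231 (.c 3 q238 (.c 4 q239 (.c 6 q9 (.c 7 q232 .e))))))
noncomputable def t36 : Tr := .c 4 r157 (.c 5 r158 (.c 7 r159 (.c 8 r160 (.c 9 r161 .e))))
noncomputable def r162 : Tr := .c 1 q230 (.c 2 q231 (.c 7 q232 (.c 8 q233 .e)))
noncomputable def r163 : Tr := .c 1 q230 (.c 2 q231 (.c 4 q239 (.c 8 q233 .e)))
noncomputable def t37 : Tr := .c 3 r162 (.c 4 r157 (.c 5 r158 (.c 6 r163 (.c 9 r161 .e))))
noncomputable def v118 : Tr := .l 0x2492492481c92492492491c91c9249249209147208208249209209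
noncomputable def q240 : Tr := .c 6 v118 .e
noncomputable def r164 : Tr := .c 4 q240 (.c 6 q18 .e)
noncomputable def q241 : Tr := .c 3 v19 (.c 4 v18 (.c 5 v19 .e))
noncomputable def q242 : Tr := .c 3 v21 (.c 4 v20 (.c 5 v21 (.c 6 v21 .e)))
noncomputable def r165 : Tr := .c 6 q18 (.c 7 q241 (.c 8 q242 .e))
noncomputable def q243 : Tr := .c 3 v23 (.c 4 v22 (.c 5 v23 (.c 6 v23 .e)))
noncomputable def r166 : Tr := .c 0 q21 (.c 1 q243 (.c 6 q18 (.c 7 q241 (.c 8 q242 .e))))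
noncomputable def q244 : Tr := .c 3 v25 (.c 4 v24 (.c 5 v25 (.c 6 v25 .e)))
noncomputable def q245 : Tr := .c 3 v25 (.c 5 v25 (.c 6 v25 .e))
noncomputable def q246 : Tr := .c 3 v27 (.c 4 v26 (.c 5 v27 .e))
noncomputable def q247 : Tr := .c 3 v29 (.c 4 v28 (.c 5 v29 (.c 6 v29 .e)))
noncomputable def r167 : Tr := .c 0 q23 (.c 1 q244 (.c 2 q245 (.c 6 q25 (.c 7 q246 (.c 8 q247 .e)))))
noncomputable def q248 : Tr := .c 6 v25 .e
noncomputable def r168 : Tr := .c 0 q23 (.c 2 q245 (.c 4 q248 (.c 6 q25 .e)))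
noncomputable def r169 : Tr := .c 0 q23 (.c 1 q244 (.c 2 q245 (.c 4 q248 (.c 6 q25 (.c 7 q246 .e)))))
noncomputable def t38 : Tr := .c 1 r164 (.c 2 r165 (.c 4 r166 (.c 5 r167 (.c 8 r168 (.c 9 r169 .e)))))
noncomputable def q249 : Tr := .c 6 v2 .e
noncomputable def r170 : Tr := .c 4 q249 (.c 7 q246 (.c 8 q247 .e))
noncomputable def r171 : Tr := .c 1 q244 (.c 2 q245 (.c 7 q246 (.c 8 q247 .e)))
noncomputable def t39 : Tr := .c 0 r170 (.c 2 r165 (.c 3 r171 (.c 4 r166 (.c 5 r167 (.c 9 r169 .e)))))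
noncomputable def q250 : Tr := .c 9 v30 .e
noncomputable def q251 : Tr := .c 3 v32 (.c 4 v31 (.c 5 v32 (.c 9 v32 .e)))
noncomputable def q252 : Tr := .c 3 v34 (.c 4 v33 (.c 5 v34 .e))
noncomputable def r172 : Tr := .c 4 q250 (.c 7 q251 (.c 8 q252 .e))
noncomputable def q253 : Tr := .c 9 v35 .e
noncomputable def q254 : Tr := .c 3 v35 (.c 4 v36 (.c 5 v35 (.c 9 v35 .e)))
noncomputable def q255 : Tr := .c 3 v38 (.c 4 v37 (.c 5 v38 .e))
noncomputable def r173 : Tr := .c 3 q253 (.c 6 q32 (.c 7 q254 (.c 8 q255 .e)))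
noncomputable def q256 : Tr := .c 3 v40 (.c 4 v39 (.c 5 v40 (.c 9 v40 .e)))
noncomputable def q257 : Tr := .c 3 v40 (.c 5 v40 (.c 9 v40 .e))
noncomputable def r174 : Tr := .c 1 q256 (.c 2 q257 (.c 7 q251 (.c 8 q252 .e)))
noncomputable def q258 : Tr := .c 3 v42 (.c 4 v41 (.c 5 v42 (.c 9 v42 .e)))
noncomputable def r175 : Tr := .c 0 q37 (.c 1 q258 (.c 6 q32 (.c 7 q254 (.c 8 q255 .e))))
noncomputable def r176 : Tr := .c 0 q34 (.c 1 q256 (.c 2 q257 (.c 6 q28 (.c 7 q251 (.c 8 q252 .e)))))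
noncomputable def q259 : Tr := .c 9 v40 .e
noncomputable def r177 : Tr := .c 1 q256 (.c 2 q257 (.c 4 q259 (.c 8 q252 .e)))
noncomputable def t40 : Tr := .c 0 r172 (.c 2 r173 (.c 3 r174 (.c 4 r175 (.c 5 r176 (.c 6 r177 .e)))))
noncomputable def q260 : Tr := .c 3 v32 (.c 5 v32 (.c 9 v32 .e))
noncomputable def q261 : Tr := .c 3 v34 (.c 5 v34 .e)
noncomputable def r178 : Tr := .c 4 q250 (.c 7 q260 (.c 8 q261 .e))
noncomputable def r179 : Tr := .c 3 q253 (.c 4 q250 (.c 6 q44 .e))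
noncomputable def q262 : Tr := .c 3 v35 (.c 5 v35 (.c 9 v35 .e))
noncomputable def q263 : Tr := .c 3 v38 (.c 5 v38 .e)
noncomputable def r180 : Tr := .c 3 q253 (.c 6 q44 (.c 7 q262 (.c 8 q263 .e)))
noncomputable def r181 : Tr := .c 1 q257 (.c 2 q257 (.c 7 q260 (.c 8 q261 .e)))
noncomputable def q264 : Tr := .c 3 v42 (.c 5 v42 (.c 9 v42 .e))
noncomputable def r182 : Tr := .c 0 q48 (.c 1 q264 (.c 6 q44 (.c 7 q262 (.c 8 q263 .e))))
noncomputable def r183 : Tr := .c 1 q257 (.c 2 q257 (.c 4 q259 (.c 8 q261 .e)))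
noncomputable def q265 : Tr := .c 5 v43 (.c 9 v43 .e)
noncomputable def q266 : Tr := .c 9 v43 .e
noncomputable def r184 : Tr := .c 0 q265 (.c 2 q257 (.c 3 q266 (.c 4 q259 .e)))
noncomputable def t41 : Tr := .c 0 r178 (.c 1 r179 (.c 2 r180 (.c 3 r181 (.c 4 r182 (.c 6 r183 (.c 7 r184 .e))))))
noncomputable def r185 : Tr := .c 0 q58 (.c 1 q176 (.c 6 q60 (.c 7 q178 (.c 8 q179 .e))))
noncomputable def q267 : Tr := .c 4 v58 (.c 5 v59 (.c 9 v59 .e))
noncomputable def q268 : Tr := .c 9 v59 .e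
noncomputable def v119 : Tr := .l 0x2091c92451880c52491061881862491c9249209147249188209208
noncomputable def q269 : Tr := .c 6 v119 .e
noncomputable def q270 : Tr := .c 3 v119 (.c 4 v61 (.c 6 v119 .e))
noncomputable def r186 : Tr := .c 0 q267 (.c 3 q268 (.c 5 q269 (.c 9 q270 .e)))
noncomputable def v120 : Tr := .l 0x2092492491880c5249188188188249249249209147249209209209
noncomputable def q271 : Tr := .c 6 v120 .e
noncomputable def r187 : Tr := .c 0 q58 (.c 3 q187 (.c 5 q271 (.c 6 q60 .e)))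
noncomputable def r188 : Tr := .c 0 q58 (.c 1 q176 (.c 3 q187 (.c 6 q60 (.c 7 q178 .e))))
noncomputable def t42 : Tr := .c 4 r128 (.c 5 r185 (.c 7 r186 (.c 8 r187 (.c 9 r188 .e))))
noncomputable def r189 : Tr := .c 1 q176 (.c 7 q178 (.c 8 q179 (.c 9 q180 .e)))
noncomputable def r190 : Tr := .c 1 q176 (.c 5 q186 (.c 8 q179 (.c 9 q180 .e)))
noncomputable def t43 : Tr := .c 3 r189 (.c 4 r128 (.c 5 r185 (.c 6 r190 (.c 9 r188 .e))))
noncomputable def r191 : Tr := .c 1 q188 (.c 7 q190 (.c 8 q180 (.c 9 q180 .e)))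
noncomputable def r192 : Tr := .c 0 q70 (.c 1 q188 (.c 6 q71 (.c 7 q190 (.c 8 q180 .e))))
noncomputable def r193 : Tr := .c 1 q188 (.c 5 q186 (.c 8 q180 (.c 9 q180 .e)))
noncomputable def r194 : Tr := .c 0 q192 (.c 5 q186 (.c 9 q180 .e))
noncomputable def r195 : Tr := .c 0 q70 (.c 5 q193 (.c 6 q71 .e))
noncomputable def r196 : Tr := .c 0 q70 (.c 1 q188 (.c 6 q71 (.c 7 q190 .e)))
noncomputable def t44 : Tr := .c 3 r191 (.c 5 r192 (.c 6 r193 (.c 7 r194 (.c 8 r195 (.c 9 r196 .e)))))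
noncomputable def r197 : Tr := .c 5 q199 (.c 6 q77 (.c 9 q202 .e))
noncomputable def r198 : Tr := .c 0 q83 (.c 1 q203 (.c 6 q84 (.c 7 q196 (.c 8 q197 .e))))
noncomputable def r199 : Tr := .c 0 q83 (.c 5 q271 (.c 6 q84 .e))
noncomputable def r200 : Tr := .c 0 q83 (.c 1 q203 (.c 6 q84 (.c 7 q196 .e)))
noncomputable def t45 : Tr := .c 1 r197 (.c 2 r139 (.c 4 r141 (.c 5 r198 (.c 8 r199 (.c 9 r200 .e)))))
noncomputable def r201 : Tr := .c 5 q195 (.c 7 q196 (.c 8 q197 (.c 9 q198 .e)))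
noncomputable def r202 : Tr := .c 1 q203 (.c 7 q196 (.c 8 q197 (.c 9 q198 .e)))
noncomputable def t46 : Tr := .c 0 r201 (.c 2 r139 (.c 3 r202 (.c 4 r141 (.c 5 r198 (.c 9 r200 .e)))))
noncomputable def r203 : Tr := .c 7 q207 (.c 8 q208 (.c 9 q209 .e))
noncomputable def r204 : Tr := .c 1 q214 (.c 7 q207 (.c 8 q208 (.c 9 q209 .e)))
noncomputable def r205 : Tr := .c 0 q99 (.c 1 q214 (.c 6 q90 (.c 7 q207 (.c 8 q208 .e))))
noncomputable def r206 : Tr := .c 1 q214 (.c 8 q208 (.c 9 q209 .e))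
noncomputable def t47 : Tr := .c 0 r203 (.c 2 r145 (.c 3 r204 (.c 4 r147 (.c 5 r205 (.c 6 r206 .e)))))
noncomputable def r207 : Tr := .c 1 q176 (.c 2 q177 (.c 7 q178 .e))
noncomputable def r208 : Tr := .c 0 q52 (.c 1 q181 (.c 6 q54 (.c 7 q182 .e)))
noncomputable def r209 : Tr := .c 0 q58 (.c 1 q176 (.c 2 q177 (.c 6 q60 (.c 7 q178 .e))))
noncomputable def r210 : Tr := .c 1 q176 (.c 2 q177 (.c 4 q185 (.c 5 q186 .e)))
noncomputable def t48 : Tr := .c 3 r207 (.c 4 r208 (.c 5 r209 (.c 6 r210 (.c 9 r131 .e))))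
noncomputable def r211 : Tr := .c 1 q188 (.c 2 q189 (.c 7 q190 .e))
noncomputable def r212 : Tr := .c 0 q70 (.c 1 q188 (.c 2 q189 (.c 6 q71 (.c 7 q190 .e))))
noncomputable def r213 : Tr := .c 1 q188 (.c 2 q189 (.c 4 q191 (.c 5 q186 .e)))
noncomputable def r214 : Tr := .c 0 q192 (.c 2 q189 (.c 4 q191 (.c 5 q186 .e)))
noncomputable def t49 : Tr := .c 3 r211 (.c 5 r212 (.c 6 r213 (.c 7 r214 (.c 8 r136 (.c 9 r137 .e)))))
noncomputable def v121 : Tr := .l 0x1c92492081472092091c91471472492492491c92492492491c91c9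
noncomputable def q272 : Tr := .c 6 v121 .e
noncomputable def v122 : Tr := .l 0x2492092061c92092491471c91c72492092492492492491c9249249
noncomputable def q273 : Tr := .c 6 v122 .e
noncomputable def q274 : Tr := .c 3 v9 (.c 4 v2 .e)
noncomputable def r215 : Tr := .c 4 q272 (.c 5 q273 (.c 7 q274 .e))
noncomputable def v123 : Tr := .l 0x2492482481c82492482491c51c8249249209249248248249247249
noncomputable def q275 : Tr := .c 4 v123 .e
noncomputable def r216 : Tr := .c 4 q272 (.c 5 q273 (.c 6 q275 .e))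
noncomputable def t50 : Tr := .c 0 r215 (.c 1 r216 (.c 6 r213 (.c 7 r214 (.c 8 r136 (.c 9 r137 .e)))))
noncomputable def v124 : Tr := .l 0x1472092061c92092492491c91c91c92092492492492492492491c9
noncomputable def q276 : Tr := .c 6 v124 (.c 9 v116 .e)
noncomputable def v125 : Tr := .l 0x1c92481882491882491c9249249249249208249208248249249249
noncomputable def q277 : Tr := .c 6 v125 .e
noncomputable def r217 : Tr := .c 4 q276 (.c 5 q277 (.c 7 q218 .e))
noncomputable def r218 : Tr := .c 3 q210 (.c 4 q276 (.c 5 q277 (.c 6 q221 .e)))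
noncomputable def r219 : Tr := .c 3 q210 (.c 5 q277 (.c 6 q221 (.c 7 q222 .e)))
noncomputable def q278 : Tr := .c 3 v86 (.c 5 v86 (.c 6 v86 (.c 9 v86 .e)))
noncomputable def q279 : Tr := .c 6 v86 (.c 9 v86 .e)
noncomputable def v126 : Tr := .l 0x1061c91c51881c92491061881861881c9249209249249188209188
noncomputable def q280 : Tr := .c 6 v126 .e
noncomputable def r220 : Tr := .c 1 q278 (.c 2 q278 (.c 4 q279 (.c 5 q280 .e)))
noncomputable def r221 : Tr := .c 0 q225 (.c 2 q278 (.c 3 q226 (.c 4 q279 (.c 5 q280 .e))))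
noncomputable def v127 : Tr := .l 0x1882450c91882492492091881882092491c5209249249249209209
noncomputable def q281 : Tr := .c 5 v127 (.c 9 v127 .e)
noncomputable def v128 : Tr := .l 0x1882471471061c91c9188106106209249247188249249209188188
noncomputable def q282 : Tr := .c 3 v128 (.c 5 v128 (.c 6 v128 (.c 9 v128 .e)))
noncomputable def q283 : Tr := .c 9 v127 .e
noncomputable def q284 : Tr := .c 6 v128 (.c 9 v128 .e)
noncomputable def q285 : Tr := .c 6 v59 .e
noncomputable def r222 : Tr := .c 0 q281 (.c 2 q282 (.c 3 q283 (.c 4 q284 (.c 5 q285 (.c 6 q281 .e)))))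
noncomputable def t51 : Tr := .c 0 r217 (.c 1 r218 (.c 2 r219 (.c 6 r220 (.c 7 r221 (.c 8 r222 .e)))))
noncomputable def r223 : Tr := .c 4 q206 (.c 7 q207 .e)
noncomputable def r224 : Tr := .c 3 q210 (.c 6 q96 (.c 7 q211 .e))
noncomputable def r225 : Tr := .c 1 q214 (.c 2 q215 (.c 7 q207 .e))
noncomputable def r226 : Tr := .c 0 q101 (.c 1 q216 (.c 6 q96 (.c 7 q211 .e)))
noncomputable def r227 : Tr := .c 0 q99 (.c 1 q214 (.c 2 q215 (.c 6 q90 (.c 7 q207 .e))))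
noncomputable def r228 : Tr := .c 1 q214 (.c 2 q215 (.c 4 q217 .e))
noncomputable def t52 : Tr := .c 0 r223 (.c 2 r224 (.c 3 r225 (.c 4 r226 (.c 5 r227 (.c 6 r228 .e)))))
noncomputable def r229 : Tr := .c 4 q206 (.c 7 q218 .e)
noncomputable def r230 : Tr := .c 3 q210 (.c 4 q206 (.c 6 q221 .e))
noncomputable def r231 : Tr := .c 3 q210 (.c 6 q221 (.c 7 q222 .e))
noncomputable def r232 : Tr := .c 1 q215 (.c 2 q215 (.c 7 q218 .e))
noncomputable def r233 : Tr := .c 0 q223 (.c 1 q224 (.c 6 q221 (.c 7 q222 .e)))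
noncomputable def r234 : Tr := .c 1 q215 (.c 2 q215 (.c 4 q217 .e))
noncomputable def r235 : Tr := .c 0 q225 (.c 2 q215 (.c 3 q226 (.c 4 q217 .e)))
noncomputable def t53 : Tr := .c 0 r229 (.c 1 r230 (.c 2 r231 (.c 3 r232 (.c 4 r233 (.c 6 r234 (.c 7 r235 .e))))))
noncomputable def r236 : Tr := .c 0 q52 (.c 1 q181 (.c 8 q183 (.c 9 q184 .e)))
noncomputable def r237 : Tr := .c 0 q58 (.c 1 q176 (.c 8 q179 .e))
noncomputable def r238 : Tr := .c 0 q58 (.c 3 q187 (.c 5 q271 .e))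
noncomputable def r239 : Tr := .c 0 q58 (.c 1 q176 (.c 3 q187 .e))
noncomputable def t54 : Tr := .c 4 r236 (.c 5 r237 (.c 7 r186 (.c 8 r238 (.c 9 r239 .e))))
noncomputable def r240 : Tr := .c 1 q176 (.c 8 q179 (.c 9 q180 .e))
noncomputable def t55 : Tr := .c 3 r240 (.c 4 r236 (.c 5 r237 (.c 6 r190 (.c 9 r239 .e))))
noncomputable def r241 : Tr := .c 1 q188 (.c 8 q180 (.c 9 q180 .e))
noncomputable def r242 : Tr := .c 0 q70 (.c 1 q188 (.c 8 q180 .e))
noncomputable def r243 : Tr := .c 0 q70 (.c 5 q193 .e)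
noncomputable def r244 : Tr := .c 0 q70 (.c 1 q188 .e)
noncomputable def t56 : Tr := .c 3 r241 (.c 5 r242 (.c 6 r193 (.c 7 r194 (.c 8 r243 (.c 9 r244 .e)))))
noncomputable def q286 : Tr := .c 9 v109 .e
noncomputable def r245 : Tr := .c 3 q286 (.c 5 q199 (.c 9 q202 .e))
noncomputable def r246 : Tr := .c 3 q286 (.c 5 q199 (.c 8 q201 (.c 9 q202 .e)))
noncomputable def t57 : Tr := .c 1 r245 (.c 2 r246 (.c 7 r186 (.c 8 r238 (.c 9 r239 .e))))
noncomputable def v129 : Tr := .l 0x2492092461470842091471c91c72492092491c91062491c9249249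
noncomputable def q287 : Tr := .c 6 v129 .e
noncomputable def q288 : Tr := .c 3 v129 (.c 4 v113 (.c 6 v129 .e))
noncomputable def r247 : Tr := .c 5 q287 (.c 8 q288 (.c 9 q288 .e))
noncomputable def r248 : Tr := .c 5 q287 (.c 9 q288 .e)
noncomputable def t58 : Tr := .c 0 r247 (.c 1 r248 (.c 6 r193 (.c 7 r194 (.c 8 r243 (.c 9 r244 .e)))))
noncomputable def r249 : Tr := .c 5 q199 (.c 9 q202 .e)
noncomputable def r250 : Tr := .c 5 q199 (.c 8 q201 (.c 9 q202 .e))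
noncomputable def r251 : Tr := .c 0 q81 (.c 1 q205 (.c 8 q201 (.c 9 q202 .e)))
noncomputable def r252 : Tr := .c 0 q83 (.c 1 q203 (.c 8 q197 .e))
noncomputable def r253 : Tr := .c 0 q83 (.c 5 q271 .e)
noncomputable def r254 : Tr := .c 0 q83 (.c 1 q203 .e)
noncomputable def t59 : Tr := .c 1 r249 (.c 2 r250 (.c 4 r251 (.c 5 r252 (.c 8 r253 (.c 9 r254 .e)))))
noncomputable def r255 : Tr := .c 5 q195 (.c 8 q197 (.c 9 q198 .e))
noncomputable def r256 : Tr := .c 1 q203 (.c 8 q197 (.c 9 q198 .e))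
noncomputable def t60 : Tr := .c 0 r255 (.c 2 r250 (.c 3 r256 (.c 4 r251 (.c 5 r252 (.c 9 r254 .e)))))
noncomputable def q289 : Tr := .c 3 v53 (.c 5 v53 (.c 6 v53 (.c 7 v53 (.c 8 v53 (.c 9 v53 .e)))))
noncomputable def q290 : Tr := .c 3 v53 (.c 5 v53 (.c 9 v53 .e))
noncomputable def q291 : Tr := .c 3 v57 (.c 5 v57 (.c 6 v57 .e))
noncomputable def q292 : Tr := .c 3 v57 (.c 6 v57 (.c 7 v57 .e))
noncomputable def r257 : Tr := .c 1 q177 (.c 2 q289 (.c 7 q290 (.c 8 q291 (.c 9 q292 .e))))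
noncomputable def q293 : Tr := .c 5 v45 (.c 7 v62 (.c 8 v45 (.c 9 v45 .e)))
noncomputable def q294 : Tr := .c 3 v45 (.c 5 v45 (.c 6 v45 (.c 9 v45 .e)))
noncomputable def q295 : Tr := .c 5 v48 (.c 8 v48 (.c 9 v48 .e))
noncomputable def q296 : Tr := .c 3 v48 (.c 5 v48 (.c 9 v48 .e))
noncomputable def q297 : Tr := .c 3 v50 (.c 5 v50 (.c 6 v50 .e))
noncomputable def q298 : Tr := .c 3 v50 (.c 6 v50 (.c 7 v50 .e))
noncomputable def r258 : Tr := .c 0 q293 (.c 1 q294 (.c 6 q295 (.c 7 q296 (.c 8 q297 (.c 9 q298 .e)))))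
noncomputable def q299 : Tr := .c 6 v53 (.c 7 v53 (.c 8 v53 (.c 9 v53 .e)))
noncomputable def q300 : Tr := .c 6 v57 (.c 7 v57 (.c 8 v128 .e))
noncomputable def r259 : Tr := .c 1 q177 (.c 2 q289 (.c 4 q299 (.c 5 q300 (.c 8 q291 (.c 9 q292 .e)))))
noncomputable def t61 : Tr := .c 3 r257 (.c 4 r258 (.c 6 r259 .e))
noncomputable def q301 : Tr := .c 3 v53 (.c 6 v53 (.c 7 v53 (.c 8 v53 .e)))
noncomputable def q302 : Tr := .c 3 v53 .e
noncomputable def q303 : Tr := .c 3 v57 (.c 6 v57 .e)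
noncomputable def r260 : Tr := .c 1 q189 (.c 2 q301 (.c 7 q302 (.c 8 q303 (.c 9 q292 .e))))
noncomputable def q304 : Tr := .c 6 v53 (.c 7 v53 (.c 8 v53 .e))
noncomputable def r261 : Tr := .c 1 q189 (.c 2 q301 (.c 4 q304 (.c 5 q300 (.c 8 q303 (.c 9 q292 .e)))))
noncomputable def q305 : Tr := .c 7 v57 (.c 8 v128 .e)
noncomputable def r262 : Tr := .c 0 q305 (.c 2 q301 (.c 3 q305 (.c 4 q304 (.c 5 q300 (.c 9 q292 .e)))))
noncomputable def q306 : Tr := .c 7 v115 (.c 8 v128 .e)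
noncomputable def q307 : Tr := .c 3 v53 (.c 6 v53 (.c 7 v53 (.c 8 v97 .e)))
noncomputable def q308 : Tr := .c 6 v53 (.c 7 v53 (.c 8 v97 .e))
noncomputable def q309 : Tr := .c 6 v115 (.c 7 v115 (.c 8 v128 .e))
noncomputable def q310 : Tr := .c 8 v128 .e
noncomputable def r263 : Tr := .c 0 q306 (.c 2 q307 (.c 3 q306 (.c 4 q308 (.c 5 q309 (.c 6 q310 .e)))))
noncomputable def t62 : Tr := .c 3 r260 (.c 6 r261 (.c 7 r262 (.c 8 r263 .e)))
noncomputable def q311 : Tr := .c 6 v9 (.c 7 v9 .e)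
noncomputable def q312 : Tr := .c 6 v75 (.c 7 v75 .e)
noncomputable def q313 : Tr := .c 3 v73 (.c 5 v73 .e)
noncomputable def q314 : Tr := .c 3 v75 (.c 5 v75 (.c 6 v75 .e))
noncomputable def q315 : Tr := .c 3 v75 (.c 6 v75 (.c 7 v75 .e))
noncomputable def r264 : Tr := .c 4 q311 (.c 5 q312 (.c 7 q313 (.c 8 q314 (.c 9 q315 .e))))
noncomputable def q316 : Tr := .c 7 v69 .e
noncomputable def q317 : Tr := .c 6 v69 (.c 7 v69 .e)
noncomputable def q318 : Tr := .c 5 v67 .e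
noncomputable def q319 : Tr := .c 3 v67 (.c 5 v67 .e)
noncomputable def q320 : Tr := .c 3 v69 (.c 5 v69 (.c 6 v69 .e))
noncomputable def q321 : Tr := .c 3 v69 (.c 6 v69 (.c 7 v69 .e))
noncomputable def r265 : Tr := .c 3 q316 (.c 5 q317 (.c 6 q318 (.c 7 q319 (.c 8 q320 (.c 9 q321 .e)))))
noncomputable def q322 : Tr := .c 3 v53 (.c 5 v53 (.c 6 v53 (.c 7 v53 .e)))
noncomputable def r266 : Tr := .c 1 q204 (.c 2 q322 (.c 7 q313 (.c 8 q314 (.c 9 q315 .e))))
noncomputable def v130 : Tr := .l 0x2492492482492492491c9249249249249249249249249249249249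
noncomputable def q323 : Tr := .c 5 v71 (.c 7 v130 .e)
noncomputable def q324 : Tr := .c 3 v71 (.c 5 v71 (.c 6 v71 .e))
noncomputable def r267 : Tr := .c 0 q323 (.c 1 q324 (.c 6 q318 (.c 7 q319 (.c 8 q320 (.c 9 q321 .e)))))
noncomputable def t63 : Tr := .c 0 r264 (.c 2 r265 (.c 3 r266 (.c 4 r267 .e)))
noncomputable def q325 : Tr := .c 8 v116 (.c 9 v116 .e)
noncomputable def r268 : Tr := .c 4 q325 (.c 5 q94 (.c 7 q218 (.c 8 q219 (.c 9 q220 .e))))
noncomputable def q326 : Tr := .c 5 v82 (.c 8 v82 (.c 9 v82 .e))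
noncomputable def r269 : Tr := .c 3 q93 (.c 5 q94 (.c 6 q326 (.c 7 q222 (.c 8 q219 (.c 9 q220 .e)))))
noncomputable def q327 : Tr := .c 3 v86 (.c 5 v86 (.c 8 v86 (.c 9 v86 .e)))
noncomputable def r270 : Tr := .c 1 q215 (.c 2 q327 (.c 7 q218 (.c 8 q219 (.c 9 q220 .e))))
noncomputable def q328 : Tr := .c 5 v88 (.c 8 v88 (.c 9 v88 .e))
noncomputable def r271 : Tr := .c 0 q328 (.c 1 q224 (.c 6 q326 (.c 7 q222 (.c 8 q219 (.c 9 q220 .e)))))
noncomputable def q329 : Tr := .c 8 v86 (.c 9 v86 .e)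
noncomputable def q330 : Tr := .c 8 v117 .e
noncomputable def r272 : Tr := .c 1 q215 (.c 2 q327 (.c 4 q329 (.c 5 q330 (.c 8 q219 (.c 9 q220 .e)))))
noncomputable def t64 : Tr := .c 0 r268 (.c 2 r269 (.c 3 r270 (.c 4 r271 (.c 6 r272 .e))))
noncomputable def r273 : Tr := .c 3 q93 (.c 4 q325 (.c 5 q94 (.c 6 q326 (.c 9 q220 .e))))
noncomputable def q331 : Tr := .c 5 v117 (.c 8 v117 (.c 9 v117 .e))
noncomputable def q332 : Tr := .c 8 v117 (.c 9 v117 .e)
noncomputable def r274 : Tr := .c 0 q331 (.c 2 q327 (.c 3 q332 (.c 4 q329 (.c 5 q330 (.c 9 q220 .e)))))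
noncomputable def t65 : Tr := .c 0 r268 (.c 1 r273 (.c 2 r269 (.c 3 r270 (.c 4 r271 (.c 6 r272 (.c 7 r274 .e))))))
noncomputable def q333 : Tr := .c 5 v59 (.c 7 v119 (.c 8 v59 (.c 9 v59 .e)))
noncomputable def q334 : Tr := .c 7 v119 (.c 8 v59 (.c 9 v59 .e))
noncomputable def q335 : Tr := .c 6 v119 (.c 7 v119 (.c 8 v59 .e))
noncomputable def q336 : Tr := .c 3 v119 (.c 6 v119 (.c 7 v119 .e))
noncomputable def r275 : Tr := .c 0 q333 (.c 3 q334 (.c 5 q335 (.c 9 q336 .e)))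
noncomputable def q337 : Tr := .c 5 v53 (.c 7 v120 (.c 8 v53 (.c 9 v53 .e)))
noncomputable def q338 : Tr := .c 7 v120 (.c 8 v53 (.c 9 v53 .e))
noncomputable def q339 : Tr := .c 6 v120 (.c 7 v120 (.c 8 v53 .e))
noncomputable def q340 : Tr := .c 5 v53 (.c 8 v53 (.c 9 v53 .e))
noncomputable def r276 : Tr := .c 0 q337 (.c 3 q338 (.c 5 q339 (.c 6 q340 .e)))
noncomputable def t66 : Tr := .c 4 r258 (.c 7 r275 (.c 8 r276 .e))
noncomputable def r277 : Tr := .c 1 q177 (.c 7 q290 (.c 8 q291 (.c 9 q292 .e)))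
noncomputable def r278 : Tr := .c 1 q177 (.c 5 q300 (.c 8 q291 (.c 9 q292 .e)))
noncomputable def t67 : Tr := .c 3 r277 (.c 4 r258 (.c 6 r278 .e))
noncomputable def r279 : Tr := .c 1 q189 (.c 7 q302 (.c 8 q303 (.c 9 q292 .e)))
noncomputable def r280 : Tr := .c 1 q189 (.c 5 q300 (.c 8 q303 (.c 9 q292 .e)))
noncomputable def r281 : Tr := .c 0 q305 (.c 3 q305 (.c 5 q300 (.c 9 q292 .e)))
noncomputable def r282 : Tr := .c 0 q306 (.c 3 q306 (.c 5 q309 (.c 6 q310 .e)))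
noncomputable def t68 : Tr := .c 3 r279 (.c 6 r280 (.c 7 r281 (.c 8 r282 .e)))
noncomputable def r283 : Tr := .c 3 q316 (.c 5 q317 (.c 6 q318 (.c 9 q321 .e)))
noncomputable def q341 : Tr := .c 5 v53 (.c 7 v120 .e)
noncomputable def q342 : Tr := .c 7 v120 .e
noncomputable def q343 : Tr := .c 6 v120 (.c 7 v120 .e)
noncomputable def q344 : Tr := .c 5 v73 .e
noncomputable def r284 : Tr := .c 0 q341 (.c 3 q342 (.c 5 q343 (.c 6 q344 .e)))
noncomputable def t69 : Tr := .c 1 r283 (.c 2 r265 (.c 4 r267 (.c 8 r284 .e)))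
noncomputable def r285 : Tr := .c 5 q312 (.c 7 q313 (.c 8 q314 (.c 9 q315 .e)))
noncomputable def r286 : Tr := .c 1 q204 (.c 7 q313 (.c 8 q314 (.c 9 q315 .e)))
noncomputable def t70 : Tr := .c 0 r285 (.c 2 r265 (.c 3 r286 (.c 4 r267 .e)))
noncomputable def r287 : Tr := .c 5 q94 (.c 7 q218 (.c 8 q219 (.c 9 q220 .e)))
noncomputable def r288 : Tr := .c 1 q215 (.c 7 q218 (.c 8 q219 (.c 9 q220 .e)))
noncomputable def r289 : Tr := .c 1 q215 (.c 5 q330 (.c 8 q219 (.c 9 q220 .e)))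
noncomputable def t71 : Tr := .c 0 r287 (.c 2 r269 (.c 3 r288 (.c 4 r271 (.c 6 r289 .e))))
noncomputable def r290 : Tr := .c 1 q177 (.c 2 q289 (.c 7 q290 .e))
noncomputable def r291 : Tr := .c 0 q293 (.c 1 q294 (.c 6 q295 (.c 7 q296 .e)))
noncomputable def r292 : Tr := .c 1 q177 (.c 2 q289 (.c 4 q299 (.c 5 q300 .e)))
noncomputable def t72 : Tr := .c 3 r290 (.c 4 r291 (.c 6 r292 .e))
noncomputable def r293 : Tr := .c 1 q189 (.c 2 q301 (.c 7 q302 .e))
noncomputable def r294 : Tr := .c 1 q189 (.c 2 q301 (.c 4 q304 (.c 5 q300 .e)))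
noncomputable def r295 : Tr := .c 0 q305 (.c 2 q301 (.c 3 q305 (.c 4 q304 (.c 5 q300 .e))))
noncomputable def t73 : Tr := .c 3 r293 (.c 6 r294 (.c 7 r295 (.c 8 r263 .e)))
noncomputable def v131 : Tr := .l 0x1c92461081472092091c91471472492492061c92492492491c91c9
noncomputable def q345 : Tr := .c 6 v121 (.c 7 v121 (.c 8 v131 .e))
noncomputable def v132 : Tr := .l 0x1472440881c92492092491471c91c92491842492492492491c9249
noncomputable def q346 : Tr := .c 6 v122 (.c 7 v122 (.c 8 v132 .e))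
noncomputable def q347 : Tr := .c 3 v9 .e
noncomputable def r296 : Tr := .c 4 q345 (.c 5 q346 (.c 7 q347 .e))
noncomputable def q348 : Tr := .c 7 v122 (.c 8 v132 .e)
noncomputable def q349 : Tr := .c 8 v132 .e
noncomputable def r297 : Tr := .c 3 q348 (.c 4 q345 (.c 5 q346 (.c 6 q349 .e)))
noncomputable def t74 : Tr := .c 0 r296 (.c 1 r297 (.c 6 r294 (.c 7 r295 (.c 8 r263 .e))))
noncomputable def q350 : Tr := .c 6 v124 (.c 7 v124 (.c 8 v116 (.c 9 v116 .e)))
noncomputable def q351 : Tr := .c 6 v125 (.c 7 v125 (.c 8 v82 .e))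
noncomputable def r298 : Tr := .c 4 q350 (.c 5 q351 (.c 7 q218 .e))
noncomputable def q352 : Tr := .c 7 v125 (.c 8 v82 (.c 9 v82 .e))
noncomputable def r299 : Tr := .c 3 q352 (.c 4 q350 (.c 5 q351 (.c 6 q326 .e)))
noncomputable def r300 : Tr := .c 3 q352 (.c 5 q351 (.c 6 q326 (.c 7 q222 .e)))
noncomputable def q353 : Tr := .c 3 v86 (.c 5 v86 (.c 6 v86 (.c 7 v86 (.c 8 v86 (.c 9 v86 .e)))))
noncomputable def q354 : Tr := .c 6 v86 (.c 7 v86 (.c 8 v86 (.c 9 v86 .e)))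
noncomputable def q355 : Tr := .c 6 v126 (.c 7 v126 (.c 8 v117 .e))
noncomputable def r301 : Tr := .c 1 q278 (.c 2 q353 (.c 4 q354 (.c 5 q355 .e)))
noncomputable def q356 : Tr := .c 5 v117 (.c 7 v126 (.c 8 v117 (.c 9 v117 .e)))
noncomputable def q357 : Tr := .c 7 v126 (.c 8 v117 (.c 9 v117 .e))
noncomputable def r302 : Tr := .c 0 q356 (.c 2 q353 (.c 3 q357 (.c 4 q354 (.c 5 q355 .e))))
noncomputable def q358 : Tr := .c 5 v127 (.c 7 v59 (.c 8 v127 (.c 9 v127 .e)))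
noncomputable def q359 : Tr := .c 3 v128 (.c 5 v128 (.c 6 v128 (.c 7 v128 (.c 8 v128 (.c 9 v128 .e)))))
noncomputable def q360 : Tr := .c 7 v59 (.c 8 v127 (.c 9 v127 .e))
noncomputable def q361 : Tr := .c 6 v128 (.c 7 v128 (.c 8 v128 (.c 9 v128 .e)))
noncomputable def q362 : Tr := .c 6 v59 (.c 7 v59 (.c 8 v127 .e))
noncomputable def q363 : Tr := .c 5 v127 (.c 8 v127 (.c 9 v127 .e))
noncomputable def r303 : Tr := .c 0 q358 (.c 2 q359 (.c 3 q360 (.c 4 q361 (.c 5 q362 (.c 6 q363 .e)))))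
noncomputable def t75 : Tr := .c 0 r298 (.c 1 r299 (.c 2 r300 (.c 6 r301 (.c 7 r302 (.c 8 r303 .e)))))
noncomputable def r304 : Tr := .c 4 q325 (.c 5 q94 (.c 7 q218 .e))
noncomputable def r305 : Tr := .c 3 q93 (.c 5 q94 (.c 6 q326 (.c 7 q222 .e)))
noncomputable def r306 : Tr := .c 1 q215 (.c 2 q327 (.c 7 q218 .e))
noncomputable def r307 : Tr := .c 0 q328 (.c 1 q224 (.c 6 q326 (.c 7 q222 .e)))
noncomputable def r308 : Tr := .c 1 q215 (.c 2 q327 (.c 4 q329 (.c 5 q330 .e)))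
noncomputable def t76 : Tr := .c 0 r304 (.c 2 r305 (.c 3 r306 (.c 4 r307 (.c 6 r308 .e))))
noncomputable def r309 : Tr := .c 3 q93 (.c 4 q325 (.c 5 q94 (.c 6 q326 .e)))
noncomputable def r310 : Tr := .c 0 q331 (.c 2 q327 (.c 3 q332 (.c 4 q329 (.c 5 q330 .e))))
noncomputable def t77 : Tr := .c 0 r304 (.c 1 r309 (.c 2 r305 (.c 3 r306 (.c 4 r307 (.c 6 r308 (.c 7 r310 .e))))))
noncomputable def q364 : Tr := .c 5 v93 (.c 7 v92 (.c 8 v93 (.c 9 v93 .e)))
noncomputable def q365 : Tr := .c 3 v93 (.c 5 v93 (.c 6 v93 (.c 9 v93 .e)))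
noncomputable def v133 : Tr := .l 0x1c9249248249249249249249249249249249249249249249249249
noncomputable def q366 : Tr := .c 5 v133 (.c 8 v133 (.c 9 v133 .e))
noncomputable def q367 : Tr := .c 3 v133 (.c 5 v133 (.c 9 v133 .e))
noncomputable def r311 : Tr := .c 0 q364 (.c 1 q365 (.c 6 q366 (.c 7 q367 .e)))
noncomputable def t78 : Tr := .c 4 r311 (.c 7 r302 (.c 8 r303 .e))
noncomputable def t79 : Tr := .c 1 r299 (.c 2 r300 (.c 7 r302 (.c 8 r303 .e)))
noncomputable def r312 : Tr := .c 0 q293 (.c 1 q294 (.c 8 q297 (.c 9 q298 .e)))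
noncomputable def q368 : Tr := .c 3 v115 (.c 5 v115 (.c 6 v115 (.c 7 v115 (.c 8 v115 (.c 9 v115 .e)))))
noncomputable def q369 : Tr := .c 6 v115 (.c 7 v115 (.c 8 v115 (.c 9 v115 .e)))
noncomputable def r313 : Tr := .c 0 q333 (.c 2 q368 (.c 3 q334 (.c 4 q369 (.c 5 q335 (.c 9 q336 .e)))))
noncomputable def r314 : Tr := .c 0 q337 (.c 2 q368 (.c 3 q338 (.c 4 q369 (.c 5 q339 .e))))
noncomputable def t80 : Tr := .c 4 r312 (.c 7 r313 (.c 8 r314 .e))
noncomputable def q370 : Tr := .c 3 v53 (.c 6 v53 (.c 7 v53 (.c 8 v59 .e)))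
noncomputable def r315 : Tr := .c 1 q189 (.c 2 q370 (.c 8 q303 (.c 9 q292 .e)))
noncomputable def q371 : Tr := .c 6 v53 (.c 7 v53 (.c 8 v59 .e))
noncomputable def r316 : Tr := .c 1 q189 (.c 2 q370 (.c 4 q371 (.c 5 q300 (.c 8 q303 (.c 9 q292 .e)))))
noncomputable def r317 : Tr := .c 0 q305 (.c 2 q370 (.c 3 q305 (.c 4 q371 (.c 5 q300 (.c 9 q292 .e)))))
noncomputable def q372 : Tr := .c 3 v107 (.c 6 v107 (.c 7 v107 (.c 8 v59 .e)))
noncomputable def q373 : Tr := .c 6 v107 (.c 7 v107 (.c 8 v59 .e))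
noncomputable def r318 : Tr := .c 0 q306 (.c 2 q372 (.c 3 q306 (.c 4 q373 (.c 5 q309 .e))))
noncomputable def t81 : Tr := .c 3 r315 (.c 6 r316 (.c 7 r317 (.c 8 r318 .e)))
noncomputable def q374 : Tr := .c 7 v69 (.c 8 v109 (.c 9 v109 .e))
noncomputable def v134 : Tr := .l 0x2492492481470842091471c91c92492492491c91062491c9249249
noncomputable def v135 : Tr := .l 0x2492492091c92082482491c91c9249249248249249209249249249
noncomputable def q375 : Tr := .c 6 v134 (.c 7 v134 (.c 8 v135 (.c 9 v135 .e)))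
noncomputable def q376 : Tr := .c 6 v69 (.c 7 v69 (.c 8 v109 .e))
noncomputable def r319 : Tr := .c 3 q374 (.c 4 q375 (.c 5 q376 (.c 9 q321 .e)))
noncomputable def r320 : Tr := .c 3 q374 (.c 5 q376 (.c 8 q320 (.c 9 q321 .e)))
noncomputable def t82 : Tr := .c 1 r319 (.c 2 r320 (.c 7 r313 (.c 8 r314 .e)))
noncomputable def v136 : Tr := .l 0x1c92492081471062091c91471472492492491c91882492491c91c9
noncomputable def q377 : Tr := .c 6 v136 (.c 7 v136 (.c 8 v2 .e))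
noncomputable def q378 : Tr := .c 6 v129 (.c 7 v129 (.c 8 v135 .e))
noncomputable def q379 : Tr := .c 3 v129 (.c 6 v129 .e)
noncomputable def q380 : Tr := .c 3 v129 (.c 6 v129 (.c 7 v129 .e))
noncomputable def r321 : Tr := .c 4 q377 (.c 5 q378 (.c 8 q379 (.c 9 q380 .e)))
noncomputable def q381 : Tr := .c 7 v129 (.c 8 v135 .e)
noncomputable def r322 : Tr := .c 3 q381 (.c 4 q377 (.c 5 q378 (.c 9 q380 .e)))
noncomputable def t83 : Tr := .c 0 r321 (.c 1 r322 (.c 6 r316 (.c 7 r317 (.c 8 r318 .e))))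
noncomputable def r323 : Tr := .c 4 q375 (.c 5 q376 (.c 8 q320 (.c 9 q321 .e)))
noncomputable def q382 : Tr := .c 3 v115 (.c 5 v115 (.c 6 v115 (.c 9 v115 .e)))
noncomputable def q383 : Tr := .c 3 v119 (.c 5 v119 (.c 6 v119 .e))
noncomputable def r324 : Tr := .c 1 q382 (.c 2 q368 (.c 4 q369 (.c 5 q335 (.c 8 q383 (.c 9 q336 .e)))))
noncomputable def t84 : Tr := .c 0 r323 (.c 1 r319 (.c 2 r320 (.c 6 r324 (.c 7 r313 (.c 8 r314 .e)))))
noncomputable def q384 : Tr := .c 6 v134 (.c 7 v134 .e)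
noncomputable def r325 : Tr := .c 3 q316 (.c 4 q384 (.c 5 q317 (.c 9 q321 .e)))
noncomputable def r326 : Tr := .c 3 q316 (.c 5 q317 (.c 8 q320 (.c 9 q321 .e)))
noncomputable def r327 : Tr := .c 0 q323 (.c 1 q324 (.c 8 q320 (.c 9 q321 .e)))
noncomputable def q385 : Tr := .c 3 v115 (.c 5 v115 (.c 6 v115 (.c 7 v115 .e)))
noncomputable def q386 : Tr := .c 6 v115 (.c 7 v115 .e)
noncomputable def r328 : Tr := .c 0 q341 (.c 2 q385 (.c 3 q342 (.c 4 q386 (.c 5 q343 .e))))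
noncomputable def t85 : Tr := .c 1 r325 (.c 2 r326 (.c 4 r327 (.c 8 r328 .e)))
noncomputable def r329 : Tr := .c 0 q337 (.c 3 q338 (.c 5 q339 .e))
noncomputable def t86 : Tr := .c 4 r312 (.c 7 r275 (.c 8 r329 .e))
noncomputable def r330 : Tr := .c 1 q177 (.c 8 q291 (.c 9 q292 .e))
noncomputable def t87 : Tr := .c 3 r330 (.c 4 r312 (.c 6 r278 .e))
noncomputable def r331 : Tr := .c 1 q189 (.c 8 q303 (.c 9 q292 .e))
noncomputable def r332 : Tr := .c 0 q306 (.c 3 q306 (.c 5 q309 .e))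
noncomputable def t88 : Tr := .c 3 r331 (.c 6 r280 (.c 7 r281 (.c 8 r332 .e)))
noncomputable def r333 : Tr := .c 3 q374 (.c 5 q376 (.c 9 q321 .e))
noncomputable def t89 : Tr := .c 1 r333 (.c 2 r320 (.c 7 r275 (.c 8 r329 .e)))
noncomputable def r334 : Tr := .c 5 q378 (.c 8 q379 (.c 9 q380 .e))
noncomputable def r335 : Tr := .c 3 q381 (.c 5 q378 (.c 9 q380 .e))
noncomputable def t90 : Tr := .c 0 r334 (.c 1 r335 (.c 6 r280 (.c 7 r281 (.c 8 r332 .e))))
noncomputable def r336 : Tr := .c 3 q316 (.c 5 q317 (.c 9 q321 .e))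
noncomputable def r337 : Tr := .c 0 q341 (.c 3 q342 (.c 5 q343 .e))
noncomputable def t91 : Tr := .c 1 r336 (.c 2 r326 (.c 4 r327 (.c 8 r337 .e)))
noncomputable def r338 : Tr := .c 5 q312 (.c 8 q314 (.c 9 q315 .e))
noncomputable def r339 : Tr := .c 1 q204 (.c 8 q314 (.c 9 q315 .e))
noncomputable def t92 : Tr := .c 0 r338 (.c 2 r326 (.c 3 r339 (.c 4 r327 .e)))
noncomputable def v137 : Tr := .l 0x1881451432081451c51882082492061470c5206143143206206249
noncomputable def v138 : Tr := .l 0x2091c71452091c71472092092091881c91431881c50c5248188249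
noncomputable def q387 : Tr := .c 1 v137 (.c 2 v137 (.c 7 v137 (.c 8 v138 (.c 9 v138 .e))))
noncomputable def v139 : Tr := .l 0x2091c71c52491c72472092492492481c91472481c51c5248248249
noncomputable def v140 : Tr := .l 0x2091c71c52491c72472092492492481c91472081c51c5248248249
noncomputable def v141 : Tr := .l 0x2492491c72092491c92492092092092491c5209247147249209249
noncomputable def q388 : Tr := .c 1 v139 (.c 7 v140 (.c 8 v141 (.c 9 v141 .e)))
noncomputable def q389 : Tr := .c 1 v137 (.c 2 v137 (.c 7 v137 (.c 8 v138 .e)))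
noncomputable def q390 : Tr := .c 1 v137 (.c 2 v137 (.c 8 v138 (.c 9 v138 .e)))
noncomputable def q391 : Tr := .c 1 v137 (.c 2 v137 (.c 7 v137 .e))
noncomputable def r340 : Tr := .c 3 q387 (.c 4 q388 (.c 5 q389 (.c 6 q390 (.c 9 q391 .e))))
noncomputable def q392 : Tr := .c 2 v137 (.c 9 v138 .e)
noncomputable def q393 : Tr := .c 2 v137 .e
noncomputable def r341 : Tr := .c 3 q387 (.c 5 q389 (.c 6 q390 (.c 7 q392 (.c 8 q393 (.c 9 q391 .e)))))
noncomputable def v142 : Tr := .l 0x2492082062492082082492492491c9209186249206186249249249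
noncomputable def q394 : Tr := .c 7 v98 (.c 8 v142 (.c 9 v142 .e))
noncomputable def v143 : Tr := .l 0x1c92492481c92492492491c91c9147209208249208208249209209
noncomputable def q395 : Tr := .c 7 v100 (.c 8 v143 (.c 9 v143 .e))
noncomputable def q396 : Tr := .c 1 v137 (.c 2 v137 (.c 7 v98 (.c 8 v142 (.c 9 v142 .e))))
noncomputable def v144 : Tr := .l 0x2091c71c52491c72472092492492081c91472481c51c5248248249
noncomputable def q397 : Tr := .c 1 v144 (.c 7 v100 (.c 8 v143 (.c 9 v143 .e)))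
noncomputable def q398 : Tr := .c 1 v137 (.c 2 v137 (.c 7 v98 (.c 8 v142 .e)))
noncomputable def q399 : Tr := .c 1 v137 (.c 2 v137 (.c 7 v98 .e))
noncomputable def r342 : Tr := .c 0 q394 (.c 2 q395 (.c 3 q396 (.c 4 q397 (.c 5 q398 (.c 9 q399 .e)))))
noncomputable def v145 : Tr := .l 0x2492082062492082482492492492492091881c9206206249249249
noncomputable def v146 : Tr := .l 0x1c92492081472092091c91471472492492061c92481882491c91c9
noncomputable def q400 : Tr := .c 7 v145 (.c 8 v146 (.c 9 v146 .e))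
noncomputable def v147 : Tr := .l 0x2492492481c92492492491c91c9249209208147208208249209209
noncomputable def q401 : Tr := .c 7 v147 (.c 8 v146 (.c 9 v146 .e))
noncomputable def v148 : Tr := .l 0x2091c71c52091c72472092092092481c91472481c51c5248248249
noncomputable def q402 : Tr := .c 1 v148 (.c 2 v148 (.c 7 v145 (.c 8 v146 (.c 9 v146 .e))))
noncomputable def v149 : Tr := .l 0x2492492472092492492492092092492491c9209247247249249249
noncomputable def q403 : Tr := .c 1 v149 (.c 7 v147 (.c 8 v146 (.c 9 v146 .e)))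
noncomputable def q404 : Tr := .c 1 v148 (.c 2 v148 (.c 7 v145 (.c 8 v146 .e)))
noncomputable def q405 : Tr := .c 1 v148 (.c 2 v148 (.c 8 v146 (.c 9 v146 .e)))
noncomputable def r343 : Tr := .c 0 q400 (.c 2 q401 (.c 3 q402 (.c 4 q403 (.c 5 q404 (.c 6 q405 .e)))))
noncomputable def q406 : Tr := .c 9 v146 .e
noncomputable def q407 : Tr := .c 2 v148 (.c 9 v146 .e)
noncomputable def r344 : Tr := .c 0 q400 (.c 1 q406 (.c 2 q401 (.c 3 q402 (.c 4 q403 (.c 6 q405 (.c 7 q407 .e))))))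
noncomputable def t93 : Tr := .c 1 r340 (.c 2 r341 (.c 7 r342 (.c 8 r343 (.c 9 r344 .e))))
noncomputable def v150 : Tr := .l 0x2492492472492492492492492492492491c9249247247249249249
noncomputable def v151 : Tr := .l 0x2492492492492492492492492492492492472492491c9249249249
noncomputable def q408 : Tr := .c 1 v150 (.c 7 v150 (.c 8 v151 .e))
noncomputable def q409 : Tr := .c 1 v139 (.c 2 v139 (.c 7 v139 (.c 8 v141 .e)))
noncomputable def q410 : Tr := .c 2 v150 .e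
noncomputable def q411 : Tr := .c 2 v139 .e
noncomputable def q412 : Tr := .c 1 v139 (.c 2 v139 (.c 7 v139 .e))
noncomputable def r345 : Tr := .c 4 q408 (.c 5 q409 (.c 7 q410 (.c 8 q411 (.c 9 q412 .e))))
noncomputable def q413 : Tr := .c 1 v139 (.c 2 v139 (.c 8 v141 .e))
noncomputable def r346 : Tr := .c 3 q409 (.c 4 q408 (.c 5 q409 (.c 6 q413 (.c 9 q412 .e))))
noncomputable def v152 : Tr := .l 0x2492492491c92492492491c91c91c9249249249249249249249249
noncomputable def q414 : Tr := .c 7 v102 (.c 8 v152 .e)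
noncomputable def q415 : Tr := .c 1 v150 (.c 7 v102 (.c 8 v152 .e))
noncomputable def v153 : Tr := .l 0x2091c71c52491c72472082492492481c91472481c51c5248248249
noncomputable def v154 : Tr := .l 0x249249248249249249249249249249249208249248208249249249
noncomputable def q416 : Tr := .c 1 v153 (.c 2 v153 (.c 7 v104 (.c 8 v154 .e)))
noncomputable def q417 : Tr := .c 2 v153 .e
noncomputable def q418 : Tr := .c 1 v153 (.c 2 v153 (.c 7 v104 .e))
noncomputable def r347 : Tr := .c 2 q414 (.c 4 q415 (.c 5 q416 (.c 8 q417 (.c 9 q418 .e))))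
noncomputable def q419 : Tr := .c 7 v104 (.c 8 v154 .e)
noncomputable def r348 : Tr := .c 0 q419 (.c 2 q414 (.c 3 q416 (.c 4 q415 (.c 5 q416 (.c 9 q418 .e)))))
noncomputable def v155 : Tr := .l 0x249249248249209249249249249249249209249248248249249249
noncomputable def v156 : Tr := .l 0x1c92492081472092091c91471472492492481c92492092491c91c9
noncomputable def q420 : Tr := .c 7 v155 (.c 8 v156 .e)
noncomputable def v157 : Tr := .l 0x2492492491c92492492491c91c92492492491c9249249249249249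
noncomputable def v158 : Tr := .l 0x2492492491c92492492491c91c9249249248249249209249249249
noncomputable def q421 : Tr := .c 7 v157 (.c 8 v158 .e)
noncomputable def v159 : Tr := .l 0x2492492472092492492492082092492491c9249247247249249249
noncomputable def q422 : Tr := .c 1 v159 (.c 2 v159 (.c 7 v155 (.c 8 v156 .e)))
noncomputable def q423 : Tr := .c 1 v2 (.c 7 v157 (.c 8 v158 .e))
noncomputable def q424 : Tr := .c 1 v159 (.c 2 v159 (.c 8 v156 .e))
noncomputable def r349 : Tr := .c 0 q420 (.c 2 q421 (.c 3 q422 (.c 4 q423 (.c 5 q422 (.c 6 q424 .e)))))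
noncomputable def q425 : Tr := .c 2 v159 .e
noncomputable def r350 : Tr := .c 0 q420 (.c 2 q421 (.c 3 q422 (.c 4 q423 (.c 6 q424 (.c 7 q425 .e)))))
noncomputable def t94 : Tr := .c 0 r345 (.c 1 r346 (.c 6 r347 (.c 7 r348 (.c 8 r349 (.c 9 r350 .e)))))
noncomputable def q426 : Tr := .c 1 v137 (.c 7 v137 (.c 8 v138 .e))
noncomputable def v160 : Tr := .l 0x2492491c72492491c92492492492092491c5209247147249209209
noncomputable def q427 : Tr := .c 9 v160 .e
noncomputable def q428 : Tr := .c 1 v137 (.c 7 v137 .e)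
noncomputable def r351 : Tr := .c 4 q388 (.c 5 q426 (.c 7 q427 (.c 9 q428 .e)))
noncomputable def q429 : Tr := .c 1 v137 (.c 7 v137 (.c 8 v138 (.c 9 v138 .e)))
noncomputable def q430 : Tr := .c 1 v137 (.c 8 v138 (.c 9 v138 .e))
noncomputable def r352 : Tr := .c 3 q429 (.c 4 q388 (.c 5 q426 (.c 6 q430 (.c 9 q428 .e))))
noncomputable def q431 : Tr := .c 9 v138 .e
noncomputable def r353 : Tr := .c 3 q429 (.c 5 q426 (.c 6 q430 (.c 7 q431 (.c 9 q428 .e))))
noncomputable def q432 : Tr := .c 9 v143 .e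
noncomputable def q433 : Tr := .c 1 v137 (.c 7 v98 (.c 8 v142 .e))
noncomputable def q434 : Tr := .c 1 v137 (.c 7 v98 .e)
noncomputable def r354 : Tr := .c 1 q432 (.c 2 q395 (.c 4 q397 (.c 5 q433 (.c 9 q434 .e))))
noncomputable def q435 : Tr := .c 1 v137 (.c 7 v98 (.c 8 v142 (.c 9 v142 .e)))
noncomputable def r355 : Tr := .c 0 q394 (.c 2 q395 (.c 3 q435 (.c 4 q397 (.c 5 q433 (.c 9 q434 .e)))))
noncomputable def q436 : Tr := .c 1 v148 (.c 7 v145 (.c 8 v146 (.c 9 v146 .e)))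
noncomputable def q437 : Tr := .c 1 v148 (.c 7 v145 (.c 8 v146 .e))
noncomputable def q438 : Tr := .c 1 v148 (.c 8 v146 (.c 9 v146 .e))
noncomputable def r356 : Tr := .c 0 q400 (.c 2 q401 (.c 3 q436 (.c 4 q403 (.c 5 q437 (.c 6 q438 .e)))))
noncomputable def t95 : Tr := .c 0 r351 (.c 1 r352 (.c 2 r353 (.c 6 r354 (.c 7 r355 (.c 8 r356 .e)))))
noncomputable def q439 : Tr := .c 1 v139 (.c 7 v140 .e)
noncomputable def q440 : Tr := .c 1 v137 (.c 2 v137 .e)
noncomputable def r357 : Tr := .c 3 q391 (.c 4 q439 (.c 5 q391 (.c 6 q440 (.c 9 q391 .e))))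
noncomputable def r358 : Tr := .c 3 q391 (.c 5 q391 (.c 6 q440 (.c 7 q393 (.c 8 q393 (.c 9 q391 .e)))))
noncomputable def r359 : Tr := .c 0 q17 (.c 6 q440 (.c 7 q393 (.c 8 q393 (.c 9 q391 .e))))
noncomputable def q441 : Tr := .c 7 v145 .e
noncomputable def q442 : Tr := .c 7 v147 .e
noncomputable def q443 : Tr := .c 1 v148 (.c 2 v148 .e)
noncomputable def q444 : Tr := .c 2 v148 .e
noncomputable def r360 : Tr := .c 0 q441 (.c 2 q442 (.c 6 q443 (.c 7 q444 (.c 8 q411 .e))))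
noncomputable def q445 : Tr := .c 1 v148 (.c 2 v148 (.c 7 v145 .e))
noncomputable def q446 : Tr := .c 1 v149 (.c 7 v147 .e)
noncomputable def r361 : Tr := .c 0 q441 (.c 2 q442 (.c 3 q445 (.c 4 q446 (.c 5 q445 (.c 6 q443 .e)))))
noncomputable def r362 : Tr := .c 0 q441 (.c 2 q442 (.c 3 q445 (.c 4 q446 (.c 6 q443 (.c 7 q444 .e)))))
noncomputable def t96 : Tr := .c 1 r357 (.c 2 r358 (.c 4 r359 (.c 5 r360 (.c 8 r361 (.c 9 r362 .e)))))
noncomputable def q447 : Tr := .c 1 v139 (.c 8 v141 (.c 9 v141 .e))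
noncomputable def q448 : Tr := .c 1 v137 (.c 8 v138 .e)
noncomputable def q449 : Tr := .c 1 v137 .e
noncomputable def r363 : Tr := .c 4 q447 (.c 5 q448 (.c 7 q427 (.c 9 q449 .e)))
noncomputable def r364 : Tr := .c 3 q430 (.c 4 q447 (.c 5 q448 (.c 6 q430 (.c 9 q449 .e))))
noncomputable def r365 : Tr := .c 3 q430 (.c 5 q448 (.c 6 q430 (.c 7 q431 (.c 9 q449 .e))))
noncomputable def q450 : Tr := .c 8 v143 (.c 9 v143 .e)
noncomputable def r366 : Tr := .c 1 q432 (.c 2 q450 (.c 7 q427 (.c 9 q449 .e)))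
noncomputable def v161 : Tr := .l 0x1472492082092092092092091470c5188206249188188249249188
noncomputable def q451 : Tr := .c 8 v161 (.c 9 v161 .e)
noncomputable def q452 : Tr := .c 9 v161 .e
noncomputable def r367 : Tr := .c 0 q451 (.c 1 q452 (.c 6 q430 (.c 7 q431 (.c 9 q449 .e))))
noncomputable def q453 : Tr := .c 1 v144 (.c 8 v143 (.c 9 v143 .e))
noncomputable def q454 : Tr := .c 1 v137 (.c 8 v142 .e)
noncomputable def r368 : Tr := .c 1 q432 (.c 2 q450 (.c 4 q453 (.c 5 q454 (.c 9 q449 .e))))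
noncomputable def q455 : Tr := .c 8 v142 (.c 9 v142 .e)
noncomputable def q456 : Tr := .c 1 v137 (.c 8 v142 (.c 9 v142 .e))
noncomputable def r369 : Tr := .c 0 q455 (.c 2 q450 (.c 3 q456 (.c 4 q453 (.c 5 q454 (.c 9 q449 .e)))))
noncomputable def t97 : Tr := .c 0 r363 (.c 1 r364 (.c 2 r365 (.c 3 r366 (.c 4 r367 (.c 6 r368 (.c 7 r369 .e))))))
noncomputable def r370 : Tr := .c 3 q387 (.c 4 q388 (.c 6 q390 .e))
noncomputable def r371 : Tr := .c 3 q387 (.c 6 q390 (.c 7 q392 (.c 8 q393 .e)))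
noncomputable def r372 : Tr := .c 0 q394 (.c 2 q395 (.c 3 q396 (.c 4 q397 .e)))
noncomputable def r373 : Tr := .c 0 q400 (.c 2 q401 (.c 3 q402 (.c 4 q403 (.c 6 q405 .e))))
noncomputable def t98 : Tr := .c 1 r370 (.c 2 r371 (.c 7 r372 (.c 8 r373 (.c 9 r344 .e))))
noncomputable def r374 : Tr := .c 4 q388 (.c 7 q427 .e)
noncomputable def r375 : Tr := .c 3 q429 (.c 4 q388 (.c 6 q430 .e))
noncomputable def r376 : Tr := .c 3 q429 (.c 6 q430 (.c 7 q431 .e))
noncomputable def r377 : Tr := .c 1 q432 (.c 2 q395 (.c 4 q397 .e))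
noncomputable def r378 : Tr := .c 0 q394 (.c 2 q395 (.c 3 q435 (.c 4 q397 .e)))
noncomputable def r379 : Tr := .c 0 q400 (.c 2 q401 (.c 3 q436 (.c 4 q403 (.c 6 q438 .e))))
noncomputable def t99 : Tr := .c 0 r374 (.c 1 r375 (.c 2 r376 (.c 6 r377 (.c 7 r378 (.c 8 r379 .e)))))
noncomputable def r380 : Tr := .c 3 q391 (.c 4 q439 (.c 6 q440 .e))
noncomputable def r381 : Tr := .c 3 q391 (.c 6 q440 (.c 7 q393 (.c 8 q393 .e)))
noncomputable def r382 : Tr := .c 0 q17 (.c 6 q440 (.c 7 q393 (.c 8 q393 .e)))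
noncomputable def r383 : Tr := .c 0 q441 (.c 2 q442 (.c 3 q445 (.c 4 q446 (.c 6 q443 .e))))
noncomputable def t100 : Tr := .c 1 r380 (.c 2 r381 (.c 4 r382 (.c 5 r360 (.c 8 r383 (.c 9 r362 .e)))))
noncomputable def q457 : Tr := .c 1 v150 (.c 7 v2 .e)
noncomputable def r384 : Tr := .c 4 q457 (.c 7 q444 (.c 8 q411 .e))
noncomputable def r385 : Tr := .c 2 q442 (.c 7 q444 (.c 8 q411 .e))
noncomputable def t101 : Tr := .c 0 r384 (.c 2 r381 (.c 3 r385 (.c 4 r382 (.c 5 r360 (.c 9 r362 .e)))))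
noncomputable def q458 : Tr := .c 2 v139 (.c 9 v160 .e)
noncomputable def v162 : Tr := .l 0x2091c71c52491c72472092492492481c51472481c51c5248248249
noncomputable def q459 : Tr := .c 2 v162 .e
noncomputable def r386 : Tr := .c 4 q447 (.c 7 q458 (.c 8 q459 .e))
noncomputable def v163 : Tr := .l 0x2481451c72491c92492482482492061431c9209147247206249249
noncomputable def q460 : Tr := .c 2 v163 .e
noncomputable def r387 : Tr := .c 3 q390 (.c 6 q390 (.c 7 q392 (.c 8 q460 .e)))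
noncomputable def r388 : Tr := .c 1 q432 (.c 2 q450 (.c 7 q458 (.c 8 q459 .e)))
noncomputable def r389 : Tr := .c 0 q451 (.c 1 q452 (.c 6 q390 (.c 7 q392 (.c 8 q460 .e))))
noncomputable def q461 : Tr := .c 1 v139 (.c 2 v139 (.c 8 v160 (.c 9 v160 .e)))
noncomputable def r390 : Tr := .c 0 q450 (.c 1 q432 (.c 2 q450 (.c 6 q461 (.c 7 q458 (.c 8 q459 .e)))))
noncomputable def r391 : Tr := .c 1 q432 (.c 2 q450 (.c 4 q453 (.c 8 q459 .e)))
noncomputable def t102 : Tr := .c 0 r386 (.c 2 r387 (.c 3 r388 (.c 4 r389 (.c 5 r390 (.c 6 r391 .e)))))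
noncomputable def r392 : Tr := .c 4 q447 (.c 7 q427 .e)
noncomputable def r393 : Tr := .c 3 q430 (.c 4 q447 (.c 6 q430 .e))
noncomputable def r394 : Tr := .c 3 q430 (.c 6 q430 (.c 7 q431 .e))
noncomputable def r395 : Tr := .c 1 q432 (.c 2 q450 (.c 7 q427 .e))
noncomputable def r396 : Tr := .c 0 q451 (.c 1 q452 (.c 6 q430 (.c 7 q431 .e)))
noncomputable def r397 : Tr := .c 1 q432 (.c 2 q450 (.c 4 q453 .e))
noncomputable def r398 : Tr := .c 0 q455 (.c 2 q450 (.c 3 q456 (.c 4 q453 .e)))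
noncomputable def t103 : Tr := .c 0 r392 (.c 1 r393 (.c 2 r394 (.c 3 r395 (.c 4 r396 (.c 6 r397 (.c 7 r398 .e))))))
noncomputable def q462 : Tr := .c 7 v15 (.c 8 v17 (.c 9 v17 .e))
noncomputable def q463 : Tr := .c 9 v17 .e
noncomputable def q464 : Tr := .c 1 v2 (.c 2 v2 (.c 8 v2 (.c 9 v2 .e)))
noncomputable def q465 : Tr := .c 2 v2 (.c 9 v2 .e)
noncomputable def r399 : Tr := .c 0 q462 (.c 1 q463 (.c 6 q464 (.c 7 q465 .e)))
noncomputable def q466 : Tr := .c 9 v90 .e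
noncomputable def v164 : Tr := .l 0x249208206249208248249247249249209188249206206249249249
noncomputable def q467 : Tr := .c 1 v164 (.c 2 v164 (.c 8 v90 (.c 9 v90 .e)))
noncomputable def q468 : Tr := .c 2 v164 (.c 9 v90 .e)
noncomputable def r400 : Tr := .c 0 q119 (.c 1 q466 (.c 2 q120 (.c 6 q467 (.c 7 q468 .e))))
noncomputable def q469 : Tr := .c 1 v98 (.c 2 v98 (.c 7 v92 (.c 8 v89 (.c 9 v89 .e))))
noncomputable def q470 : Tr := .c 1 v100 (.c 7 v93 (.c 8 v93 (.c 9 v93 .e)))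
noncomputable def q471 : Tr := .c 1 v98 (.c 2 v98 (.c 7 v92 (.c 8 v89 .e)))
noncomputable def r401 : Tr := .c 0 q116 (.c 2 q117 (.c 3 q469 (.c 4 q470 (.c 5 q471 .e))))
noncomputable def q472 : Tr := .c 1 v164 (.c 2 v164 (.c 7 v9 (.c 8 v90 (.c 9 v90 .e))))
noncomputable def v165 : Tr := .l 0x249249208249249249249249249249249209249248248249249249
noncomputable def q473 : Tr := .c 1 v165 (.c 7 v91 (.c 8 v90 (.c 9 v90 .e)))
noncomputable def q474 : Tr := .c 1 v164 (.c 2 v164 (.c 7 v9 (.c 8 v90 .e)))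
noncomputable def r402 : Tr := .c 0 q119 (.c 2 q120 (.c 3 q472 (.c 4 q473 (.c 5 q474 (.c 6 q467 .e)))))
noncomputable def r403 : Tr := .c 0 q119 (.c 1 q466 (.c 2 q120 (.c 3 q472 (.c 4 q473 (.c 6 q467 (.c 7 q468 .e))))))
noncomputable def t104 : Tr := .c 4 r399 (.c 5 r400 (.c 7 r401 (.c 8 r402 (.c 9 r403 .e))))
noncomputable def v166 : Tr := .l 0x2492082481c82482482491c51c8249249209249248248249247249
noncomputable def q475 : Tr := .c 2 v166 .e
noncomputable def r404 : Tr := .c 2 q123 (.c 7 q475 .e)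
noncomputable def q476 : Tr := .c 1 v166 (.c 2 v166 (.c 8 v97 .e))
noncomputable def r405 : Tr := .c 0 q129 (.c 2 q123 (.c 6 q476 (.c 7 q475 .e)))
noncomputable def q477 : Tr := .c 1 v102 (.c 7 v94 (.c 8 v95 .e))
noncomputable def q478 : Tr := .c 1 v104 (.c 2 v104 (.c 7 v62 (.c 8 v97 .e)))
noncomputable def r406 : Tr := .c 2 q123 (.c 4 q477 (.c 5 q478 .e))
noncomputable def r407 : Tr := .c 0 q127 (.c 2 q123 (.c 3 q478 (.c 4 q477 (.c 5 q478 .e))))
noncomputable def q479 : Tr := .c 1 v166 (.c 2 v166 (.c 7 v96 (.c 8 v97 .e)))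
noncomputable def v167 : Tr := .l 0x2492492491c92492492491c71c9249249249249249249249249249
noncomputable def q480 : Tr := .c 1 v167 (.c 7 v94 (.c 8 v95 .e))
noncomputable def r408 : Tr := .c 0 q129 (.c 2 q123 (.c 3 q479 (.c 4 q480 (.c 5 q479 (.c 6 q476 .e)))))
noncomputable def r409 : Tr := .c 0 q129 (.c 2 q123 (.c 3 q479 (.c 4 q480 (.c 6 q476 (.c 7 q475 .e)))))
noncomputable def t105 : Tr := .c 3 r404 (.c 5 r405 (.c 6 r406 (.c 7 r407 (.c 8 r408 (.c 9 r409 .e)))))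
noncomputable def q481 : Tr := .c 1 v137 (.c 2 v137 (.c 7 v98 (.c 8 v99 (.c 9 v99 .e))))
noncomputable def q482 : Tr := .c 1 v139 (.c 7 v100 (.c 8 v101 (.c 9 v101 .e)))
noncomputable def q483 : Tr := .c 1 v137 (.c 2 v137 (.c 7 v98 (.c 8 v99 .e)))
noncomputable def q484 : Tr := .c 1 v137 (.c 2 v137 (.c 8 v99 (.c 9 v99 .e)))
noncomputable def r410 : Tr := .c 3 q481 (.c 4 q482 (.c 5 q483 (.c 6 q484 .e)))
noncomputable def q485 : Tr := .c 2 v137 (.c 9 v99 .e)
noncomputable def r411 : Tr := .c 3 q481 (.c 5 q483 (.c 6 q484 (.c 7 q485 .e)))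
noncomputable def t106 : Tr := .c 1 r410 (.c 2 r411 (.c 7 r401 (.c 8 r402 (.c 9 r403 .e))))
noncomputable def q486 : Tr := .c 1 v150 (.c 7 v102 (.c 8 v103 .e))
noncomputable def v168 : Tr := .l 0x2091c71c52491c72472092482492481c91472481c51c5248248249
noncomputable def q487 : Tr := .c 1 v168 (.c 2 v168 (.c 7 v104 (.c 8 v101 .e)))
noncomputable def q488 : Tr := .c 2 v2 .e
noncomputable def r412 : Tr := .c 4 q486 (.c 5 q487 (.c 7 q488 .e))
noncomputable def q489 : Tr := .c 1 v168 (.c 2 v168 (.c 8 v101 .e))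
noncomputable def r413 : Tr := .c 3 q487 (.c 4 q486 (.c 5 q487 (.c 6 q489 .e)))
noncomputable def t107 : Tr := .c 0 r412 (.c 1 r413 (.c 6 r406 (.c 7 r407 (.c 8 r408 (.c 9 r409 .e)))))
noncomputable def q490 : Tr := .c 1 v137 (.c 7 v98 (.c 8 v99 .e))
noncomputable def q491 : Tr := .c 9 v105 .e
noncomputable def r414 : Tr := .c 4 q482 (.c 5 q490 (.c 7 q491 .e))
noncomputable def q492 : Tr := .c 1 v137 (.c 7 v98 (.c 8 v99 (.c 9 v99 .e)))
noncomputable def q493 : Tr := .c 1 v137 (.c 8 v99 (.c 9 v99 .e))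
noncomputable def r415 : Tr := .c 3 q492 (.c 4 q482 (.c 5 q490 (.c 6 q493 .e)))
noncomputable def q494 : Tr := .c 9 v99 .e
noncomputable def r416 : Tr := .c 3 q492 (.c 5 q490 (.c 6 q493 (.c 7 q494 .e)))
noncomputable def q495 : Tr := .c 9 v93 .e
noncomputable def q496 : Tr := .c 1 v98 (.c 7 v92 (.c 8 v89 .e))
noncomputable def r417 : Tr := .c 1 q495 (.c 2 q117 (.c 4 q470 (.c 5 q496 .e)))
noncomputable def q497 : Tr := .c 1 v98 (.c 7 v92 (.c 8 v89 (.c 9 v89 .e)))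
noncomputable def r418 : Tr := .c 0 q116 (.c 2 q117 (.c 3 q497 (.c 4 q470 (.c 5 q496 .e))))
noncomputable def q498 : Tr := .c 1 v164 (.c 7 v9 (.c 8 v90 (.c 9 v90 .e)))
noncomputable def q499 : Tr := .c 1 v164 (.c 7 v9 (.c 8 v90 .e))
noncomputable def q500 : Tr := .c 1 v164 (.c 8 v90 (.c 9 v90 .e))
noncomputable def r419 : Tr := .c 0 q119 (.c 2 q120 (.c 3 q498 (.c 4 q473 (.c 5 q499 (.c 6 q500 .e)))))
noncomputable def t108 : Tr := .c 0 r414 (.c 1 r415 (.c 2 r416 (.c 6 r417 (.c 7 r418 (.c 8 r419 .e)))))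
noncomputable def q501 : Tr := .c 1 v139 (.c 8 v101 (.c 9 v101 .e))
noncomputable def q502 : Tr := .c 1 v137 (.c 8 v99 .e)
noncomputable def r420 : Tr := .c 4 q501 (.c 5 q502 (.c 7 q491 .e))
noncomputable def r421 : Tr := .c 3 q493 (.c 4 q501 (.c 5 q502 (.c 6 q493 .e)))
noncomputable def r422 : Tr := .c 3 q493 (.c 5 q502 (.c 6 q493 (.c 7 q494 .e)))
noncomputable def r423 : Tr := .c 1 q495 (.c 2 q151 (.c 7 q491 .e))
noncomputable def q503 : Tr := .c 8 v106 (.c 9 v106 .e)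
noncomputable def q504 : Tr := .c 9 v106 .e
noncomputable def r424 : Tr := .c 0 q503 (.c 1 q504 (.c 6 q493 (.c 7 q494 .e)))
noncomputable def q505 : Tr := .c 1 v100 (.c 8 v93 (.c 9 v93 .e))
noncomputable def q506 : Tr := .c 1 v98 (.c 8 v89 .e)
noncomputable def r425 : Tr := .c 1 q495 (.c 2 q151 (.c 4 q505 (.c 5 q506 .e)))
noncomputable def q507 : Tr := .c 1 v98 (.c 8 v89 (.c 9 v89 .e))
noncomputable def r426 : Tr := .c 0 q153 (.c 2 q151 (.c 3 q507 (.c 4 q505 (.c 5 q506 .e))))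
noncomputable def t109 : Tr := .c 0 r420 (.c 1 r421 (.c 2 r422 (.c 3 r423 (.c 4 r424 (.c 6 r425 (.c 7 r426 .e))))))
noncomputable def q508 : Tr := .c 7 v46 (.c 8 v45 (.c 9 v45 .e))
noncomputable def q509 : Tr := .c 9 v45 .e
noncomputable def v169 : Tr := .l 0x2091862082092062061432091462492482092492482481c52491c8
noncomputable def q510 : Tr := .c 2 v169 .e
noncomputable def q511 : Tr := .c 1 v169 (.c 2 v169 (.c 7 v51 .e))
noncomputable def r427 : Tr := .c 0 q508 (.c 1 q509 (.c 8 q510 (.c 9 q511 .e)))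
noncomputable def v170 : Tr := .l 0x2492082481c82482481c51c91c8249249209249248248247249249
noncomputable def q512 : Tr := .c 2 v170 .e
noncomputable def r428 : Tr := .c 0 q66 (.c 1 q187 (.c 2 q157 (.c 8 q512 .e)))
noncomputable def v171 : Tr := .l 0x249208206249206206247249249249209188249206206249249249
noncomputable def q513 : Tr := .c 1 v171 (.c 2 v171 (.c 7 v60 (.c 8 v59 (.c 9 v59 .e))))
noncomputable def v172 : Tr := .l 0x249249248249248248249249249249249209249248248249249249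
noncomputable def q514 : Tr := .c 1 v172 (.c 7 v107 (.c 8 v108 (.c 9 v108 .e)))
noncomputable def q515 : Tr := .c 1 v171 (.c 2 v171 (.c 7 v60 (.c 8 v59 .e)))
noncomputable def q516 : Tr := .c 1 v171 (.c 2 v171 (.c 7 v60 .e))
noncomputable def r429 : Tr := .c 0 q63 (.c 2 q156 (.c 3 q513 (.c 4 q514 (.c 5 q515 (.c 9 q516 .e)))))
noncomputable def v173 : Tr := .l 0x1c92492081472062061c91471472492492091c92482482491c91c9
noncomputable def q517 : Tr := .c 1 v173 (.c 2 v173 (.c 7 v54 (.c 8 v53 (.c 9 v53 .e))))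
noncomputable def v174 : Tr := .l 0x1c92492081472082081c91471472492492491c92492492491c91c9
noncomputable def q518 : Tr := .c 1 v174 (.c 7 v107 (.c 8 v53 (.c 9 v53 .e)))
noncomputable def q519 : Tr := .c 1 v173 (.c 2 v173 (.c 7 v54 (.c 8 v53 .e)))
noncomputable def r430 : Tr := .c 0 q66 (.c 2 q157 (.c 3 q517 (.c 4 q518 (.c 5 q519 .e))))
noncomputable def r431 : Tr := .c 0 q66 (.c 1 q187 (.c 2 q157 (.c 3 q517 (.c 4 q518 .e))))
noncomputable def t110 : Tr := .c 4 r427 (.c 5 r428 (.c 7 r429 (.c 8 r430 (.c 9 r431 .e))))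
noncomputable def q520 : Tr := .c 1 v170 (.c 2 v170 (.c 7 v62 .e))
noncomputable def r432 : Tr := .c 2 q158 (.c 8 q512 (.c 9 q520 .e))
noncomputable def r433 : Tr := .c 0 q67 (.c 2 q158 (.c 8 q512 .e))
noncomputable def v175 : Tr := .l 0x2492492491c92492492471c91c9249249249249249249249249249
noncomputable def q521 : Tr := .c 1 v175 (.c 7 v95 (.c 8 v95 .e))
noncomputable def q522 : Tr := .c 1 v170 (.c 2 v170 (.c 7 v62 (.c 8 v63 .e)))
noncomputable def r434 : Tr := .c 2 q158 (.c 4 q521 (.c 5 q522 (.c 8 q512 (.c 9 q520 .e))))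
noncomputable def r435 : Tr := .c 0 q69 (.c 2 q158 (.c 3 q522 (.c 4 q521 (.c 5 q522 (.c 9 q520 .e)))))
noncomputable def v176 : Tr := .l 0x2492492491c92482482491c91c9249249249249249249249249249
noncomputable def q523 : Tr := .c 1 v176 (.c 7 v95 (.c 8 v95 .e))
noncomputable def r436 : Tr := .c 0 q67 (.c 2 q158 (.c 3 q519 (.c 4 q523 (.c 5 q519 .e))))
noncomputable def r437 : Tr := .c 0 q67 (.c 2 q158 (.c 3 q519 (.c 4 q523 .e)))
noncomputable def t111 : Tr := .c 3 r432 (.c 5 r433 (.c 6 r434 (.c 7 r435 (.c 8 r436 (.c 9 r437 .e)))))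
noncomputable def v177 : Tr := .l 0x2091c71c52061431432062062092481c91472481c51c5248248249
noncomputable def q524 : Tr := .c 1 v177 (.c 2 v177 (.c 7 v65 (.c 8 v109 (.c 9 v109 .e))))
noncomputable def v178 : Tr := .l 0x2492492472081c51c52482082092492491c9249247247249249249
noncomputable def q525 : Tr := .c 1 v178 (.c 7 v110 (.c 8 v111 (.c 9 v111 .e)))
noncomputable def q526 : Tr := .c 1 v177 (.c 2 v177 (.c 7 v65 (.c 8 v109 .e)))
noncomputable def q527 : Tr := .c 1 v177 (.c 2 v177 (.c 7 v65 .e))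
noncomputable def r438 : Tr := .c 3 q524 (.c 4 q525 (.c 5 q526 (.c 9 q527 .e)))
noncomputable def q528 : Tr := .c 2 v177 .e
noncomputable def r439 : Tr := .c 3 q524 (.c 5 q526 (.c 8 q528 (.c 9 q527 .e)))
noncomputable def t112 : Tr := .c 1 r438 (.c 2 r439 (.c 7 r429 (.c 8 r430 (.c 9 r431 .e))))
noncomputable def v179 : Tr := .l 0x249249249249247247249249249249249249249249249249249249
noncomputable def q529 : Tr := .c 1 v179 (.c 7 v112 (.c 8 v102 .e))
noncomputable def q530 : Tr := .c 1 v178 (.c 2 v178 (.c 7 v110 (.c 8 v111 .e)))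
noncomputable def q531 : Tr := .c 2 v178 .e
noncomputable def q532 : Tr := .c 1 v178 (.c 2 v178 (.c 7 v110 .e))
noncomputable def r440 : Tr := .c 4 q529 (.c 5 q530 (.c 8 q531 (.c 9 q532 .e)))
noncomputable def r441 : Tr := .c 3 q530 (.c 4 q529 (.c 5 q530 (.c 9 q532 .e)))
noncomputable def t113 : Tr := .c 0 r440 (.c 1 r441 (.c 6 r434 (.c 7 r435 (.c 8 r436 (.c 9 r437 .e)))))
noncomputable def q533 : Tr := .c 1 v177 (.c 7 v65 (.c 8 v109 .e))
noncomputable def q534 : Tr := .c 1 v177 (.c 7 v65 .e)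
noncomputable def r442 : Tr := .c 4 q525 (.c 5 q533 (.c 9 q534 .e))
noncomputable def q535 : Tr := .c 1 v177 (.c 7 v65 (.c 8 v109 (.c 9 v109 .e)))
noncomputable def r443 : Tr := .c 3 q535 (.c 4 q525 (.c 5 q533 (.c 9 q534 .e)))
noncomputable def r444 : Tr := .c 3 q535 (.c 5 q533 (.c 9 q534 .e))
noncomputable def q536 : Tr := .c 9 v108 .e
noncomputable def q537 : Tr := .c 1 v171 (.c 7 v60 (.c 8 v59 .e))
noncomputable def q538 : Tr := .c 1 v171 (.c 7 v60 .e)
noncomputable def r445 : Tr := .c 1 q536 (.c 2 q156 (.c 4 q514 (.c 5 q537 (.c 9 q538 .e))))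
noncomputable def q539 : Tr := .c 1 v171 (.c 7 v60 (.c 8 v59 (.c 9 v59 .e)))
noncomputable def r446 : Tr := .c 0 q63 (.c 2 q156 (.c 3 q539 (.c 4 q514 (.c 5 q537 (.c 9 q538 .e)))))
noncomputable def q540 : Tr := .c 1 v173 (.c 7 v54 (.c 8 v53 (.c 9 v53 .e)))
noncomputable def q541 : Tr := .c 1 v173 (.c 7 v54 (.c 8 v53 .e))
noncomputable def r447 : Tr := .c 0 q66 (.c 2 q157 (.c 3 q540 (.c 4 q518 (.c 5 q541 .e))))
noncomputable def t114 : Tr := .c 0 r442 (.c 1 r443 (.c 2 r444 (.c 6 r445 (.c 7 r446 (.c 8 r447 .e)))))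
noncomputable def q542 : Tr := .c 1 v178 (.c 7 v110 .e)
noncomputable def r448 : Tr := .c 3 q527 (.c 4 q542 (.c 5 q527 (.c 9 q527 .e)))
noncomputable def r449 : Tr := .c 3 q527 (.c 5 q527 (.c 8 q528 (.c 9 q527 .e)))
noncomputable def r450 : Tr := .c 0 q17 (.c 8 q528 (.c 9 q527 .e))
noncomputable def v180 : Tr := .l 0x2492492472481c51c52482482482492491c9249247247249249249
noncomputable def q543 : Tr := .c 2 v180 .e
noncomputable def r451 : Tr := .c 0 q86 (.c 2 q175 (.c 8 q543 .e))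
noncomputable def q544 : Tr := .c 1 v173 (.c 2 v173 (.c 7 v54 .e))
noncomputable def q545 : Tr := .c 1 v174 (.c 7 v107 .e)
noncomputable def r452 : Tr := .c 0 q86 (.c 2 q175 (.c 3 q544 (.c 4 q545 (.c 5 q544 .e))))
noncomputable def r453 : Tr := .c 0 q86 (.c 2 q175 (.c 3 q544 (.c 4 q545 .e)))
noncomputable def t115 : Tr := .c 1 r448 (.c 2 r449 (.c 4 r450 (.c 5 r451 (.c 8 r452 (.c 9 r453 .e)))))
noncomputable def r454 : Tr := .c 0 q66 (.c 1 q187 (.c 8 q512 .e))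
noncomputable def r455 : Tr := .c 0 q63 (.c 3 q513 (.c 5 q515 (.c 9 q516 .e)))
noncomputable def r456 : Tr := .c 0 q66 (.c 3 q517 (.c 5 q519 .e))
noncomputable def r457 : Tr := .c 0 q66 (.c 1 q187 (.c 3 q517 .e))
noncomputable def t116 : Tr := .c 4 r427 (.c 5 r454 (.c 7 r455 (.c 8 r456 (.c 9 r457 .e))))
noncomputable def r458 : Tr := .c 1 q187 (.c 8 q512 (.c 9 q520 .e))
noncomputable def r459 : Tr := .c 1 q187 (.c 5 q522 (.c 8 q512 (.c 9 q520 .e)))
noncomputable def t117 : Tr := .c 3 r458 (.c 4 r427 (.c 5 r454 (.c 6 r459 (.c 9 r457 .e))))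
noncomputable def r460 : Tr := .c 8 q512 (.c 9 q520 .e)
noncomputable def r461 : Tr := .c 0 q67 (.c 8 q512 .e)
noncomputable def r462 : Tr := .c 5 q522 (.c 8 q512 (.c 9 q520 .e))
noncomputable def r463 : Tr := .c 0 q69 (.c 3 q522 (.c 5 q522 (.c 9 q520 .e)))
noncomputable def r464 : Tr := .c 0 q67 (.c 3 q519 (.c 5 q519 .e))
noncomputable def r465 : Tr := .c 0 q67 (.c 3 q519 .e)
noncomputable def t118 : Tr := .c 3 r460 (.c 5 r461 (.c 6 r462 (.c 7 r463 (.c 8 r464 (.c 9 r465 .e)))))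
noncomputable def r466 : Tr := .c 3 q524 (.c 5 q526 (.c 9 q527 .e))
noncomputable def t119 : Tr := .c 1 r466 (.c 2 r439 (.c 7 r455 (.c 8 r456 (.c 9 r457 .e))))
noncomputable def r467 : Tr := .c 5 q530 (.c 8 q531 (.c 9 q532 .e))
noncomputable def r468 : Tr := .c 3 q530 (.c 5 q530 (.c 9 q532 .e))
noncomputable def t120 : Tr := .c 0 r467 (.c 1 r468 (.c 6 r462 (.c 7 r463 (.c 8 r464 (.c 9 r465 .e)))))
noncomputable def r469 : Tr := .c 3 q527 (.c 5 q527 (.c 9 q527 .e))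
noncomputable def r470 : Tr := .c 0 q86 (.c 8 q543 .e)
noncomputable def r471 : Tr := .c 0 q86 (.c 3 q544 (.c 5 q544 .e))
noncomputable def r472 : Tr := .c 0 q86 (.c 3 q544 .e)
noncomputable def t121 : Tr := .c 1 r469 (.c 2 r449 (.c 4 r450 (.c 5 r470 (.c 8 r471 (.c 9 r472 .e)))))
noncomputable def q546 : Tr := .c 1 v180 (.c 2 v180 (.c 7 v76 .e))
noncomputable def r473 : Tr := .c 5 q546 (.c 8 q543 (.c 9 q546 .e))
noncomputable def r474 : Tr := .c 8 q543 (.c 9 q546 .e)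
noncomputable def t122 : Tr := .c 0 r473 (.c 2 r449 (.c 3 r474 (.c 4 r450 (.c 5 r470 (.c 9 r472 .e)))))
noncomputable def v181 : Tr := .l 0x2492492492091c9249249209209249249249249249249249249249
noncomputable def v182 : Tr := .l 0x2492491c9209249249249209209249249249249249249249249249
noncomputable def q547 : Tr := .c 0 v2 (.c 1 v2 (.c 6 v181 (.c 7 v181 (.c 8 v182 .e))))
noncomputable def v183 : Tr := .l 0x2492492072492072472492492492492491c9249247247249249249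
noncomputable def v184 : Tr := .l 0x2492492472091472492092492492492491c92491c7247249249249
noncomputable def v185 : Tr := .l 0x2092471492492492492492092492492492472492491c9249249249
noncomputable def q548 : Tr := .c 0 v183 (.c 1 v183 (.c 6 v184 (.c 7 v184 (.c 8 v185 .e))))
noncomputable def q549 : Tr := .c 0 v2 .e
noncomputable def q550 : Tr := .c 0 v183 (.c 6 v184 .e)
noncomputable def q551 : Tr := .c 0 v183 (.c 1 v183 (.c 6 v184 (.c 7 v184 .e)))
noncomputable def r475 : Tr := .c 4 q547 (.c 5 q548 (.c 7 q549 (.c 8 q550 (.c 9 q551 .e))))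
noncomputable def q552 : Tr := .c 1 v183 (.c 7 v184 (.c 8 v185 .e))
noncomputable def q553 : Tr := .c 1 v183 (.c 8 v185 .e)
noncomputable def r476 : Tr := .c 3 q552 (.c 4 q547 (.c 5 q548 (.c 6 q553 (.c 9 q551 .e))))
noncomputable def q554 : Tr := .c 6 v121 (.c 7 v121 (.c 8 v121 .e))
noncomputable def q555 : Tr := .c 0 v9 (.c 1 v9 (.c 6 v121 (.c 7 v121 (.c 8 v121 .e))))
noncomputable def v186 : Tr := .l 0x2492492072492092492092492492492491c9249247247249249249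
noncomputable def v187 : Tr := .l 0x2492092461c92092491471c91c72492092492492492491c9249249
noncomputable def v188 : Tr := .l 0x2492492091c92492492491c91c9249249249249249249249249249
noncomputable def q556 : Tr := .c 0 v186 (.c 1 v186 (.c 6 v187 (.c 7 v187 (.c 8 v188 .e))))
noncomputable def q557 : Tr := .c 0 v186 (.c 6 v187 .e)
noncomputable def q558 : Tr := .c 0 v186 (.c 1 v186 (.c 6 v187 (.c 7 v187 .e)))
noncomputable def r477 : Tr := .c 1 q272 (.c 2 q554 (.c 4 q555 (.c 5 q556 (.c 8 q557 (.c 9 q558 .e)))))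
noncomputable def q559 : Tr := .c 7 v187 (.c 8 v188 .e)
noncomputable def q560 : Tr := .c 1 v186 (.c 7 v187 (.c 8 v188 .e))
noncomputable def r478 : Tr := .c 0 q559 (.c 2 q554 (.c 3 q560 (.c 4 q555 (.c 5 q556 (.c 9 q558 .e)))))
noncomputable def v189 : Tr := .l 0x2492492491c92092492491c91c9249249249249249249249249249
noncomputable def q561 : Tr := .c 7 v189 (.c 8 v188 .e)
noncomputable def q562 : Tr := .c 6 v121 (.c 7 v121 (.c 8 v2 .e))
noncomputable def q563 : Tr := .c 1 v2 (.c 7 v189 (.c 8 v188 .e))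
noncomputable def q564 : Tr := .c 0 v9 (.c 1 v9 (.c 6 v121 (.c 7 v121 (.c 8 v2 .e))))
noncomputable def q565 : Tr := .c 0 v2 (.c 1 v2 (.c 6 v189 (.c 7 v189 (.c 8 v188 .e))))
noncomputable def q566 : Tr := .c 1 v2 (.c 8 v188 .e)
noncomputable def r479 : Tr := .c 0 q561 (.c 2 q562 (.c 3 q563 (.c 4 q564 (.c 5 q565 (.c 6 q566 .e)))))
noncomputable def t123 : Tr := .c 0 r475 (.c 1 r476 (.c 6 r477 (.c 7 r478 (.c 8 r479 .e))))
noncomputable def v190 : Tr := .l 0x2492492072492092492492492492492491c72492471c7249249249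
noncomputable def v191 : Tr := .l 0x2092492472091472492092492492492491c92491c7247249249249
noncomputable def q567 : Tr := .c 0 v190 (.c 1 v190 (.c 6 v191 (.c 7 v191 (.c 8 v185 (.c 9 v185 .e)))))
noncomputable def v192 : Tr := .l 0x2091c71852491872472092492492481c91472481c51c5248248249
noncomputable def v193 : Tr := .l 0x2091c71c51880c52471882492492481c91472081451c5208248249
noncomputable def v194 : Tr := .l 0x1882450c72092491c92491882092092491c5209247147249209249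
noncomputable def q568 : Tr := .c 0 v192 (.c 1 v192 (.c 6 v193 (.c 7 v193 (.c 8 v194 .e))))
noncomputable def v195 : Tr := .l 0x2092471492092492492492092092492492472492491c9249249249
noncomputable def q569 : Tr := .c 0 v151 (.c 9 v195 .e)
noncomputable def q570 : Tr := .c 0 v192 (.c 6 v193 .e)
noncomputable def q571 : Tr := .c 0 v192 (.c 1 v192 (.c 6 v193 (.c 7 v193 .e)))
noncomputable def r480 : Tr := .c 4 q567 (.c 5 q568 (.c 7 q569 (.c 8 q570 (.c 9 q571 .e))))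
noncomputable def q572 : Tr := .c 1 v192 (.c 7 v193 (.c 8 v194 (.c 9 v194 .e)))
noncomputable def q573 : Tr := .c 1 v192 (.c 8 v194 (.c 9 v194 .e))
noncomputable def r481 : Tr := .c 3 q572 (.c 4 q567 (.c 5 q568 (.c 6 q573 (.c 9 q571 .e))))
noncomputable def v196 : Tr := .l 0x2492491c72492491c92492492492092491c5209247147249209249
noncomputable def q574 : Tr := .c 0 v196 (.c 9 v194 .e)
noncomputable def r482 : Tr := .c 3 q572 (.c 5 q568 (.c 6 q573 (.c 7 q574 (.c 8 q570 (.c 9 q571 .e)))))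
noncomputable def q575 : Tr := .c 6 v124 (.c 9 v124 .e)
noncomputable def q576 : Tr := .c 6 v124 (.c 7 v124 (.c 8 v124 (.c 9 v124 .e)))
noncomputable def v197 : Tr := .l 0x2092492072492092492492492492492491c9249247247249249249
noncomputable def q577 : Tr := .c 0 v197 (.c 1 v197 (.c 6 v124 (.c 7 v124 (.c 8 v124 (.c 9 v124 .e)))))
noncomputable def v198 : Tr := .l 0x1c92492482491882491c9249249249249209249208248249249249
noncomputable def v199 : Tr := .l 0x1c9248188249249249249249249249249208249248208249249249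
noncomputable def q578 : Tr := .c 0 v192 (.c 1 v192 (.c 6 v198 (.c 7 v198 (.c 8 v199 .e))))
noncomputable def q579 : Tr := .c 0 v192 (.c 6 v198 .e)
noncomputable def q580 : Tr := .c 0 v192 (.c 1 v192 (.c 6 v198 (.c 7 v198 .e)))
noncomputable def r483 : Tr := .c 1 q575 (.c 2 q576 (.c 4 q577 (.c 5 q578 (.c 8 q579 (.c 9 q580 .e)))))
noncomputable def q581 : Tr := .c 7 v198 (.c 8 v199 (.c 9 v199 .e))
noncomputable def q582 : Tr := .c 1 v192 (.c 7 v198 (.c 8 v199 (.c 9 v199 .e)))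
noncomputable def r484 : Tr := .c 0 q581 (.c 2 q576 (.c 3 q582 (.c 4 q577 (.c 5 q578 (.c 9 q580 .e)))))
noncomputable def v200 : Tr := .l 0x249249248249188249249249249249249209249208248249249249
noncomputable def v201 : Tr := .l 0x1c92481881472092091c91471472492492481c92492092491c91c9
noncomputable def q583 : Tr := .c 7 v200 (.c 8 v201 (.c 9 v201 .e))
noncomputable def v202 : Tr := .l 0x2492492091c92092492491c91c92492492491c9249249249249249
noncomputable def v203 : Tr := .l 0x2492492091c92092492491c91c9249249248249249209249249249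
noncomputable def q584 : Tr := .c 6 v202 (.c 7 v202 (.c 8 v203 (.c 9 v203 .e)))
noncomputable def v204 : Tr := .l 0x2492492472092492492492092092492491c9249247247249249249
noncomputable def q585 : Tr := .c 1 v204 (.c 7 v200 (.c 8 v201 (.c 9 v201 .e)))
noncomputable def q586 : Tr := .c 0 v2 (.c 1 v2 (.c 6 v202 (.c 7 v202 (.c 8 v203 (.c 9 v203 .e)))))
noncomputable def q587 : Tr := .c 0 v204 (.c 1 v204 (.c 6 v200 (.c 7 v200 (.c 8 v201 .e))))
noncomputable def q588 : Tr := .c 1 v204 (.c 8 v201 (.c 9 v201 .e))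
noncomputable def r485 : Tr := .c 0 q583 (.c 2 q584 (.c 3 q585 (.c 4 q586 (.c 5 q587 (.c 6 q588 .e)))))
noncomputable def t124 : Tr := .c 0 r480 (.c 1 r481 (.c 2 r482 (.c 6 r483 (.c 7 r484 (.c 8 r485 .e)))))
noncomputable def q589 : Tr := .c 0 v2 (.c 1 v2 (.c 6 v2 (.c 7 v2 .e)))
noncomputable def v205 : Tr := .l 0x249249249249249249209249249249249249249249249249249249
noncomputable def q590 : Tr := .c 0 v179 (.c 1 v179 (.c 6 v205 (.c 7 v205 .e)))
noncomputable def v206 : Tr := .l 0x2492492492492491c9249249249249249249249249249249249249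
noncomputable def q591 : Tr := .c 0 v206 .e
noncomputable def q592 : Tr := .c 0 v179 (.c 6 v205 .e)
noncomputable def r486 : Tr := .c 4 q589 (.c 5 q590 (.c 7 q591 (.c 8 q592 (.c 9 q590 .e))))
noncomputable def v207 : Tr := .l 0x2492492472481c51c52482482492492491c9249247247249249249
noncomputable def v208 : Tr := .l 0x249249249249248248249249249249249249249249249249249249
noncomputable def q593 : Tr := .c 1 v207 (.c 7 v208 .e)
noncomputable def q594 : Tr := .c 0 v207 (.c 1 v207 (.c 6 v208 (.c 7 v208 .e)))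
noncomputable def q595 : Tr := .c 1 v207 .e
noncomputable def v209 : Tr := .l 0x2492492492092471472492092092492492472492491c9249249249
noncomputable def q596 : Tr := .c 0 v209 .e
noncomputable def q597 : Tr := .c 0 v207 (.c 6 v208 .e)
noncomputable def r487 : Tr := .c 3 q593 (.c 5 q594 (.c 6 q595 (.c 7 q596 (.c 8 q597 (.c 9 q594 .e)))))
noncomputable def r488 : Tr := .c 1 q194 (.c 2 q311 (.c 7 q591 (.c 8 q592 (.c 9 q590 .e))))
noncomputable def r489 : Tr := .c 0 q17 (.c 1 q249 (.c 6 q595 (.c 7 q596 (.c 8 q597 (.c 9 q594 .e)))))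
noncomputable def t125 : Tr := .c 0 r486 (.c 2 r487 (.c 3 r488 (.c 4 r489 .e)))
noncomputable def q598 : Tr := .c 0 v190 (.c 1 v190 (.c 8 v185 (.c 9 v185 .e)))
noncomputable def q599 : Tr := .c 0 v192 (.c 1 v192 (.c 8 v194 .e))
noncomputable def q600 : Tr := .c 0 v192 .e
noncomputable def q601 : Tr := .c 0 v192 (.c 1 v192 .e)
noncomputable def r490 : Tr := .c 4 q598 (.c 5 q599 (.c 7 q569 (.c 8 q600 (.c 9 q601 .e))))
noncomputable def r491 : Tr := .c 3 q573 (.c 5 q599 (.c 6 q573 (.c 7 q574 (.c 8 q600 (.c 9 q601 .e)))))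
noncomputable def q602 : Tr := .c 9 v124 .e
noncomputable def q603 : Tr := .c 8 v124 (.c 9 v124 .e)
noncomputable def r492 : Tr := .c 1 q602 (.c 2 q603 (.c 7 q569 (.c 8 q600 (.c 9 q601 .e))))
noncomputable def v210 : Tr := .l 0xc5208186249249249249249188147209248249209209249249209
noncomputable def q604 : Tr := .c 8 v210 (.c 9 v210 .e)
noncomputable def q605 : Tr := .c 9 v210 .e
noncomputable def r493 : Tr := .c 0 q604 (.c 1 q605 (.c 6 q573 (.c 7 q574 (.c 8 q600 (.c 9 q601 .e)))))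
noncomputable def q606 : Tr := .c 0 v197 (.c 1 v197 (.c 8 v124 (.c 9 v124 .e)))
noncomputable def q607 : Tr := .c 0 v192 (.c 1 v192 (.c 8 v199 .e))
noncomputable def r494 : Tr := .c 1 q602 (.c 2 q603 (.c 4 q606 (.c 5 q607 (.c 8 q600 (.c 9 q601 .e)))))
noncomputable def t126 : Tr := .c 0 r490 (.c 2 r491 (.c 3 r492 (.c 4 r493 (.c 6 r494 .e))))
noncomputable def r495 : Tr := .c 3 q573 (.c 4 q598 (.c 5 q599 (.c 6 q573 (.c 9 q601 .e))))
noncomputable def q608 : Tr := .c 8 v199 (.c 9 v199 .e)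
noncomputable def q609 : Tr := .c 1 v192 (.c 8 v199 (.c 9 v199 .e))
noncomputable def r496 : Tr := .c 0 q608 (.c 2 q603 (.c 3 q609 (.c 4 q606 (.c 5 q607 (.c 9 q601 .e)))))
noncomputable def t127 : Tr := .c 0 r490 (.c 1 r495 (.c 2 r491 (.c 3 r492 (.c 4 r493 (.c 6 r494 (.c 7 r496 .e))))))
noncomputable def t128 : Tr := .c 1 r481 (.c 2 r482 (.c 7 r484 (.c 8 r485 .e)))
noncomputable def q610 : Tr := .c 1 v192 (.c 7 v193 .e)
noncomputable def q611 : Tr := .c 0 v190 (.c 1 v190 (.c 6 v191 (.c 7 v191 .e)))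
noncomputable def q612 : Tr := .c 1 v192 .e
noncomputable def r497 : Tr := .c 3 q610 (.c 4 q611 (.c 5 q571 (.c 6 q612 (.c 9 q571 .e))))
noncomputable def q613 : Tr := .c 0 v196 .e
noncomputable def r498 : Tr := .c 3 q610 (.c 5 q571 (.c 6 q612 (.c 7 q613 (.c 8 q570 (.c 9 q571 .e)))))
noncomputable def v211 : Tr := .l 0x2492492480c51881882491c9188249249209147208208249249209
noncomputable def q614 : Tr := .c 6 v211 .e
noncomputable def r499 : Tr := .c 0 q17 (.c 1 q614 (.c 6 q612 (.c 7 q613 (.c 8 q570 (.c 9 q571 .e)))))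
noncomputable def q615 : Tr := .c 7 v200 .e
noncomputable def q616 : Tr := .c 6 v202 (.c 7 v202 .e)
noncomputable def q617 : Tr := .c 1 v204 (.c 7 v200 .e)
noncomputable def q618 : Tr := .c 0 v2 (.c 1 v2 (.c 6 v202 (.c 7 v202 .e)))
noncomputable def q619 : Tr := .c 0 v204 (.c 1 v204 (.c 6 v200 (.c 7 v200 .e)))
noncomputable def q620 : Tr := .c 1 v204 .e
noncomputable def r500 : Tr := .c 0 q615 (.c 2 q616 (.c 3 q617 (.c 4 q618 (.c 5 q619 (.c 6 q620 .e)))))
noncomputable def t129 : Tr := .c 1 r497 (.c 2 r498 (.c 4 r499 (.c 8 r500 .e)))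
noncomputable def q621 : Tr := .c 0 v9 (.c 9 v53 .e)
noncomputable def r501 : Tr := .c 1 q185 (.c 2 q299 (.c 7 q621 .e))
noncomputable def q622 : Tr := .c 7 v62 (.c 8 v45 (.c 9 v45 .e))
noncomputable def q623 : Tr := .c 6 v45 (.c 9 v45 .e)
noncomputable def v212 : Tr := .l 0x2492481881c92491882490c5188249249208249248208249147209
noncomputable def q624 : Tr := .c 1 v212 (.c 8 v48 (.c 9 v48 .e))
noncomputable def q625 : Tr := .c 0 v2 (.c 9 v48 .e)
noncomputable def r502 : Tr := .c 0 q622 (.c 1 q623 (.c 6 q624 (.c 7 q625 .e)))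
noncomputable def q626 : Tr := .c 0 v121 (.c 1 v121 (.c 6 v53 (.c 7 v53 (.c 8 v53 (.c 9 v53 .e)))))
noncomputable def q627 : Tr := .c 0 v122 (.c 1 v122 (.c 6 v57 (.c 7 v57 (.c 8 v128 .e))))
noncomputable def r503 : Tr := .c 1 q185 (.c 2 q299 (.c 4 q626 (.c 5 q627 .e)))
noncomputable def t130 : Tr := .c 3 r501 (.c 4 r502 (.c 6 r503 .e))
noncomputable def q628 : Tr := .c 0 v9 .e
noncomputable def r504 : Tr := .c 1 q191 (.c 2 q304 (.c 7 q628 .e))
noncomputable def q629 : Tr := .c 0 v121 (.c 1 v121 (.c 6 v53 (.c 7 v53 (.c 8 v53 .e))))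
noncomputable def r505 : Tr := .c 1 q191 (.c 2 q304 (.c 4 q629 (.c 5 q627 .e)))
noncomputable def q630 : Tr := .c 1 v122 (.c 7 v57 (.c 8 v128 .e))
noncomputable def r506 : Tr := .c 0 q305 (.c 2 q304 (.c 3 q630 (.c 4 q629 (.c 5 q627 .e))))
noncomputable def v213 : Tr := .l 0x2492492091c92092492491c71c9249249249249249249249249249
noncomputable def q631 : Tr := .c 1 v213 (.c 7 v115 (.c 8 v128 .e))
noncomputable def q632 : Tr := .c 0 v121 (.c 1 v121 (.c 6 v53 (.c 7 v53 (.c 8 v97 .e))))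
noncomputable def q633 : Tr := .c 0 v213 (.c 1 v213 (.c 6 v115 (.c 7 v115 (.c 8 v128 .e))))
noncomputable def q634 : Tr := .c 1 v213 (.c 8 v128 .e)
noncomputable def r507 : Tr := .c 0 q306 (.c 2 q308 (.c 3 q631 (.c 4 q632 (.c 5 q633 (.c 6 q634 .e)))))
noncomputable def t131 : Tr := .c 3 r504 (.c 6 r505 (.c 7 r506 (.c 8 r507 .e)))
noncomputable def q635 : Tr := .c 0 v182 (.c 1 v182 (.c 6 v121 (.c 7 v121 (.c 8 v131 .e))))
noncomputable def v214 : Tr := .l 0x2092471472492492492092092492492491c7249247247249249249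
noncomputable def q636 : Tr := .c 0 v214 (.c 1 v214 (.c 6 v122 (.c 7 v122 (.c 8 v132 .e))))
noncomputable def r508 : Tr := .c 4 q635 (.c 5 q636 (.c 7 q549 .e))
noncomputable def q637 : Tr := .c 1 v214 (.c 7 v122 (.c 8 v132 .e))
noncomputable def q638 : Tr := .c 1 v214 (.c 8 v132 .e)
noncomputable def r509 : Tr := .c 3 q637 (.c 4 q635 (.c 5 q636 (.c 6 q638 .e)))
noncomputable def t132 : Tr := .c 0 r508 (.c 1 r509 (.c 6 r505 (.c 7 r506 (.c 8 r507 .e))))
noncomputable def v215 : Tr := .l 0x2092471472492492492492092492492491c7249247247249249249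
noncomputable def q639 : Tr := .c 0 v215 (.c 1 v215 (.c 6 v124 (.c 7 v124 (.c 8 v116 (.c 9 v116 .e)))))
noncomputable def v216 : Tr := .l 0x1881c50c52491c72472091882492081c91452481c51c5248208249
noncomputable def q640 : Tr := .c 0 v216 (.c 1 v216 (.c 6 v125 (.c 7 v125 (.c 8 v82 .e))))
noncomputable def v217 : Tr := .l 0x209249249249249249249249249249249249249249249249249249
noncomputable def q641 : Tr := .c 0 v217 (.c 9 v79 .e)
noncomputable def r510 : Tr := .c 4 q639 (.c 5 q640 (.c 7 q641 .e))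
noncomputable def q642 : Tr := .c 1 v216 (.c 7 v125 (.c 8 v82 (.c 9 v82 .e)))
noncomputable def q643 : Tr := .c 1 v216 (.c 8 v82 (.c 9 v82 .e))
noncomputable def r511 : Tr := .c 3 q642 (.c 4 q639 (.c 5 q640 (.c 6 q643 .e)))
noncomputable def v218 : Tr := .l 0x249249249249249249249249249249249248249249209249249249
noncomputable def q644 : Tr := .c 0 v218 (.c 9 v82 .e)
noncomputable def r512 : Tr := .c 3 q642 (.c 5 q640 (.c 6 q643 (.c 7 q644 .e)))
noncomputable def v219 : Tr := .l 0x1472092061c92492492491c91c91c92092492492492492492491c9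
noncomputable def q645 : Tr := .c 0 v219 (.c 1 v219 (.c 6 v86 (.c 7 v86 (.c 8 v86 (.c 9 v86 .e)))))
noncomputable def v220 : Tr := .l 0x1c92481882492492491c9249249249249208249248248249249249
noncomputable def q646 : Tr := .c 0 v220 (.c 1 v220 (.c 6 v126 (.c 7 v126 (.c 8 v117 .e))))
noncomputable def r513 : Tr := .c 1 q279 (.c 2 q354 (.c 4 q645 (.c 5 q646 .e)))
noncomputable def q647 : Tr := .c 1 v220 (.c 7 v126 (.c 8 v117 (.c 9 v117 .e)))
noncomputable def r514 : Tr := .c 0 q357 (.c 2 q354 (.c 3 q647 (.c 4 q645 (.c 5 q646 .e))))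
noncomputable def v221 : Tr := .l 0x249248188249249249249249249249249208249248248249249249
noncomputable def q648 : Tr := .c 1 v221 (.c 7 v59 (.c 8 v127 (.c 9 v127 .e)))
noncomputable def q649 : Tr := .c 0 v188 (.c 1 v188 (.c 6 v128 (.c 7 v128 (.c 8 v128 (.c 9 v128 .e)))))
noncomputable def q650 : Tr := .c 0 v221 (.c 1 v221 (.c 6 v59 (.c 7 v59 (.c 8 v127 .e))))
noncomputable def q651 : Tr := .c 1 v221 (.c 8 v127 (.c 9 v127 .e))
noncomputable def r515 : Tr := .c 0 q360 (.c 2 q361 (.c 3 q648 (.c 4 q649 (.c 5 q650 (.c 6 q651 .e)))))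
noncomputable def t133 : Tr := .c 0 r510 (.c 1 r511 (.c 2 r512 (.c 6 r513 (.c 7 r514 (.c 8 r515 .e)))))
noncomputable def q652 : Tr := .c 0 v215 (.c 1 v215 (.c 8 v116 (.c 9 v116 .e)))
noncomputable def q653 : Tr := .c 0 v216 (.c 1 v216 (.c 8 v82 .e))
noncomputable def r516 : Tr := .c 4 q652 (.c 5 q653 (.c 7 q641 .e))
noncomputable def r517 : Tr := .c 3 q643 (.c 5 q653 (.c 6 q643 (.c 7 q644 .e)))
noncomputable def r518 : Tr := .c 1 q217 (.c 2 q329 (.c 7 q641 .e))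
noncomputable def q654 : Tr := .c 8 v88 (.c 9 v88 .e)
noncomputable def q655 : Tr := .c 9 v88 .e
noncomputable def r519 : Tr := .c 0 q654 (.c 1 q655 (.c 6 q643 (.c 7 q644 .e)))
noncomputable def q656 : Tr := .c 0 v219 (.c 1 v219 (.c 8 v86 (.c 9 v86 .e)))
noncomputable def q657 : Tr := .c 0 v220 (.c 1 v220 (.c 8 v117 .e))
noncomputable def r520 : Tr := .c 1 q217 (.c 2 q329 (.c 4 q656 (.c 5 q657 .e)))
noncomputable def t134 : Tr := .c 0 r516 (.c 2 r517 (.c 3 r518 (.c 4 r519 (.c 6 r520 .e))))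
noncomputable def r521 : Tr := .c 3 q643 (.c 4 q652 (.c 5 q653 (.c 6 q643 .e)))
noncomputable def q658 : Tr := .c 1 v220 (.c 8 v117 (.c 9 v117 .e))
noncomputable def r522 : Tr := .c 0 q332 (.c 2 q329 (.c 3 q658 (.c 4 q656 (.c 5 q657 .e))))
noncomputable def t135 : Tr := .c 0 r516 (.c 1 r521 (.c 2 r517 (.c 3 r518 (.c 4 r519 (.c 6 r520 (.c 7 r522 .e))))))
noncomputable def q659 : Tr := .c 7 v92 (.c 8 v93 (.c 9 v93 .e))
noncomputable def q660 : Tr := .c 6 v93 (.c 9 v93 .e)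
noncomputable def q661 : Tr := .c 1 v2 (.c 8 v133 (.c 9 v133 .e))
noncomputable def q662 : Tr := .c 0 v2 (.c 9 v133 .e)
noncomputable def r523 : Tr := .c 0 q659 (.c 1 q660 (.c 6 q661 (.c 7 q662 .e)))
noncomputable def t136 : Tr := .c 4 r523 (.c 7 r514 (.c 8 r515 .e))
noncomputable def t137 : Tr := .c 1 r511 (.c 2 r512 (.c 7 r514 (.c 8 r515 .e)))
noncomputable def v222 : Tr := .l 0x2492082462491882480c5249188249209249249209249147249209
noncomputable def q663 : Tr := .c 0 v222 (.c 6 v50 .e)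
noncomputable def q664 : Tr := .c 0 v222 (.c 1 v222 (.c 6 v50 (.c 7 v50 .e)))
noncomputable def r524 : Tr := .c 0 q622 (.c 1 q623 (.c 8 q663 (.c 9 q664 .e)))
noncomputable def v223 : Tr := .l 0x2492492482491882481c9249249249249209249208248249249249
noncomputable def q665 : Tr := .c 1 v223 (.c 7 v119 (.c 8 v59 (.c 9 v59 .e)))
noncomputable def q666 : Tr := .c 0 v189 (.c 1 v189 (.c 6 v115 (.c 7 v115 (.c 8 v115 (.c 9 v115 .e)))))
noncomputable def q667 : Tr := .c 0 v223 (.c 1 v223 (.c 6 v119 (.c 7 v119 (.c 8 v59 .e))))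
noncomputable def q668 : Tr := .c 0 v223 (.c 1 v223 (.c 6 v119 (.c 7 v119 .e)))
noncomputable def r525 : Tr := .c 0 q334 (.c 2 q369 (.c 3 q665 (.c 4 q666 (.c 5 q667 (.c 9 q668 .e)))))
noncomputable def v224 : Tr := .l 0x1c92492081471882081c91471472492492491c92092492491c91c9
noncomputable def q669 : Tr := .c 1 v224 (.c 7 v120 (.c 8 v53 (.c 9 v53 .e)))
noncomputable def q670 : Tr := .c 0 v224 (.c 1 v224 (.c 6 v120 (.c 7 v120 (.c 8 v53 .e))))
noncomputable def r526 : Tr := .c 0 q338 (.c 2 q369 (.c 3 q669 (.c 4 q666 (.c 5 q670 .e))))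
noncomputable def t138 : Tr := .c 4 r524 (.c 7 r525 (.c 8 r526 .e))
noncomputable def q671 : Tr := .c 0 v122 (.c 6 v57 .e)
noncomputable def q672 : Tr := .c 0 v122 (.c 1 v122 (.c 6 v57 (.c 7 v57 .e)))
noncomputable def r527 : Tr := .c 1 q191 (.c 2 q371 (.c 8 q671 (.c 9 q672 .e)))
noncomputable def q673 : Tr := .c 0 v121 (.c 1 v121 (.c 6 v53 (.c 7 v53 (.c 8 v59 .e))))
noncomputable def r528 : Tr := .c 1 q191 (.c 2 q371 (.c 4 q673 (.c 5 q627 (.c 8 q671 (.c 9 q672 .e)))))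
noncomputable def r529 : Tr := .c 0 q305 (.c 2 q371 (.c 3 q630 (.c 4 q673 (.c 5 q627 (.c 9 q672 .e)))))
noncomputable def v225 : Tr := .l 0x2492492091c92082482491c91c9249249249249249249249249249
noncomputable def q674 : Tr := .c 1 v225 (.c 7 v115 (.c 8 v128 .e))
noncomputable def q675 : Tr := .c 0 v2 (.c 1 v2 (.c 6 v107 (.c 7 v107 (.c 8 v59 .e))))
noncomputable def q676 : Tr := .c 0 v225 (.c 1 v225 (.c 6 v115 (.c 7 v115 (.c 8 v128 .e))))
noncomputable def r530 : Tr := .c 0 q306 (.c 2 q373 (.c 3 q674 (.c 4 q675 (.c 5 q676 .e))))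
noncomputable def t139 : Tr := .c 3 r527 (.c 6 r528 (.c 7 r529 (.c 8 r530 .e)))
noncomputable def v226 : Tr := .l 0x2492492471880c51c51882082092492491c9209147247209249249
noncomputable def q677 : Tr := .c 1 v226 (.c 7 v69 (.c 8 v109 (.c 9 v109 .e)))
noncomputable def v227 : Tr := .l 0x2492492492091472472092492492492492492491c9249249249249
noncomputable def q678 : Tr := .c 0 v227 (.c 1 v227 (.c 6 v134 (.c 7 v134 (.c 8 v135 (.c 9 v135 .e)))))
noncomputable def q679 : Tr := .c 0 v226 (.c 1 v226 (.c 6 v69 (.c 7 v69 (.c 8 v109 .e))))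
noncomputable def q680 : Tr := .c 0 v226 (.c 1 v226 (.c 6 v69 (.c 7 v69 .e)))
noncomputable def r531 : Tr := .c 3 q677 (.c 4 q678 (.c 5 q679 (.c 9 q680 .e)))
noncomputable def q681 : Tr := .c 0 v226 (.c 6 v69 .e)
noncomputable def r532 : Tr := .c 3 q677 (.c 5 q679 (.c 8 q681 (.c 9 q680 .e)))
noncomputable def t140 : Tr := .c 1 r531 (.c 2 r532 (.c 7 r525 (.c 8 r526 .e)))
noncomputable def q682 : Tr := .c 0 v181 (.c 1 v181 (.c 6 v136 (.c 7 v136 (.c 8 v2 .e))))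
noncomputable def q683 : Tr := .c 0 v227 (.c 1 v227 (.c 6 v129 (.c 7 v129 (.c 8 v135 .e))))
noncomputable def q684 : Tr := .c 0 v227 (.c 6 v129 .e)
noncomputable def q685 : Tr := .c 0 v227 (.c 1 v227 (.c 6 v129 (.c 7 v129 .e)))
noncomputable def r533 : Tr := .c 4 q682 (.c 5 q683 (.c 8 q684 (.c 9 q685 .e)))
noncomputable def q686 : Tr := .c 1 v227 (.c 7 v129 (.c 8 v135 .e))
noncomputable def r534 : Tr := .c 3 q686 (.c 4 q682 (.c 5 q683 (.c 9 q685 .e)))
noncomputable def t141 : Tr := .c 0 r533 (.c 1 r534 (.c 6 r528 (.c 7 r529 (.c 8 r530 .e))))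
noncomputable def r535 : Tr := .c 4 q678 (.c 5 q679 (.c 8 q681 (.c 9 q680 .e)))
noncomputable def q687 : Tr := .c 6 v115 (.c 9 v115 .e)
noncomputable def q688 : Tr := .c 0 v223 (.c 6 v119 .e)
noncomputable def r536 : Tr := .c 1 q687 (.c 2 q369 (.c 4 q666 (.c 5 q667 (.c 8 q688 (.c 9 q668 .e)))))
noncomputable def t142 : Tr := .c 0 r535 (.c 1 r531 (.c 2 r532 (.c 6 r536 (.c 7 r525 (.c 8 r526 .e)))))
noncomputable def q689 : Tr := .c 1 v226 (.c 7 v69 .e)
noncomputable def q690 : Tr := .c 0 v227 (.c 1 v227 (.c 6 v134 (.c 7 v134 .e)))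
noncomputable def r537 : Tr := .c 3 q689 (.c 4 q690 (.c 5 q680 (.c 9 q680 .e)))
noncomputable def r538 : Tr := .c 3 q689 (.c 5 q680 (.c 8 q681 (.c 9 q680 .e)))
noncomputable def q691 : Tr := .c 7 v130 .e
noncomputable def q692 : Tr := .c 6 v71 .e
noncomputable def r539 : Tr := .c 0 q691 (.c 1 q692 (.c 8 q681 (.c 9 q680 .e)))
noncomputable def q693 : Tr := .c 1 v224 (.c 7 v120 .e)
noncomputable def q694 : Tr := .c 0 v189 (.c 1 v189 (.c 6 v115 (.c 7 v115 .e)))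
noncomputable def q695 : Tr := .c 0 v224 (.c 1 v224 (.c 6 v120 (.c 7 v120 .e)))
noncomputable def r540 : Tr := .c 0 q342 (.c 2 q386 (.c 3 q693 (.c 4 q694 (.c 5 q695 .e))))
noncomputable def t143 : Tr := .c 1 r537 (.c 2 r538 (.c 4 r539 (.c 8 r540 .e)))
noncomputable def r541 : Tr := .c 0 q334 (.c 3 q665 (.c 5 q667 (.c 9 q668 .e)))
noncomputable def r542 : Tr := .c 0 q338 (.c 3 q669 (.c 5 q670 .e))
noncomputable def t144 : Tr := .c 4 r524 (.c 7 r541 (.c 8 r542 .e))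
noncomputable def r543 : Tr := .c 1 q185 (.c 8 q671 (.c 9 q672 .e))
noncomputable def r544 : Tr := .c 1 q185 (.c 5 q627 (.c 8 q671 (.c 9 q672 .e)))
noncomputable def t145 : Tr := .c 3 r543 (.c 4 r524 (.c 6 r544 .e))
noncomputable def r545 : Tr := .c 1 q191 (.c 8 q671 (.c 9 q672 .e))
noncomputable def r546 : Tr := .c 1 q191 (.c 5 q627 (.c 8 q671 (.c 9 q672 .e)))
noncomputable def r547 : Tr := .c 0 q305 (.c 3 q630 (.c 5 q627 (.c 9 q672 .e)))
noncomputable def r548 : Tr := .c 0 q306 (.c 3 q674 (.c 5 q676 .e))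
noncomputable def t146 : Tr := .c 3 r545 (.c 6 r546 (.c 7 r547 (.c 8 r548 .e)))
noncomputable def r549 : Tr := .c 3 q677 (.c 5 q679 (.c 9 q680 .e))
noncomputable def t147 : Tr := .c 1 r549 (.c 2 r532 (.c 7 r541 (.c 8 r542 .e)))
noncomputable def r550 : Tr := .c 5 q683 (.c 8 q684 (.c 9 q685 .e))
noncomputable def r551 : Tr := .c 3 q686 (.c 5 q683 (.c 9 q685 .e))
noncomputable def t148 : Tr := .c 0 r550 (.c 1 r551 (.c 6 r546 (.c 7 r547 (.c 8 r548 .e))))
noncomputable def r552 : Tr := .c 3 q689 (.c 5 q680 (.c 9 q680 .e))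
noncomputable def r553 : Tr := .c 0 q342 (.c 3 q693 (.c 5 q695 .e))
noncomputable def t149 : Tr := .c 1 r552 (.c 2 r538 (.c 4 r539 (.c 8 r553 .e)))
noncomputable def v228 : Tr := .l 0x2492492492091472472092092092492492492491c9249249249249
noncomputable def q696 : Tr := .c 0 v228 (.c 1 v228 (.c 6 v75 (.c 7 v75 .e)))
noncomputable def q697 : Tr := .c 0 v228 (.c 6 v75 .e)
noncomputable def r554 : Tr := .c 5 q696 (.c 8 q697 (.c 9 q696 .e))
noncomputable def r555 : Tr := .c 1 q191 (.c 8 q697 (.c 9 q696 .e))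
noncomputable def t150 : Tr := .c 0 r554 (.c 2 r538 (.c 3 r555 (.c 4 r539 .e)))
noncomputable def q698 : Tr := .c 0 v150 (.c 1 v150 (.c 6 v150 (.c 7 v150 (.c 8 v151 .e))))
noncomputable def q699 : Tr := .c 0 v139 (.c 1 v139 (.c 2 v139 (.c 6 v139 (.c 7 v139 (.c 8 v141 .e)))))
noncomputable def q700 : Tr := .c 0 v151 (.c 2 v150 .e)
noncomputable def q701 : Tr := .c 0 v139 (.c 2 v139 (.c 6 v139 .e))
noncomputable def q702 : Tr := .c 0 v139 (.c 1 v139 (.c 2 v139 (.c 6 v139 (.c 7 v139 .e))))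
noncomputable def r556 : Tr := .c 4 q698 (.c 5 q699 (.c 7 q700 (.c 8 q701 (.c 9 q702 .e))))
noncomputable def r557 : Tr := .c 3 q409 (.c 4 q698 (.c 5 q699 (.c 6 q413 (.c 9 q702 .e))))
noncomputable def q703 : Tr := .c 6 v102 .e
noncomputable def q704 : Tr := .c 6 v102 (.c 7 v102 (.c 8 v152 .e))
noncomputable def q705 : Tr := .c 0 v150 (.c 1 v150 (.c 6 v102 (.c 7 v102 (.c 8 v152 .e))))
noncomputable def q706 : Tr := .c 0 v153 (.c 1 v153 (.c 2 v153 (.c 6 v104 (.c 7 v104 (.c 8 v154 .e)))))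
noncomputable def q707 : Tr := .c 0 v153 (.c 2 v153 (.c 6 v104 .e))
noncomputable def q708 : Tr := .c 0 v153 (.c 1 v153 (.c 2 v153 (.c 6 v104 (.c 7 v104 .e))))
noncomputable def r558 : Tr := .c 1 q703 (.c 2 q704 (.c 4 q705 (.c 5 q706 (.c 8 q707 (.c 9 q708 .e)))))
noncomputable def r559 : Tr := .c 0 q419 (.c 2 q704 (.c 3 q416 (.c 4 q705 (.c 5 q706 (.c 9 q708 .e)))))
noncomputable def q709 : Tr := .c 6 v157 (.c 7 v157 (.c 8 v158 .e))
noncomputable def q710 : Tr := .c 0 v2 (.c 1 v2 (.c 6 v157 (.c 7 v157 (.c 8 v158 .e))))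
noncomputable def q711 : Tr := .c 0 v159 (.c 1 v159 (.c 2 v159 (.c 6 v155 (.c 7 v155 (.c 8 v156 .e)))))
noncomputable def r560 : Tr := .c 0 q420 (.c 2 q709 (.c 3 q422 (.c 4 q710 (.c 5 q711 (.c 6 q424 .e)))))
noncomputable def q712 : Tr := .c 6 v157 .e
noncomputable def v229 : Tr := .l 0x2492492492092492492492092092492492472492491c9249249249
noncomputable def q713 : Tr := .c 0 v229 (.c 2 v159 .e)
noncomputable def r561 : Tr := .c 0 q420 (.c 1 q712 (.c 2 q709 (.c 3 q422 (.c 4 q710 (.c 6 q424 (.c 7 q713 .e))))))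
noncomputable def t151 : Tr := .c 0 r556 (.c 1 r557 (.c 6 r558 (.c 7 r559 (.c 8 r560 (.c 9 r561 .e)))))
noncomputable def q714 : Tr := .c 0 v139 (.c 1 v139 (.c 6 v140 (.c 7 v140 (.c 8 v141 .e))))
noncomputable def q715 : Tr := .c 0 v137 (.c 1 v137 (.c 6 v137 (.c 7 v137 (.c 8 v138 .e))))
noncomputable def v230 : Tr := .l 0x2091c71472092491c92492092092092491c5209247147249209209
noncomputable def q716 : Tr := .c 0 v230 .e
noncomputable def q717 : Tr := .c 0 v137 (.c 6 v137 .e)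
noncomputable def q718 : Tr := .c 0 v137 (.c 1 v137 (.c 6 v137 (.c 7 v137 .e)))
noncomputable def r562 : Tr := .c 4 q714 (.c 5 q715 (.c 7 q716 (.c 8 q717 (.c 9 q718 .e))))
noncomputable def r563 : Tr := .c 3 q426 (.c 4 q714 (.c 5 q715 (.c 6 q448 (.c 9 q718 .e))))
noncomputable def q719 : Tr := .c 6 v100 .e
noncomputable def q720 : Tr := .c 6 v100 (.c 7 v100 (.c 8 v143 .e))
noncomputable def q721 : Tr := .c 0 v144 (.c 1 v144 (.c 6 v100 (.c 7 v100 (.c 8 v143 .e))))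
noncomputable def q722 : Tr := .c 0 v137 (.c 1 v137 (.c 6 v98 (.c 7 v98 (.c 8 v142 .e))))
noncomputable def q723 : Tr := .c 0 v137 (.c 6 v98 .e)
noncomputable def q724 : Tr := .c 0 v137 (.c 1 v137 (.c 6 v98 (.c 7 v98 .e)))
noncomputable def r564 : Tr := .c 1 q719 (.c 2 q720 (.c 4 q721 (.c 5 q722 (.c 8 q723 (.c 9 q724 .e)))))
noncomputable def q725 : Tr := .c 7 v98 (.c 8 v142 .e)
noncomputable def r565 : Tr := .c 0 q725 (.c 2 q720 (.c 3 q433 (.c 4 q721 (.c 5 q722 (.c 9 q724 .e)))))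
noncomputable def q726 : Tr := .c 7 v145 (.c 8 v146 .e)
noncomputable def q727 : Tr := .c 6 v147 (.c 7 v147 (.c 8 v146 .e))
noncomputable def q728 : Tr := .c 0 v149 (.c 1 v149 (.c 6 v147 (.c 7 v147 (.c 8 v146 .e))))
noncomputable def q729 : Tr := .c 0 v148 (.c 1 v148 (.c 6 v145 (.c 7 v145 (.c 8 v146 .e))))
noncomputable def q730 : Tr := .c 1 v148 (.c 8 v146 .e)
noncomputable def r566 : Tr := .c 0 q726 (.c 2 q727 (.c 3 q437 (.c 4 q728 (.c 5 q729 (.c 6 q730 .e)))))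
noncomputable def t152 : Tr := .c 0 r562 (.c 1 r563 (.c 6 r564 (.c 7 r565 (.c 8 r566 .e))))
noncomputable def q731 : Tr := .c 0 v179 (.c 1 v179 (.c 6 v2 (.c 7 v2 .e)))
noncomputable def v231 : Tr := .l 0x2492492472081451c52082082082491c91c92491c7247249249249
noncomputable def q732 : Tr := .c 0 v231 (.c 1 v231 (.c 2 v231 (.c 6 v231 (.c 7 v231 .e))))
noncomputable def q733 : Tr := .c 0 v209 (.c 2 v180 .e)
noncomputable def q734 : Tr := .c 0 v231 (.c 2 v231 (.c 6 v231 .e))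
noncomputable def r567 : Tr := .c 4 q731 (.c 5 q732 (.c 7 q733 (.c 8 q734 (.c 9 q732 .e))))
noncomputable def q735 : Tr := .c 6 v174 .e
noncomputable def q736 : Tr := .c 6 v174 (.c 7 v174 .e)
noncomputable def r568 : Tr := .c 1 q735 (.c 2 q736 (.c 7 q733 (.c 8 q734 (.c 9 q732 .e))))
noncomputable def v232 : Tr := .l 0x2492492481c92482482491c91c9249249209249248248249249249
noncomputable def q737 : Tr := .c 7 v232 .e
noncomputable def q738 : Tr := .c 1 v180 (.c 2 v180 .e)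
noncomputable def r569 : Tr := .c 0 q737 (.c 1 q735 (.c 2 q736 (.c 6 q738 (.c 7 q733 (.c 8 q734 .e)))))
noncomputable def q739 : Tr := .c 1 v180 (.c 2 v180 (.c 7 v232 .e))
noncomputable def v233 : Tr := .l 0x249249249209247247249209209249249249249249249249249249
noncomputable def q740 : Tr := .c 0 v233 (.c 1 v233 (.c 6 v174 (.c 7 v174 .e)))
noncomputable def r570 : Tr := .c 0 q737 (.c 1 q735 (.c 2 q736 (.c 3 q739 (.c 4 q740 (.c 6 q738 (.c 7 q733 .e))))))
noncomputable def t153 : Tr := .c 0 r567 (.c 3 r568 (.c 5 r569 (.c 9 r570 .e)))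
noncomputable def q741 : Tr := .c 0 v139 (.c 1 v139 (.c 8 v141 .e))
noncomputable def q742 : Tr := .c 0 v137 (.c 1 v137 (.c 2 v137 (.c 8 v138 .e)))
noncomputable def v234 : Tr := .l 0x2481451c72492492492482482492492471c72492471c7249249249
noncomputable def q743 : Tr := .c 0 v230 (.c 2 v234 .e)
noncomputable def q744 : Tr := .c 0 v137 (.c 2 v137 .e)
noncomputable def q745 : Tr := .c 0 v137 (.c 1 v137 (.c 2 v137 .e))
noncomputable def r571 : Tr := .c 4 q741 (.c 5 q742 (.c 7 q743 (.c 8 q744 (.c 9 q745 .e))))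
noncomputable def q746 : Tr := .c 8 v143 .e
noncomputable def r572 : Tr := .c 2 q746 (.c 7 q743 (.c 8 q744 (.c 9 q745 .e)))
noncomputable def v235 : Tr := .l 0x2492492492492492492492492491c9249249249249249249249249
noncomputable def q747 : Tr := .c 8 v235 .e
noncomputable def v236 : Tr := .l 0x2492082492492492492492492492492492472492491c9249249249
noncomputable def q748 : Tr := .c 1 v234 (.c 2 v234 (.c 8 v236 .e))
noncomputable def r573 : Tr := .c 0 q747 (.c 2 q746 (.c 6 q748 (.c 7 q743 (.c 8 q744 .e))))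
noncomputable def q749 : Tr := .c 0 v144 (.c 1 v144 (.c 8 v143 .e))
noncomputable def q750 : Tr := .c 0 v137 (.c 1 v137 (.c 2 v137 (.c 8 v142 .e)))
noncomputable def r574 : Tr := .c 2 q746 (.c 4 q749 (.c 5 q750 (.c 8 q744 (.c 9 q745 .e))))
noncomputable def t154 : Tr := .c 0 r571 (.c 3 r572 (.c 5 r573 (.c 6 r574 .e)))
noncomputable def q751 : Tr := .c 0 v137 (.c 1 v137 (.c 8 v138 .e))
noncomputable def q752 : Tr := .c 0 v137 .e
noncomputable def q753 : Tr := .c 0 v137 (.c 1 v137 .e)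
noncomputable def r575 : Tr := .c 4 q741 (.c 5 q751 (.c 7 q716 (.c 8 q752 (.c 9 q753 .e))))
noncomputable def r576 : Tr := .c 3 q448 (.c 4 q741 (.c 5 q751 (.c 6 q448 (.c 9 q753 .e))))
noncomputable def r577 : Tr := .c 2 q746 (.c 7 q716 (.c 8 q752 (.c 9 q753 .e)))
noncomputable def q754 : Tr := .c 0 v137 (.c 1 v137 (.c 8 v142 .e))
noncomputable def r578 : Tr := .c 2 q746 (.c 4 q749 (.c 5 q754 (.c 8 q752 (.c 9 q753 .e))))
noncomputable def q755 : Tr := .c 8 v142 .e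
noncomputable def r579 : Tr := .c 0 q755 (.c 2 q746 (.c 3 q454 (.c 4 q749 (.c 5 q754 (.c 9 q753 .e)))))
noncomputable def t155 : Tr := .c 0 r575 (.c 1 r576 (.c 3 r577 (.c 6 r578 (.c 7 r579 .e))))
noncomputable def q756 : Tr := .c 0 v137 (.c 1 v137 (.c 2 v137 (.c 6 v137 (.c 7 v137 (.c 8 v138 .e)))))
noncomputable def q757 : Tr := .c 1 v137 (.c 2 v137 (.c 8 v138 .e))
noncomputable def q758 : Tr := .c 0 v137 (.c 1 v137 (.c 2 v137 (.c 6 v137 (.c 7 v137 .e))))
noncomputable def r580 : Tr := .c 3 q389 (.c 4 q714 (.c 5 q756 (.c 6 q757 (.c 9 q758 .e))))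
noncomputable def q759 : Tr := .c 0 v137 (.c 1 v137 (.c 2 v137 (.c 6 v98 (.c 7 v98 (.c 8 v142 .e)))))
noncomputable def q760 : Tr := .c 0 v137 (.c 1 v137 (.c 2 v137 (.c 6 v98 (.c 7 v98 .e))))
noncomputable def r581 : Tr := .c 0 q725 (.c 2 q720 (.c 3 q398 (.c 4 q721 (.c 5 q759 (.c 9 q760 .e)))))
noncomputable def q761 : Tr := .c 0 v148 (.c 1 v148 (.c 2 v148 (.c 6 v145 (.c 7 v145 (.c 8 v146 .e)))))
noncomputable def q762 : Tr := .c 1 v148 (.c 2 v148 (.c 8 v146 .e))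
noncomputable def r582 : Tr := .c 0 q726 (.c 2 q727 (.c 3 q404 (.c 4 q728 (.c 5 q761 (.c 6 q762 .e)))))
noncomputable def q763 : Tr := .c 6 v147 .e
noncomputable def q764 : Tr := .c 0 v160 (.c 2 v148 .e)
noncomputable def r583 : Tr := .c 0 q726 (.c 1 q763 (.c 2 q727 (.c 3 q404 (.c 4 q728 (.c 6 q762 (.c 7 q764 .e))))))
noncomputable def t156 : Tr := .c 1 r580 (.c 7 r581 (.c 8 r582 (.c 9 r583 .e)))
noncomputable def q765 : Tr := .c 0 v139 (.c 1 v139 (.c 6 v140 (.c 7 v140 .e)))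
noncomputable def r584 : Tr := .c 3 q391 (.c 4 q765 (.c 5 q758 (.c 6 q440 (.c 9 q758 .e))))
noncomputable def q766 : Tr := .c 6 v147 (.c 7 v147 .e)
noncomputable def v237 : Tr := .l 0x2492492472491c72472492492492091471c9209147247209249249
noncomputable def q767 : Tr := .c 0 v237 (.c 2 v139 (.c 6 v237 .e))
noncomputable def r585 : Tr := .c 0 q441 (.c 1 q763 (.c 2 q766 (.c 6 q443 (.c 7 q764 (.c 8 q767 .e)))))
noncomputable def q768 : Tr := .c 0 v149 (.c 1 v149 (.c 6 v147 (.c 7 v147 .e)))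
noncomputable def q769 : Tr := .c 0 v148 (.c 1 v148 (.c 2 v148 (.c 6 v145 (.c 7 v145 .e))))
noncomputable def r586 : Tr := .c 0 q441 (.c 2 q766 (.c 3 q445 (.c 4 q768 (.c 5 q769 (.c 6 q443 .e)))))
noncomputable def r587 : Tr := .c 0 q441 (.c 1 q763 (.c 2 q766 (.c 3 q445 (.c 4 q768 (.c 6 q443 (.c 7 q764 .e))))))
noncomputable def t157 : Tr := .c 1 r584 (.c 5 r585 (.c 8 r586 (.c 9 r587 .e)))
noncomputable def r588 : Tr := .c 3 q389 (.c 4 q714 (.c 6 q757 .e))
noncomputable def r589 : Tr := .c 0 q725 (.c 2 q720 (.c 3 q398 (.c 4 q721 .e)))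
noncomputable def r590 : Tr := .c 0 q726 (.c 2 q727 (.c 3 q404 (.c 4 q728 (.c 6 q762 .e))))
noncomputable def t158 : Tr := .c 1 r588 (.c 7 r589 (.c 8 r590 (.c 9 r583 .e)))
noncomputable def r591 : Tr := .c 4 q714 (.c 7 q716 (.c 8 q717 .e))
noncomputable def r592 : Tr := .c 3 q426 (.c 4 q714 (.c 6 q448 .e))
noncomputable def r593 : Tr := .c 1 q719 (.c 2 q720 (.c 4 q721 (.c 8 q723 .e)))
noncomputable def r594 : Tr := .c 0 q725 (.c 2 q720 (.c 3 q433 (.c 4 q721 .e)))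
noncomputable def r595 : Tr := .c 0 q726 (.c 2 q727 (.c 3 q437 (.c 4 q728 (.c 6 q730 .e))))
noncomputable def t159 : Tr := .c 0 r591 (.c 1 r592 (.c 6 r593 (.c 7 r594 (.c 8 r595 .e))))
noncomputable def r596 : Tr := .c 3 q391 (.c 4 q765 (.c 6 q440 .e))
noncomputable def r597 : Tr := .c 0 q441 (.c 2 q766 (.c 3 q445 (.c 4 q768 (.c 6 q443 .e))))
noncomputable def t160 : Tr := .c 1 r596 (.c 5 r585 (.c 8 r597 (.c 9 r587 .e)))
noncomputable def q770 : Tr := .c 0 v150 (.c 1 v150 (.c 6 v2 (.c 7 v2 .e)))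
noncomputable def r598 : Tr := .c 4 q770 (.c 7 q764 (.c 8 q767 .e))
noncomputable def r599 : Tr := .c 1 q763 (.c 2 q766 (.c 7 q764 (.c 8 q767 .e)))
noncomputable def t161 : Tr := .c 0 r598 (.c 3 r599 (.c 5 r585 (.c 9 r587 .e)))
noncomputable def q771 : Tr := .c 0 v230 (.c 2 v139 .e)
noncomputable def q772 : Tr := .c 0 v137 (.c 2 v162 .e)
noncomputable def r600 : Tr := .c 4 q741 (.c 7 q771 (.c 8 q772 .e))
noncomputable def r601 : Tr := .c 2 q746 (.c 7 q771 (.c 8 q772 .e))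
noncomputable def q773 : Tr := .c 1 v139 (.c 2 v139 (.c 8 v160 .e))
noncomputable def r602 : Tr := .c 0 q746 (.c 2 q746 (.c 6 q773 (.c 7 q771 (.c 8 q772 .e))))
noncomputable def r603 : Tr := .c 2 q746 (.c 4 q749 (.c 8 q772 .e))
noncomputable def t162 : Tr := .c 0 r600 (.c 3 r601 (.c 5 r602 (.c 6 r603 .e)))
noncomputable def r604 : Tr := .c 4 q741 (.c 7 q716 (.c 8 q752 .e))
noncomputable def r605 : Tr := .c 3 q448 (.c 4 q741 (.c 6 q448 .e))
noncomputable def r606 : Tr := .c 2 q746 (.c 7 q716 (.c 8 q752 .e))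
noncomputable def r607 : Tr := .c 2 q746 (.c 4 q749 (.c 8 q752 .e))
noncomputable def r608 : Tr := .c 0 q755 (.c 2 q746 (.c 3 q454 (.c 4 q749 .e)))
noncomputable def t163 : Tr := .c 0 r604 (.c 1 r605 (.c 3 r606 (.c 6 r607 (.c 7 r608 .e))))
noncomputable def q774 : Tr := .c 6 v94 .e
noncomputable def q775 : Tr := .c 6 v94 (.c 7 v94 (.c 8 v95 .e))
noncomputable def q776 : Tr := .c 0 v156 (.c 2 v166 .e)
noncomputable def r609 : Tr := .c 1 q774 (.c 2 q775 (.c 7 q776 .e))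
noncomputable def r610 : Tr := .c 0 q129 (.c 1 q774 (.c 2 q775 (.c 6 q476 (.c 7 q776 .e))))
noncomputable def q777 : Tr := .c 0 v102 (.c 1 v102 (.c 6 v94 (.c 7 v94 (.c 8 v95 .e))))
noncomputable def q778 : Tr := .c 0 v104 (.c 1 v104 (.c 2 v104 (.c 6 v62 (.c 7 v62 (.c 8 v97 .e)))))
noncomputable def r611 : Tr := .c 1 q774 (.c 2 q775 (.c 4 q777 (.c 5 q778 .e)))
noncomputable def q779 : Tr := .c 0 v167 (.c 1 v167 (.c 6 v94 (.c 7 v94 (.c 8 v95 .e))))
noncomputable def r612 : Tr := .c 0 q129 (.c 1 q774 (.c 2 q775 (.c 3 q479 (.c 4 q779 (.c 6 q476 (.c 7 q776 .e))))))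
noncomputable def t164 : Tr := .c 3 r609 (.c 5 r610 (.c 6 r611 (.c 9 r612 .e)))
noncomputable def r613 : Tr := .c 0 q127 (.c 2 q775 (.c 3 q478 (.c 4 q777 (.c 5 q778 .e))))
noncomputable def q780 : Tr := .c 0 v166 (.c 1 v166 (.c 2 v166 (.c 6 v96 (.c 7 v96 (.c 8 v97 .e)))))
noncomputable def r614 : Tr := .c 0 q129 (.c 2 q775 (.c 3 q479 (.c 4 q779 (.c 5 q780 (.c 6 q476 .e)))))
noncomputable def t165 : Tr := .c 3 r609 (.c 5 r610 (.c 6 r611 (.c 7 r613 (.c 8 r614 (.c 9 r612 .e)))))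
noncomputable def q781 : Tr := .c 0 v150 (.c 1 v150 (.c 6 v102 (.c 7 v102 (.c 8 v103 .e))))
noncomputable def q782 : Tr := .c 0 v168 (.c 1 v168 (.c 2 v168 (.c 6 v104 (.c 7 v104 (.c 8 v101 .e)))))
noncomputable def q783 : Tr := .c 0 v2 (.c 2 v2 .e)
noncomputable def r615 : Tr := .c 4 q781 (.c 5 q782 (.c 7 q783 .e))
noncomputable def r616 : Tr := .c 3 q487 (.c 4 q781 (.c 5 q782 (.c 6 q489 .e)))
noncomputable def t166 : Tr := .c 0 r615 (.c 1 r616 (.c 6 r611 (.c 7 r613 (.c 8 r614 (.c 9 r612 .e)))))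
noncomputable def q784 : Tr := .c 0 v139 (.c 1 v139 (.c 6 v100 (.c 7 v100 (.c 8 v101 .e))))
noncomputable def q785 : Tr := .c 0 v137 (.c 1 v137 (.c 6 v98 (.c 7 v98 (.c 8 v99 .e))))
noncomputable def r617 : Tr := .c 4 q784 (.c 5 q785 (.c 7 q716 .e))
noncomputable def r618 : Tr := .c 3 q490 (.c 4 q784 (.c 5 q785 (.c 6 q502 .e)))
noncomputable def q786 : Tr := .c 6 v93 .e
noncomputable def q787 : Tr := .c 6 v93 (.c 7 v93 (.c 8 v93 .e))
noncomputable def q788 : Tr := .c 0 v100 (.c 1 v100 (.c 6 v93 (.c 7 v93 (.c 8 v93 .e))))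
noncomputable def q789 : Tr := .c 0 v98 (.c 1 v98 (.c 6 v92 (.c 7 v92 (.c 8 v89 .e))))
noncomputable def r619 : Tr := .c 1 q786 (.c 2 q787 (.c 4 q788 (.c 5 q789 .e)))
noncomputable def r620 : Tr := .c 0 q118 (.c 2 q787 (.c 3 q496 (.c 4 q788 (.c 5 q789 .e))))
noncomputable def q790 : Tr := .c 6 v91 (.c 7 v91 (.c 8 v90 .e))
noncomputable def q791 : Tr := .c 0 v165 (.c 1 v165 (.c 6 v91 (.c 7 v91 (.c 8 v90 .e))))
noncomputable def q792 : Tr := .c 0 v164 (.c 1 v164 (.c 6 v9 (.c 7 v9 (.c 8 v90 .e))))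
noncomputable def q793 : Tr := .c 1 v164 (.c 8 v90 .e)
noncomputable def r621 : Tr := .c 0 q121 (.c 2 q790 (.c 3 q499 (.c 4 q791 (.c 5 q792 (.c 6 q793 .e)))))
noncomputable def t167 : Tr := .c 0 r617 (.c 1 r618 (.c 6 r619 (.c 7 r620 (.c 8 r621 .e))))
noncomputable def q794 : Tr := .c 0 v139 (.c 1 v139 (.c 8 v101 .e))
noncomputable def q795 : Tr := .c 0 v137 (.c 1 v137 (.c 2 v137 (.c 8 v99 .e)))
noncomputable def r622 : Tr := .c 4 q794 (.c 5 q795 (.c 7 q743 .e))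
noncomputable def q796 : Tr := .c 8 v93 .e
noncomputable def r623 : Tr := .c 2 q796 (.c 7 q743 .e)
noncomputable def q797 : Tr := .c 8 v17 .e
noncomputable def v238 : Tr := .l 0x249208249249249249249249249249249249249249249249249249
noncomputable def q798 : Tr := .c 1 v234 (.c 2 v234 (.c 8 v238 .e))
noncomputable def r624 : Tr := .c 0 q797 (.c 2 q796 (.c 6 q798 (.c 7 q743 .e)))
noncomputable def q799 : Tr := .c 0 v100 (.c 1 v100 (.c 8 v93 .e))
noncomputable def q800 : Tr := .c 0 v98 (.c 1 v98 (.c 2 v98 (.c 8 v89 .e)))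
noncomputable def r625 : Tr := .c 2 q796 (.c 4 q799 (.c 5 q800 .e))
noncomputable def t168 : Tr := .c 0 r622 (.c 3 r623 (.c 5 r624 (.c 6 r625 .e)))
noncomputable def q801 : Tr := .c 0 v137 (.c 1 v137 (.c 8 v99 .e))
noncomputable def r626 : Tr := .c 4 q794 (.c 5 q801 (.c 7 q716 .e))
noncomputable def r627 : Tr := .c 3 q502 (.c 4 q794 (.c 5 q801 (.c 6 q502 .e)))
noncomputable def r628 : Tr := .c 2 q796 (.c 7 q716 .e)
noncomputable def q802 : Tr := .c 0 v98 (.c 1 v98 (.c 8 v89 .e))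
noncomputable def r629 : Tr := .c 2 q796 (.c 4 q799 (.c 5 q802 .e))
noncomputable def r630 : Tr := .c 0 q104 (.c 2 q796 (.c 3 q506 (.c 4 q799 (.c 5 q802 .e))))
noncomputable def t169 : Tr := .c 0 r626 (.c 1 r627 (.c 3 r628 (.c 6 r629 (.c 7 r630 .e))))
noncomputable def q803 : Tr := .c 6 v91 .e
noncomputable def q804 : Tr := .c 1 v164 (.c 2 v164 (.c 8 v90 .e))
noncomputable def v239 : Tr := .l 0x2492492481c92492492491c91c9249249208249248208249249249
noncomputable def q805 : Tr := .c 0 v239 (.c 2 v164 .e)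
noncomputable def r631 : Tr := .c 0 q121 (.c 1 q803 (.c 2 q790 (.c 6 q804 (.c 7 q805 .e))))
noncomputable def q806 : Tr := .c 0 v98 (.c 1 v98 (.c 2 v98 (.c 6 v92 (.c 7 v92 (.c 8 v89 .e)))))
noncomputable def r632 : Tr := .c 0 q118 (.c 2 q787 (.c 3 q471 (.c 4 q788 (.c 5 q806 .e))))
noncomputable def q807 : Tr := .c 0 v164 (.c 1 v164 (.c 2 v164 (.c 6 v9 (.c 7 v9 (.c 8 v90 .e)))))
noncomputable def r633 : Tr := .c 0 q121 (.c 2 q790 (.c 3 q474 (.c 4 q791 (.c 5 q807 (.c 6 q804 .e)))))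
noncomputable def r634 : Tr := .c 0 q121 (.c 1 q803 (.c 2 q790 (.c 3 q474 (.c 4 q791 (.c 6 q804 (.c 7 q805 .e))))))
noncomputable def t170 : Tr := .c 5 r631 (.c 7 r632 (.c 8 r633 (.c 9 r634 .e)))
noncomputable def q808 : Tr := .c 0 v137 (.c 1 v137 (.c 2 v137 (.c 6 v98 (.c 7 v98 (.c 8 v99 .e)))))
noncomputable def q809 : Tr := .c 1 v137 (.c 2 v137 (.c 8 v99 .e))
noncomputable def r635 : Tr := .c 3 q483 (.c 4 q784 (.c 5 q808 (.c 6 q809 .e)))
noncomputable def t171 : Tr := .c 1 r635 (.c 7 r632 (.c 8 r633 (.c 9 r634 .e)))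
noncomputable def q810 : Tr := .c 6 v107 .e
noncomputable def q811 : Tr := .c 6 v107 (.c 7 v107 (.c 8 v53 .e))
noncomputable def v240 : Tr := .l 0x249249249249249249247249249249249249249249249249249249
noncomputable def q812 : Tr := .c 0 v240 (.c 2 v170 (.c 6 v46 .e))
noncomputable def r636 : Tr := .c 0 q67 (.c 1 q810 (.c 2 q811 (.c 8 q812 .e)))
noncomputable def q813 : Tr := .c 6 v107 (.c 7 v107 (.c 8 v108 .e))
noncomputable def q814 : Tr := .c 0 v172 (.c 1 v172 (.c 6 v107 (.c 7 v107 (.c 8 v108 .e))))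
noncomputable def q815 : Tr := .c 0 v171 (.c 1 v171 (.c 2 v171 (.c 6 v60 (.c 7 v60 (.c 8 v59 .e)))))
noncomputable def q816 : Tr := .c 0 v171 (.c 1 v171 (.c 2 v171 (.c 6 v60 (.c 7 v60 .e))))
noncomputable def r637 : Tr := .c 0 q64 (.c 2 q813 (.c 3 q515 (.c 4 q814 (.c 5 q815 (.c 9 q816 .e)))))
noncomputable def q817 : Tr := .c 0 v174 (.c 1 v174 (.c 6 v107 (.c 7 v107 (.c 8 v53 .e))))
noncomputable def q818 : Tr := .c 0 v173 (.c 1 v173 (.c 2 v173 (.c 6 v54 (.c 7 v54 (.c 8 v53 .e)))))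
noncomputable def r638 : Tr := .c 0 q67 (.c 2 q811 (.c 3 q519 (.c 4 q817 (.c 5 q818 .e))))
noncomputable def r639 : Tr := .c 0 q67 (.c 1 q810 (.c 2 q811 (.c 3 q519 (.c 4 q817 .e))))
noncomputable def t172 : Tr := .c 5 r636 (.c 7 r637 (.c 8 r638 (.c 9 r639 .e)))
noncomputable def q819 : Tr := .c 6 v95 .e
noncomputable def q820 : Tr := .c 6 v95 (.c 7 v95 (.c 8 v95 .e))
noncomputable def q821 : Tr := .c 0 v170 (.c 2 v170 (.c 6 v62 .e))
noncomputable def q822 : Tr := .c 0 v170 (.c 1 v170 (.c 2 v170 (.c 6 v62 (.c 7 v62 .e))))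
noncomputable def r640 : Tr := .c 1 q819 (.c 2 q820 (.c 8 q821 (.c 9 q822 .e)))
noncomputable def r641 : Tr := .c 0 q67 (.c 1 q819 (.c 2 q820 (.c 8 q821 .e)))
noncomputable def q823 : Tr := .c 0 v175 (.c 1 v175 (.c 6 v95 (.c 7 v95 (.c 8 v95 .e))))
noncomputable def q824 : Tr := .c 0 v170 (.c 1 v170 (.c 2 v170 (.c 6 v62 (.c 7 v62 (.c 8 v63 .e)))))
noncomputable def r642 : Tr := .c 1 q819 (.c 2 q820 (.c 4 q823 (.c 5 q824 (.c 8 q821 (.c 9 q822 .e)))))
noncomputable def r643 : Tr := .c 0 q69 (.c 2 q820 (.c 3 q522 (.c 4 q823 (.c 5 q824 (.c 9 q822 .e)))))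
noncomputable def q825 : Tr := .c 0 v176 (.c 1 v176 (.c 6 v95 (.c 7 v95 (.c 8 v95 .e))))
noncomputable def r644 : Tr := .c 0 q67 (.c 2 q820 (.c 3 q519 (.c 4 q825 (.c 5 q818 .e))))
noncomputable def r645 : Tr := .c 0 q67 (.c 1 q819 (.c 2 q820 (.c 3 q519 (.c 4 q825 .e))))
noncomputable def t173 : Tr := .c 3 r640 (.c 5 r641 (.c 6 r642 (.c 7 r643 (.c 8 r644 (.c 9 r645 .e)))))
noncomputable def q826 : Tr := .c 0 v178 (.c 1 v178 (.c 6 v110 (.c 7 v110 (.c 8 v111 .e))))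
noncomputable def q827 : Tr := .c 0 v177 (.c 1 v177 (.c 2 v177 (.c 6 v65 (.c 7 v65 (.c 8 v109 .e)))))
noncomputable def q828 : Tr := .c 0 v177 (.c 1 v177 (.c 2 v177 (.c 6 v65 (.c 7 v65 .e))))
noncomputable def r646 : Tr := .c 3 q526 (.c 4 q826 (.c 5 q827 (.c 9 q828 .e)))
noncomputable def t174 : Tr := .c 1 r646 (.c 7 r637 (.c 8 r638 (.c 9 r639 .e)))
noncomputable def q829 : Tr := .c 0 v179 (.c 1 v179 (.c 6 v112 (.c 7 v112 (.c 8 v102 .e))))
noncomputable def q830 : Tr := .c 0 v178 (.c 1 v178 (.c 2 v178 (.c 6 v110 (.c 7 v110 (.c 8 v111 .e)))))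
noncomputable def q831 : Tr := .c 0 v178 (.c 2 v178 (.c 6 v110 .e))
noncomputable def q832 : Tr := .c 0 v178 (.c 1 v178 (.c 2 v178 (.c 6 v110 (.c 7 v110 .e))))
noncomputable def r647 : Tr := .c 4 q829 (.c 5 q830 (.c 8 q831 (.c 9 q832 .e)))
noncomputable def r648 : Tr := .c 3 q530 (.c 4 q829 (.c 5 q830 (.c 9 q832 .e)))
noncomputable def t175 : Tr := .c 0 r647 (.c 1 r648 (.c 6 r642 (.c 7 r643 (.c 8 r644 (.c 9 r645 .e)))))
noncomputable def q833 : Tr := .c 0 v177 (.c 1 v177 (.c 6 v65 (.c 7 v65 (.c 8 v109 .e))))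
noncomputable def q834 : Tr := .c 0 v177 (.c 6 v65 .e)
noncomputable def q835 : Tr := .c 0 v177 (.c 1 v177 (.c 6 v65 (.c 7 v65 .e)))
noncomputable def r649 : Tr := .c 4 q826 (.c 5 q833 (.c 8 q834 (.c 9 q835 .e)))
noncomputable def r650 : Tr := .c 3 q533 (.c 4 q826 (.c 5 q833 (.c 9 q835 .e)))
noncomputable def q836 : Tr := .c 0 v171 (.c 1 v171 (.c 6 v60 (.c 7 v60 (.c 8 v59 .e))))
noncomputable def q837 : Tr := .c 0 v171 (.c 6 v60 .e)
noncomputable def q838 : Tr := .c 0 v171 (.c 1 v171 (.c 6 v60 (.c 7 v60 .e)))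
noncomputable def r651 : Tr := .c 1 q810 (.c 2 q813 (.c 4 q814 (.c 5 q836 (.c 8 q837 (.c 9 q838 .e)))))
noncomputable def r652 : Tr := .c 0 q64 (.c 2 q813 (.c 3 q537 (.c 4 q814 (.c 5 q836 (.c 9 q838 .e)))))
noncomputable def q839 : Tr := .c 0 v173 (.c 1 v173 (.c 6 v54 (.c 7 v54 (.c 8 v53 .e))))
noncomputable def r653 : Tr := .c 0 q67 (.c 2 q811 (.c 3 q541 (.c 4 q817 (.c 5 q839 .e))))
noncomputable def t176 : Tr := .c 0 r649 (.c 1 r650 (.c 6 r651 (.c 7 r652 (.c 8 r653 .e))))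
noncomputable def q840 : Tr := .c 0 v178 (.c 1 v178 (.c 6 v110 (.c 7 v110 .e)))
noncomputable def r654 : Tr := .c 3 q527 (.c 4 q840 (.c 5 q828 (.c 9 q828 .e)))
noncomputable def q841 : Tr := .c 6 v107 (.c 7 v107 .e)
noncomputable def v241 : Tr := .l 0x249249249249247247249249249249209249249209249249249249
noncomputable def v242 : Tr := .l 0x249249249249249249249249249249209249249209249249249249
noncomputable def q842 : Tr := .c 0 v241 (.c 2 v180 (.c 6 v242 .e))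
noncomputable def r655 : Tr := .c 0 q86 (.c 1 q810 (.c 2 q841 (.c 8 q842 .e)))
noncomputable def q843 : Tr := .c 0 v174 (.c 1 v174 (.c 6 v107 (.c 7 v107 .e)))
noncomputable def q844 : Tr := .c 0 v173 (.c 1 v173 (.c 2 v173 (.c 6 v54 (.c 7 v54 .e))))
noncomputable def r656 : Tr := .c 0 q86 (.c 2 q841 (.c 3 q544 (.c 4 q843 (.c 5 q844 .e))))
noncomputable def r657 : Tr := .c 0 q86 (.c 1 q810 (.c 2 q841 (.c 3 q544 (.c 4 q843 .e))))
noncomputable def t177 : Tr := .c 1 r654 (.c 5 r655 (.c 8 r656 (.c 9 r657 .e)))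
noncomputable def q845 : Tr := .c 1 v137 (.c 2 v137 (.c 4 v137 (.c 5 v138 (.c 8 v138 (.c 9 v138 .e)))))
noncomputable def q846 : Tr := .c 1 v137 (.c 2 v137 (.c 4 v137 .e))
noncomputable def r658 : Tr := .c 3 q390 (.c 4 q447 (.c 5 q757 (.c 6 q845 (.c 9 q846 .e))))
noncomputable def q847 : Tr := .c 2 v137 (.c 4 v137 (.c 5 v138 (.c 9 v138 .e)))
noncomputable def v243 : Tr := .l 0x2091c71c52091472472092492091880c51471880c51c5188248249
noncomputable def q848 : Tr := .c 2 v137 (.c 4 v137 (.c 5 v243 .e))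
noncomputable def r659 : Tr := .c 3 q390 (.c 5 q757 (.c 6 q845 (.c 7 q847 (.c 8 q848 (.c 9 q846 .e)))))
noncomputable def q849 : Tr := .c 4 v2 (.c 5 v142 (.c 8 v142 (.c 9 v142 .e)))
noncomputable def q850 : Tr := .c 5 v143 (.c 8 v143 (.c 9 v143 .e))
noncomputable def q851 : Tr := .c 1 v137 (.c 2 v137 (.c 8 v142 (.c 9 v142 .e)))
noncomputable def q852 : Tr := .c 1 v137 (.c 2 v137 (.c 8 v142 .e))
noncomputable def r660 : Tr := .c 0 q849 (.c 2 q850 (.c 3 q851 (.c 4 q453 (.c 5 q852 (.c 9 q846 .e)))))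
noncomputable def t178 : Tr := .c 1 r658 (.c 2 r659 (.c 7 r660 .e))
noncomputable def q853 : Tr := .c 1 v150 (.c 8 v151 .e)
noncomputable def q854 : Tr := .c 2 v150 (.c 4 v150 .e)
noncomputable def q855 : Tr := .c 2 v139 (.c 4 v139 .e)
noncomputable def q856 : Tr := .c 1 v139 (.c 2 v139 (.c 4 v139 .e))
noncomputable def r661 : Tr := .c 4 q853 (.c 5 q413 (.c 7 q854 (.c 8 q855 (.c 9 q856 .e))))
noncomputable def q857 : Tr := .c 1 v139 (.c 2 v139 (.c 4 v139 (.c 8 v141 .e)))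
noncomputable def r662 : Tr := .c 3 q413 (.c 4 q853 (.c 5 q413 (.c 6 q857 (.c 9 q856 .e))))
noncomputable def v244 : Tr := .l 0x2492492481c82492492491c91c8249249209249248248249249249
noncomputable def q858 : Tr := .c 4 v244 .e
noncomputable def q859 : Tr := .c 8 v152 .e
noncomputable def q860 : Tr := .c 1 v150 (.c 8 v152 .e)
noncomputable def q861 : Tr := .c 1 v153 (.c 2 v153 (.c 8 v154 .e))
noncomputable def q862 : Tr := .c 2 v153 (.c 4 v153 .e)
noncomputable def q863 : Tr := .c 1 v153 (.c 2 v153 (.c 4 v153 .e))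
noncomputable def r663 : Tr := .c 1 q858 (.c 2 q859 (.c 4 q860 (.c 5 q861 (.c 8 q862 (.c 9 q863 .e)))))
noncomputable def q864 : Tr := .c 4 v2 (.c 8 v154 .e)
noncomputable def r664 : Tr := .c 0 q864 (.c 2 q859 (.c 3 q861 (.c 4 q860 (.c 5 q861 (.c 9 q863 .e)))))
noncomputable def t179 : Tr := .c 0 r661 (.c 1 r662 (.c 6 r663 (.c 7 r664 .e)))
noncomputable def q865 : Tr := .c 5 v160 (.c 9 v160 .e)
noncomputable def v245 : Tr := .l 0x2091c72452491c92492092492092091471c9209147247209249249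
noncomputable def q866 : Tr := .c 5 v245 .e
noncomputable def r665 : Tr := .c 4 q447 (.c 5 q448 (.c 7 q865 (.c 8 q866 (.c 9 q449 .e))))
noncomputable def q867 : Tr := .c 1 v137 (.c 5 v138 (.c 8 v138 (.c 9 v138 .e)))
noncomputable def r666 : Tr := .c 3 q430 (.c 4 q447 (.c 5 q448 (.c 6 q867 (.c 9 q449 .e))))
noncomputable def q868 : Tr := .c 5 v138 (.c 9 v138 .e)
noncomputable def q869 : Tr := .c 5 v243 .e
noncomputable def r667 : Tr := .c 3 q430 (.c 5 q448 (.c 6 q867 (.c 7 q868 (.c 8 q869 (.c 9 q449 .e)))))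
noncomputable def q870 : Tr := .c 5 v143 (.c 9 v143 .e)
noncomputable def r668 : Tr := .c 1 q870 (.c 2 q850 (.c 4 q453 (.c 5 q454 (.c 8 q866 (.c 9 q449 .e)))))
noncomputable def q871 : Tr := .c 5 v142 (.c 8 v142 (.c 9 v142 .e))
noncomputable def r669 : Tr := .c 0 q871 (.c 2 q850 (.c 3 q456 (.c 4 q453 (.c 5 q454 (.c 9 q449 .e)))))
noncomputable def t180 : Tr := .c 0 r665 (.c 1 r666 (.c 2 r667 (.c 6 r668 (.c 7 r669 .e))))
noncomputable def q872 : Tr := .c 1 v139 .e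
noncomputable def q873 : Tr := .c 1 v137 (.c 2 v137 (.c 4 v137 (.c 5 v138 .e)))
noncomputable def r670 : Tr := .c 3 q440 (.c 4 q872 (.c 5 q440 (.c 6 q873 (.c 9 q846 .e))))
noncomputable def q874 : Tr := .c 2 v137 (.c 4 v137 (.c 5 v138 .e))
noncomputable def r671 : Tr := .c 3 q440 (.c 5 q440 (.c 6 q873 (.c 7 q874 (.c 8 q848 (.c 9 q846 .e)))))
noncomputable def v246 : Tr := .l 0x2492082061c52082482492491c8249209188143206206249249206
noncomputable def v247 : Tr := .l 0x2092492081472092092092091472491882060c5188188249249188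
noncomputable def q875 : Tr := .c 4 v246 (.c 5 v247 .e)
noncomputable def r672 : Tr := .c 0 q875 (.c 1 q875 (.c 6 q873 (.c 7 q874 (.c 8 q848 (.c 9 q846 .e)))))
noncomputable def v248 : Tr := .l 0x2492492482472492492492492472492492091c5248248249249248
noncomputable def v249 : Tr := .l 0x2492492491c92492492491c91c9249209248147209209249209209
noncomputable def q876 : Tr := .c 4 v248 (.c 5 v249 .e)
noncomputable def q877 : Tr := .c 5 v249 .e
noncomputable def q878 : Tr := .c 1 v148 (.c 2 v148 (.c 4 v148 (.c 5 v160 .e)))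
noncomputable def q879 : Tr := .c 2 v148 (.c 4 v148 (.c 5 v160 .e))
noncomputable def v250 : Tr := .l 0x2492492472491c92492492492492091471c9209147247209249249
noncomputable def q880 : Tr := .c 2 v139 (.c 4 v139 (.c 5 v250 .e))
noncomputable def r673 : Tr := .c 0 q876 (.c 1 q876 (.c 2 q877 (.c 6 q878 (.c 7 q879 (.c 8 q880 .e)))))
noncomputable def t181 : Tr := .c 1 r670 (.c 2 r671 (.c 4 r672 (.c 5 r673 .e)))
noncomputable def r674 : Tr := .c 1 q870 (.c 2 q850 (.c 7 q865 (.c 8 q866 (.c 9 q449 .e))))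
noncomputable def q881 : Tr := .c 5 v161 (.c 8 v161 (.c 9 v161 .e))
noncomputable def q882 : Tr := .c 5 v161 (.c 9 v161 .e)
noncomputable def r675 : Tr := .c 0 q881 (.c 1 q882 (.c 6 q867 (.c 7 q868 (.c 8 q869 (.c 9 q449 .e)))))
noncomputable def t182 : Tr := .c 0 r665 (.c 1 r666 (.c 2 r667 (.c 3 r674 (.c 4 r675 (.c 6 r668 (.c 7 r669 .e))))))
noncomputable def r676 : Tr := .c 3 q390 (.c 4 q447 (.c 6 q845 .e))
noncomputable def r677 : Tr := .c 3 q390 (.c 6 q845 (.c 7 q847 (.c 8 q848 .e)))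
noncomputable def r678 : Tr := .c 0 q849 (.c 2 q850 (.c 3 q851 (.c 4 q453 .e)))
noncomputable def t183 : Tr := .c 1 r676 (.c 2 r677 (.c 7 r678 .e))
noncomputable def r679 : Tr := .c 4 q447 (.c 7 q865 (.c 8 q866 .e))
noncomputable def r680 : Tr := .c 3 q430 (.c 4 q447 (.c 6 q867 .e))
noncomputable def r681 : Tr := .c 3 q430 (.c 6 q867 (.c 7 q868 (.c 8 q869 .e)))
noncomputable def r682 : Tr := .c 1 q870 (.c 2 q850 (.c 4 q453 (.c 8 q866 .e)))
noncomputable def r683 : Tr := .c 0 q871 (.c 2 q850 (.c 3 q456 (.c 4 q453 .e)))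
noncomputable def t184 : Tr := .c 0 r679 (.c 1 r680 (.c 2 r681 (.c 6 r682 (.c 7 r683 .e))))
noncomputable def r684 : Tr := .c 3 q440 (.c 4 q872 (.c 6 q873 .e))
noncomputable def r685 : Tr := .c 3 q440 (.c 6 q873 (.c 7 q874 (.c 8 q848 .e)))
noncomputable def r686 : Tr := .c 0 q875 (.c 1 q875 (.c 6 q873 (.c 7 q874 (.c 8 q848 .e))))
noncomputable def t185 : Tr := .c 1 r684 (.c 2 r685 (.c 4 r686 (.c 5 r673 .e)))
noncomputable def q883 : Tr := .c 1 v150 .e
noncomputable def r687 : Tr := .c 4 q883 (.c 7 q879 (.c 8 q880 .e))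
noncomputable def r688 : Tr := .c 1 q876 (.c 2 q877 (.c 7 q879 (.c 8 q880 .e)))
noncomputable def t186 : Tr := .c 0 r687 (.c 2 r685 (.c 3 r688 (.c 4 r686 (.c 5 r673 .e))))
noncomputable def q884 : Tr := .c 2 v139 (.c 4 v139 (.c 5 v160 (.c 9 v160 .e)))
noncomputable def q885 : Tr := .c 2 v162 (.c 4 v162 (.c 5 v245 .e))
noncomputable def r689 : Tr := .c 4 q447 (.c 7 q884 (.c 8 q885 .e))
noncomputable def q886 : Tr := .c 2 v163 (.c 4 v163 (.c 5 v243 .e))
noncomputable def r690 : Tr := .c 3 q390 (.c 6 q845 (.c 7 q847 (.c 8 q886 .e)))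
noncomputable def v251 : Tr := .l 0x2472492482492492492492492491c5248209249248248249249248
noncomputable def q887 : Tr := .c 4 v251 (.c 5 v143 (.c 9 v143 .e))
noncomputable def r691 : Tr := .c 1 q887 (.c 2 q850 (.c 7 q884 (.c 8 q885 .e)))
noncomputable def v252 : Tr := .l 0x1c52082062492082482492491c8143206188249206206249249206
noncomputable def q888 : Tr := .c 4 v252 (.c 5 v161 (.c 8 v161 (.c 9 v161 .e)))
noncomputable def q889 : Tr := .c 4 v252 (.c 5 v161 (.c 9 v161 .e))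
noncomputable def r692 : Tr := .c 0 q888 (.c 1 q889 (.c 6 q845 (.c 7 q847 (.c 8 q886 .e))))
noncomputable def q890 : Tr := .c 4 v251 (.c 5 v143 (.c 8 v143 (.c 9 v143 .e)))
noncomputable def q891 : Tr := .c 1 v139 (.c 2 v139 (.c 4 v139 (.c 5 v160 (.c 8 v160 (.c 9 v160 .e)))))
noncomputable def r693 : Tr := .c 0 q890 (.c 1 q887 (.c 2 q850 (.c 6 q891 (.c 7 q884 (.c 8 q885 .e)))))
noncomputable def r694 : Tr := .c 1 q887 (.c 2 q850 (.c 4 q453 (.c 8 q885 .e)))
noncomputable def t187 : Tr := .c 0 r689 (.c 2 r690 (.c 3 r691 (.c 4 r692 (.c 5 r693 (.c 6 r694 .e)))))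
noncomputable def r695 : Tr := .c 1 q870 (.c 2 q850 (.c 7 q865 (.c 8 q866 .e)))
noncomputable def r696 : Tr := .c 0 q881 (.c 1 q882 (.c 6 q867 (.c 7 q868 (.c 8 q869 .e))))
noncomputable def t188 : Tr := .c 0 r679 (.c 1 r680 (.c 2 r681 (.c 3 r695 (.c 4 r696 (.c 6 r682 (.c 7 r683 .e))))))
noncomputable def v253 : Tr := .l 0x1c82492491c82492491c81c8105206249249206249249206206143
noncomputable def v254 : Tr := .l 0x1472492081472092091471470841882492491882492491881880c5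
noncomputable def q892 : Tr := .c 4 v253 (.c 5 v254 (.c 8 v254 (.c 9 v254 .e)))
noncomputable def q893 : Tr := .c 4 v253 (.c 5 v254 (.c 9 v254 .e))
noncomputable def v255 : Tr := .l 0x2492082062492082482491c51c8249209188249206206249143206
noncomputable def v256 : Tr := .l 0x2092492082092492092091471472492492062492481882490c5188
noncomputable def q894 : Tr := .c 1 v255 (.c 2 v255 (.c 4 v255 (.c 5 v256 (.c 8 v256 (.c 9 v256 .e)))))
noncomputable def q895 : Tr := .c 2 v255 (.c 4 v255 (.c 5 v256 (.c 9 v256 .e)))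
noncomputable def v257 : Tr := .l 0x2492082062492082481c52491c8249206188249206206143249206
noncomputable def v258 : Tr := .l 0x2092492482092092491472091472491882092491882480c5249188
noncomputable def q896 : Tr := .c 2 v257 (.c 4 v257 (.c 5 v258 .e))
noncomputable def r697 : Tr := .c 0 q892 (.c 1 q893 (.c 6 q894 (.c 7 q895 (.c 8 q896 .e))))
noncomputable def v259 : Tr := .l 0x2092492491872492492091881872482492492082492492481c81c5
noncomputable def v260 : Tr := .l 0x1882491c71061c91c9188106106209249248188249209209147147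
noncomputable def q897 : Tr := .c 4 v259 (.c 5 v260 (.c 8 v260 (.c 9 v260 .e)))
noncomputable def q898 : Tr := .c 4 v259 (.c 5 v260 (.c 9 v260 .e))
noncomputable def q899 : Tr := .c 5 v260 (.c 8 v260 (.c 9 v260 .e))
noncomputable def v261 : Tr := .l 0x2492492482492492492492472492492492092492482482491c51c8
noncomputable def v262 : Tr := .l 0x2492492491c92492492491c91c9209249248209249209209147147
noncomputable def q900 : Tr := .c 1 v261 (.c 2 v261 (.c 4 v261 (.c 5 v262 (.c 8 v262 (.c 9 v262 .e)))))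
noncomputable def q901 : Tr := .c 2 v261 (.c 4 v261 (.c 5 v262 (.c 9 v262 .e)))
noncomputable def v263 : Tr := .l 0x2492492482492492492472492492492482092492482481c5249248
noncomputable def v264 : Tr := .l 0x2492492481c92492491c91c91c9249209249249209249147209209
noncomputable def q902 : Tr := .c 2 v263 (.c 4 v263 (.c 5 v264 .e))
noncomputable def r698 : Tr := .c 0 q897 (.c 1 q898 (.c 2 q899 (.c 6 q900 (.c 7 q901 (.c 8 q902 .e)))))
noncomputable def v265 : Tr := .l 0x249249209249249249249249249249249249249249249249249249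
noncomputable def q903 : Tr := .c 4 v2 (.c 5 v265 (.c 8 v265 (.c 9 v265 .e)))
noncomputable def q904 : Tr := .c 1 v2 (.c 2 v2 (.c 8 v265 (.c 9 v265 .e)))
noncomputable def r699 : Tr := .c 0 q903 (.c 2 q366 (.c 3 q904 (.c 4 q661 .e)))
noncomputable def t189 : Tr := .c 4 r697 (.c 5 r698 (.c 7 r699 .e))
noncomputable def r700 : Tr := .c 1 q898 (.c 2 q899 (.c 7 q901 (.c 8 q902 .e)))
noncomputable def v266 : Tr := .l 0x2492492481c92492492491c91c9249249209249248248249209209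
noncomputable def q905 : Tr := .c 1 v266 (.c 8 v260 (.c 9 v260 .e))
noncomputable def r701 : Tr := .c 1 q898 (.c 2 q899 (.c 4 q905 (.c 8 q902 .e)))
noncomputable def t190 : Tr := .c 3 r700 (.c 4 r697 (.c 5 r698 (.c 6 r701 .e)))
noncomputable def v267 : Tr := .l 0x1462492081462092091461460831c82492491c82492491c81c8105
noncomputable def q906 : Tr := .c 4 v267 (.c 5 v45 (.c 8 v45 (.c 9 v45 .e)))
noncomputable def q907 : Tr := .c 4 v267 (.c 5 v45 (.c 9 v45 .e))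
noncomputable def v268 : Tr := .l 0x2091862082092062062091431462492482092492482482491c51c8
noncomputable def v269 : Tr := .l 0x1882081891882481881880c50c5209249248209249209209147147
noncomputable def q908 : Tr := .c 1 v268 (.c 2 v268 (.c 4 v268 (.c 5 v269 (.c 8 v269 (.c 9 v269 .e)))))
noncomputable def q909 : Tr := .c 2 v268 (.c 4 v268 (.c 5 v269 (.c 9 v269 .e)))
noncomputable def v270 : Tr := .l 0x1882082461881882480c51880c5209209249209209249147209147
noncomputable def q910 : Tr := .c 2 v169 (.c 4 v169 (.c 5 v270 .e))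
noncomputable def q911 : Tr := .c 1 v169 (.c 2 v169 (.c 4 v169 .e))
noncomputable def r702 : Tr := .c 0 q906 (.c 1 q907 (.c 6 q908 (.c 7 q909 (.c 8 q910 (.c 9 q911 .e)))))
noncomputable def v271 : Tr := .l 0x1882491c71051c81c8188106105209249249187249249209188187
noncomputable def q912 : Tr := .c 4 v271 (.c 5 v53 (.c 8 v53 (.c 9 v53 .e)))
noncomputable def q913 : Tr := .c 4 v271 (.c 5 v53 (.c 9 v53 .e))
noncomputable def v272 : Tr := .l 0x2492082491c82482482491c51c8249249249249249249249247249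
noncomputable def q914 : Tr := .c 1 v272 (.c 2 v272 (.c 4 v272 (.c 5 v121 (.c 8 v121 (.c 9 v121 .e)))))
noncomputable def q915 : Tr := .c 2 v272 (.c 4 v272 (.c 5 v121 (.c 9 v121 .e)))
noncomputable def v273 : Tr := .l 0x1c92082061472092091471471472492092491c92092491c91c91c9
noncomputable def q916 : Tr := .c 2 v170 (.c 4 v170 (.c 5 v273 .e))
noncomputable def r703 : Tr := .c 0 q912 (.c 1 q913 (.c 6 q914 (.c 7 q915 (.c 8 q916 .e))))
noncomputable def v274 : Tr := .l 0x249249249249209249249249249249249249249249249249249249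
noncomputable def q917 : Tr := .c 4 v274 (.c 5 v59 (.c 8 v59 (.c 9 v59 .e)))
noncomputable def q918 : Tr := .c 1 v171 (.c 2 v171 (.c 8 v59 (.c 9 v59 .e)))
noncomputable def q919 : Tr := .c 1 v171 (.c 2 v171 (.c 8 v59 .e))
noncomputable def q920 : Tr := .c 1 v171 (.c 2 v171 (.c 4 v171 .e))
noncomputable def r704 : Tr := .c 0 q917 (.c 3 q918 (.c 5 q919 (.c 9 q920 .e)))
noncomputable def t191 : Tr := .c 4 r702 (.c 5 r703 (.c 7 r704 .e))
noncomputable def q921 : Tr := .c 1 v170 (.c 2 v170 (.c 4 v170 .e))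
noncomputable def r705 : Tr := .c 1 q913 (.c 7 q915 (.c 8 q916 (.c 9 q921 .e)))
noncomputable def q922 : Tr := .c 1 v170 (.c 2 v170 (.c 8 v63 .e))
noncomputable def r706 : Tr := .c 1 q913 (.c 5 q922 (.c 8 q916 (.c 9 q921 .e)))
noncomputable def t192 : Tr := .c 3 r705 (.c 4 r702 (.c 5 r703 (.c 6 r706 .e)))
noncomputable def q923 : Tr := .c 4 v271 .e
noncomputable def q924 : Tr := .c 2 v272 (.c 4 v272 .e)
noncomputable def q925 : Tr := .c 2 v170 (.c 4 v170 .e)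
noncomputable def r707 : Tr := .c 1 q923 (.c 7 q924 (.c 8 q925 (.c 9 q921 .e)))
noncomputable def q926 : Tr := .c 4 v271 (.c 8 v53 .e)
noncomputable def q927 : Tr := .c 1 v272 (.c 2 v272 (.c 4 v272 (.c 8 v121 .e)))
noncomputable def r708 : Tr := .c 0 q926 (.c 1 q923 (.c 6 q927 (.c 7 q924 (.c 8 q925 .e))))
noncomputable def r709 : Tr := .c 1 q923 (.c 5 q922 (.c 8 q925 (.c 9 q921 .e)))
noncomputable def q928 : Tr := .c 4 v130 (.c 8 v63 .e)
noncomputable def r710 : Tr := .c 0 q928 (.c 3 q922 (.c 5 q922 (.c 9 q921 .e)))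
noncomputable def t193 : Tr := .c 3 r707 (.c 5 r708 (.c 6 r709 (.c 7 r710 .e)))
noncomputable def q929 : Tr := .c 1 v177 (.c 2 v177 .e)
noncomputable def v275 : Tr := .l 0x2492491c71881c50c52481881882092491c5209247147249209209
noncomputable def q930 : Tr := .c 1 v177 (.c 2 v177 (.c 4 v177 (.c 5 v275 .e)))
noncomputable def q931 : Tr := .c 1 v177 (.c 2 v177 (.c 4 v177 .e))
noncomputable def r711 : Tr := .c 3 q929 (.c 5 q929 (.c 6 q930 (.c 9 q931 .e)))
noncomputable def q932 : Tr := .c 2 v177 (.c 4 v177 (.c 5 v275 .e))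
noncomputable def v276 : Tr := .l 0x2492492471880c51c51882481882091471c9209147247209249209
noncomputable def q933 : Tr := .c 2 v177 (.c 4 v177 (.c 5 v276 .e))
noncomputable def r712 : Tr := .c 3 q929 (.c 5 q929 (.c 6 q930 (.c 7 q932 (.c 8 q933 (.c 9 q931 .e)))))
noncomputable def v277 : Tr := .l 0x2092492481432062062092091462492492091c52482482492491c8
noncomputable def v278 : Tr := .l 0x1882492490c51881881881880c5209209248147209209209209147
noncomputable def q934 : Tr := .c 4 v277 (.c 5 v278 .e)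
noncomputable def r713 : Tr := .c 0 q934 (.c 1 q934 (.c 6 q930 (.c 7 q932 (.c 8 q933 (.c 9 q931 .e)))))
noncomputable def v279 : Tr := .l 0x2482492491c52482482481c81c5249249249247249249249249247
noncomputable def q935 : Tr := .c 4 v279 (.c 5 v121 .e)
noncomputable def q936 : Tr := .c 1 v180 (.c 2 v180 (.c 4 v180 (.c 5 v209 .e)))
noncomputable def q937 : Tr := .c 2 v180 (.c 4 v180 (.c 5 v209 .e))
noncomputable def v280 : Tr := .l 0x2492492492091472472092092092491c92492491c9249249249249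
noncomputable def q938 : Tr := .c 2 v180 (.c 4 v180 (.c 5 v280 .e))
noncomputable def r714 : Tr := .c 0 q935 (.c 1 q935 (.c 6 q936 (.c 7 q937 (.c 8 q938 .e))))
noncomputable def t194 : Tr := .c 1 r711 (.c 2 r712 (.c 4 r713 (.c 5 r714 .e)))
noncomputable def q939 : Tr := .c 1 v180 (.c 2 v180 (.c 4 v180 .e))
noncomputable def r715 : Tr := .c 5 q738 (.c 7 q937 (.c 8 q938 (.c 9 q939 .e)))
noncomputable def r716 : Tr := .c 1 q935 (.c 7 q937 (.c 8 q938 (.c 9 q939 .e)))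
noncomputable def t195 : Tr := .c 0 r715 (.c 2 r712 (.c 3 r716 (.c 4 r713 (.c 5 r714 .e))))
noncomputable def v281 : Tr := .l 0x2081451c52492492492082482092491c71c92491c7247249249249
noncomputable def v282 : Tr := .l 0x2091c71482492492492492092092492492472492491c9249249249
noncomputable def q940 : Tr := .c 1 v281 (.c 2 v281 (.c 8 v282 .e))
noncomputable def v283 : Tr := .l 0x2481451c72492492492482482492492471c9249247247249249249
noncomputable def v284 : Tr := .l 0x2091c71492092492492492092092492492472492491c9249249249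
noncomputable def q941 : Tr := .c 2 v283 (.c 4 v283 (.c 5 v284 (.c 9 v284 .e)))
noncomputable def v285 : Tr := .l 0x1881451c32091c92491882081882091471c9209147247209249209
noncomputable def q942 : Tr := .c 2 v281 (.c 4 v281 (.c 5 v285 .e))
noncomputable def q943 : Tr := .c 1 v281 (.c 2 v281 (.c 4 v281 .e))
noncomputable def r717 : Tr := .c 5 q940 (.c 7 q941 (.c 8 q942 (.c 9 q943 .e)))
noncomputable def v286 : Tr := .l 0x2060c31452491c72472062062092481c51472481c51c5248248249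
noncomputable def v287 : Tr := .l 0x1881450c72492491c92481881882092471c5209247147249209209
noncomputable def q944 : Tr := .c 1 v286 (.c 2 v286 (.c 8 v287 (.c 9 v287 .e)))
noncomputable def q945 : Tr := .c 1 v286 (.c 2 v286 (.c 8 v287 .e))
noncomputable def q946 : Tr := .c 1 v286 (.c 2 v286 (.c 4 v286 (.c 5 v287 (.c 8 v287 (.c 9 v287 .e)))))
noncomputable def q947 : Tr := .c 2 v286 (.c 4 v286 (.c 5 v287 (.c 9 v287 .e)))
noncomputable def q948 : Tr := .c 2 v286 (.c 4 v286 (.c 5 v285 .e))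
noncomputable def q949 : Tr := .c 1 v286 (.c 2 v286 (.c 4 v286 .e))
noncomputable def r718 : Tr := .c 3 q944 (.c 5 q945 (.c 6 q946 (.c 7 q947 (.c 8 q948 (.c 9 q949 .e)))))
noncomputable def v288 : Tr := .l 0x1c52082481c82492492491c91c8247249249249249249249249249
noncomputable def v289 : Tr := .l 0x1472082061472092091c91471471c92092491c92092492491c91c9
noncomputable def q950 : Tr := .c 4 v288 (.c 5 v289 (.c 9 v289 .e))
noncomputable def r719 : Tr := .c 1 q950 (.c 7 q941 (.c 8 q942 (.c 9 q943 .e)))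
noncomputable def v290 : Tr := .l 0x1431862082092492492092091461c52482092492482482492491c8
noncomputable def v291 : Tr := .l 0xc52081861882492491881880c5147209248209209209209209147
noncomputable def q951 : Tr := .c 4 v290 (.c 5 v291 (.c 8 v291 (.c 9 v291 .e)))
noncomputable def q952 : Tr := .c 4 v290 (.c 5 v291 (.c 9 v291 .e))
noncomputable def r720 : Tr := .c 0 q951 (.c 1 q952 (.c 6 q946 (.c 7 q947 (.c 8 q948 (.c 9 q949 .e)))))
noncomputable def q953 : Tr := .c 4 v288 (.c 5 v289 (.c 8 v289 (.c 9 v289 .e)))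
noncomputable def q954 : Tr := .c 1 v283 (.c 2 v283 (.c 4 v283 (.c 5 v284 (.c 8 v284 (.c 9 v284 .e)))))
noncomputable def r721 : Tr := .c 0 q953 (.c 1 q950 (.c 6 q954 (.c 7 q941 (.c 8 q942 .e))))
noncomputable def v292 : Tr := .l 0x249208208249249249249249249249249249249249249249249249
noncomputable def q955 : Tr := .c 1 v281 (.c 2 v281 (.c 8 v292 .e))
noncomputable def r722 : Tr := .c 1 q950 (.c 5 q955 (.c 8 q942 (.c 9 q943 .e)))
noncomputable def t196 : Tr := .c 0 r717 (.c 2 r718 (.c 3 r719 (.c 4 r720 (.c 5 r721 (.c 6 r722 .e)))))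
noncomputable def r723 : Tr := .c 0 q906 (.c 1 q907 (.c 8 q910 (.c 9 q911 .e)))
noncomputable def r724 : Tr := .c 0 q912 (.c 1 q913 (.c 2 q340 (.c 8 q916 .e)))
noncomputable def q956 : Tr := .c 5 v108 (.c 8 v108 (.c 9 v108 .e))
noncomputable def q957 : Tr := .c 1 v172 (.c 8 v108 (.c 9 v108 .e))
noncomputable def r725 : Tr := .c 0 q917 (.c 2 q956 (.c 3 q918 (.c 4 q957 (.c 5 q919 (.c 9 q920 .e)))))
noncomputable def t197 : Tr := .c 4 r723 (.c 5 r724 (.c 7 r725 .e))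
noncomputable def q958 : Tr := .c 8 v95 .e
noncomputable def r726 : Tr := .c 1 q923 (.c 2 q958 (.c 8 q925 (.c 9 q921 .e)))
noncomputable def r727 : Tr := .c 0 q926 (.c 1 q923 (.c 2 q958 (.c 8 q925 .e)))
noncomputable def q959 : Tr := .c 1 v175 (.c 8 v95 .e)
noncomputable def r728 : Tr := .c 1 q923 (.c 2 q958 (.c 4 q959 (.c 5 q922 (.c 8 q925 (.c 9 q921 .e)))))
noncomputable def r729 : Tr := .c 0 q928 (.c 2 q958 (.c 3 q922 (.c 4 q959 (.c 5 q922 (.c 9 q921 .e)))))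
noncomputable def t198 : Tr := .c 3 r726 (.c 5 r727 (.c 6 r728 (.c 7 r729 .e)))
noncomputable def q960 : Tr := .c 1 v177 (.c 2 v177 (.c 8 v109 (.c 9 v109 .e)))
noncomputable def q961 : Tr := .c 1 v178 (.c 8 v111 (.c 9 v111 .e))
noncomputable def q962 : Tr := .c 1 v177 (.c 2 v177 (.c 8 v109 .e))
noncomputable def r730 : Tr := .c 3 q960 (.c 4 q961 (.c 5 q962 (.c 9 q931 .e)))
noncomputable def r731 : Tr := .c 3 q960 (.c 5 q962 (.c 8 q933 (.c 9 q931 .e)))
noncomputable def t199 : Tr := .c 1 r730 (.c 2 r731 (.c 7 r725 .e))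
noncomputable def q963 : Tr := .c 1 v179 (.c 8 v102 .e)
noncomputable def q964 : Tr := .c 1 v178 (.c 2 v178 (.c 8 v111 .e))
noncomputable def q965 : Tr := .c 2 v178 (.c 4 v178 .e)
noncomputable def q966 : Tr := .c 1 v178 (.c 2 v178 (.c 4 v178 .e))
noncomputable def r732 : Tr := .c 4 q963 (.c 5 q964 (.c 8 q965 (.c 9 q966 .e)))
noncomputable def r733 : Tr := .c 3 q964 (.c 4 q963 (.c 5 q964 (.c 9 q966 .e)))
noncomputable def t200 : Tr := .c 0 r732 (.c 1 r733 (.c 6 r728 (.c 7 r729 .e)))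
noncomputable def q967 : Tr := .c 1 v177 (.c 8 v109 .e)
noncomputable def v293 : Tr := .l 0x2492492482091472472092492092491c92492491c9249249249249
noncomputable def q968 : Tr := .c 5 v293 .e
noncomputable def q969 : Tr := .c 1 v177 .e
noncomputable def r734 : Tr := .c 4 q961 (.c 5 q967 (.c 8 q968 (.c 9 q969 .e)))
noncomputable def q970 : Tr := .c 1 v177 (.c 8 v109 (.c 9 v109 .e))
noncomputable def r735 : Tr := .c 3 q970 (.c 4 q961 (.c 5 q967 (.c 9 q969 .e)))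
noncomputable def q971 : Tr := .c 5 v276 .e
noncomputable def r736 : Tr := .c 3 q970 (.c 5 q967 (.c 8 q971 (.c 9 q969 .e)))
noncomputable def q972 : Tr := .c 1 v171 (.c 8 v59 .e)
noncomputable def v294 : Tr := .l 0x249249248249209249249249249249209249249209249249249249
noncomputable def q973 : Tr := .c 5 v294 .e
noncomputable def q974 : Tr := .c 1 v171 .e
noncomputable def r737 : Tr := .c 1 q168 (.c 2 q956 (.c 4 q957 (.c 5 q972 (.c 8 q973 (.c 9 q974 .e)))))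
noncomputable def q975 : Tr := .c 5 v59 (.c 8 v59 (.c 9 v59 .e))
noncomputable def q976 : Tr := .c 1 v171 (.c 8 v59 (.c 9 v59 .e))
noncomputable def r738 : Tr := .c 0 q975 (.c 2 q956 (.c 3 q976 (.c 4 q957 (.c 5 q972 (.c 9 q974 .e)))))
noncomputable def t201 : Tr := .c 0 r734 (.c 1 r735 (.c 2 r736 (.c 6 r737 (.c 7 r738 .e))))
noncomputable def q977 : Tr := .c 1 v178 .e
noncomputable def r739 : Tr := .c 3 q929 (.c 4 q977 (.c 5 q929 (.c 9 q931 .e)))
noncomputable def r740 : Tr := .c 3 q929 (.c 5 q929 (.c 8 q933 (.c 9 q931 .e)))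
noncomputable def r741 : Tr := .c 0 q934 (.c 1 q934 (.c 8 q933 (.c 9 q931 .e)))
noncomputable def q978 : Tr := .c 5 v121 .e
noncomputable def r742 : Tr := .c 0 q935 (.c 1 q935 (.c 2 q978 (.c 8 q938 .e)))
noncomputable def t202 : Tr := .c 1 r739 (.c 2 r740 (.c 4 r741 (.c 5 r742 .e)))
noncomputable def r743 : Tr := .c 0 q912 (.c 1 q913 (.c 8 q916 .e))
noncomputable def t203 : Tr := .c 4 r723 (.c 5 r743 (.c 7 r704 .e))
noncomputable def r744 : Tr := .c 1 q913 (.c 8 q916 (.c 9 q921 .e))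
noncomputable def t204 : Tr := .c 3 r744 (.c 4 r723 (.c 5 r743 (.c 6 r706 .e)))
noncomputable def r745 : Tr := .c 1 q923 (.c 8 q925 (.c 9 q921 .e))
noncomputable def r746 : Tr := .c 0 q926 (.c 1 q923 (.c 8 q925 .e))
noncomputable def t205 : Tr := .c 3 r745 (.c 5 r746 (.c 6 r709 (.c 7 r710 .e)))
noncomputable def r747 : Tr := .c 3 q960 (.c 5 q962 (.c 9 q931 .e))
noncomputable def t206 : Tr := .c 1 r747 (.c 2 r731 (.c 7 r704 .e))
noncomputable def r748 : Tr := .c 5 q964 (.c 8 q965 (.c 9 q966 .e))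
noncomputable def r749 : Tr := .c 3 q964 (.c 5 q964 (.c 9 q966 .e))
noncomputable def t207 : Tr := .c 0 r748 (.c 1 r749 (.c 6 r709 (.c 7 r710 .e)))
noncomputable def r750 : Tr := .c 3 q929 (.c 5 q929 (.c 9 q931 .e))
noncomputable def r751 : Tr := .c 0 q935 (.c 1 q935 (.c 8 q938 .e))
noncomputable def t208 : Tr := .c 1 r750 (.c 2 r740 (.c 4 r741 (.c 5 r751 .e)))
noncomputable def r752 : Tr := .c 5 q738 (.c 8 q938 (.c 9 q939 .e))
noncomputable def r753 : Tr := .c 1 q935 (.c 8 q938 (.c 9 q939 .e))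
noncomputable def t209 : Tr := .c 0 r752 (.c 2 r740 (.c 3 r753 (.c 4 r741 (.c 5 r751 .e))))
noncomputable def v295 : Tr := .l 0x2492492492091472472092492092491c92492491c9249249249249
noncomputable def q979 : Tr := .c 0 v295 (.c 2 v207 .e)
noncomputable def q980 : Tr := .c 0 v206 (.c 2 v179 (.c 3 v206 (.c 4 v179 .e)))
noncomputable def q981 : Tr := .c 0 v295 (.c 2 v207 (.c 3 v295 (.c 4 v207 .e)))
noncomputable def r754 : Tr := .c 4 q549 (.c 5 q979 (.c 7 q980 (.c 8 q981 (.c 9 q981 .e))))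
noncomputable def q982 : Tr := .c 2 v207 .e
noncomputable def q983 : Tr := .c 2 v207 (.c 4 v207 .e)
noncomputable def r755 : Tr := .c 3 q982 (.c 4 q549 (.c 5 q979 (.c 6 q983 (.c 9 q981 .e))))
noncomputable def v296 : Tr := .l 0x249249249249209249209249249249249249249249249249249249
noncomputable def q984 : Tr := .c 0 v296 (.c 2 v208 .e)
noncomputable def q985 : Tr := .c 0 v296 (.c 2 v208 (.c 3 v296 (.c 4 v208 .e)))
noncomputable def r756 : Tr := .c 1 q274 (.c 2 q347 (.c 4 q549 (.c 5 q984 (.c 8 q985 (.c 9 q985 .e)))))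
noncomputable def q986 : Tr := .c 2 v208 .e
noncomputable def r757 : Tr := .c 0 q124 (.c 2 q347 (.c 3 q986 (.c 4 q549 (.c 5 q984 (.c 9 q985 .e)))))
noncomputable def t210 : Tr := .c 0 r754 (.c 1 r755 (.c 6 r756 (.c 7 r757 .e)))
noncomputable def v297 : Tr := .l 0x2091c71492492492492492092092492492472492491c9249249249
noncomputable def q987 : Tr := .c 0 v297 (.c 9 v284 .e)
noncomputable def q988 : Tr := .c 0 v285 .e
noncomputable def q989 : Tr := .c 0 v284 (.c 3 v284 (.c 5 v284 (.c 9 v284 .e)))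
noncomputable def q990 : Tr := .c 0 v285 (.c 3 v285 (.c 5 v285 .e))
noncomputable def q991 : Tr := .c 0 v285 (.c 3 v285 .e)
noncomputable def r758 : Tr := .c 4 q987 (.c 5 q988 (.c 7 q989 (.c 8 q990 (.c 9 q991 .e))))
noncomputable def q992 : Tr := .c 9 v287 .e
noncomputable def q993 : Tr := .c 5 v287 (.c 9 v287 .e)
noncomputable def r759 : Tr := .c 3 q992 (.c 4 q987 (.c 5 q988 (.c 6 q993 (.c 9 q991 .e))))
noncomputable def q994 : Tr := .c 0 v287 (.c 3 v287 (.c 5 v287 (.c 9 v287 .e)))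
noncomputable def r760 : Tr := .c 3 q992 (.c 5 q988 (.c 6 q993 (.c 7 q994 (.c 8 q990 (.c 9 q991 .e)))))
noncomputable def q995 : Tr := .c 3 v289 (.c 5 v289 (.c 9 v289 .e))
noncomputable def v298 : Tr := .l 0x209249209249249249249249249249249249249249249249249249
noncomputable def q996 : Tr := .c 0 v298 (.c 9 v289 .e)
noncomputable def r761 : Tr := .c 1 q995 (.c 2 q995 (.c 4 q996 (.c 5 q988 (.c 8 q990 (.c 9 q991 .e)))))
noncomputable def v299 : Tr := .l 0x1c92081881c92492492491c91c9249249208249248208249249249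
noncomputable def q997 : Tr := .c 5 v299 (.c 9 v299 .e)
noncomputable def q998 : Tr := .c 9 v299 .e
noncomputable def r762 : Tr := .c 0 q997 (.c 2 q995 (.c 3 q998 (.c 4 q996 (.c 5 q988 (.c 9 q991 .e)))))
noncomputable def t211 : Tr := .c 0 r758 (.c 1 r759 (.c 2 r760 (.c 6 r761 (.c 7 r762 .e))))
noncomputable def q999 : Tr := .c 0 v280 (.c 2 v180 .e)
noncomputable def q1000 : Tr := .c 0 v209 (.c 2 v180 (.c 3 v209 (.c 4 v180 (.c 5 v209 .e))))
noncomputable def q1001 : Tr := .c 0 v280 (.c 2 v180 (.c 3 v280 (.c 4 v180 (.c 5 v280 .e))))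
noncomputable def q1002 : Tr := .c 0 v280 (.c 2 v180 (.c 3 v280 (.c 4 v180 .e)))
noncomputable def r763 : Tr := .c 4 q591 (.c 5 q999 (.c 7 q1000 (.c 8 q1001 (.c 9 q1002 .e))))
noncomputable def q1003 : Tr := .c 0 v276 (.c 2 v177 .e)
noncomputable def q1004 : Tr := .c 0 v275 (.c 2 v177 (.c 3 v275 (.c 4 v177 (.c 5 v275 .e))))
noncomputable def q1005 : Tr := .c 0 v276 (.c 2 v177 (.c 3 v276 (.c 4 v177 (.c 5 v276 .e))))
noncomputable def q1006 : Tr := .c 0 v276 (.c 2 v177 (.c 3 v276 (.c 4 v177 .e)))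
noncomputable def r764 : Tr := .c 3 q528 (.c 5 q1003 (.c 6 q932 (.c 7 q1004 (.c 8 q1005 (.c 9 q1006 .e)))))
noncomputable def q1007 : Tr := .c 3 v121 (.c 4 v279 (.c 5 v121 .e))
noncomputable def q1008 : Tr := .c 3 v121 (.c 5 v121 .e)
noncomputable def r765 : Tr := .c 1 q1007 (.c 2 q1008 (.c 7 q1000 (.c 8 q1001 (.c 9 q1002 .e))))
noncomputable def q1009 : Tr := .c 3 v278 (.c 4 v277 (.c 5 v278 .e))
noncomputable def r766 : Tr := .c 0 q934 (.c 1 q1009 (.c 6 q932 (.c 7 q1004 (.c 8 q1005 (.c 9 q1006 .e)))))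
noncomputable def r767 : Tr := .c 0 q935 (.c 1 q1007 (.c 2 q1008 (.c 6 q937 (.c 7 q1000 (.c 8 q1001 .e)))))
noncomputable def t212 : Tr := .c 0 r763 (.c 2 r764 (.c 3 r765 (.c 4 r766 (.c 5 r767 .e))))
noncomputable def q1010 : Tr := .c 0 v285 (.c 2 v281 .e)
noncomputable def q1011 : Tr := .c 0 v284 (.c 2 v283 (.c 3 v284 (.c 4 v283 (.c 5 v284 (.c 9 v284 .e)))))
noncomputable def q1012 : Tr := .c 0 v285 (.c 2 v281 (.c 3 v285 (.c 4 v281 (.c 5 v285 .e))))
noncomputable def q1013 : Tr := .c 0 v285 (.c 2 v281 (.c 3 v285 (.c 4 v281 .e)))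
noncomputable def r768 : Tr := .c 4 q987 (.c 5 q1010 (.c 7 q1011 (.c 8 q1012 (.c 9 q1013 .e))))
noncomputable def q1014 : Tr := .c 2 v286 (.c 9 v287 .e)
noncomputable def q1015 : Tr := .c 0 v285 (.c 2 v286 .e)
noncomputable def q1016 : Tr := .c 0 v287 (.c 2 v286 (.c 3 v287 (.c 4 v286 (.c 5 v287 (.c 9 v287 .e)))))
noncomputable def q1017 : Tr := .c 0 v285 (.c 2 v286 (.c 3 v285 (.c 4 v286 (.c 5 v285 .e))))
noncomputable def q1018 : Tr := .c 0 v285 (.c 2 v286 (.c 3 v285 (.c 4 v286 .e)))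
noncomputable def r769 : Tr := .c 3 q1014 (.c 5 q1015 (.c 6 q947 (.c 7 q1016 (.c 8 q1017 (.c 9 q1018 .e)))))
noncomputable def q1019 : Tr := .c 3 v289 (.c 4 v288 (.c 5 v289 (.c 9 v289 .e)))
noncomputable def r770 : Tr := .c 1 q1019 (.c 2 q995 (.c 7 q1011 (.c 8 q1012 (.c 9 q1013 .e))))
noncomputable def q1020 : Tr := .c 3 v291 (.c 4 v290 (.c 5 v291 (.c 9 v291 .e)))
noncomputable def r771 : Tr := .c 0 q952 (.c 1 q1020 (.c 6 q947 (.c 7 q1016 (.c 8 q1017 (.c 9 q1018 .e)))))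
noncomputable def r772 : Tr := .c 0 q950 (.c 1 q1019 (.c 2 q995 (.c 6 q941 (.c 7 q1011 (.c 8 q1012 .e)))))
noncomputable def r773 : Tr := .c 1 q1019 (.c 2 q995 (.c 4 q996 (.c 5 q1010 (.c 8 q1012 (.c 9 q1013 .e)))))
noncomputable def t213 : Tr := .c 0 r768 (.c 2 r769 (.c 3 r770 (.c 4 r771 (.c 5 r772 (.c 6 r773 .e)))))
noncomputable def r774 : Tr := .c 1 q995 (.c 2 q995 (.c 7 q989 (.c 8 q990 (.c 9 q991 .e))))
noncomputable def q1021 : Tr := .c 5 v291 (.c 9 v291 .e)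
noncomputable def q1022 : Tr := .c 3 v291 (.c 5 v291 (.c 9 v291 .e))
noncomputable def r775 : Tr := .c 0 q1021 (.c 1 q1022 (.c 6 q993 (.c 7 q994 (.c 8 q990 (.c 9 q991 .e)))))
noncomputable def t214 : Tr := .c 0 r758 (.c 1 r759 (.c 2 r760 (.c 3 r774 (.c 4 r775 (.c 6 r761 (.c 7 r762 .e))))))
noncomputable def q1023 : Tr := .c 0 v196 (.c 9 v141 .e)
noncomputable def r776 : Tr := .c 3 q392 (.c 4 q1023 (.c 6 q847 .e))
noncomputable def q1024 : Tr := .c 0 v138 (.c 2 v137 (.c 3 v138 (.c 4 v137 (.c 5 v138 (.c 9 v138 .e)))))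
noncomputable def q1025 : Tr := .c 0 v243 (.c 2 v137 (.c 3 v243 (.c 4 v137 (.c 5 v243 .e))))
noncomputable def r777 : Tr := .c 3 q392 (.c 6 q847 (.c 7 q1024 (.c 8 q1025 .e)))
noncomputable def q1026 : Tr := .c 4 v2 (.c 5 v142 (.c 9 v142 .e))
noncomputable def q1027 : Tr := .c 3 v143 (.c 5 v143 (.c 9 v143 .e))
noncomputable def q1028 : Tr := .c 2 v137 (.c 9 v142 .e)
noncomputable def q1029 : Tr := .c 0 v218 (.c 9 v143 .e)
noncomputable def r778 : Tr := .c 0 q1026 (.c 2 q1027 (.c 3 q1028 (.c 4 q1029 .e)))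
noncomputable def t215 : Tr := .c 1 r776 (.c 2 r777 (.c 7 r778 .e))
noncomputable def q1030 : Tr := .c 0 v160 (.c 3 v160 (.c 5 v160 (.c 9 v160 .e)))
noncomputable def q1031 : Tr := .c 0 v245 (.c 3 v245 (.c 5 v245 .e))
noncomputable def r779 : Tr := .c 4 q1023 (.c 7 q1030 (.c 8 q1031 .e))
noncomputable def r780 : Tr := .c 3 q431 (.c 4 q1023 (.c 6 q868 .e))
noncomputable def q1032 : Tr := .c 0 v138 (.c 3 v138 (.c 5 v138 (.c 9 v138 .e)))
noncomputable def q1033 : Tr := .c 0 v243 (.c 3 v243 (.c 5 v243 .e))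
noncomputable def r781 : Tr := .c 3 q431 (.c 6 q868 (.c 7 q1032 (.c 8 q1033 .e)))
noncomputable def r782 : Tr := .c 1 q1027 (.c 2 q1027 (.c 4 q1029 (.c 8 q1031 .e)))
noncomputable def q1034 : Tr := .c 5 v142 (.c 9 v142 .e)
noncomputable def q1035 : Tr := .c 9 v142 .e
noncomputable def r783 : Tr := .c 0 q1034 (.c 2 q1027 (.c 3 q1035 (.c 4 q1029 .e)))
noncomputable def t216 : Tr := .c 0 r779 (.c 1 r780 (.c 2 r781 (.c 6 r782 (.c 7 r783 .e))))
noncomputable def r784 : Tr := .c 3 q393 (.c 4 q613 (.c 6 q874 .e))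
noncomputable def q1036 : Tr := .c 0 v138 (.c 2 v137 (.c 3 v138 (.c 4 v137 (.c 5 v138 .e))))
noncomputable def r785 : Tr := .c 3 q393 (.c 6 q874 (.c 7 q1036 (.c 8 q1025 .e)))
noncomputable def q1037 : Tr := .c 3 v247 (.c 4 v246 (.c 5 v247 .e))
noncomputable def r786 : Tr := .c 0 q875 (.c 1 q1037 (.c 6 q874 (.c 7 q1036 (.c 8 q1025 .e))))
noncomputable def q1038 : Tr := .c 3 v249 (.c 4 v248 (.c 5 v249 .e))
noncomputable def q1039 : Tr := .c 3 v249 (.c 5 v249 .e)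
noncomputable def q1040 : Tr := .c 0 v160 (.c 2 v148 (.c 3 v160 (.c 4 v148 (.c 5 v160 .e))))
noncomputable def q1041 : Tr := .c 0 v250 (.c 2 v139 (.c 3 v250 (.c 4 v139 (.c 5 v250 .e))))
noncomputable def r787 : Tr := .c 0 q876 (.c 1 q1038 (.c 2 q1039 (.c 6 q879 (.c 7 q1040 (.c 8 q1041 .e)))))
noncomputable def t217 : Tr := .c 1 r784 (.c 2 r785 (.c 4 r786 (.c 5 r787 .e)))
noncomputable def q1042 : Tr := .c 0 v151 .e
noncomputable def r788 : Tr := .c 4 q1042 (.c 7 q1040 (.c 8 q1041 .e))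
noncomputable def r789 : Tr := .c 1 q1038 (.c 2 q1039 (.c 7 q1040 (.c 8 q1041 .e)))
noncomputable def t218 : Tr := .c 0 r788 (.c 2 r785 (.c 3 r789 (.c 4 r786 (.c 5 r787 .e))))
noncomputable def q1043 : Tr := .c 0 v160 (.c 2 v139 (.c 3 v160 (.c 4 v139 (.c 5 v160 (.c 9 v160 .e)))))
noncomputable def q1044 : Tr := .c 0 v245 (.c 2 v162 (.c 3 v245 (.c 4 v162 (.c 5 v245 .e))))
noncomputable def r790 : Tr := .c 4 q1023 (.c 7 q1043 (.c 8 q1044 .e))
noncomputable def q1045 : Tr := .c 0 v243 (.c 2 v163 (.c 3 v243 (.c 4 v163 (.c 5 v243 .e))))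
noncomputable def r791 : Tr := .c 3 q392 (.c 6 q847 (.c 7 q1024 (.c 8 q1045 .e)))
noncomputable def q1046 : Tr := .c 3 v143 (.c 4 v251 (.c 5 v143 (.c 9 v143 .e)))
noncomputable def r792 : Tr := .c 1 q1046 (.c 2 q1027 (.c 7 q1043 (.c 8 q1044 .e)))
noncomputable def q1047 : Tr := .c 3 v161 (.c 4 v252 (.c 5 v161 (.c 9 v161 .e)))
noncomputable def r793 : Tr := .c 0 q889 (.c 1 q1047 (.c 6 q847 (.c 7 q1024 (.c 8 q1045 .e))))
noncomputable def r794 : Tr := .c 0 q887 (.c 1 q1046 (.c 2 q1027 (.c 6 q884 (.c 7 q1043 (.c 8 q1044 .e)))))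
noncomputable def r795 : Tr := .c 1 q1046 (.c 2 q1027 (.c 4 q1029 (.c 8 q1044 .e)))
noncomputable def t219 : Tr := .c 0 r790 (.c 2 r791 (.c 3 r792 (.c 4 r793 (.c 5 r794 (.c 6 r795 .e)))))
noncomputable def r796 : Tr := .c 1 q1027 (.c 2 q1027 (.c 7 q1030 (.c 8 q1031 .e)))
noncomputable def q1048 : Tr := .c 3 v161 (.c 5 v161 (.c 9 v161 .e))
noncomputable def r797 : Tr := .c 0 q882 (.c 1 q1048 (.c 6 q868 (.c 7 q1032 (.c 8 q1033 .e))))
noncomputable def t220 : Tr := .c 0 r779 (.c 1 r780 (.c 2 r781 (.c 3 r796 (.c 4 r797 (.c 6 r782 (.c 7 r783 .e))))))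
noncomputable def q1049 : Tr := .c 3 v53 (.c 4 v271 (.c 5 v53 (.c 9 v53 .e)))
noncomputable def q1050 : Tr := .c 0 v121 (.c 2 v272 (.c 3 v121 (.c 4 v272 (.c 5 v121 (.c 9 v121 .e)))))
noncomputable def q1051 : Tr := .c 0 v273 (.c 2 v170 (.c 3 v273 (.c 4 v170 (.c 5 v273 .e))))
noncomputable def q1052 : Tr := .c 0 v273 (.c 2 v170 (.c 3 v273 (.c 4 v170 .e)))
noncomputable def r798 : Tr := .c 1 q1049 (.c 2 q290 (.c 7 q1050 (.c 8 q1051 (.c 9 q1052 .e))))
noncomputable def q1053 : Tr := .c 3 v45 (.c 4 v267 (.c 5 v45 (.c 9 v45 .e)))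
noncomputable def q1054 : Tr := .c 0 v269 (.c 2 v268 (.c 3 v269 (.c 4 v268 (.c 5 v269 (.c 9 v269 .e)))))
noncomputable def q1055 : Tr := .c 0 v270 (.c 2 v169 (.c 3 v270 (.c 4 v169 (.c 5 v270 .e))))
noncomputable def q1056 : Tr := .c 0 v270 (.c 2 v169 (.c 3 v270 (.c 4 v169 .e)))
noncomputable def r799 : Tr := .c 0 q907 (.c 1 q1053 (.c 6 q909 (.c 7 q1054 (.c 8 q1055 (.c 9 q1056 .e)))))
noncomputable def r800 : Tr := .c 0 q913 (.c 1 q1049 (.c 2 q290 (.c 6 q915 (.c 7 q1050 (.c 8 q1051 .e)))))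
noncomputable def q1057 : Tr := .c 0 v273 (.c 2 v170 .e)
noncomputable def r801 : Tr := .c 1 q1049 (.c 2 q290 (.c 4 q621 (.c 5 q1057 (.c 8 q1051 (.c 9 q1052 .e)))))
noncomputable def t221 : Tr := .c 3 r798 (.c 4 r799 (.c 5 r800 (.c 6 r801 .e)))
noncomputable def q1058 : Tr := .c 3 v53 (.c 4 v271 .e)
noncomputable def q1059 : Tr := .c 0 v121 (.c 2 v272 (.c 3 v121 (.c 4 v272 .e)))
noncomputable def r802 : Tr := .c 1 q1058 (.c 2 q302 (.c 7 q1059 (.c 8 q1052 (.c 9 q1052 .e))))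
noncomputable def r803 : Tr := .c 0 q923 (.c 1 q1058 (.c 2 q302 (.c 6 q924 (.c 7 q1059 (.c 8 q1052 .e)))))
noncomputable def r804 : Tr := .c 1 q1058 (.c 2 q302 (.c 4 q628 (.c 5 q1057 (.c 8 q1052 (.c 9 q1052 .e)))))
noncomputable def q1060 : Tr := .c 4 v130 .e
noncomputable def r805 : Tr := .c 0 q1060 (.c 2 q302 (.c 3 q512 (.c 4 q628 (.c 5 q1057 (.c 9 q1052 .e)))))
noncomputable def t222 : Tr := .c 3 r802 (.c 5 r803 (.c 6 r804 (.c 7 r805 .e)))
noncomputable def q1061 : Tr := .c 3 v254 (.c 4 v253 (.c 5 v254 (.c 9 v254 .e)))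
noncomputable def q1062 : Tr := .c 0 v256 (.c 2 v255 (.c 3 v256 (.c 4 v255 (.c 5 v256 (.c 9 v256 .e)))))
noncomputable def q1063 : Tr := .c 0 v258 (.c 2 v257 (.c 3 v258 (.c 4 v257 (.c 5 v258 .e))))
noncomputable def r806 : Tr := .c 0 q893 (.c 1 q1061 (.c 6 q895 (.c 7 q1062 (.c 8 q1063 .e))))
noncomputable def q1064 : Tr := .c 3 v260 (.c 4 v259 (.c 5 v260 (.c 9 v260 .e)))
noncomputable def q1065 : Tr := .c 3 v260 (.c 5 v260 (.c 9 v260 .e))
noncomputable def q1066 : Tr := .c 0 v262 (.c 2 v261 (.c 3 v262 (.c 4 v261 (.c 5 v262 (.c 9 v262 .e)))))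
noncomputable def q1067 : Tr := .c 0 v264 (.c 2 v263 (.c 3 v264 (.c 4 v263 (.c 5 v264 .e))))
noncomputable def r807 : Tr := .c 0 q898 (.c 1 q1064 (.c 2 q1065 (.c 6 q901 (.c 7 q1066 (.c 8 q1067 .e)))))
noncomputable def q1068 : Tr := .c 4 v2 (.c 5 v265 (.c 9 v265 .e))
noncomputable def q1069 : Tr := .c 2 v2 (.c 9 v265 .e)
noncomputable def r808 : Tr := .c 0 q1068 (.c 2 q367 (.c 3 q1069 (.c 4 q662 .e)))
noncomputable def t223 : Tr := .c 4 r806 (.c 5 r807 (.c 7 r808 .e))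
noncomputable def r809 : Tr := .c 1 q1064 (.c 2 q1065 (.c 7 q1066 (.c 8 q1067 .e)))
noncomputable def q1070 : Tr := .c 0 v2 (.c 9 v260 .e)
noncomputable def r810 : Tr := .c 1 q1064 (.c 2 q1065 (.c 4 q1070 (.c 8 q1067 .e)))
noncomputable def t224 : Tr := .c 3 r809 (.c 4 r806 (.c 5 r807 (.c 6 r810 .e)))
noncomputable def r811 : Tr := .c 0 q913 (.c 1 q1049 (.c 6 q915 (.c 7 q1050 (.c 8 q1051 .e))))
noncomputable def q1071 : Tr := .c 4 v274 (.c 5 v59 (.c 9 v59 .e))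
noncomputable def q1072 : Tr := .c 2 v171 (.c 9 v59 .e)
noncomputable def v300 : Tr := .l 0x2492492481c91882481c91c91c9249209209249208248249249249
noncomputable def q1073 : Tr := .c 0 v300 (.c 2 v171 .e)
noncomputable def q1074 : Tr := .c 0 v300 (.c 2 v171 (.c 3 v300 (.c 4 v171 .e)))
noncomputable def r812 : Tr := .c 0 q1071 (.c 3 q1072 (.c 5 q1073 (.c 9 q1074 .e)))
noncomputable def t225 : Tr := .c 4 r799 (.c 5 r811 (.c 7 r812 .e))
noncomputable def r813 : Tr := .c 1 q1049 (.c 7 q1050 (.c 8 q1051 (.c 9 q1052 .e)))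
noncomputable def r814 : Tr := .c 1 q1049 (.c 5 q1057 (.c 8 q1051 (.c 9 q1052 .e)))
noncomputable def t226 : Tr := .c 3 r813 (.c 4 r799 (.c 5 r811 (.c 6 r814 .e)))
noncomputable def r815 : Tr := .c 1 q1058 (.c 7 q1059 (.c 8 q1052 (.c 9 q1052 .e)))
noncomputable def r816 : Tr := .c 0 q923 (.c 1 q1058 (.c 6 q924 (.c 7 q1059 (.c 8 q1052 .e))))
noncomputable def r817 : Tr := .c 1 q1058 (.c 5 q1057 (.c 8 q1052 (.c 9 q1052 .e)))
noncomputable def r818 : Tr := .c 0 q1060 (.c 3 q512 (.c 5 q1057 (.c 9 q1052 .e)))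
noncomputable def t227 : Tr := .c 3 r815 (.c 5 r816 (.c 6 r817 (.c 7 r818 .e)))
noncomputable def r819 : Tr := .c 3 q528 (.c 5 q1003 (.c 6 q932 (.c 9 q1006 .e)))
noncomputable def r820 : Tr := .c 0 q935 (.c 1 q1007 (.c 6 q937 (.c 7 q1000 (.c 8 q1001 .e))))
noncomputable def t228 : Tr := .c 1 r819 (.c 2 r764 (.c 4 r766 (.c 5 r820 .e)))
noncomputable def r821 : Tr := .c 5 q999 (.c 7 q1000 (.c 8 q1001 (.c 9 q1002 .e)))
noncomputable def r822 : Tr := .c 1 q1007 (.c 7 q1000 (.c 8 q1001 (.c 9 q1002 .e)))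
noncomputable def t229 : Tr := .c 0 r821 (.c 2 r764 (.c 3 r822 (.c 4 r766 (.c 5 r820 .e))))
noncomputable def r823 : Tr := .c 5 q1010 (.c 7 q1011 (.c 8 q1012 (.c 9 q1013 .e)))
noncomputable def r824 : Tr := .c 1 q1019 (.c 7 q1011 (.c 8 q1012 (.c 9 q1013 .e)))
noncomputable def r825 : Tr := .c 0 q950 (.c 1 q1019 (.c 6 q941 (.c 7 q1011 (.c 8 q1012 .e))))
noncomputable def r826 : Tr := .c 1 q1019 (.c 5 q1010 (.c 8 q1012 (.c 9 q1013 .e)))
noncomputable def t230 : Tr := .c 0 r823 (.c 2 r769 (.c 3 r824 (.c 4 r771 (.c 5 r825 (.c 6 r826 .e)))))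
noncomputable def r827 : Tr := .c 0 q907 (.c 1 q1053 (.c 8 q1055 (.c 9 q1056 .e)))
noncomputable def r828 : Tr := .c 0 q913 (.c 1 q1049 (.c 8 q1051 .e))
noncomputable def t231 : Tr := .c 4 r827 (.c 5 r828 (.c 7 r812 .e))
noncomputable def r829 : Tr := .c 1 q1049 (.c 8 q1051 (.c 9 q1052 .e))
noncomputable def t232 : Tr := .c 3 r829 (.c 4 r827 (.c 5 r828 (.c 6 r814 .e)))
noncomputable def r830 : Tr := .c 1 q1058 (.c 8 q1052 (.c 9 q1052 .e))
noncomputable def r831 : Tr := .c 0 q923 (.c 1 q1058 (.c 8 q1052 .e))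
noncomputable def t233 : Tr := .c 3 r830 (.c 5 r831 (.c 6 r817 (.c 7 r818 .e)))
noncomputable def q1075 : Tr := .c 2 v177 (.c 9 v109 .e)
noncomputable def r832 : Tr := .c 3 q1075 (.c 5 q1003 (.c 9 q1006 .e))
noncomputable def r833 : Tr := .c 3 q1075 (.c 5 q1003 (.c 8 q1005 (.c 9 q1006 .e)))
noncomputable def t234 : Tr := .c 1 r832 (.c 2 r833 (.c 7 r812 .e))
noncomputable def q1076 : Tr := .c 0 v280 (.c 2 v178 .e)
noncomputable def q1077 : Tr := .c 0 v280 (.c 2 v178 (.c 3 v280 (.c 4 v178 .e)))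
noncomputable def r834 : Tr := .c 5 q1076 (.c 8 q1077 (.c 9 q1077 .e))
noncomputable def r835 : Tr := .c 3 q531 (.c 5 q1076 (.c 9 q1077 .e))
noncomputable def t235 : Tr := .c 0 r834 (.c 1 r835 (.c 6 r817 (.c 7 r818 .e)))
noncomputable def r836 : Tr := .c 3 q528 (.c 5 q1003 (.c 9 q1006 .e))
noncomputable def r837 : Tr := .c 3 q528 (.c 5 q1003 (.c 8 q1005 (.c 9 q1006 .e)))
noncomputable def r838 : Tr := .c 0 q934 (.c 1 q1009 (.c 8 q1005 (.c 9 q1006 .e)))
noncomputable def r839 : Tr := .c 0 q935 (.c 1 q1007 (.c 8 q1001 .e))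
noncomputable def t236 : Tr := .c 1 r836 (.c 2 r837 (.c 4 r838 (.c 5 r839 .e)))
noncomputable def r840 : Tr := .c 5 q999 (.c 8 q1001 (.c 9 q1002 .e))
noncomputable def r841 : Tr := .c 1 q1007 (.c 8 q1001 (.c 9 q1002 .e))
noncomputable def t237 : Tr := .c 0 r840 (.c 2 r837 (.c 3 r841 (.c 4 r838 (.c 5 r839 .e))))
noncomputable def q1078 : Tr := .c 0 v150 (.c 6 v150 .e)
noncomputable def q1079 : Tr := .c 0 v151 (.c 2 v150 (.c 3 v151 (.c 4 v150 .e)))
noncomputable def q1080 : Tr := .c 0 v139 (.c 2 v139 (.c 3 v139 (.c 4 v139 (.c 6 v139 .e))))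
noncomputable def r842 : Tr := .c 4 q1078 (.c 5 q701 (.c 7 q1079 (.c 8 q1080 (.c 9 q1080 .e))))
noncomputable def r843 : Tr := .c 3 q411 (.c 4 q1078 (.c 5 q701 (.c 6 q855 (.c 9 q1080 .e))))
noncomputable def v301 : Tr := .l 0x249249249248249249249249248249249249247249249249249249
noncomputable def q1081 : Tr := .c 4 v301 .e
noncomputable def q1082 : Tr := .c 3 v157 (.c 6 v157 .e)
noncomputable def q1083 : Tr := .c 0 v2 (.c 6 v157 .e)
noncomputable def q1084 : Tr := .c 0 v159 (.c 2 v159 (.c 6 v155 .e))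
noncomputable def q1085 : Tr := .c 2 v159 (.c 4 v159 .e)
noncomputable def r844 : Tr := .c 0 q1081 (.c 2 q1082 (.c 3 q425 (.c 4 q1083 (.c 5 q1084 (.c 6 q1085 .e)))))
noncomputable def q1086 : Tr := .c 3 v157 (.c 4 v301 (.c 6 v157 .e))
noncomputable def q1087 : Tr := .c 0 v229 (.c 2 v159 (.c 3 v229 (.c 4 v159 .e)))
noncomputable def r845 : Tr := .c 0 q1081 (.c 1 q1086 (.c 2 q1082 (.c 3 q425 (.c 4 q1083 (.c 6 q1085 (.c 7 q1087 .e))))))
noncomputable def t238 : Tr := .c 0 r842 (.c 1 r843 (.c 8 r844 (.c 9 r845 .e)))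
noncomputable def q1088 : Tr := .c 0 v139 (.c 6 v140 .e)
noncomputable def q1089 : Tr := .c 0 v230 (.c 3 v230 (.c 5 v230 .e))
noncomputable def q1090 : Tr := .c 0 v137 (.c 3 v137 (.c 5 v137 (.c 6 v137 .e)))
noncomputable def q1091 : Tr := .c 0 v137 (.c 3 v137 (.c 6 v137 .e))
noncomputable def r846 : Tr := .c 4 q1088 (.c 5 q717 (.c 7 q1089 (.c 8 q1090 (.c 9 q1091 .e))))
noncomputable def v302 : Tr := .l 0x1881450c72492491c92481882492092471c5209247147249209249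
noncomputable def q1092 : Tr := .c 5 v302 .e
noncomputable def r847 : Tr := .c 4 q1088 (.c 5 q717 (.c 6 q1092 (.c 9 q1091 .e)))
noncomputable def q1093 : Tr := .c 0 v302 (.c 3 v302 (.c 5 v302 .e))
noncomputable def r848 : Tr := .c 5 q717 (.c 6 q1092 (.c 7 q1093 (.c 8 q1090 (.c 9 q1091 .e))))
noncomputable def v303 : Tr := .l 0x2492492492492492492492492492492492491c9249249249249249
noncomputable def q1094 : Tr := .c 5 v303 .e
noncomputable def q1095 : Tr := .c 3 v147 (.c 5 v147 (.c 6 v147 .e))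
noncomputable def q1096 : Tr := .c 0 v149 (.c 6 v147 .e)
noncomputable def q1097 : Tr := .c 0 v148 (.c 6 v145 .e)
noncomputable def v304 : Tr := .l 0x2492081892492492492492492492492492472492491c9249249249
noncomputable def q1098 : Tr := .c 5 v304 .e
noncomputable def r849 : Tr := .c 0 q1094 (.c 2 q1095 (.c 4 q1096 (.c 5 q1097 (.c 6 q1098 .e))))
noncomputable def t239 : Tr := .c 0 r846 (.c 1 r847 (.c 2 r848 (.c 8 r849 .e)))
noncomputable def q1099 : Tr := .c 0 v179 (.c 6 v2 .e)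
noncomputable def q1100 : Tr := .c 0 v231 (.c 2 v231 (.c 3 v231 (.c 4 v231 (.c 5 v231 (.c 6 v231 .e)))))
noncomputable def q1101 : Tr := .c 0 v231 (.c 2 v231 (.c 3 v231 (.c 4 v231 (.c 6 v231 .e))))
noncomputable def r850 : Tr := .c 4 q1099 (.c 5 q734 (.c 7 q1000 (.c 8 q1100 (.c 9 q1101 .e))))
noncomputable def v305 : Tr := .l 0x2091c71c52061431432062062492481c91472481c51c5248248249
noncomputable def q1102 : Tr := .c 2 v305 .e
noncomputable def v306 : Tr := .l 0x2492492471880c51c51882482492091471c9209147247209249249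
noncomputable def q1103 : Tr := .c 0 v306 (.c 2 v305 (.c 6 v306 .e))
noncomputable def v307 : Tr := .l 0x2492491c71881c50c52481882492092491c5209247147249209249
noncomputable def q1104 : Tr := .c 2 v305 (.c 4 v305 (.c 5 v307 .e))
noncomputable def q1105 : Tr := .c 0 v307 (.c 2 v305 (.c 3 v307 (.c 4 v305 (.c 5 v307 .e))))
noncomputable def q1106 : Tr := .c 0 v306 (.c 2 v305 (.c 3 v306 (.c 4 v305 (.c 5 v306 (.c 6 v306 .e)))))
noncomputable def q1107 : Tr := .c 0 v306 (.c 2 v305 (.c 3 v306 (.c 4 v305 (.c 6 v306 .e))))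
noncomputable def r851 : Tr := .c 3 q1102 (.c 5 q1103 (.c 6 q1104 (.c 7 q1105 (.c 8 q1106 (.c 9 q1107 .e)))))
noncomputable def v308 : Tr := .l 0x2482492491c52082482481c81c5249249249247249249249249247
noncomputable def q1108 : Tr := .c 3 v174 (.c 4 v308 (.c 5 v174 (.c 6 v174 .e)))
noncomputable def q1109 : Tr := .c 3 v174 (.c 5 v174 (.c 6 v174 .e))
noncomputable def r852 : Tr := .c 1 q1108 (.c 2 q1109 (.c 7 q1000 (.c 8 q1100 (.c 9 q1101 .e))))
noncomputable def v309 : Tr := .l 0x2492492481432062062492492062492492091c5248248249249248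
noncomputable def v310 : Tr := .l 0x2492492490c51881882491c9188249209248147209209249249209
noncomputable def q1110 : Tr := .c 4 v309 (.c 5 v310 .e)
noncomputable def q1111 : Tr := .c 3 v310 (.c 4 v309 (.c 5 v310 (.c 6 v310 .e)))
noncomputable def r853 : Tr := .c 0 q1110 (.c 1 q1111 (.c 6 q1104 (.c 7 q1105 (.c 8 q1106 (.c 9 q1107 .e)))))
noncomputable def q1112 : Tr := .c 4 v308 (.c 5 v174 .e)
noncomputable def r854 : Tr := .c 0 q1112 (.c 1 q1108 (.c 2 q1109 (.c 6 q937 (.c 7 q1000 (.c 8 q1100 .e)))))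
noncomputable def q1113 : Tr := .c 0 v233 (.c 6 v174 .e)
noncomputable def r855 : Tr := .c 0 q1112 (.c 1 q1108 (.c 2 q1109 (.c 3 q543 (.c 4 q1113 (.c 6 q937 (.c 7 q1000 .e))))))
noncomputable def t240 : Tr := .c 0 r850 (.c 2 r851 (.c 3 r852 (.c 4 r853 (.c 5 r854 (.c 9 r855 .e)))))
noncomputable def q1114 : Tr := .c 0 v139 .e
noncomputable def q1115 : Tr := .c 0 v230 (.c 2 v234 (.c 3 v230 (.c 4 v234 (.c 5 v230 .e))))
noncomputable def q1116 : Tr := .c 0 v137 (.c 2 v137 (.c 3 v137 (.c 4 v137 (.c 5 v137 .e))))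
noncomputable def q1117 : Tr := .c 0 v137 (.c 2 v137 (.c 3 v137 (.c 4 v137 .e)))
noncomputable def r856 : Tr := .c 4 q1114 (.c 5 q744 (.c 7 q1115 (.c 8 q1116 (.c 9 q1117 .e))))
noncomputable def v311 : Tr := .l 0x2060c31452491c72472062062492481c51472481c51c5248248249
noncomputable def q1118 : Tr := .c 2 v311 .e
noncomputable def q1119 : Tr := .c 0 v137 (.c 2 v311 .e)
noncomputable def q1120 : Tr := .c 2 v311 (.c 4 v311 (.c 5 v302 .e))
noncomputable def q1121 : Tr := .c 0 v302 (.c 2 v311 (.c 3 v302 (.c 4 v311 (.c 5 v302 .e))))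
noncomputable def q1122 : Tr := .c 0 v137 (.c 2 v311 (.c 3 v137 (.c 4 v311 (.c 5 v137 .e))))
noncomputable def q1123 : Tr := .c 0 v137 (.c 2 v311 (.c 3 v137 (.c 4 v311 .e)))
noncomputable def r857 : Tr := .c 3 q1118 (.c 5 q1119 (.c 6 q1120 (.c 7 q1121 (.c 8 q1122 (.c 9 q1123 .e)))))
noncomputable def v312 : Tr := .l 0x1472082061c92082482491c91c91472091882492062062492091c9
noncomputable def v313 : Tr := .l 0x1c52082062482082482492492481c7209188249206206249249249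
noncomputable def q1124 : Tr := .c 3 v312 (.c 4 v313 (.c 5 v312 .e))
noncomputable def q1125 : Tr := .c 3 v312 (.c 5 v312 .e)
noncomputable def r858 : Tr := .c 1 q1124 (.c 2 q1125 (.c 7 q1115 (.c 8 q1116 (.c 9 q1117 .e))))
noncomputable def v314 : Tr := .l 0x1431862082492492492492492061c5248209249248248249249248
noncomputable def v315 : Tr := .l 0xc5208186249208248249249188147209188249206206249249209
noncomputable def q1126 : Tr := .c 4 v314 (.c 5 v315 .e)
noncomputable def q1127 : Tr := .c 3 v315 (.c 4 v314 (.c 5 v315 .e))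
noncomputable def r859 : Tr := .c 0 q1126 (.c 1 q1127 (.c 6 q1120 (.c 7 q1121 (.c 8 q1122 (.c 9 q1123 .e)))))
noncomputable def q1128 : Tr := .c 4 v313 (.c 5 v312 .e)
noncomputable def q1129 : Tr := .c 2 v234 (.c 4 v234 (.c 5 v230 .e))
noncomputable def r860 : Tr := .c 0 q1128 (.c 1 q1124 (.c 2 q1125 (.c 6 q1129 (.c 7 q1115 (.c 8 q1116 .e)))))
noncomputable def t241 : Tr := .c 0 r856 (.c 2 r857 (.c 3 r858 (.c 4 r859 (.c 5 r860 .e))))
noncomputable def q1130 : Tr := .c 0 v137 (.c 3 v137 (.c 5 v137 .e))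
noncomputable def q1131 : Tr := .c 0 v137 (.c 3 v137 .e)
noncomputable def r861 : Tr := .c 4 q1114 (.c 5 q752 (.c 7 q1089 (.c 8 q1130 (.c 9 q1131 .e))))
noncomputable def r862 : Tr := .c 4 q1114 (.c 5 q752 (.c 6 q1092 (.c 9 q1131 .e)))
noncomputable def r863 : Tr := .c 5 q752 (.c 6 q1092 (.c 7 q1093 (.c 8 q1130 (.c 9 q1131 .e))))
noncomputable def r864 : Tr := .c 1 q1125 (.c 2 q1125 (.c 7 q1089 (.c 8 q1130 (.c 9 q1131 .e))))
noncomputable def q1132 : Tr := .c 5 v315 .e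
noncomputable def q1133 : Tr := .c 3 v315 (.c 5 v315 .e)
noncomputable def r865 : Tr := .c 0 q1132 (.c 1 q1133 (.c 6 q1092 (.c 7 q1093 (.c 8 q1130 (.c 9 q1131 .e)))))
noncomputable def t242 : Tr := .c 0 r861 (.c 1 r862 (.c 2 r863 (.c 3 r864 (.c 4 r865 .e))))
noncomputable def v316 : Tr := .l 0x2091c71452091c71472092092491881c91431881c50c5248188249
noncomputable def q1134 : Tr := .c 2 v137 (.c 4 v137 (.c 5 v316 .e))
noncomputable def r866 : Tr := .c 3 q393 (.c 4 q1088 (.c 6 q1134 .e))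
noncomputable def q1135 : Tr := .c 0 v316 (.c 2 v137 (.c 3 v316 (.c 4 v137 (.c 5 v316 .e))))
noncomputable def v317 : Tr := .l 0x2091c71c52091472472092492491880c51471880c51c5188248249
noncomputable def v318 : Tr := .l 0x2492492472481c51c52482482492091471c9206143247206249249
noncomputable def q1136 : Tr := .c 0 v317 (.c 2 v318 (.c 3 v317 (.c 4 v318 (.c 5 v317 (.c 6 v317 .e)))))
noncomputable def r867 : Tr := .c 3 q393 (.c 6 q1134 (.c 7 q1135 (.c 8 q1136 .e)))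
noncomputable def q1137 : Tr := .c 4 v248 (.c 5 v147 .e)
noncomputable def r868 : Tr := .c 0 q1137 (.c 2 q1095 (.c 3 q444 (.c 4 q1096 (.c 6 q879 .e))))
noncomputable def q1138 : Tr := .c 3 v147 (.c 4 v248 (.c 5 v147 (.c 6 v147 .e)))
noncomputable def r869 : Tr := .c 0 q1137 (.c 1 q1138 (.c 2 q1095 (.c 3 q444 (.c 4 q1096 (.c 6 q879 (.c 7 q1040 .e))))))
noncomputable def t243 : Tr := .c 1 r866 (.c 2 r867 (.c 8 r868 (.c 9 r869 .e)))
noncomputable def r870 : Tr := .c 4 q1088 (.c 7 q1089 (.c 8 q1090 .e))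
noncomputable def q1139 : Tr := .c 5 v316 .e
noncomputable def r871 : Tr := .c 4 q1088 (.c 6 q1139 .e)
noncomputable def q1140 : Tr := .c 0 v316 (.c 3 v316 (.c 5 v316 .e))
noncomputable def q1141 : Tr := .c 0 v317 (.c 3 v317 (.c 5 v317 (.c 6 v317 .e)))
noncomputable def r872 : Tr := .c 6 q1139 (.c 7 q1140 (.c 8 q1141 .e))
noncomputable def q1142 : Tr := .c 5 v147 .e
noncomputable def q1143 : Tr := .c 5 v160 .e
noncomputable def r873 : Tr := .c 0 q1142 (.c 2 q1095 (.c 4 q1096 (.c 6 q1143 .e)))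
noncomputable def t244 : Tr := .c 0 r870 (.c 1 r871 (.c 2 r872 (.c 8 r873 .e)))
noncomputable def v319 : Tr := .l 0x2492082061c5208248249249248249209188143206206249249206
noncomputable def v320 : Tr := .l 0x2492492081472092092492492092491882060c5188188249249188
noncomputable def q1144 : Tr := .c 4 v319 (.c 5 v320 .e)
noncomputable def q1145 : Tr := .c 3 v320 (.c 4 v319 (.c 5 v320 (.c 6 v320 .e)))
noncomputable def r874 : Tr := .c 0 q1144 (.c 1 q1145 (.c 6 q1134 (.c 7 q1135 (.c 8 q1136 .e))))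
noncomputable def q1146 : Tr := .c 0 v237 (.c 2 v139 (.c 3 v237 (.c 4 v139 (.c 5 v237 (.c 6 v237 .e)))))
noncomputable def r875 : Tr := .c 0 q1137 (.c 1 q1138 (.c 2 q1095 (.c 6 q879 (.c 7 q1040 (.c 8 q1146 .e)))))
noncomputable def t245 : Tr := .c 1 r866 (.c 2 r867 (.c 4 r874 (.c 5 r875 (.c 8 r868 (.c 9 r869 .e)))))
noncomputable def q1147 : Tr := .c 0 v150 (.c 6 v2 .e)
noncomputable def r876 : Tr := .c 4 q1147 (.c 7 q1040 (.c 8 q1146 .e))
noncomputable def r877 : Tr := .c 1 q1138 (.c 2 q1095 (.c 7 q1040 (.c 8 q1146 .e)))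
noncomputable def t246 : Tr := .c 0 r876 (.c 2 r867 (.c 3 r877 (.c 4 r874 (.c 5 r875 (.c 9 r869 .e)))))
noncomputable def q1148 : Tr := .c 0 v230 (.c 2 v139 (.c 3 v230 (.c 4 v139 (.c 5 v230 .e))))
noncomputable def q1149 : Tr := .c 0 v137 (.c 2 v162 (.c 3 v137 (.c 4 v162 (.c 5 v137 .e))))
noncomputable def r878 : Tr := .c 4 q1114 (.c 7 q1148 (.c 8 q1149 .e))
noncomputable def v321 : Tr := .l 0x2481451c72492491c92482482492062470c5209247147249206249
noncomputable def q1150 : Tr := .c 2 v321 .e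
noncomputable def q1151 : Tr := .c 2 v321 (.c 4 v321 (.c 5 v316 .e))
noncomputable def q1152 : Tr := .c 0 v316 (.c 2 v321 (.c 3 v316 (.c 4 v321 (.c 5 v316 .e))))
noncomputable def q1153 : Tr := .c 0 v317 (.c 2 v163 (.c 3 v317 (.c 4 v163 (.c 5 v317 .e))))
noncomputable def r879 : Tr := .c 3 q1150 (.c 6 q1151 (.c 7 q1152 (.c 8 q1153 .e)))
noncomputable def v322 : Tr := .l 0x1c72492482492492492492492491c5248209249248248249249248
noncomputable def q1154 : Tr := .c 3 v312 (.c 4 v322 (.c 5 v312 .e))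
noncomputable def r880 : Tr := .c 1 q1154 (.c 2 q1125 (.c 7 q1148 (.c 8 q1149 .e)))
noncomputable def v323 : Tr := .l 0x1c5208249249249249249249248143206188249209209249249206
noncomputable def v324 : Tr := .l 0x1472492082492092092492492090c5188206249188188249249188
noncomputable def q1155 : Tr := .c 4 v323 (.c 5 v324 .e)
noncomputable def q1156 : Tr := .c 3 v324 (.c 4 v323 (.c 5 v324 .e))
noncomputable def r881 : Tr := .c 0 q1155 (.c 1 q1156 (.c 6 q1151 (.c 7 q1152 (.c 8 q1153 .e))))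
noncomputable def q1157 : Tr := .c 4 v322 (.c 5 v312 .e)
noncomputable def q1158 : Tr := .c 2 v139 (.c 4 v139 (.c 5 v230 .e))
noncomputable def r882 : Tr := .c 0 q1157 (.c 1 q1154 (.c 2 q1125 (.c 6 q1158 (.c 7 q1148 (.c 8 q1149 .e)))))
noncomputable def t247 : Tr := .c 0 r878 (.c 2 r879 (.c 3 r880 (.c 4 r881 (.c 5 r882 .e))))
noncomputable def r883 : Tr := .c 4 q1114 (.c 7 q1089 (.c 8 q1130 .e))
noncomputable def r884 : Tr := .c 4 q1114 (.c 6 q1139 .e)
noncomputable def q1159 : Tr := .c 0 v317 (.c 3 v317 (.c 5 v317 .e))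
noncomputable def r885 : Tr := .c 6 q1139 (.c 7 q1140 (.c 8 q1159 .e))
noncomputable def r886 : Tr := .c 1 q1125 (.c 2 q1125 (.c 7 q1089 (.c 8 q1130 .e)))
noncomputable def q1160 : Tr := .c 5 v324 .e
noncomputable def q1161 : Tr := .c 3 v324 (.c 5 v324 .e)
noncomputable def r887 : Tr := .c 0 q1160 (.c 1 q1161 (.c 6 q1139 (.c 7 q1140 (.c 8 q1159 .e))))
noncomputable def t248 : Tr := .c 0 r883 (.c 1 r884 (.c 2 r885 (.c 3 r886 (.c 4 r887 .e))))
noncomputable def v325 : Tr := .l 0x208249249185248248208188185249249249207249249249209207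
noncomputable def q1162 : Tr := .c 3 v94 (.c 4 v325 (.c 5 v94 (.c 6 v94 .e)))
noncomputable def q1163 : Tr := .c 3 v94 (.c 5 v94 (.c 6 v94 .e))
noncomputable def q1164 : Tr := .c 0 v156 (.c 2 v166 (.c 3 v156 (.c 4 v166 (.c 5 v156 .e))))
noncomputable def v326 : Tr := .l 0x2492082061c82082481451c91c72492091882492062061c7249249
noncomputable def q1165 : Tr := .c 0 v326 (.c 2 v326 (.c 3 v326 (.c 4 v326 (.c 5 v326 (.c 6 v326 .e)))))
noncomputable def q1166 : Tr := .c 0 v326 (.c 2 v326 (.c 3 v326 (.c 4 v326 (.c 6 v326 .e))))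
noncomputable def r888 : Tr := .c 1 q1162 (.c 2 q1163 (.c 7 q1164 (.c 8 q1165 (.c 9 q1166 .e))))
noncomputable def v327 : Tr := .l 0x2062492492062492492062061432482492492482492492482481c5
noncomputable def v328 : Tr := .l 0x1882492491882492491881880c5209249249209249249209209147
noncomputable def q1167 : Tr := .c 4 v327 (.c 5 v328 .e)
noncomputable def q1168 : Tr := .c 3 v328 (.c 4 v327 (.c 5 v328 (.c 6 v328 .e)))
noncomputable def v329 : Tr := .l 0x2491862082492062062491432062492482092492482482491c5248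
noncomputable def v330 : Tr := .l 0x2492081891c92481882490c5188249249248249249209249147209
noncomputable def q1169 : Tr := .c 2 v329 (.c 4 v329 (.c 5 v330 .e))
noncomputable def q1170 : Tr := .c 0 v330 (.c 2 v329 (.c 3 v330 (.c 4 v329 (.c 5 v330 .e))))
noncomputable def v331 : Tr := .l 0x2492082062491882480c5249188249209188249206206147249209
noncomputable def v332 : Tr := .l 0x2491862082492062061432492062492482092492482481c5249248
noncomputable def q1171 : Tr := .c 0 v331 (.c 2 v332 (.c 3 v331 (.c 4 v332 (.c 5 v331 (.c 6 v331 .e)))))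
noncomputable def q1172 : Tr := .c 0 v331 (.c 2 v332 (.c 3 v331 (.c 4 v332 (.c 6 v331 .e))))
noncomputable def r889 : Tr := .c 0 q1167 (.c 1 q1168 (.c 6 q1169 (.c 7 q1170 (.c 8 q1171 (.c 9 q1172 .e)))))
noncomputable def q1173 : Tr := .c 4 v325 (.c 5 v94 .e)
noncomputable def q1174 : Tr := .c 2 v166 (.c 4 v166 (.c 5 v156 .e))
noncomputable def r890 : Tr := .c 0 q1173 (.c 1 q1162 (.c 2 q1163 (.c 6 q1174 (.c 7 q1164 (.c 8 q1165 .e)))))
noncomputable def q1175 : Tr := .c 0 v167 (.c 6 v94 .e)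
noncomputable def r891 : Tr := .c 0 q1173 (.c 1 q1162 (.c 2 q1163 (.c 3 q475 (.c 4 q1175 (.c 6 q1174 (.c 7 q1164 .e))))))
noncomputable def t249 : Tr := .c 3 r888 (.c 4 r889 (.c 5 r890 (.c 9 r891 .e)))
noncomputable def q1176 : Tr := .c 3 v94 (.c 4 v325 (.c 6 v94 .e))
noncomputable def q1177 : Tr := .c 3 v94 (.c 6 v94 .e)
noncomputable def q1178 : Tr := .c 0 v156 (.c 2 v166 (.c 3 v156 (.c 4 v166 .e)))
noncomputable def r892 : Tr := .c 1 q1176 (.c 2 q1177 (.c 7 q1178 (.c 8 q1166 (.c 9 q1166 .e))))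
noncomputable def q1179 : Tr := .c 4 v325 .e
noncomputable def q1180 : Tr := .c 2 v166 (.c 4 v166 .e)
noncomputable def r893 : Tr := .c 0 q1179 (.c 1 q1176 (.c 2 q1177 (.c 6 q1180 (.c 7 q1178 (.c 8 q1166 .e)))))
noncomputable def q1181 : Tr := .c 0 v166 (.c 2 v166 (.c 6 v96 .e))
noncomputable def r894 : Tr := .c 0 q1179 (.c 2 q1177 (.c 3 q475 (.c 4 q1175 (.c 5 q1181 (.c 6 q1180 .e)))))
noncomputable def r895 : Tr := .c 0 q1179 (.c 1 q1176 (.c 2 q1177 (.c 3 q475 (.c 4 q1175 (.c 6 q1180 (.c 7 q1178 .e))))))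
noncomputable def t250 : Tr := .c 3 r892 (.c 5 r893 (.c 8 r894 (.c 9 r895 .e)))
noncomputable def v333 : Tr := .l 0x2482492492482492492482481c5206249249206249249206206143
noncomputable def v334 : Tr := .l 0x2092492492092492492092091471882492491882492491881880c5
noncomputable def q1182 : Tr := .c 4 v333 (.c 5 v334 .e)
noncomputable def q1183 : Tr := .c 3 v334 (.c 4 v333 (.c 5 v334 (.c 6 v334 .e)))
noncomputable def v335 : Tr := .l 0x2492082062492082482491c5248249209188249206206249143206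
noncomputable def v336 : Tr := .l 0x2492492082492492092491472092492492062492481882490c5188
noncomputable def q1184 : Tr := .c 2 v335 (.c 4 v335 (.c 5 v336 .e))
noncomputable def q1185 : Tr := .c 0 v336 (.c 2 v335 (.c 3 v336 (.c 4 v335 (.c 5 v336 .e))))
noncomputable def v337 : Tr := .l 0x2492492482492092491472492092491882092491882480c5249188
noncomputable def v338 : Tr := .l 0x2492082492492482481c5249248249206249249206249143249206
noncomputable def q1186 : Tr := .c 0 v337 (.c 2 v338 (.c 3 v337 (.c 4 v338 (.c 5 v337 (.c 6 v337 .e)))))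
noncomputable def r896 : Tr := .c 0 q1182 (.c 1 q1183 (.c 6 q1184 (.c 7 q1185 (.c 8 q1186 .e))))
noncomputable def v339 : Tr := .l 0x2492492492072492492492092072482492492482492492481c81c5
noncomputable def v340 : Tr := .l 0x209249249188249249209188188209249248209249209209147147
noncomputable def q1187 : Tr := .c 4 v339 (.c 5 v340 .e)
noncomputable def q1188 : Tr := .c 3 v340 (.c 4 v339 (.c 5 v340 (.c 6 v340 .e)))
noncomputable def q1189 : Tr := .c 3 v340 (.c 5 v340 (.c 6 v340 .e))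
noncomputable def v341 : Tr := .l 0x2492492091c92492492491c91c9209249248209249209209147147
noncomputable def q1190 : Tr := .c 2 v261 (.c 4 v261 (.c 5 v341 .e))
noncomputable def q1191 : Tr := .c 0 v341 (.c 2 v261 (.c 3 v341 (.c 4 v261 (.c 5 v341 .e))))
noncomputable def v342 : Tr := .l 0x2492082062492082481c7249249249209188249206206147209209
noncomputable def v343 : Tr := .l 0x2492492482492492491c72492492492482092492482481c5249248
noncomputable def q1192 : Tr := .c 0 v342 (.c 2 v343 (.c 3 v342 (.c 4 v343 (.c 5 v342 (.c 6 v342 .e)))))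
noncomputable def r897 : Tr := .c 0 q1187 (.c 1 q1188 (.c 2 q1189 (.c 6 q1190 (.c 7 q1191 (.c 8 q1192 .e)))))
noncomputable def q1193 : Tr := .c 2 v261 .e
noncomputable def v344 : Tr := .l 0x249249249249249249249249249249249249249249249249207209
noncomputable def q1194 : Tr := .c 0 v344 (.c 6 v340 .e)
noncomputable def r898 : Tr := .c 0 q1187 (.c 2 q1189 (.c 3 q1193 (.c 4 q1194 (.c 6 q1190 .e))))
noncomputable def r899 : Tr := .c 0 q1187 (.c 1 q1188 (.c 2 q1189 (.c 3 q1193 (.c 4 q1194 (.c 6 q1190 (.c 7 q1191 .e))))))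
noncomputable def t251 : Tr := .c 4 r896 (.c 5 r897 (.c 8 r898 (.c 9 r899 .e)))
noncomputable def r900 : Tr := .c 1 q1188 (.c 2 q1189 (.c 7 q1191 (.c 8 q1192 .e)))
noncomputable def t252 : Tr := .c 3 r900 (.c 4 r896 (.c 5 r897 (.c 9 r899 .e)))
noncomputable def r901 : Tr := .c 0 q1173 (.c 1 q1162 (.c 6 q1174 (.c 7 q1164 (.c 8 q1165 .e))))
noncomputable def v345 : Tr := .l 0x249249249249249249249247249249249249249249249249249249
noncomputable def v346 : Tr := .l 0x249249249209188249249209209249249249249209249249249249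
noncomputable def q1195 : Tr := .c 0 v345 (.c 2 v166 (.c 6 v346 .e))
noncomputable def r902 : Tr := .c 0 q1173 (.c 3 q475 (.c 5 q1195 (.c 6 q1174 .e)))
noncomputable def r903 : Tr := .c 0 q1173 (.c 1 q1162 (.c 3 q475 (.c 6 q1174 (.c 7 q1164 .e))))
noncomputable def t253 : Tr := .c 4 r889 (.c 5 r901 (.c 8 r902 (.c 9 r903 .e)))
noncomputable def r904 : Tr := .c 1 q1162 (.c 7 q1164 (.c 8 q1165 (.c 9 q1166 .e)))
noncomputable def t254 : Tr := .c 3 r904 (.c 4 r889 (.c 5 r901 (.c 9 r903 .e)))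
noncomputable def r905 : Tr := .c 1 q1176 (.c 7 q1178 (.c 8 q1166 (.c 9 q1166 .e)))
noncomputable def r906 : Tr := .c 0 q1179 (.c 1 q1176 (.c 6 q1180 (.c 7 q1178 (.c 8 q1166 .e))))
noncomputable def r907 : Tr := .c 0 q1179 (.c 3 q475 (.c 5 q1181 (.c 6 q1180 .e)))
noncomputable def r908 : Tr := .c 0 q1179 (.c 1 q1176 (.c 3 q475 (.c 6 q1180 (.c 7 q1178 .e))))
noncomputable def t255 : Tr := .c 3 r905 (.c 5 r906 (.c 8 r907 (.c 9 r908 .e)))
noncomputable def r909 : Tr := .c 3 q1102 (.c 5 q1103 (.c 6 q1104 (.c 9 q1107 .e)))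
noncomputable def r910 : Tr := .c 0 q1112 (.c 1 q1108 (.c 6 q937 (.c 7 q1000 (.c 8 q1100 .e))))
noncomputable def v347 : Tr := .l 0x249249249249187247249249249249209249249209249249249249
noncomputable def v348 : Tr := .l 0x249249249249188248249249249249209249249209249249249249
noncomputable def q1196 : Tr := .c 0 v347 (.c 2 v180 (.c 6 v348 .e))
noncomputable def r911 : Tr := .c 0 q1112 (.c 3 q543 (.c 5 q1196 (.c 6 q937 .e)))
noncomputable def r912 : Tr := .c 0 q1112 (.c 1 q1108 (.c 3 q543 (.c 6 q937 (.c 7 q1000 .e))))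
noncomputable def t256 : Tr := .c 1 r909 (.c 2 r851 (.c 4 r853 (.c 5 r910 (.c 8 r911 (.c 9 r912 .e)))))
noncomputable def r913 : Tr := .c 5 q734 (.c 7 q1000 (.c 8 q1100 (.c 9 q1101 .e)))
noncomputable def r914 : Tr := .c 1 q1108 (.c 7 q1000 (.c 8 q1100 (.c 9 q1101 .e)))
noncomputable def t257 : Tr := .c 0 r913 (.c 2 r851 (.c 3 r914 (.c 4 r853 (.c 5 r910 (.c 9 r912 .e)))))
noncomputable def r915 : Tr := .c 5 q744 (.c 7 q1115 (.c 8 q1116 (.c 9 q1117 .e)))
noncomputable def r916 : Tr := .c 1 q1124 (.c 7 q1115 (.c 8 q1116 (.c 9 q1117 .e)))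
noncomputable def r917 : Tr := .c 0 q1128 (.c 1 q1124 (.c 6 q1129 (.c 7 q1115 (.c 8 q1116 .e))))
noncomputable def t258 : Tr := .c 0 r915 (.c 2 r857 (.c 3 r916 (.c 4 r859 (.c 5 r917 .e))))
noncomputable def r918 : Tr := .c 1 q1162 (.c 2 q1163 (.c 7 q1164 .e))
noncomputable def r919 : Tr := .c 0 q1167 (.c 1 q1168 (.c 6 q1169 (.c 7 q1170 .e)))
noncomputable def r920 : Tr := .c 0 q1173 (.c 1 q1162 (.c 2 q1163 (.c 6 q1174 (.c 7 q1164 .e))))
noncomputable def t259 : Tr := .c 3 r918 (.c 4 r919 (.c 5 r920 (.c 9 r891 .e)))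
noncomputable def r921 : Tr := .c 1 q1176 (.c 2 q1177 (.c 7 q1178 .e))
noncomputable def r922 : Tr := .c 0 q1179 (.c 1 q1176 (.c 2 q1177 (.c 6 q1180 (.c 7 q1178 .e))))
noncomputable def t260 : Tr := .c 3 r921 (.c 5 r922 (.c 8 r894 (.c 9 r895 .e)))
noncomputable def q1197 : Tr := .c 0 v150 (.c 6 v102 .e)
noncomputable def q1198 : Tr := .c 0 v168 (.c 2 v168 (.c 6 v104 .e))
noncomputable def q1199 : Tr := .c 0 v2 (.c 2 v2 (.c 3 v2 (.c 4 v2 .e)))
noncomputable def r923 : Tr := .c 4 q1197 (.c 5 q1198 (.c 7 q1199 .e))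
noncomputable def q1200 : Tr := .c 2 v168 .e
noncomputable def q1201 : Tr := .c 2 v168 (.c 4 v168 .e)
noncomputable def r924 : Tr := .c 3 q1200 (.c 4 q1197 (.c 5 q1198 (.c 6 q1201 .e)))
noncomputable def t261 : Tr := .c 0 r923 (.c 1 r924 (.c 8 r894 (.c 9 r895 .e)))
noncomputable def q1202 : Tr := .c 0 v139 (.c 6 v100 .e)
noncomputable def r925 : Tr := .c 4 q1202 (.c 5 q723 (.c 7 q1089 .e))
noncomputable def r926 : Tr := .c 4 q1202 (.c 5 q723 (.c 6 q1092 .e))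
noncomputable def r927 : Tr := .c 5 q723 (.c 6 q1092 (.c 7 q1093 .e))
noncomputable def v349 : Tr := .l 0x249248189209249249249209209249249248249249249249249249
noncomputable def q1203 : Tr := .c 5 v349 .e
noncomputable def q1204 : Tr := .c 3 v91 (.c 5 v91 (.c 6 v91 .e))
noncomputable def q1205 : Tr := .c 0 v165 (.c 6 v91 .e)
noncomputable def q1206 : Tr := .c 0 v164 (.c 6 v9 .e)
noncomputable def v350 : Tr := .l 0x249208189249249249249249249249249248249249209249249249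
noncomputable def q1207 : Tr := .c 5 v350 .e
noncomputable def r928 : Tr := .c 0 q1203 (.c 2 q1204 (.c 4 q1205 (.c 5 q1206 (.c 6 q1207 .e))))
noncomputable def t262 : Tr := .c 0 r925 (.c 1 r926 (.c 2 r927 (.c 8 r928 .e)))
noncomputable def r929 : Tr := .c 4 q1114 (.c 5 q744 (.c 7 q1115 .e))
noncomputable def r930 : Tr := .c 3 q1118 (.c 5 q1119 (.c 6 q1120 (.c 7 q1121 .e)))
noncomputable def r931 : Tr := .c 1 q1124 (.c 2 q1125 (.c 7 q1115 .e))
noncomputable def r932 : Tr := .c 0 q1126 (.c 1 q1127 (.c 6 q1120 (.c 7 q1121 .e)))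
noncomputable def r933 : Tr := .c 0 q1128 (.c 1 q1124 (.c 2 q1125 (.c 6 q1129 (.c 7 q1115 .e))))
noncomputable def t263 : Tr := .c 0 r929 (.c 2 r930 (.c 3 r931 (.c 4 r932 (.c 5 r933 .e))))
noncomputable def r934 : Tr := .c 4 q1114 (.c 5 q752 (.c 7 q1089 .e))
noncomputable def r935 : Tr := .c 4 q1114 (.c 5 q752 (.c 6 q1092 .e))
noncomputable def r936 : Tr := .c 5 q752 (.c 6 q1092 (.c 7 q1093 .e))
noncomputable def r937 : Tr := .c 1 q1125 (.c 2 q1125 (.c 7 q1089 .e))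
noncomputable def r938 : Tr := .c 0 q1132 (.c 1 q1133 (.c 6 q1092 (.c 7 q1093 .e)))
noncomputable def t264 : Tr := .c 0 r934 (.c 1 r935 (.c 2 r936 (.c 3 r937 (.c 4 r938 .e))))
noncomputable def q1208 : Tr := .c 0 v150 (.c 1 v150 (.c 6 v150 (.c 7 v150 .e)))
noncomputable def q1209 : Tr := .c 0 v139 (.c 1 v139 (.c 2 v139 (.c 3 v139 (.c 4 v139 (.c 6 v139 (.c 7 v139 .e))))))
noncomputable def r939 : Tr := .c 4 q1208 (.c 5 q702 (.c 7 q1079 (.c 8 q1080 (.c 9 q1209 .e))))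
noncomputable def r940 : Tr := .c 3 q412 (.c 4 q1208 (.c 5 q702 (.c 6 q856 (.c 9 q1209 .e))))
noncomputable def q1210 : Tr := .c 4 v301 (.c 7 v155 .e)
noncomputable def q1211 : Tr := .c 3 v157 (.c 6 v157 (.c 7 v157 .e))
noncomputable def q1212 : Tr := .c 1 v159 (.c 2 v159 (.c 7 v155 .e))
noncomputable def q1213 : Tr := .c 0 v2 (.c 1 v2 (.c 6 v157 (.c 7 v157 .e)))
noncomputable def q1214 : Tr := .c 0 v159 (.c 1 v159 (.c 2 v159 (.c 6 v155 (.c 7 v155 .e))))
noncomputable def q1215 : Tr := .c 1 v159 (.c 2 v159 (.c 4 v159 .e))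
noncomputable def r941 : Tr := .c 0 q1210 (.c 2 q1211 (.c 3 q1212 (.c 4 q1213 (.c 5 q1214 (.c 6 q1215 .e)))))
noncomputable def r942 : Tr := .c 0 q1210 (.c 1 q1086 (.c 2 q1211 (.c 3 q1212 (.c 4 q1213 (.c 6 q1215 (.c 7 q1087 .e))))))
noncomputable def t265 : Tr := .c 0 r939 (.c 1 r940 (.c 8 r941 (.c 9 r942 .e)))
noncomputable def q1216 : Tr := .c 0 v230 (.c 3 v230 .e)
noncomputable def q1217 : Tr := .c 0 v137 (.c 1 v137 (.c 3 v137 (.c 6 v137 (.c 7 v137 .e))))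
noncomputable def r943 : Tr := .c 4 q765 (.c 5 q718 (.c 7 q1216 (.c 8 q1091 (.c 9 q1217 .e))))
noncomputable def r944 : Tr := .c 3 q428 (.c 4 q765 (.c 5 q718 (.c 6 q449 (.c 9 q1217 .e))))
noncomputable def q1218 : Tr := .c 3 v147 (.c 6 v147 (.c 7 v147 .e))
noncomputable def q1219 : Tr := .c 1 v148 (.c 7 v145 .e)
noncomputable def q1220 : Tr := .c 0 v148 (.c 1 v148 (.c 6 v145 (.c 7 v145 .e)))
noncomputable def q1221 : Tr := .c 1 v148 .e
noncomputable def r945 : Tr := .c 0 q441 (.c 2 q1218 (.c 3 q1219 (.c 4 q768 (.c 5 q1220 (.c 6 q1221 .e)))))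
noncomputable def t266 : Tr := .c 0 r943 (.c 1 r944 (.c 8 r945 .e))
noncomputable def q1222 : Tr := .c 0 v209 (.c 2 v180 (.c 3 v209 (.c 4 v180 .e)))
noncomputable def q1223 : Tr := .c 0 v231 (.c 1 v231 (.c 2 v231 (.c 3 v231 (.c 4 v231 (.c 6 v231 (.c 7 v231 .e))))))
noncomputable def r946 : Tr := .c 4 q731 (.c 5 q732 (.c 7 q1222 (.c 8 q1101 (.c 9 q1223 .e))))
noncomputable def q1224 : Tr := .c 3 v174 (.c 4 v308 (.c 6 v174 .e))
noncomputable def q1225 : Tr := .c 3 v174 (.c 6 v174 (.c 7 v174 .e))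
noncomputable def r947 : Tr := .c 1 q1224 (.c 2 q1225 (.c 7 q1222 (.c 8 q1101 (.c 9 q1223 .e))))
noncomputable def q1226 : Tr := .c 4 v308 (.c 7 v232 .e)
noncomputable def r948 : Tr := .c 0 q1226 (.c 1 q1224 (.c 2 q1225 (.c 6 q939 (.c 7 q1222 (.c 8 q1101 .e)))))
noncomputable def r949 : Tr := .c 0 q1226 (.c 1 q1224 (.c 2 q1225 (.c 3 q739 (.c 4 q740 (.c 6 q939 (.c 7 q1222 .e))))))
noncomputable def t267 : Tr := .c 0 r946 (.c 3 r947 (.c 5 r948 (.c 9 r949 .e)))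
noncomputable def q1227 : Tr := .c 0 v139 (.c 1 v139 .e)
noncomputable def q1228 : Tr := .c 0 v230 (.c 2 v234 (.c 3 v230 (.c 4 v234 .e)))
noncomputable def q1229 : Tr := .c 0 v137 (.c 1 v137 (.c 2 v137 (.c 3 v137 (.c 4 v137 .e))))
noncomputable def r950 : Tr := .c 4 q1227 (.c 5 q745 (.c 7 q1228 (.c 8 q1117 (.c 9 q1229 .e))))
noncomputable def q1230 : Tr := .c 3 v312 (.c 4 v313 .e)
noncomputable def q1231 : Tr := .c 3 v312 .e
noncomputable def r951 : Tr := .c 1 q1230 (.c 2 q1231 (.c 7 q1228 (.c 8 q1117 (.c 9 q1229 .e))))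
noncomputable def q1232 : Tr := .c 4 v313 .e
noncomputable def q1233 : Tr := .c 1 v234 (.c 2 v234 (.c 4 v234 .e))
noncomputable def r952 : Tr := .c 0 q1232 (.c 1 q1230 (.c 2 q1231 (.c 6 q1233 (.c 7 q1228 (.c 8 q1117 .e)))))
noncomputable def t268 : Tr := .c 0 r950 (.c 3 r951 (.c 5 r952 .e))
noncomputable def q1234 : Tr := .c 0 v137 (.c 1 v137 (.c 3 v137 .e))
noncomputable def r953 : Tr := .c 4 q1227 (.c 5 q753 (.c 7 q1216 (.c 8 q1131 (.c 9 q1234 .e))))
noncomputable def r954 : Tr := .c 3 q449 (.c 4 q1227 (.c 5 q753 (.c 6 q449 (.c 9 q1234 .e))))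
noncomputable def r955 : Tr := .c 1 q1231 (.c 2 q1231 (.c 7 q1216 (.c 8 q1131 (.c 9 q1234 .e))))
noncomputable def t269 : Tr := .c 0 r953 (.c 1 r954 (.c 3 r955 .e))
noncomputable def q1235 : Tr := .c 0 v137 (.c 1 v137 (.c 2 v137 (.c 3 v137 (.c 4 v137 (.c 6 v137 (.c 7 v137 .e))))))
noncomputable def r956 : Tr := .c 3 q391 (.c 4 q765 (.c 5 q758 (.c 6 q846 (.c 9 q1235 .e))))
noncomputable def q1236 : Tr := .c 4 v248 (.c 7 v145 .e)
noncomputable def q1237 : Tr := .c 1 v148 (.c 2 v148 (.c 4 v148 .e))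
noncomputable def r957 : Tr := .c 0 q1236 (.c 2 q1218 (.c 3 q445 (.c 4 q768 (.c 5 q769 (.c 6 q1237 .e)))))
noncomputable def q1238 : Tr := .c 3 v147 (.c 4 v248 (.c 6 v147 .e))
noncomputable def q1239 : Tr := .c 0 v160 (.c 2 v148 (.c 3 v160 (.c 4 v148 .e)))
noncomputable def r958 : Tr := .c 0 q1236 (.c 1 q1238 (.c 2 q1218 (.c 3 q445 (.c 4 q768 (.c 6 q1237 (.c 7 q1239 .e))))))
noncomputable def t270 : Tr := .c 1 r956 (.c 8 r957 (.c 9 r958 .e))
noncomputable def q1240 : Tr := .c 0 v237 (.c 2 v139 (.c 3 v237 (.c 4 v139 (.c 6 v237 .e))))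
noncomputable def r959 : Tr := .c 0 q1236 (.c 1 q1238 (.c 2 q1218 (.c 6 q1237 (.c 7 q1239 (.c 8 q1240 .e)))))
noncomputable def t271 : Tr := .c 1 r956 (.c 5 r959 (.c 8 r957 (.c 9 r958 .e)))
noncomputable def r960 : Tr := .c 3 q391 (.c 4 q765 (.c 6 q846 .e))
noncomputable def r961 : Tr := .c 0 q1236 (.c 2 q1218 (.c 3 q445 (.c 4 q768 (.c 6 q1237 .e))))
noncomputable def t272 : Tr := .c 1 r960 (.c 8 r961 (.c 9 r958 .e))
noncomputable def r962 : Tr := .c 4 q765 (.c 7 q1216 (.c 8 q1091 .e))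
noncomputable def r963 : Tr := .c 3 q428 (.c 4 q765 (.c 6 q449 .e))
noncomputable def r964 : Tr := .c 0 q441 (.c 2 q1218 (.c 3 q1219 (.c 4 q768 (.c 6 q1221 .e))))
noncomputable def t273 : Tr := .c 0 r962 (.c 1 r963 (.c 8 r964 .e))
noncomputable def t274 : Tr := .c 1 r960 (.c 5 r959 (.c 8 r961 (.c 9 r958 .e)))
noncomputable def r965 : Tr := .c 4 q770 (.c 7 q1239 (.c 8 q1240 .e))
noncomputable def r966 : Tr := .c 1 q1238 (.c 2 q1218 (.c 7 q1239 (.c 8 q1240 .e)))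
noncomputable def t275 : Tr := .c 0 r965 (.c 3 r966 (.c 5 r959 (.c 9 r958 .e)))
noncomputable def q1241 : Tr := .c 0 v230 (.c 2 v139 (.c 3 v230 (.c 4 v139 .e)))
noncomputable def q1242 : Tr := .c 0 v137 (.c 2 v162 (.c 3 v137 (.c 4 v162 .e)))
noncomputable def r967 : Tr := .c 4 q1227 (.c 7 q1241 (.c 8 q1242 .e))
noncomputable def q1243 : Tr := .c 3 v312 (.c 4 v322 .e)
noncomputable def r968 : Tr := .c 1 q1243 (.c 2 q1231 (.c 7 q1241 (.c 8 q1242 .e)))
noncomputable def q1244 : Tr := .c 4 v322 .e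
noncomputable def r969 : Tr := .c 0 q1244 (.c 1 q1243 (.c 2 q1231 (.c 6 q856 (.c 7 q1241 (.c 8 q1242 .e)))))
noncomputable def t276 : Tr := .c 0 r967 (.c 3 r968 (.c 5 r969 .e))
noncomputable def r970 : Tr := .c 4 q1227 (.c 7 q1216 (.c 8 q1131 .e))
noncomputable def r971 : Tr := .c 3 q449 (.c 4 q1227 (.c 6 q449 .e))
noncomputable def r972 : Tr := .c 1 q1231 (.c 2 q1231 (.c 7 q1216 (.c 8 q1131 .e)))
noncomputable def t277 : Tr := .c 0 r970 (.c 1 r971 (.c 3 r972 .e))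
noncomputable def q1245 : Tr := .c 3 v94 (.c 6 v94 (.c 7 v94 .e))
noncomputable def q1246 : Tr := .c 0 v326 (.c 1 v326 (.c 2 v326 (.c 3 v326 (.c 4 v326 (.c 6 v326 (.c 7 v326 .e))))))
noncomputable def r973 : Tr := .c 1 q1176 (.c 2 q1245 (.c 7 q1178 (.c 8 q1166 (.c 9 q1246 .e))))
noncomputable def q1247 : Tr := .c 4 v325 (.c 7 v96 .e)
noncomputable def q1248 : Tr := .c 1 v166 (.c 2 v166 (.c 4 v166 .e))
noncomputable def r974 : Tr := .c 0 q1247 (.c 1 q1176 (.c 2 q1245 (.c 6 q1248 (.c 7 q1178 (.c 8 q1166 .e)))))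
noncomputable def q1249 : Tr := .c 1 v166 (.c 2 v166 (.c 7 v96 .e))
noncomputable def q1250 : Tr := .c 0 v167 (.c 1 v167 (.c 6 v94 (.c 7 v94 .e)))
noncomputable def r975 : Tr := .c 0 q1247 (.c 1 q1176 (.c 2 q1245 (.c 3 q1249 (.c 4 q1250 (.c 6 q1248 (.c 7 q1178 .e))))))
noncomputable def t278 : Tr := .c 3 r973 (.c 5 r974 (.c 9 r975 .e))
noncomputable def q1251 : Tr := .c 0 v166 (.c 1 v166 (.c 2 v166 (.c 6 v96 (.c 7 v96 .e))))
noncomputable def r976 : Tr := .c 0 q1247 (.c 2 q1245 (.c 3 q1249 (.c 4 q1250 (.c 5 q1251 (.c 6 q1248 .e)))))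
noncomputable def t279 : Tr := .c 3 r973 (.c 5 r974 (.c 8 r976 (.c 9 r975 .e)))
noncomputable def v351 : Tr := .l 0x2492492492092492492492092092492492492492492492491c81c9
noncomputable def q1252 : Tr := .c 4 v339 (.c 7 v351 .e)
noncomputable def q1253 : Tr := .c 3 v340 (.c 4 v339 (.c 6 v340 .e))
noncomputable def q1254 : Tr := .c 3 v340 (.c 6 v340 (.c 7 v340 .e))
noncomputable def q1255 : Tr := .c 1 v261 (.c 2 v261 (.c 4 v261 .e))
noncomputable def q1256 : Tr := .c 0 v341 (.c 2 v261 (.c 3 v341 (.c 4 v261 .e)))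
noncomputable def q1257 : Tr := .c 0 v342 (.c 2 v343 (.c 3 v342 (.c 4 v343 (.c 6 v342 .e))))
noncomputable def r977 : Tr := .c 0 q1252 (.c 1 q1253 (.c 2 q1254 (.c 6 q1255 (.c 7 q1256 (.c 8 q1257 .e)))))
noncomputable def q1258 : Tr := .c 1 v261 (.c 2 v261 (.c 7 v351 .e))
noncomputable def q1259 : Tr := .c 0 v344 (.c 1 v344 (.c 6 v340 (.c 7 v340 .e)))
noncomputable def r978 : Tr := .c 0 q1252 (.c 2 q1254 (.c 3 q1258 (.c 4 q1259 (.c 6 q1255 .e))))
noncomputable def r979 : Tr := .c 0 q1252 (.c 1 q1253 (.c 2 q1254 (.c 3 q1258 (.c 4 q1259 (.c 6 q1255 (.c 7 q1256 .e))))))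
noncomputable def t280 : Tr := .c 5 r977 (.c 8 r978 (.c 9 r979 .e))
noncomputable def r980 : Tr := .c 1 q1253 (.c 2 q1254 (.c 7 q1256 (.c 8 q1257 .e)))
noncomputable def t281 : Tr := .c 3 r980 (.c 5 r977 (.c 9 r979 .e))
noncomputable def r981 : Tr := .c 1 q1176 (.c 2 q1245 (.c 7 q1178 .e))
noncomputable def r982 : Tr := .c 0 q1247 (.c 1 q1176 (.c 2 q1245 (.c 6 q1248 (.c 7 q1178 .e))))
noncomputable def t282 : Tr := .c 3 r981 (.c 5 r982 (.c 9 r975 .e))
noncomputable def t283 : Tr := .c 3 r981 (.c 5 r982 (.c 8 r976 (.c 9 r975 .e)))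
noncomputable def q1260 : Tr := .c 0 v150 (.c 1 v150 (.c 6 v102 (.c 7 v102 .e)))
noncomputable def q1261 : Tr := .c 0 v168 (.c 1 v168 (.c 2 v168 (.c 6 v104 (.c 7 v104 .e))))
noncomputable def r983 : Tr := .c 4 q1260 (.c 5 q1261 (.c 7 q1199 .e))
noncomputable def q1262 : Tr := .c 1 v168 (.c 2 v168 (.c 7 v104 .e))
noncomputable def q1263 : Tr := .c 1 v168 (.c 2 v168 (.c 4 v168 .e))
noncomputable def r984 : Tr := .c 3 q1262 (.c 4 q1260 (.c 5 q1261 (.c 6 q1263 .e)))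
noncomputable def t284 : Tr := .c 0 r983 (.c 1 r984 (.c 8 r976 (.c 9 r975 .e)))
noncomputable def q1264 : Tr := .c 0 v139 (.c 1 v139 (.c 6 v100 (.c 7 v100 .e)))
noncomputable def r985 : Tr := .c 4 q1264 (.c 5 q724 (.c 7 q1216 .e))
noncomputable def r986 : Tr := .c 3 q434 (.c 4 q1264 (.c 5 q724 (.c 6 q449 .e)))
noncomputable def q1265 : Tr := .c 7 v9 .e
noncomputable def q1266 : Tr := .c 3 v91 (.c 6 v91 (.c 7 v91 .e))
noncomputable def q1267 : Tr := .c 1 v164 (.c 7 v9 .e)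
noncomputable def q1268 : Tr := .c 0 v165 (.c 1 v165 (.c 6 v91 (.c 7 v91 .e)))
noncomputable def q1269 : Tr := .c 0 v164 (.c 1 v164 (.c 6 v9 (.c 7 v9 .e)))
noncomputable def q1270 : Tr := .c 1 v164 .e
noncomputable def r987 : Tr := .c 0 q1265 (.c 2 q1266 (.c 3 q1267 (.c 4 q1268 (.c 5 q1269 (.c 6 q1270 .e)))))
noncomputable def t285 : Tr := .c 0 r985 (.c 1 r986 (.c 8 r987 .e))
noncomputable def r988 : Tr := .c 4 q1227 (.c 5 q745 (.c 7 q1228 .e))
noncomputable def r989 : Tr := .c 1 q1230 (.c 2 q1231 (.c 7 q1228 .e))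
noncomputable def r990 : Tr := .c 0 q1232 (.c 1 q1230 (.c 2 q1231 (.c 6 q1233 (.c 7 q1228 .e))))
noncomputable def t286 : Tr := .c 0 r988 (.c 3 r989 (.c 5 r990 .e))
noncomputable def r991 : Tr := .c 4 q1227 (.c 5 q753 (.c 7 q1216 .e))
noncomputable def r992 : Tr := .c 3 q449 (.c 4 q1227 (.c 5 q753 (.c 6 q449 .e)))
noncomputable def r993 : Tr := .c 1 q1231 (.c 2 q1231 (.c 7 q1216 .e))
noncomputable def t287 : Tr := .c 0 r991 (.c 1 r992 (.c 3 r993 .e))
noncomputable def v352 : Tr := .l 0x249249249207249249249209207249249249248249249249249249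
noncomputable def q1271 : Tr := .c 4 v352 (.c 7 v9 .e)
noncomputable def q1272 : Tr := .c 3 v91 (.c 4 v352 (.c 6 v91 .e))
noncomputable def q1273 : Tr := .c 1 v164 (.c 2 v164 (.c 4 v164 .e))
noncomputable def q1274 : Tr := .c 0 v239 (.c 2 v164 (.c 3 v239 (.c 4 v164 .e)))
noncomputable def r994 : Tr := .c 0 q1271 (.c 1 q1272 (.c 2 q1266 (.c 6 q1273 (.c 7 q1274 .e))))
noncomputable def q1275 : Tr := .c 1 v164 (.c 2 v164 (.c 7 v9 .e))
noncomputable def q1276 : Tr := .c 0 v164 (.c 1 v164 (.c 2 v164 (.c 6 v9 (.c 7 v9 .e))))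
noncomputable def r995 : Tr := .c 0 q1271 (.c 2 q1266 (.c 3 q1275 (.c 4 q1268 (.c 5 q1276 (.c 6 q1273 .e)))))
noncomputable def r996 : Tr := .c 0 q1271 (.c 1 q1272 (.c 2 q1266 (.c 3 q1275 (.c 4 q1268 (.c 6 q1273 (.c 7 q1274 .e))))))
noncomputable def t288 : Tr := .c 5 r994 (.c 8 r995 (.c 9 r996 .e))
noncomputable def r997 : Tr := .c 3 q399 (.c 4 q1264 (.c 5 q760 (.c 6 q846 .e)))
noncomputable def t289 : Tr := .c 1 r997 (.c 8 r995 (.c 9 r996 .e))

/-- the diagram -/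
noncomputable def T : Tr := (.c 0 (.c 4 (.c 0 t0 (.c 1 t1 (.c 6 t2 (.c 7 t3 (.c 8 t4 (.c 9 t5 .e)))))) (.c 5 (.c 0 t6 (.c 1
t7 (.c 2 t8 (.c 6 t9 (.c 7 t10 (.c 8 t11 .e)))))) (.c 7 (.c 0 t12 (.c 2 t13 (.c 3 t14 (.c 4 t15
(.c 5 t16 (.c 9 t17 .e)))))) (.c 8 (.c 0 t18 (.c 2 t19 (.c 3 t20 (.c 4 t21 (.c 5 t22 (.c 6 t23
.e)))))) (.c 9 (.c 0 t24 (.c 1 t25 (.c 2 t26 (.c 3 t27 (.c 4 t28 (.c 6 t29 (.c 7 t30 .e)))))))
.e))))) (.c 1 (.c 3 (.c 1 t31 (.c 2 t32 (.c 7 t33 (.c 8 t34 (.c 9 t35 .e))))) (.c 4 (.c 0 t36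
(.c 1 t37 (.c 6 t38 (.c 7 t39 (.c 8 t40 (.c 9 t41 .e)))))) (.c 5 (.c 0 t42 (.c 1 t43 (.c 2 t44
(.c 6 t45 (.c 7 t46 (.c 8 t47 .e)))))) (.c 6 (.c 1 t48 (.c 2 t49 (.c 4 t50 (.c 5 t51 (.c 8 t52
(.c 9 t53 .e)))))) (.c 9 (.c 0 t54 (.c 1 t55 (.c 2 t56 (.c 3 t57 (.c 4 t58 (.c 6 t59 (.c 7 t60
.e))))))) .e))))) (.c 2 (.c 3 (.c 1 t61 (.c 2 t62 (.c 7 t63 (.c 8 t64 (.c 9 t65 .e))))) (.c 5
(.c 0 t66 (.c 1 t67 (.c 2 t68 (.c 6 t69 (.c 7 t70 (.c 8 t71 .e)))))) (.c 6 (.c 1 t72 (.c 2 t73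
(.c 4 t74 (.c 5 t75 (.c 8 t76 (.c 9 t77 .e)))))) (.c 7 (.c 0 t78 (.c 2 t73 (.c 3 t79 (.c 4 t74
(.c 5 t75 (.c 9 t77 .e)))))) (.c 8 (.c 0 t80 (.c 2 t81 (.c 3 t82 (.c 4 t83 (.c 5 t84 (.c 6 t85
.e)))))) (.c 9 (.c 0 t86 (.c 1 t87 (.c 2 t88 (.c 3 t89 (.c 4 t90 (.c 6 t91 (.c 7 t92 .e)))))))
.e)))))) (.c 3 (.c 1 (.c 3 t93 (.c 4 t94 (.c 5 t95 (.c 6 t96 (.c 9 t97 .e))))) (.c 2 (.c 3 t98
(.c 5 t99 (.c 6 t100 (.c 7 t101 (.c 8 t102 (.c 9 t103 .e)))))) (.c 7 (.c 0 t104 (.c 2 t105 (.c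
3 t106 (.c 4 t107 (.c 5 t108 (.c 9 t109 .e)))))) (.c 8 (.c 0 t110 (.c 2 t111 (.c 3 t112 (.c 4
t113 (.c 5 t114 (.c 6 t115 .e)))))) (.c 9 (.c 0 t116 (.c 1 t117 (.c 2 t118 (.c 3 t119 (.c 4
t120 (.c 6 t121 (.c 7 t122 .e))))))) .e))))) (.c 4 (.c 0 (.c 4 t123 (.c 5 t124 (.c 7 t125 (.c 8
t126 (.c 9 t127 .e))))) (.c 1 (.c 3 t128 (.c 4 t123 (.c 5 t124 (.c 6 t129 (.c 9 t127 .e)))))
(.c 6 (.c 1 t130 (.c 2 t131 (.c 4 t132 (.c 5 t133 (.c 8 t134 (.c 9 t135 .e)))))) (.c 7 (.c 0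
t136 (.c 2 t131 (.c 3 t137 (.c 4 t132 (.c 5 t133 (.c 9 t135 .e)))))) (.c 8 (.c 0 t138 (.c 2
t139 (.c 3 t140 (.c 4 t141 (.c 5 t142 (.c 6 t143 .e)))))) (.c 9 (.c 0 t144 (.c 1 t145 (.c 2
t146 (.c 3 t147 (.c 4 t148 (.c 6 t149 (.c 7 t150 .e))))))) .e)))))) (.c 5 (.c 0 (.c 4 t151 (.c
5 t152 (.c 7 t153 (.c 8 t154 (.c 9 t155 .e))))) (.c 1 (.c 3 t156 (.c 4 t151 (.c 5 t152 (.c 6
t157 (.c 9 t155 .e))))) (.c 2 (.c 3 t158 (.c 5 t159 (.c 6 t160 (.c 7 t161 (.c 8 t162 (.c 9 t163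
.e)))))) (.c 6 (.c 1 t164 (.c 2 t165 (.c 4 t166 (.c 5 t167 (.c 8 t168 (.c 9 t169 .e)))))) (.c 7
(.c 0 t170 (.c 2 t165 (.c 3 t171 (.c 4 t166 (.c 5 t167 (.c 9 t169 .e)))))) (.c 8 (.c 0 t172 (.c
2 t173 (.c 3 t174 (.c 4 t175 (.c 5 t176 (.c 6 t177 .e)))))) .e)))))) (.c 6 (.c 1 (.c 3 t178 (.c
4 t179 (.c 5 t180 (.c 6 t181 (.c 9 t182 .e))))) (.c 2 (.c 3 t183 (.c 5 t184 (.c 6 t185 (.c 7
t186 (.c 8 t187 (.c 9 t188 .e)))))) (.c 4 (.c 0 t189 (.c 1 t190 (.c 6 t185 (.c 7 t186 (.c 8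
t187 (.c 9 t188 .e)))))) (.c 5 (.c 0 t191 (.c 1 t192 (.c 2 t193 (.c 6 t194 (.c 7 t195 (.c 8
t196 .e)))))) (.c 8 (.c 0 t197 (.c 2 t198 (.c 3 t199 (.c 4 t200 (.c 5 t201 (.c 6 t202 .e))))))
(.c 9 (.c 0 t203 (.c 1 t204 (.c 2 t205 (.c 3 t206 (.c 4 t207 (.c 6 t208 (.c 7 t209 .e)))))))
.e)))))) (.c 7 (.c 0 (.c 4 t210 (.c 5 t211 (.c 7 t212 (.c 8 t213 (.c 9 t214 .e))))) (.c 2 (.c 3
t215 (.c 5 t216 (.c 6 t217 (.c 7 t218 (.c 8 t219 (.c 9 t220 .e)))))) (.c 3 (.c 1 t221 (.c 2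
t222 (.c 7 t212 (.c 8 t213 (.c 9 t214 .e))))) (.c 4 (.c 0 t223 (.c 1 t224 (.c 6 t217 (.c 7 t218
(.c 8 t219 (.c 9 t220 .e)))))) (.c 5 (.c 0 t225 (.c 1 t226 (.c 2 t227 (.c 6 t228 (.c 7 t229 (.c
8 t230 .e)))))) (.c 9 (.c 0 t231 (.c 1 t232 (.c 2 t233 (.c 3 t234 (.c 4 t235 (.c 6 t236 (.c 7
t237 .e))))))) .e)))))) (.c 8 (.c 0 (.c 4 t238 (.c 5 t239 (.c 7 t240 (.c 8 t241 (.c 9 t242
.e))))) (.c 2 (.c 3 t243 (.c 5 t244 (.c 6 t245 (.c 7 t246 (.c 8 t247 (.c 9 t248 .e)))))) (.c 3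
(.c 1 t249 (.c 2 t250 (.c 7 t240 (.c 8 t241 (.c 9 t242 .e))))) (.c 4 (.c 0 t251 (.c 1 t252 (.c
6 t245 (.c 7 t246 (.c 8 t247 (.c 9 t248 .e)))))) (.c 5 (.c 0 t253 (.c 1 t254 (.c 2 t255 (.c 6
t256 (.c 7 t257 (.c 8 t258 .e)))))) (.c 6 (.c 1 t259 (.c 2 t260 (.c 4 t261 (.c 5 t262 (.c 8
t263 (.c 9 t264 .e)))))) .e)))))) (.c 9 (.c 0 (.c 4 t265 (.c 5 t266 (.c 7 t267 (.c 8 t268 (.c 9
t269 .e))))) (.c 1 (.c 3 t270 (.c 4 t265 (.c 5 t266 (.c 6 t271 (.c 9 t269 .e))))) (.c 2 (.c 3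
t272 (.c 5 t273 (.c 6 t274 (.c 7 t275 (.c 8 t276 (.c 9 t277 .e)))))) (.c 3 (.c 1 t278 (.c 2
t279 (.c 7 t267 (.c 8 t268 (.c 9 t269 .e))))) (.c 4 (.c 0 t280 (.c 1 t281 (.c 6 t274 (.c 7 t275
(.c 8 t276 (.c 9 t277 .e)))))) (.c 6 (.c 1 t282 (.c 2 t283 (.c 4 t284 (.c 5 t285 (.c 8 t286 (.c
9 t287 .e)))))) (.c 7 (.c 0 t288 (.c 2 t283 (.c 3 t289 (.c 4 t284 (.c 5 t285 (.c 9 t287
.e)))))) .e))))))) .e))))))))))

theorem chk : chk [3, 0, 0, 3, 2, 0, 0, 0] 36 9 0 2 T = true := by decide +kernel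

end Vale.Agent.P032.Words.Trie.BetaN2
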