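import Vale.Agent.P032.Words.H151.Beta

/-!
# BETA pair, special end near: 3Ae+Cf+Ce+2Qf ≥ 6

Decision diagram of 9 potentials.
-/

namespace Vale.Agent.P032.Words.Trie.BetaN5

noncomputable def v0 : Tr := .l 0x10840c41810c0
noncomputable def v1 : Tr := .l 0x6186186186186
noncomputable def v2 : Tr := .l 0x4146186184143
noncomputable def v3 : Tr := .l 0x20c41051820c1
noncomputable def q0 : Tr := .c 4 v0 (.c 5 v0 (.c 7 v1 (.c 8 v2 (.c 9 v3 .e))))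
noncomputable def q1 : Tr := .c 4 v0 (.c 5 v0 (.c 9 v3 .e))
noncomputable def v4 : Tr := .l 0x41411860c4003
noncomputable def v5 : Tr := .l 0x61841861860c5
noncomputable def v6 : Tr := .l 0x4142146104043
noncomputable def q2 : Tr := .c 4 v4 (.c 5 v4 (.c 8 v5 (.c 9 v6 .e)))
noncomputable def q3 : Tr := .c 4 v4 (.c 5 v4 (.c 9 v6 .e))
noncomputable def v7 : Tr := .l 0x2045103180101
noncomputable def q4 : Tr := .c 4 v7 (.c 5 v7 .e)
noncomputable def r0 : Tr := .c 0 q0 (.c 1 q1 (.c 6 q2 (.c 7 q3 (.c 8 q4 .e))))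
noncomputable def q5 : Tr := .c 4 v0 (.c 5 v0 (.c 7 v0 (.c 8 v2 (.c 9 v3 .e))))
noncomputable def q6 : Tr := .c 5 v0 (.c 7 v0 (.c 8 v2 (.c 9 v3 .e)))
noncomputable def r1 : Tr := .c 0 q5 (.c 1 q1 (.c 2 q6 (.c 6 q2 (.c 7 q3 (.c 8 q4 .e)))))
noncomputable def v8 : Tr := .l 0x6146186186186
noncomputable def q7 : Tr := .c 4 v8 (.c 5 v0 (.c 7 v0 (.c 8 v2 (.c 9 v3 .e))))
noncomputable def q8 : Tr := .c 7 v0 (.c 8 v2 (.c 9 v3 .e))
noncomputable def r2 : Tr := .c 0 q7 (.c 2 q6 (.c 3 q8 (.c 4 q8 .e)))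
noncomputable def v9 : Tr := .l 0x4146146184143
noncomputable def v10 : Tr := .l 0x5185186145104
noncomputable def q9 : Tr := .c 4 v9 (.c 5 v9 (.c 7 v9 (.c 8 v1 (.c 9 v10 .e))))
noncomputable def q10 : Tr := .c 5 v9 (.c 7 v9 (.c 8 v1 (.c 9 v10 .e)))
noncomputable def q11 : Tr := .c 7 v9 (.c 8 v1 (.c 9 v10 .e))
noncomputable def v11 : Tr := .l 0x61841861060c5
noncomputable def q12 : Tr := .c 4 v11 (.c 5 v11 (.c 8 v1 (.c 9 v10 .e)))
noncomputable def r3 : Tr := .c 0 q9 (.c 2 q10 (.c 3 q11 (.c 4 q11 (.c 6 q12 .e))))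
noncomputable def v12 : Tr := .l 0x20c40c41820c1
noncomputable def v13 : Tr := .l 0x5185186185104
noncomputable def v14 : Tr := .l 0x3103105143082
noncomputable def q13 : Tr := .c 4 v12 (.c 5 v12 (.c 7 v12 (.c 8 v13 (.c 9 v14 .e))))
noncomputable def q14 : Tr := .c 4 v12 (.c 5 v12 (.c 9 v14 .e))
noncomputable def q15 : Tr := .c 5 v12 (.c 7 v12 (.c 8 v13 (.c 9 v14 .e)))
noncomputable def q16 : Tr := .c 7 v12 (.c 8 v13 (.c 9 v14 .e))
noncomputable def q17 : Tr := .c 4 v6 (.c 5 v6 (.c 8 v13 (.c 9 v14 .e)))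
noncomputable def q18 : Tr := .c 4 v6 (.c 5 v6 (.c 9 v14 .e))
noncomputable def r4 : Tr := .c 0 q13 (.c 1 q14 (.c 2 q15 (.c 3 q16 (.c 4 q16 (.c 6 q17 (.c 7 q18 .e))))))
noncomputable def t0 : Tr := .c 4 r0 (.c 5 r1 (.c 7 r2 (.c 8 r3 (.c 9 r4 .e))))
noncomputable def r5 : Tr := .c 1 q1 (.c 2 q6 (.c 7 q3 (.c 8 q4 .e)))
noncomputable def r6 : Tr := .c 1 q1 (.c 2 q6 (.c 4 q8 (.c 8 q4 .e)))
noncomputable def t1 : Tr := .c 3 r5 (.c 4 r0 (.c 5 r1 (.c 6 r6 (.c 9 r4 .e))))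
noncomputable def v15 : Tr := .l 0x6186186146186
noncomputable def q19 : Tr := .c 7 v15 .e
noncomputable def v16 : Tr := .l 0x61840c40060c6
noncomputable def q20 : Tr := .c 4 v16 (.c 5 v16 .e)
noncomputable def r7 : Tr := .c 3 q19 (.c 4 q19 (.c 6 q20 .e))
noncomputable def v17 : Tr := .l 0x5106040103184
noncomputable def q21 : Tr := .c 4 v17 (.c 5 v17 .e)
noncomputable def r8 : Tr := .c 3 q19 (.c 6 q20 (.c 7 q20 (.c 8 q21 .e)))
noncomputable def v18 : Tr := .l 0x41460010c4183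
noncomputable def q22 : Tr := .c 4 v18 (.c 5 v18 (.c 7 v1 .e))
noncomputable def q23 : Tr := .c 4 v18 (.c 5 v18 .e)
noncomputable def r9 : Tr := .c 0 q22 (.c 1 q23 (.c 6 q20 (.c 7 q20 (.c 8 q21 .e))))
noncomputable def v19 : Tr := .l 0x4146186184183
noncomputable def q24 : Tr := .c 4 v18 (.c 5 v18 (.c 7 v19 .e))
noncomputable def q25 : Tr := .c 5 v18 (.c 7 v19 .e)
noncomputable def r10 : Tr := .c 0 q24 (.c 1 q23 (.c 2 q25 (.c 6 q20 (.c 7 q20 (.c 8 q21 .e)))))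
noncomputable def v20 : Tr := .l 0x61860c4106185
noncomputable def q26 : Tr := .c 4 v20 (.c 5 v20 (.c 7 v1 .e))
noncomputable def q27 : Tr := .c 5 v20 (.c 7 v1 .e)
noncomputable def q28 : Tr := .c 7 v1 .e
noncomputable def v21 : Tr := .l 0x6185105046106
noncomputable def q29 : Tr := .c 4 v21 (.c 5 v21 .e)
noncomputable def r11 : Tr := .c 0 q26 (.c 2 q27 (.c 3 q28 (.c 4 q28 (.c 6 q29 .e))))
noncomputable def v22 : Tr := .l 0x4146042104143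
noncomputable def v23 : Tr := .l 0x5186186185184
noncomputable def q30 : Tr := .c 4 v22 (.c 5 v22 (.c 7 v23 .e))
noncomputable def q31 : Tr := .c 4 v22 (.c 5 v22 .e)
noncomputable def q32 : Tr := .c 5 v22 (.c 7 v23 .e)
noncomputable def q33 : Tr := .c 7 v23 .e
noncomputable def r12 : Tr := .c 0 q30 (.c 1 q31 (.c 2 q32 (.c 3 q33 (.c 4 q33 (.c 6 q29 (.c 7 q29 .e))))))
noncomputable def t2 : Tr := .c 1 r7 (.c 2 r8 (.c 4 r9 (.c 5 r10 (.c 8 r11 (.c 9 r12 .e)))))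
noncomputable def r13 : Tr := .c 4 q28 (.c 7 q20 (.c 8 q21 .e))
noncomputable def r14 : Tr := .c 1 q23 (.c 2 q25 (.c 7 q20 (.c 8 q21 .e)))
noncomputable def t3 : Tr := .c 0 r13 (.c 2 r8 (.c 3 r14 (.c 4 r9 (.c 5 r10 (.c 9 r12 .e)))))
noncomputable def v24 : Tr := .l 0x4145186186185
noncomputable def q34 : Tr := .c 8 v1 (.c 9 v24 .e)
noncomputable def v25 : Tr := .l 0x3100186105044
noncomputable def v26 : Tr := .l 0x4141186145084
noncomputable def q35 : Tr := .c 4 v25 (.c 5 v25 (.c 9 v26 .e))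
noncomputable def v27 : Tr := .l 0x1004144181142
noncomputable def q36 : Tr := .c 4 v27 (.c 5 v27 .e)
noncomputable def r15 : Tr := .c 4 q34 (.c 7 q35 (.c 8 q36 .e))
noncomputable def v28 : Tr := .l 0x6183186186106
noncomputable def q37 : Tr := .c 8 v28 (.c 9 v26 .e)
noncomputable def q38 : Tr := .c 4 v25 (.c 5 v25 (.c 8 v28 (.c 9 v26 .e)))
noncomputable def r16 : Tr := .c 3 q37 (.c 6 q38 (.c 7 q35 (.c 8 q36 .e)))
noncomputable def v29 : Tr := .l 0x43105182101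
noncomputable def v30 : Tr := .l 0x1084146183102
noncomputable def q39 : Tr := .c 4 v29 (.c 5 v29 (.c 9 v30 .e))
noncomputable def v31 : Tr := .l 0x3106186185184
noncomputable def q40 : Tr := .c 5 v29 (.c 8 v31 (.c 9 v30 .e))
noncomputable def r17 : Tr := .c 1 q39 (.c 2 q40 (.c 7 q35 (.c 8 q36 .e)))
noncomputable def q41 : Tr := .c 4 v29 (.c 5 v29 (.c 8 v31 (.c 9 v30 .e)))
noncomputable def r18 : Tr := .c 0 q41 (.c 1 q39 (.c 6 q38 (.c 7 q35 (.c 8 q36 .e))))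
noncomputable def r19 : Tr := .c 0 q41 (.c 1 q39 (.c 2 q40 (.c 6 q38 (.c 7 q35 (.c 8 q36 .e)))))
noncomputable def q42 : Tr := .c 8 v31 (.c 9 v30 .e)
noncomputable def r20 : Tr := .c 1 q39 (.c 2 q40 (.c 4 q42 (.c 8 q36 .e)))
noncomputable def t4 : Tr := .c 0 r15 (.c 2 r16 (.c 3 r17 (.c 4 r18 (.c 5 r19 (.c 6 r20 .e)))))
noncomputable def v32 : Tr := .l 0x6185186186186
noncomputable def v33 : Tr := .l 0x6183186106105
noncomputable def q43 : Tr := .c 8 v32 (.c 9 v33 .e)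
noncomputable def v34 : Tr := .l 0x51821860c50c4
noncomputable def q44 : Tr := .c 5 v34 (.c 9 v33 .e)
noncomputable def v35 : Tr := .l 0x3086103183142
noncomputable def q45 : Tr := .c 5 v35 .e
noncomputable def r21 : Tr := .c 4 q43 (.c 7 q44 (.c 8 q45 .e))
noncomputable def q46 : Tr := .c 5 v34 (.c 8 v32 (.c 9 v33 .e))
noncomputable def r22 : Tr := .c 3 q43 (.c 4 q43 (.c 6 q46 .e))
noncomputable def r23 : Tr := .c 3 q43 (.c 6 q46 (.c 7 q44 (.c 8 q45 .e)))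
noncomputable def v36 : Tr := .l 0x20c5104182101
noncomputable def v37 : Tr := .l 0x3105145183102
noncomputable def q47 : Tr := .c 5 v36 (.c 9 v37 .e)
noncomputable def q48 : Tr := .c 5 v36 (.c 8 v23 (.c 9 v37 .e))
noncomputable def r24 : Tr := .c 1 q47 (.c 2 q48 (.c 7 q44 (.c 8 q45 .e)))
noncomputable def r25 : Tr := .c 0 q48 (.c 1 q47 (.c 6 q46 (.c 7 q44 (.c 8 q45 .e))))
noncomputable def q49 : Tr := .c 8 v23 (.c 9 v37 .e)
noncomputable def r26 : Tr := .c 1 q47 (.c 2 q48 (.c 4 q49 (.c 8 q45 .e)))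
noncomputable def r27 : Tr := .c 0 q48 (.c 2 q48 (.c 3 q49 (.c 4 q49 .e)))
noncomputable def t5 : Tr := .c 0 r21 (.c 1 r22 (.c 2 r23 (.c 3 r24 (.c 4 r25 (.c 6 r26 (.c 7 r27 .e))))))
noncomputable def v38 : Tr := .l 0x20c4105182101
noncomputable def q50 : Tr := .c 4 v38 (.c 7 v38 .e)
noncomputable def r28 : Tr := .c 0 q5 (.c 1 q1 (.c 6 q2 (.c 7 q3 (.c 8 q4 (.c 9 q50 .e)))))
noncomputable def v39 : Tr := .l 0x6186186186185
noncomputable def q51 : Tr := .c 4 v0 (.c 5 v1 (.c 7 v0 (.c 8 v2 (.c 9 v39 .e))))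
noncomputable def q52 : Tr := .c 7 v0 (.c 8 v2 (.c 9 v39 .e))
noncomputable def q53 : Tr := .c 7 v0 (.c 8 v2 .e)
noncomputable def r29 : Tr := .c 0 q51 (.c 3 q52 (.c 5 q53 (.c 9 q50 .e)))
noncomputable def q54 : Tr := .c 7 v9 (.c 8 v1 .e)
noncomputable def r30 : Tr := .c 0 q9 (.c 3 q11 (.c 5 q54 (.c 6 q12 .e)))
noncomputable def q55 : Tr := .c 4 v12 (.c 5 v12 (.c 7 v39 (.c 8 v13 (.c 9 v14 .e))))
noncomputable def q56 : Tr := .c 7 v39 (.c 8 v13 (.c 9 v14 .e))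
noncomputable def r31 : Tr := .c 0 q55 (.c 1 q14 (.c 3 q56 (.c 6 q17 (.c 7 q18 .e))))
noncomputable def t6 : Tr := .c 4 r28 (.c 5 r0 (.c 7 r29 (.c 8 r30 (.c 9 r31 .e))))
noncomputable def r32 : Tr := .c 1 q1 (.c 7 q3 (.c 8 q4 (.c 9 q50 .e)))
noncomputable def r33 : Tr := .c 1 q1 (.c 5 q53 (.c 8 q4 (.c 9 q50 .e)))
noncomputable def t7 : Tr := .c 3 r32 (.c 4 r28 (.c 5 r0 (.c 6 r33 (.c 9 r31 .e))))
noncomputable def q57 : Tr := .c 4 v0 .e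
noncomputable def q58 : Tr := .c 4 v4 .e
noncomputable def q59 : Tr := .c 4 v7 .e
noncomputable def r34 : Tr := .c 1 q57 (.c 7 q58 (.c 8 q59 (.c 9 q50 .e)))
noncomputable def q60 : Tr := .c 4 v0 (.c 7 v1 (.c 8 v2 .e))
noncomputable def q61 : Tr := .c 4 v4 (.c 8 v5 .e)
noncomputable def r35 : Tr := .c 0 q60 (.c 1 q57 (.c 6 q61 (.c 7 q58 (.c 8 q59 .e))))
noncomputable def r36 : Tr := .c 1 q57 (.c 5 q53 (.c 8 q59 (.c 9 q50 .e)))
noncomputable def q62 : Tr := .c 4 v0 (.c 7 v0 (.c 8 v2 .e))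
noncomputable def r37 : Tr := .c 0 q62 (.c 3 q53 (.c 5 q53 (.c 9 q50 .e)))
noncomputable def q63 : Tr := .c 4 v9 (.c 7 v9 (.c 8 v1 .e))
noncomputable def q64 : Tr := .c 4 v11 (.c 8 v1 .e)
noncomputable def r38 : Tr := .c 0 q63 (.c 3 q54 (.c 5 q54 (.c 6 q64 .e)))
noncomputable def q65 : Tr := .c 4 v12 (.c 7 v39 (.c 8 v13 .e))
noncomputable def q66 : Tr := .c 4 v12 .e
noncomputable def q67 : Tr := .c 7 v39 (.c 8 v13 .e)
noncomputable def q68 : Tr := .c 4 v6 (.c 8 v13 .e)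
noncomputable def q69 : Tr := .c 4 v6 .e
noncomputable def r39 : Tr := .c 0 q65 (.c 1 q66 (.c 3 q67 (.c 6 q68 (.c 7 q69 .e))))
noncomputable def t8 : Tr := .c 3 r34 (.c 5 r35 (.c 6 r36 (.c 7 r37 (.c 8 r38 (.c 9 r39 .e)))))
noncomputable def v40 : Tr := .l 0x6186103106185
noncomputable def q70 : Tr := .c 7 v40 .e
noncomputable def v41 : Tr := .l 0x51860c20c5184
noncomputable def q71 : Tr := .c 4 v41 (.c 7 v41 .e)
noncomputable def r40 : Tr := .c 3 q70 (.c 5 q70 (.c 6 q20 (.c 9 q71 .e)))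
noncomputable def r41 : Tr := .c 3 q70 (.c 5 q70 (.c 6 q20 (.c 7 q20 (.c 8 q21 (.c 9 q71 .e)))))
noncomputable def r42 : Tr := .c 0 q24 (.c 1 q23 (.c 6 q20 (.c 7 q20 (.c 8 q21 (.c 9 q71 .e)))))
noncomputable def v42 : Tr := .l 0x6186144146185
noncomputable def q72 : Tr := .c 4 v20 (.c 5 v20 (.c 7 v42 .e))
noncomputable def q73 : Tr := .c 7 v42 .e
noncomputable def r43 : Tr := .c 0 q72 (.c 3 q73 (.c 5 q73 (.c 6 q29 .e)))
noncomputable def q74 : Tr := .c 4 v22 (.c 5 v22 (.c 7 v1 .e))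
noncomputable def r44 : Tr := .c 0 q74 (.c 1 q31 (.c 3 q28 (.c 6 q29 (.c 7 q29 .e))))
noncomputable def t9 : Tr := .c 1 r40 (.c 2 r41 (.c 4 r42 (.c 5 r9 (.c 8 r43 (.c 9 r44 .e)))))
noncomputable def r45 : Tr := .c 5 q70 (.c 7 q20 (.c 8 q21 (.c 9 q71 .e)))
noncomputable def r46 : Tr := .c 1 q23 (.c 7 q20 (.c 8 q21 (.c 9 q71 .e)))
noncomputable def t10 : Tr := .c 0 r45 (.c 2 r41 (.c 3 r46 (.c 4 r42 (.c 5 r9 (.c 9 r44 .e)))))
noncomputable def q75 : Tr := .c 8 v28 .e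
noncomputable def v43 : Tr := .l 0x3083146183102
noncomputable def q76 : Tr := .c 4 v43 .e
noncomputable def r47 : Tr := .c 5 q75 (.c 7 q35 (.c 8 q36 (.c 9 q76 .e)))
noncomputable def r48 : Tr := .c 3 q37 (.c 5 q75 (.c 6 q38 (.c 7 q35 (.c 8 q36 (.c 9 q76 .e)))))
noncomputable def r49 : Tr := .c 1 q39 (.c 7 q35 (.c 8 q36 (.c 9 q76 .e)))
noncomputable def r50 : Tr := .c 0 q41 (.c 1 q39 (.c 6 q38 (.c 7 q35 (.c 8 q36 (.c 9 q76 .e)))))
noncomputable def q77 : Tr := .c 8 v23 .e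
noncomputable def r51 : Tr := .c 1 q39 (.c 5 q77 (.c 8 q36 (.c 9 q76 .e)))
noncomputable def t11 : Tr := .c 0 r47 (.c 2 r48 (.c 3 r49 (.c 4 r50 (.c 5 r18 (.c 6 r51 .e)))))
noncomputable def q78 : Tr := .c 4 v1 (.c 5 v0 (.c 7 v0 (.c 8 v2 (.c 9 v3 .e))))
noncomputable def q79 : Tr := .c 4 v1 (.c 5 v0 (.c 9 v3 .e))
noncomputable def q80 : Tr := .c 4 v1 (.c 5 v19 (.c 8 v1 (.c 9 v23 .e)))
noncomputable def q81 : Tr := .c 4 v1 (.c 5 v19 (.c 9 v23 .e))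
noncomputable def r52 : Tr := .c 0 q78 (.c 1 q79 (.c 6 q80 (.c 7 q81 .e)))
noncomputable def q82 : Tr := .c 4 v0 (.c 5 v1 (.c 9 v39 .e))
noncomputable def q83 : Tr := .c 5 v1 (.c 7 v0 (.c 8 v2 (.c 9 v39 .e)))
noncomputable def v44 : Tr := .l 0x6186186186145
noncomputable def q84 : Tr := .c 4 v19 (.c 5 v1 (.c 8 v44 (.c 9 v1 .e)))
noncomputable def q85 : Tr := .c 4 v19 (.c 5 v1 (.c 9 v1 .e))
noncomputable def r53 : Tr := .c 0 q51 (.c 1 q82 (.c 2 q83 (.c 6 q84 (.c 7 q85 .e))))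
noncomputable def r54 : Tr := .c 0 q5 (.c 2 q6 (.c 3 q8 (.c 4 q8 (.c 5 q53 .e))))
noncomputable def v45 : Tr := .l 0x5185186185184
noncomputable def q86 : Tr := .c 4 v9 (.c 5 v9 (.c 7 v9 (.c 8 v1 (.c 9 v45 .e))))
noncomputable def q87 : Tr := .c 5 v9 (.c 7 v9 (.c 8 v1 (.c 9 v45 .e)))
noncomputable def q88 : Tr := .c 7 v9 (.c 8 v1 (.c 9 v45 .e))
noncomputable def v46 : Tr := .l 0x6184186146145
noncomputable def q89 : Tr := .c 4 v1 (.c 5 v46 (.c 8 v1 (.c 9 v45 .e)))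
noncomputable def r55 : Tr := .c 0 q86 (.c 2 q87 (.c 3 q88 (.c 4 q88 (.c 5 q54 (.c 6 q89 .e)))))
noncomputable def q90 : Tr := .c 4 v12 (.c 5 v39 (.c 7 v12 (.c 8 v23 (.c 9 v1 .e))))
noncomputable def q91 : Tr := .c 4 v12 (.c 5 v39 (.c 9 v1 .e))
noncomputable def q92 : Tr := .c 5 v39 (.c 7 v12 (.c 8 v23 (.c 9 v1 .e)))
noncomputable def q93 : Tr := .c 7 v12 (.c 8 v23 (.c 9 v1 .e))
noncomputable def q94 : Tr := .c 4 v23 (.c 5 v1 (.c 8 v23 (.c 9 v1 .e)))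
noncomputable def q95 : Tr := .c 4 v23 (.c 5 v1 (.c 9 v1 .e))
noncomputable def r56 : Tr := .c 0 q90 (.c 1 q91 (.c 2 q92 (.c 3 q93 (.c 4 q93 (.c 6 q94 (.c 7 q95 .e))))))
noncomputable def t12 : Tr := .c 4 r52 (.c 5 r53 (.c 7 r54 (.c 8 r55 (.c 9 r56 .e))))
noncomputable def q96 : Tr := .c 4 v19 .e
noncomputable def r57 : Tr := .c 1 q57 (.c 2 q53 (.c 7 q96 .e))
noncomputable def q97 : Tr := .c 4 v19 (.c 8 v44 .e)
noncomputable def r58 : Tr := .c 0 q62 (.c 1 q57 (.c 2 q53 (.c 6 q97 (.c 7 q96 .e))))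
noncomputable def r59 : Tr := .c 1 q57 (.c 2 q53 (.c 4 q53 (.c 5 q53 .e)))
noncomputable def r60 : Tr := .c 0 q62 (.c 2 q53 (.c 3 q53 (.c 4 q53 (.c 5 q53 .e))))
noncomputable def q98 : Tr := .c 4 v1 (.c 8 v1 .e)
noncomputable def r61 : Tr := .c 0 q63 (.c 2 q54 (.c 3 q54 (.c 4 q54 (.c 5 q54 (.c 6 q98 .e)))))
noncomputable def q99 : Tr := .c 4 v12 (.c 7 v12 (.c 8 v23 .e))
noncomputable def q100 : Tr := .c 7 v12 (.c 8 v23 .e)
noncomputable def q101 : Tr := .c 4 v23 (.c 8 v23 .e)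
noncomputable def q102 : Tr := .c 4 v23 .e
noncomputable def r62 : Tr := .c 0 q99 (.c 1 q66 (.c 2 q100 (.c 3 q100 (.c 4 q100 (.c 6 q101 (.c 7 q102 .e))))))
noncomputable def t13 : Tr := .c 3 r57 (.c 5 r58 (.c 6 r59 (.c 7 r60 (.c 8 r61 (.c 9 r62 .e)))))
noncomputable def v47 : Tr := .l 0x5184186145144
noncomputable def q103 : Tr := .c 7 v19 (.c 8 v1 (.c 9 v47 .e))
noncomputable def q104 : Tr := .c 7 v19 (.c 8 v1 .e)
noncomputable def q105 : Tr := .c 4 v15 (.c 5 v33 (.c 8 v1 (.c 9 v47 .e)))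
noncomputable def r63 : Tr := .c 3 q103 (.c 4 q103 (.c 5 q104 (.c 6 q105 .e)))
noncomputable def q106 : Tr := .c 4 v15 (.c 5 v33 (.c 9 v47 .e))
noncomputable def r64 : Tr := .c 3 q103 (.c 5 q104 (.c 6 q105 (.c 7 q106 .e)))
noncomputable def t14 : Tr := .c 1 r63 (.c 2 r64 (.c 7 r54 (.c 8 r55 (.c 9 r56 .e))))
noncomputable def q107 : Tr := .c 4 v1 .e
noncomputable def r65 : Tr := .c 4 q104 (.c 5 q104 (.c 7 q107 .e))
noncomputable def q108 : Tr := .c 4 v15 (.c 8 v1 .e)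
noncomputable def r66 : Tr := .c 3 q104 (.c 4 q104 (.c 5 q104 (.c 6 q108 .e)))
noncomputable def t15 : Tr := .c 0 r65 (.c 1 r66 (.c 6 r59 (.c 7 r60 (.c 8 r61 (.c 9 r62 .e)))))
noncomputable def q109 : Tr := .c 5 v33 (.c 9 v47 .e)
noncomputable def r67 : Tr := .c 4 q103 (.c 5 q104 (.c 7 q109 .e))
noncomputable def q110 : Tr := .c 5 v33 (.c 8 v1 (.c 9 v47 .e))
noncomputable def r68 : Tr := .c 3 q103 (.c 4 q103 (.c 5 q104 (.c 6 q110 .e)))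
noncomputable def r69 : Tr := .c 3 q103 (.c 5 q104 (.c 6 q110 (.c 7 q109 .e)))
noncomputable def q111 : Tr := .c 5 v0 (.c 9 v3 .e)
noncomputable def r70 : Tr := .c 1 q111 (.c 2 q6 (.c 4 q8 (.c 5 q53 .e)))
noncomputable def r71 : Tr := .c 0 q6 (.c 2 q6 (.c 3 q8 (.c 4 q8 (.c 5 q53 .e))))
noncomputable def q112 : Tr := .c 5 v46 (.c 8 v1 (.c 9 v45 .e))
noncomputable def r72 : Tr := .c 0 q87 (.c 2 q87 (.c 3 q88 (.c 4 q88 (.c 5 q54 (.c 6 q112 .e)))))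
noncomputable def t16 : Tr := .c 0 r67 (.c 1 r68 (.c 2 r69 (.c 6 r70 (.c 7 r71 (.c 8 r72 .e)))))
noncomputable def q113 : Tr := .c 8 v32 .e
noncomputable def r73 : Tr := .c 4 q43 (.c 5 q113 (.c 7 q44 .e))
noncomputable def r74 : Tr := .c 3 q43 (.c 4 q43 (.c 5 q113 (.c 6 q46 .e)))
noncomputable def r75 : Tr := .c 3 q43 (.c 5 q113 (.c 6 q46 (.c 7 q44 .e)))
noncomputable def r76 : Tr := .c 1 q47 (.c 2 q48 (.c 7 q44 .e))
noncomputable def r77 : Tr := .c 0 q48 (.c 1 q47 (.c 6 q46 (.c 7 q44 .e)))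
noncomputable def r78 : Tr := .c 1 q47 (.c 2 q48 (.c 4 q49 (.c 5 q77 .e)))
noncomputable def r79 : Tr := .c 0 q48 (.c 2 q48 (.c 3 q49 (.c 4 q49 (.c 5 q77 .e))))
noncomputable def t17 : Tr := .c 0 r73 (.c 1 r74 (.c 2 r75 (.c 3 r76 (.c 4 r77 (.c 6 r78 (.c 7 r79 .e))))))
noncomputable def v48 : Tr := .l 0x4146146184183
noncomputable def q114 : Tr := .c 4 v48 (.c 5 v48 (.c 7 v48 (.c 8 v1 (.c 9 v23 .e))))
noncomputable def q115 : Tr := .c 4 v48 (.c 5 v48 (.c 9 v23 .e))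
noncomputable def v49 : Tr := .l 0x5106186183184
noncomputable def q116 : Tr := .c 4 v49 (.c 5 v49 .e)
noncomputable def q117 : Tr := .c 4 v23 (.c 7 v23 .e)
noncomputable def r80 : Tr := .c 0 q114 (.c 1 q115 (.c 8 q116 (.c 9 q117 .e)))
noncomputable def q118 : Tr := .c 5 v48 (.c 7 v48 (.c 8 v1 (.c 9 v23 .e)))
noncomputable def r81 : Tr := .c 0 q114 (.c 1 q115 (.c 2 q118 (.c 8 q116 .e)))
noncomputable def q119 : Tr := .c 7 v48 (.c 8 v1 (.c 9 v23 .e))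
noncomputable def q120 : Tr := .c 7 v48 (.c 8 v1 .e)
noncomputable def r82 : Tr := .c 0 q114 (.c 2 q118 (.c 3 q119 (.c 4 q119 (.c 5 q120 (.c 9 q117 .e)))))
noncomputable def q121 : Tr := .c 4 v1 (.c 5 v1 (.c 7 v1 (.c 8 v1 (.c 9 v1 .e))))
noncomputable def q122 : Tr := .c 5 v1 (.c 7 v1 (.c 8 v1 (.c 9 v1 .e)))
noncomputable def q123 : Tr := .c 7 v1 (.c 8 v1 (.c 9 v1 .e))
noncomputable def q124 : Tr := .c 7 v1 (.c 8 v1 .e)
noncomputable def r83 : Tr := .c 0 q121 (.c 2 q122 (.c 3 q123 (.c 4 q123 (.c 5 q124 .e))))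
noncomputable def v50 : Tr := .l 0x5186105185184
noncomputable def v51 : Tr := .l 0x6186146186145
noncomputable def q125 : Tr := .c 4 v50 (.c 5 v50 (.c 7 v23 (.c 8 v1 (.c 9 v51 .e))))
noncomputable def q126 : Tr := .c 4 v50 (.c 5 v50 (.c 9 v51 .e))
noncomputable def q127 : Tr := .c 5 v50 (.c 7 v23 (.c 8 v1 (.c 9 v51 .e)))
noncomputable def q128 : Tr := .c 7 v23 (.c 8 v1 (.c 9 v51 .e))
noncomputable def r84 : Tr := .c 0 q125 (.c 1 q126 (.c 2 q127 (.c 3 q128 (.c 4 q128 .e))))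
noncomputable def t18 : Tr := .c 4 r80 (.c 5 r81 (.c 7 r82 (.c 8 r83 (.c 9 r84 .e))))
noncomputable def q129 : Tr := .c 4 v48 .e
noncomputable def q130 : Tr := .c 4 v49 .e
noncomputable def r85 : Tr := .c 1 q129 (.c 2 q120 (.c 8 q130 (.c 9 q117 .e)))
noncomputable def q131 : Tr := .c 4 v48 (.c 7 v48 (.c 8 v1 .e))
noncomputable def r86 : Tr := .c 0 q131 (.c 1 q129 (.c 2 q120 (.c 8 q130 .e)))
noncomputable def r87 : Tr := .c 1 q129 (.c 2 q120 (.c 4 q120 (.c 5 q120 (.c 8 q130 (.c 9 q117 .e)))))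
noncomputable def r88 : Tr := .c 0 q131 (.c 2 q120 (.c 3 q120 (.c 4 q120 (.c 5 q120 (.c 9 q117 .e)))))
noncomputable def q132 : Tr := .c 4 v1 (.c 7 v1 (.c 8 v1 .e))
noncomputable def r89 : Tr := .c 0 q132 (.c 2 q124 (.c 3 q124 (.c 4 q124 (.c 5 q124 .e))))
noncomputable def q133 : Tr := .c 4 v50 (.c 7 v23 (.c 8 v1 .e))
noncomputable def q134 : Tr := .c 4 v50 .e
noncomputable def q135 : Tr := .c 7 v23 (.c 8 v1 .e)
noncomputable def r90 : Tr := .c 0 q133 (.c 1 q134 (.c 2 q135 (.c 3 q135 (.c 4 q135 .e))))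
noncomputable def t19 : Tr := .c 3 r85 (.c 5 r86 (.c 6 r87 (.c 7 r88 (.c 8 r89 (.c 9 r90 .e)))))
noncomputable def q136 : Tr := .c 7 v1 (.c 8 v15 (.c 9 v15 .e))
noncomputable def q137 : Tr := .c 7 v1 (.c 8 v15 .e)
noncomputable def v52 : Tr := .l 0x6186185186186
noncomputable def q138 : Tr := .c 4 v52 (.c 7 v52 .e)
noncomputable def r91 : Tr := .c 3 q136 (.c 4 q136 (.c 5 q137 (.c 9 q138 .e)))
noncomputable def v53 : Tr := .l 0x6186103186186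
noncomputable def q139 : Tr := .c 4 v53 (.c 5 v53 .e)
noncomputable def r92 : Tr := .c 3 q136 (.c 5 q137 (.c 8 q139 (.c 9 q138 .e)))
noncomputable def t20 : Tr := .c 1 r91 (.c 2 r92 (.c 7 r82 (.c 8 r83 (.c 9 r84 .e))))
noncomputable def r93 : Tr := .c 4 q137 (.c 5 q137 (.c 8 q107 (.c 9 q138 .e)))
noncomputable def r94 : Tr := .c 3 q137 (.c 4 q137 (.c 5 q137 (.c 9 q138 .e)))
noncomputable def t21 : Tr := .c 0 r93 (.c 1 r94 (.c 6 r87 (.c 7 r88 (.c 8 r89 (.c 9 r90 .e)))))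
noncomputable def q140 : Tr := .c 5 v53 .e
noncomputable def q141 : Tr := .c 7 v52 .e
noncomputable def r95 : Tr := .c 4 q136 (.c 5 q137 (.c 8 q140 (.c 9 q141 .e)))
noncomputable def r96 : Tr := .c 3 q136 (.c 4 q136 (.c 5 q137 (.c 9 q141 .e)))
noncomputable def r97 : Tr := .c 3 q136 (.c 5 q137 (.c 8 q140 (.c 9 q141 .e)))
noncomputable def q142 : Tr := .c 5 v48 (.c 9 v23 .e)
noncomputable def q143 : Tr := .c 5 v23 .e
noncomputable def r98 : Tr := .c 1 q142 (.c 2 q118 (.c 4 q119 (.c 5 q120 (.c 8 q143 (.c 9 q33 .e)))))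
noncomputable def r99 : Tr := .c 0 q118 (.c 2 q118 (.c 3 q119 (.c 4 q119 (.c 5 q120 (.c 9 q33 .e)))))
noncomputable def r100 : Tr := .c 0 q122 (.c 2 q122 (.c 3 q123 (.c 4 q123 (.c 5 q124 .e))))
noncomputable def t22 : Tr := .c 0 r95 (.c 1 r96 (.c 2 r97 (.c 6 r98 (.c 7 r99 (.c 8 r100 .e)))))
noncomputable def r101 : Tr := .c 3 q28 (.c 4 q28 (.c 5 q28 (.c 9 q138 .e)))
noncomputable def r102 : Tr := .c 3 q28 (.c 5 q28 (.c 8 q139 (.c 9 q138 .e)))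
noncomputable def v54 : Tr := .l 0x61860c4186185
noncomputable def q144 : Tr := .c 4 v54 (.c 5 v54 (.c 7 v1 .e))
noncomputable def q145 : Tr := .c 4 v54 (.c 5 v54 .e)
noncomputable def r103 : Tr := .c 0 q144 (.c 1 q145 (.c 8 q139 (.c 9 q138 .e)))
noncomputable def v55 : Tr := .l 0x6186146186185
noncomputable def q146 : Tr := .c 4 v54 (.c 5 v54 (.c 7 v55 .e))
noncomputable def q147 : Tr := .c 5 v54 (.c 7 v55 .e)
noncomputable def r104 : Tr := .c 0 q146 (.c 1 q145 (.c 2 q147 (.c 8 q139 .e)))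
noncomputable def q148 : Tr := .c 4 v1 (.c 5 v1 (.c 7 v1 .e))
noncomputable def q149 : Tr := .c 5 v1 (.c 7 v1 .e)
noncomputable def r105 : Tr := .c 0 q148 (.c 2 q149 (.c 3 q28 (.c 4 q28 (.c 5 q28 .e))))
noncomputable def q150 : Tr := .c 4 v50 (.c 5 v50 (.c 7 v23 .e))
noncomputable def q151 : Tr := .c 4 v50 (.c 5 v50 .e)
noncomputable def q152 : Tr := .c 5 v50 (.c 7 v23 .e)
noncomputable def r106 : Tr := .c 0 q150 (.c 1 q151 (.c 2 q152 (.c 3 q33 (.c 4 q33 .e))))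
noncomputable def t23 : Tr := .c 1 r101 (.c 2 r102 (.c 4 r103 (.c 5 r104 (.c 8 r105 (.c 9 r106 .e)))))
noncomputable def v56 : Tr := .l 0x20c50c4182101
noncomputable def v57 : Tr := .l 0x3105105183102
noncomputable def q153 : Tr := .c 4 v56 (.c 5 v56 (.c 7 v56 (.c 8 v23 (.c 9 v57 .e))))
noncomputable def q154 : Tr := .c 4 v56 (.c 5 v56 (.c 9 v57 .e))
noncomputable def v58 : Tr := .l 0x3086104181142
noncomputable def q155 : Tr := .c 4 v58 (.c 5 v58 .e)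
noncomputable def v59 : Tr := .l 0x3105105183142
noncomputable def q156 : Tr := .c 4 v59 (.c 7 v59 .e)
noncomputable def r107 : Tr := .c 0 q153 (.c 1 q154 (.c 8 q155 (.c 9 q156 .e)))
noncomputable def q157 : Tr := .c 4 v56 (.c 5 v56 (.c 7 v39 (.c 8 v23 (.c 9 v57 .e))))
noncomputable def r108 : Tr := .c 0 q157 (.c 1 q154 (.c 8 q155 .e))
noncomputable def q158 : Tr := .c 4 v56 (.c 5 v39 (.c 7 v56 (.c 8 v23 (.c 9 v1 .e))))
noncomputable def q159 : Tr := .c 7 v56 (.c 8 v23 (.c 9 v1 .e))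
noncomputable def q160 : Tr := .c 7 v56 (.c 8 v23 .e)
noncomputable def r109 : Tr := .c 0 q158 (.c 3 q159 (.c 5 q160 (.c 9 q156 .e)))
noncomputable def v60 : Tr := .l 0x5186105145184
noncomputable def v61 : Tr := .l 0x5186185185184
noncomputable def q161 : Tr := .c 4 v60 (.c 5 v60 (.c 7 v61 (.c 8 v1 (.c 9 v51 .e))))
noncomputable def q162 : Tr := .c 7 v61 (.c 8 v1 (.c 9 v51 .e))
noncomputable def q163 : Tr := .c 7 v61 (.c 8 v1 .e)
noncomputable def r110 : Tr := .c 0 q161 (.c 3 q162 (.c 5 q163 .e))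
noncomputable def v62 : Tr := .l 0x3105083143102
noncomputable def v63 : Tr := .l 0x41440c41840c3
noncomputable def q164 : Tr := .c 4 v62 (.c 5 v62 (.c 7 v1 (.c 8 v51 (.c 9 v63 .e))))
noncomputable def q165 : Tr := .c 4 v62 (.c 5 v62 (.c 9 v63 .e))
noncomputable def q166 : Tr := .c 7 v1 (.c 8 v51 (.c 9 v63 .e))
noncomputable def r111 : Tr := .c 0 q164 (.c 1 q165 (.c 3 q166 .e))
noncomputable def t24 : Tr := .c 4 r107 (.c 5 r108 (.c 7 r109 (.c 8 r110 (.c 9 r111 .e))))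
noncomputable def r112 : Tr := .c 1 q154 (.c 8 q155 (.c 9 q156 .e))
noncomputable def r113 : Tr := .c 1 q154 (.c 5 q160 (.c 8 q155 (.c 9 q156 .e)))
noncomputable def t25 : Tr := .c 3 r112 (.c 4 r107 (.c 5 r108 (.c 6 r113 (.c 9 r111 .e))))
noncomputable def q167 : Tr := .c 4 v56 .e
noncomputable def q168 : Tr := .c 4 v58 .e
noncomputable def r114 : Tr := .c 1 q167 (.c 8 q168 (.c 9 q156 .e))
noncomputable def q169 : Tr := .c 4 v56 (.c 7 v39 (.c 8 v23 .e))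
noncomputable def r115 : Tr := .c 0 q169 (.c 1 q167 (.c 8 q168 .e))
noncomputable def r116 : Tr := .c 1 q167 (.c 5 q160 (.c 8 q168 (.c 9 q156 .e)))
noncomputable def q170 : Tr := .c 4 v56 (.c 7 v56 (.c 8 v23 .e))
noncomputable def r117 : Tr := .c 0 q170 (.c 3 q160 (.c 5 q160 (.c 9 q156 .e)))
noncomputable def q171 : Tr := .c 4 v60 (.c 7 v61 (.c 8 v1 .e))
noncomputable def r118 : Tr := .c 0 q171 (.c 3 q163 (.c 5 q163 .e))
noncomputable def q172 : Tr := .c 4 v62 (.c 7 v1 (.c 8 v51 .e))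
noncomputable def q173 : Tr := .c 4 v62 .e
noncomputable def q174 : Tr := .c 7 v1 (.c 8 v51 .e)
noncomputable def r119 : Tr := .c 0 q172 (.c 1 q173 (.c 3 q174 .e))
noncomputable def t26 : Tr := .c 3 r114 (.c 5 r115 (.c 6 r116 (.c 7 r117 (.c 8 r118 (.c 9 r119 .e)))))
noncomputable def v64 : Tr := .l 0x5186144145184
noncomputable def q175 : Tr := .c 7 v64 (.c 8 v15 (.c 9 v1 .e))
noncomputable def q176 : Tr := .c 7 v64 (.c 8 v15 .e)
noncomputable def q177 : Tr := .c 4 v40 (.c 7 v40 .e)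
noncomputable def r120 : Tr := .c 3 q175 (.c 5 q176 (.c 9 q177 .e))
noncomputable def v65 : Tr := .l 0x5146081144184
noncomputable def q178 : Tr := .c 4 v65 (.c 5 v65 .e)
noncomputable def r121 : Tr := .c 3 q175 (.c 5 q176 (.c 8 q178 (.c 9 q177 .e)))
noncomputable def t27 : Tr := .c 1 r120 (.c 2 r121 (.c 7 r109 (.c 8 r110 (.c 9 r111 .e))))
noncomputable def v66 : Tr := .l 0x6146185184185
noncomputable def q179 : Tr := .c 4 v66 .e
noncomputable def r122 : Tr := .c 5 q176 (.c 8 q179 (.c 9 q177 .e))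
noncomputable def r123 : Tr := .c 3 q176 (.c 5 q176 (.c 9 q177 .e))
noncomputable def t28 : Tr := .c 0 r122 (.c 1 r123 (.c 6 r116 (.c 7 r117 (.c 8 r118 (.c 9 r119 .e)))))
noncomputable def q180 : Tr := .c 7 v64 .e
noncomputable def r124 : Tr := .c 3 q180 (.c 5 q180 (.c 9 q177 .e))
noncomputable def r125 : Tr := .c 3 q180 (.c 5 q180 (.c 8 q178 (.c 9 q177 .e)))
noncomputable def r126 : Tr := .c 0 q30 (.c 1 q31 (.c 8 q178 (.c 9 q177 .e)))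
noncomputable def r127 : Tr := .c 0 q74 (.c 1 q31 (.c 8 q178 .e))
noncomputable def q181 : Tr := .c 4 v60 (.c 5 v60 (.c 7 v61 .e))
noncomputable def q182 : Tr := .c 7 v61 .e
noncomputable def r128 : Tr := .c 0 q181 (.c 3 q182 (.c 5 q182 .e))
noncomputable def q183 : Tr := .c 4 v62 (.c 5 v62 (.c 7 v1 .e))
noncomputable def q184 : Tr := .c 4 v62 (.c 5 v62 .e)
noncomputable def r129 : Tr := .c 0 q183 (.c 1 q184 (.c 3 q28 .e))
noncomputable def t29 : Tr := .c 1 r124 (.c 2 r125 (.c 4 r126 (.c 5 r127 (.c 8 r128 (.c 9 r129 .e)))))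
noncomputable def r130 : Tr := .c 5 q180 (.c 8 q178 (.c 9 q177 .e))
noncomputable def r131 : Tr := .c 1 q31 (.c 8 q178 (.c 9 q177 .e))
noncomputable def t30 : Tr := .c 0 r130 (.c 2 r125 (.c 3 r131 (.c 4 r126 (.c 5 r127 (.c 9 r129 .e)))))
noncomputable def q185 : Tr := .c 3 v0 (.c 4 v0 (.c 5 v0 (.c 6 v0 (.c 9 v3 .e))))
noncomputable def q186 : Tr := .c 3 v0 (.c 5 v0 (.c 6 v0 (.c 9 v3 .e)))
noncomputable def q187 : Tr := .c 3 v4 (.c 4 v4 (.c 5 v4 (.c 9 v6 .e)))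
noncomputable def q188 : Tr := .c 3 v7 (.c 4 v7 (.c 5 v7 (.c 6 v7 .e)))
noncomputable def q189 : Tr := .c 3 v38 (.c 4 v38 (.c 6 v38 .e))
noncomputable def r132 : Tr := .c 1 q185 (.c 2 q186 (.c 7 q187 (.c 8 q188 (.c 9 q189 .e))))
noncomputable def r133 : Tr := .c 0 q1 (.c 1 q185 (.c 6 q3 (.c 7 q187 (.c 8 q188 (.c 9 q189 .e)))))
noncomputable def r134 : Tr := .c 0 q1 (.c 1 q185 (.c 2 q186 (.c 6 q3 (.c 7 q187 (.c 8 q188 .e)))))
noncomputable def q190 : Tr := .c 6 v0 (.c 9 v3 .e)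
noncomputable def q191 : Tr := .c 6 v0 .e
noncomputable def r135 : Tr := .c 1 q185 (.c 2 q186 (.c 4 q190 (.c 5 q191 (.c 8 q188 (.c 9 q189 .e)))))
noncomputable def q192 : Tr := .c 3 v12 (.c 4 v12 (.c 5 v12 (.c 6 v12 (.c 9 v14 .e))))
noncomputable def q193 : Tr := .c 3 v12 (.c 5 v12 (.c 6 v12 (.c 9 v14 .e)))
noncomputable def q194 : Tr := .c 9 v14 .e
noncomputable def q195 : Tr := .c 6 v12 (.c 9 v14 .e)
noncomputable def q196 : Tr := .c 3 v6 (.c 4 v6 (.c 5 v6 (.c 9 v14 .e)))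
noncomputable def r136 : Tr := .c 0 q14 (.c 1 q192 (.c 2 q193 (.c 3 q194 (.c 4 q195 (.c 6 q18 (.c 7 q196 .e))))))
noncomputable def t31 : Tr := .c 3 r132 (.c 4 r133 (.c 5 r134 (.c 6 r135 (.c 9 r136 .e))))
noncomputable def q197 : Tr := .c 3 v0 (.c 4 v0 (.c 6 v0 .e))
noncomputable def q198 : Tr := .c 3 v0 (.c 6 v0 .e)
noncomputable def q199 : Tr := .c 3 v4 (.c 4 v4 .e)
noncomputable def q200 : Tr := .c 3 v7 (.c 4 v7 (.c 6 v7 .e))
noncomputable def r137 : Tr := .c 1 q197 (.c 2 q198 (.c 7 q199 (.c 8 q200 (.c 9 q189 .e))))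
noncomputable def r138 : Tr := .c 0 q57 (.c 1 q197 (.c 2 q198 (.c 6 q58 (.c 7 q199 (.c 8 q200 .e)))))
noncomputable def r139 : Tr := .c 1 q197 (.c 2 q198 (.c 4 q191 (.c 5 q191 (.c 8 q200 (.c 9 q189 .e)))))
noncomputable def r140 : Tr := .c 0 q57 (.c 2 q198 (.c 4 q191 (.c 5 q191 (.c 9 q189 .e))))
noncomputable def q201 : Tr := .c 4 v9 .e
noncomputable def q202 : Tr := .c 3 v9 (.c 6 v9 .e)
noncomputable def q203 : Tr := .c 6 v9 .e
noncomputable def q204 : Tr := .c 4 v11 .e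
noncomputable def r141 : Tr := .c 0 q201 (.c 2 q202 (.c 4 q203 (.c 5 q203 (.c 6 q204 .e))))
noncomputable def q205 : Tr := .c 3 v12 (.c 4 v12 (.c 6 v12 .e))
noncomputable def q206 : Tr := .c 3 v12 (.c 6 v12 .e)
noncomputable def q207 : Tr := .c 6 v12 .e
noncomputable def q208 : Tr := .c 3 v6 (.c 4 v6 .e)
noncomputable def r142 : Tr := .c 0 q66 (.c 1 q205 (.c 2 q206 (.c 4 q207 (.c 6 q69 (.c 7 q208 .e)))))
noncomputable def t32 : Tr := .c 3 r137 (.c 5 r138 (.c 6 r139 (.c 7 r140 (.c 8 r141 (.c 9 r142 .e)))))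
noncomputable def q209 : Tr := .c 6 v1 .e
noncomputable def q210 : Tr := .c 6 v40 .e
noncomputable def q211 : Tr := .c 3 v16 (.c 4 v16 (.c 5 v16 .e))
noncomputable def q212 : Tr := .c 3 v17 (.c 4 v17 (.c 5 v17 (.c 6 v17 .e)))
noncomputable def q213 : Tr := .c 3 v41 (.c 4 v41 (.c 6 v41 .e))
noncomputable def r143 : Tr := .c 4 q209 (.c 5 q210 (.c 7 q211 (.c 8 q212 (.c 9 q213 .e))))
noncomputable def r144 : Tr := .c 5 q210 (.c 6 q20 (.c 7 q211 (.c 8 q212 (.c 9 q213 .e))))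
noncomputable def q214 : Tr := .c 3 v18 (.c 4 v18 (.c 5 v18 (.c 6 v18 .e)))
noncomputable def q215 : Tr := .c 3 v18 (.c 5 v18 (.c 6 v18 .e))
noncomputable def r145 : Tr := .c 1 q214 (.c 2 q215 (.c 7 q211 (.c 8 q212 (.c 9 q213 .e))))
noncomputable def r146 : Tr := .c 0 q23 (.c 1 q214 (.c 6 q20 (.c 7 q211 (.c 8 q212 (.c 9 q213 .e)))))
noncomputable def r147 : Tr := .c 0 q23 (.c 1 q214 (.c 2 q215 (.c 6 q20 (.c 7 q211 (.c 8 q212 .e)))))
noncomputable def q216 : Tr := .c 3 v22 (.c 4 v22 (.c 5 v22 (.c 6 v22 .e)))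
noncomputable def q217 : Tr := .c 3 v22 (.c 5 v22 (.c 6 v22 .e))
noncomputable def q218 : Tr := .c 6 v22 .e
noncomputable def q219 : Tr := .c 3 v21 (.c 4 v21 (.c 5 v21 .e))
noncomputable def r148 : Tr := .c 0 q31 (.c 1 q216 (.c 2 q217 (.c 4 q218 (.c 6 q29 (.c 7 q219 .e)))))
noncomputable def t33 : Tr := .c 0 r143 (.c 2 r144 (.c 3 r145 (.c 4 r146 (.c 5 r147 (.c 9 r148 .e)))))
noncomputable def q220 : Tr := .c 9 v24 .e
noncomputable def q221 : Tr := .c 3 v25 (.c 4 v25 (.c 5 v25 (.c 9 v26 .e)))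
noncomputable def q222 : Tr := .c 3 v27 (.c 4 v27 (.c 5 v27 .e))
noncomputable def q223 : Tr := .c 3 v43 (.c 4 v43 .e)
noncomputable def r149 : Tr := .c 4 q220 (.c 7 q221 (.c 8 q222 (.c 9 q223 .e)))
noncomputable def q224 : Tr := .c 9 v26 .e
noncomputable def r150 : Tr := .c 3 q224 (.c 6 q35 (.c 7 q221 (.c 8 q222 (.c 9 q223 .e))))
noncomputable def q225 : Tr := .c 3 v29 (.c 4 v29 (.c 5 v29 (.c 9 v30 .e)))
noncomputable def q226 : Tr := .c 3 v29 (.c 5 v29 (.c 9 v30 .e))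
noncomputable def r151 : Tr := .c 1 q225 (.c 2 q226 (.c 7 q221 (.c 8 q222 (.c 9 q223 .e))))
noncomputable def r152 : Tr := .c 0 q39 (.c 1 q225 (.c 6 q35 (.c 7 q221 (.c 8 q222 (.c 9 q223 .e)))))
noncomputable def r153 : Tr := .c 0 q39 (.c 1 q225 (.c 2 q226 (.c 6 q35 (.c 7 q221 (.c 8 q222 .e)))))
noncomputable def q227 : Tr := .c 9 v30 .e
noncomputable def r154 : Tr := .c 1 q225 (.c 2 q226 (.c 4 q227 (.c 8 q222 (.c 9 q223 .e))))
noncomputable def t34 : Tr := .c 0 r149 (.c 2 r150 (.c 3 r151 (.c 4 r152 (.c 5 r153 (.c 6 r154 .e)))))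
noncomputable def q228 : Tr := .c 9 v33 .e
noncomputable def q229 : Tr := .c 3 v34 (.c 5 v34 (.c 9 v33 .e))
noncomputable def q230 : Tr := .c 3 v35 (.c 5 v35 .e)
noncomputable def v67 : Tr := .l 0x5105185185184
noncomputable def q231 : Tr := .c 3 v67 .e
noncomputable def r155 : Tr := .c 4 q228 (.c 7 q229 (.c 8 q230 (.c 9 q231 .e)))
noncomputable def r156 : Tr := .c 3 q228 (.c 4 q228 (.c 6 q44 (.c 9 q231 .e)))
noncomputable def r157 : Tr := .c 3 q228 (.c 6 q44 (.c 7 q229 (.c 8 q230 (.c 9 q231 .e))))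
noncomputable def q232 : Tr := .c 3 v36 (.c 5 v36 (.c 9 v37 .e))
noncomputable def r158 : Tr := .c 1 q232 (.c 2 q232 (.c 7 q229 (.c 8 q230 (.c 9 q231 .e))))
noncomputable def r159 : Tr := .c 0 q47 (.c 1 q232 (.c 6 q44 (.c 7 q229 (.c 8 q230 (.c 9 q231 .e)))))
noncomputable def q233 : Tr := .c 9 v37 .e
noncomputable def r160 : Tr := .c 1 q232 (.c 2 q232 (.c 4 q233 (.c 8 q230 (.c 9 q231 .e))))
noncomputable def r161 : Tr := .c 0 q47 (.c 2 q232 (.c 3 q233 (.c 4 q233 (.c 9 q231 .e))))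
noncomputable def t35 : Tr := .c 0 r155 (.c 1 r156 (.c 2 r157 (.c 3 r158 (.c 4 r159 (.c 6 r160 (.c 7 r161 .e))))))
noncomputable def r162 : Tr := .c 0 q1 (.c 1 q185 (.c 6 q3 (.c 7 q187 (.c 8 q188 .e))))
noncomputable def q234 : Tr := .c 4 v8 (.c 5 v0 (.c 9 v3 .e))
noncomputable def q235 : Tr := .c 9 v3 .e
noncomputable def r163 : Tr := .c 0 q234 (.c 2 q186 (.c 3 q235 (.c 4 q190 .e)))
noncomputable def q236 : Tr := .c 4 v9 (.c 5 v9 (.c 9 v10 .e))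
noncomputable def q237 : Tr := .c 3 v9 (.c 5 v9 (.c 6 v9 (.c 9 v10 .e)))
noncomputable def q238 : Tr := .c 9 v10 .e
noncomputable def q239 : Tr := .c 6 v9 (.c 9 v10 .e)
noncomputable def q240 : Tr := .c 4 v11 (.c 5 v11 (.c 9 v10 .e))
noncomputable def r164 : Tr := .c 0 q236 (.c 2 q237 (.c 3 q238 (.c 4 q239 (.c 6 q240 .e))))
noncomputable def t36 : Tr := .c 4 r162 (.c 5 r134 (.c 7 r163 (.c 8 r164 (.c 9 r136 .e))))
noncomputable def r165 : Tr := .c 1 q185 (.c 2 q186 (.c 7 q187 (.c 8 q188 .e)))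
noncomputable def r166 : Tr := .c 1 q185 (.c 2 q186 (.c 4 q190 (.c 8 q188 .e)))
noncomputable def t37 : Tr := .c 3 r165 (.c 4 r162 (.c 5 r134 (.c 6 r166 (.c 9 r136 .e))))
noncomputable def v68 : Tr := .l 0x6186105146186
noncomputable def q241 : Tr := .c 6 v68 .e
noncomputable def r167 : Tr := .c 4 q241 (.c 6 q20 .e)
noncomputable def r168 : Tr := .c 6 q20 (.c 7 q211 (.c 8 q212 .e))
noncomputable def r169 : Tr := .c 0 q23 (.c 1 q214 (.c 6 q20 (.c 7 q211 (.c 8 q212 .e))))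
noncomputable def q242 : Tr := .c 4 v20 (.c 5 v20 .e)
noncomputable def q243 : Tr := .c 3 v20 (.c 5 v20 (.c 6 v20 .e))
noncomputable def q244 : Tr := .c 6 v20 .e
noncomputable def r170 : Tr := .c 0 q242 (.c 2 q243 (.c 4 q244 (.c 6 q29 .e)))
noncomputable def t38 : Tr := .c 1 r167 (.c 2 r168 (.c 4 r169 (.c 5 r147 (.c 8 r170 (.c 9 r148 .e)))))
noncomputable def r171 : Tr := .c 4 q209 (.c 7 q211 (.c 8 q212 .e))
noncomputable def r172 : Tr := .c 1 q214 (.c 2 q215 (.c 7 q211 (.c 8 q212 .e)))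
noncomputable def t39 : Tr := .c 0 r171 (.c 2 r168 (.c 3 r172 (.c 4 r169 (.c 5 r147 (.c 9 r148 .e)))))
noncomputable def r173 : Tr := .c 4 q220 (.c 7 q221 (.c 8 q222 .e))
noncomputable def r174 : Tr := .c 3 q224 (.c 6 q35 (.c 7 q221 (.c 8 q222 .e)))
noncomputable def r175 : Tr := .c 1 q225 (.c 2 q226 (.c 7 q221 (.c 8 q222 .e)))
noncomputable def r176 : Tr := .c 0 q39 (.c 1 q225 (.c 6 q35 (.c 7 q221 (.c 8 q222 .e))))
noncomputable def r177 : Tr := .c 1 q225 (.c 2 q226 (.c 4 q227 (.c 8 q222 .e)))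
noncomputable def t40 : Tr := .c 0 r173 (.c 2 r174 (.c 3 r175 (.c 4 r176 (.c 5 r153 (.c 6 r177 .e)))))
noncomputable def r178 : Tr := .c 4 q228 (.c 7 q229 (.c 8 q230 .e))
noncomputable def r179 : Tr := .c 3 q228 (.c 4 q228 (.c 6 q44 .e))
noncomputable def r180 : Tr := .c 3 q228 (.c 6 q44 (.c 7 q229 (.c 8 q230 .e)))
noncomputable def r181 : Tr := .c 1 q232 (.c 2 q232 (.c 7 q229 (.c 8 q230 .e)))
noncomputable def r182 : Tr := .c 0 q47 (.c 1 q232 (.c 6 q44 (.c 7 q229 (.c 8 q230 .e))))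
noncomputable def r183 : Tr := .c 1 q232 (.c 2 q232 (.c 4 q233 (.c 8 q230 .e)))
noncomputable def r184 : Tr := .c 0 q47 (.c 2 q232 (.c 3 q233 (.c 4 q233 .e)))
noncomputable def t41 : Tr := .c 0 r178 (.c 1 r179 (.c 2 r180 (.c 3 r181 (.c 4 r182 (.c 6 r183 (.c 7 r184 .e))))))
noncomputable def q245 : Tr := .c 9 v39 .e
noncomputable def r185 : Tr := .c 0 q82 (.c 3 q245 (.c 5 q191 (.c 9 q189 .e)))
noncomputable def r186 : Tr := .c 0 q236 (.c 3 q238 (.c 5 q203 (.c 6 q240 .e)))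
noncomputable def r187 : Tr := .c 0 q14 (.c 1 q192 (.c 3 q194 (.c 6 q18 (.c 7 q196 .e))))
noncomputable def t42 : Tr := .c 4 r133 (.c 5 r162 (.c 7 r185 (.c 8 r186 (.c 9 r187 .e))))
noncomputable def r188 : Tr := .c 1 q185 (.c 7 q187 (.c 8 q188 (.c 9 q189 .e)))
noncomputable def r189 : Tr := .c 1 q185 (.c 5 q191 (.c 8 q188 (.c 9 q189 .e)))
noncomputable def t43 : Tr := .c 3 r188 (.c 4 r133 (.c 5 r162 (.c 6 r189 (.c 9 r187 .e))))
noncomputable def r190 : Tr := .c 1 q197 (.c 7 q199 (.c 8 q200 (.c 9 q189 .e)))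
noncomputable def r191 : Tr := .c 0 q57 (.c 1 q197 (.c 6 q58 (.c 7 q199 (.c 8 q200 .e))))
noncomputable def r192 : Tr := .c 1 q197 (.c 5 q191 (.c 8 q200 (.c 9 q189 .e)))
noncomputable def r193 : Tr := .c 0 q57 (.c 5 q191 (.c 9 q189 .e))
noncomputable def r194 : Tr := .c 0 q201 (.c 5 q203 (.c 6 q204 .e))
noncomputable def r195 : Tr := .c 0 q66 (.c 1 q205 (.c 6 q69 (.c 7 q208 .e)))
noncomputable def t44 : Tr := .c 3 r190 (.c 5 r191 (.c 6 r192 (.c 7 r193 (.c 8 r194 (.c 9 r195 .e)))))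
noncomputable def r196 : Tr := .c 5 q210 (.c 6 q20 (.c 9 q213 .e))
noncomputable def q246 : Tr := .c 6 v42 .e
noncomputable def r197 : Tr := .c 0 q242 (.c 5 q246 (.c 6 q29 .e))
noncomputable def r198 : Tr := .c 0 q31 (.c 1 q216 (.c 6 q29 (.c 7 q219 .e)))
noncomputable def t45 : Tr := .c 1 r196 (.c 2 r144 (.c 4 r146 (.c 5 r169 (.c 8 r197 (.c 9 r198 .e)))))
noncomputable def r199 : Tr := .c 5 q210 (.c 7 q211 (.c 8 q212 (.c 9 q213 .e)))
noncomputable def r200 : Tr := .c 1 q214 (.c 7 q211 (.c 8 q212 (.c 9 q213 .e)))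
noncomputable def t46 : Tr := .c 0 r199 (.c 2 r144 (.c 3 r200 (.c 4 r146 (.c 5 r169 (.c 9 r198 .e)))))
noncomputable def r201 : Tr := .c 7 q221 (.c 8 q222 (.c 9 q223 .e))
noncomputable def r202 : Tr := .c 1 q225 (.c 7 q221 (.c 8 q222 (.c 9 q223 .e)))
noncomputable def r203 : Tr := .c 1 q225 (.c 8 q222 (.c 9 q223 .e))
noncomputable def t47 : Tr := .c 0 r201 (.c 2 r150 (.c 3 r202 (.c 4 r152 (.c 5 r176 (.c 6 r203 .e)))))
noncomputable def r204 : Tr := .c 1 q185 (.c 2 q186 (.c 7 q187 .e))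
noncomputable def r205 : Tr := .c 0 q1 (.c 1 q185 (.c 6 q3 (.c 7 q187 .e)))
noncomputable def r206 : Tr := .c 0 q1 (.c 1 q185 (.c 2 q186 (.c 6 q3 (.c 7 q187 .e))))
noncomputable def r207 : Tr := .c 1 q185 (.c 2 q186 (.c 4 q190 (.c 5 q191 .e)))
noncomputable def t48 : Tr := .c 3 r204 (.c 4 r205 (.c 5 r206 (.c 6 r207 (.c 9 r136 .e))))
noncomputable def r208 : Tr := .c 1 q197 (.c 2 q198 (.c 7 q199 .e))
noncomputable def r209 : Tr := .c 0 q57 (.c 1 q197 (.c 2 q198 (.c 6 q58 (.c 7 q199 .e))))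
noncomputable def r210 : Tr := .c 1 q197 (.c 2 q198 (.c 4 q191 (.c 5 q191 .e)))
noncomputable def r211 : Tr := .c 0 q57 (.c 2 q198 (.c 4 q191 (.c 5 q191 .e)))
noncomputable def t49 : Tr := .c 3 r208 (.c 5 r209 (.c 6 r210 (.c 7 r211 (.c 8 r141 (.c 9 r142 .e)))))
noncomputable def q247 : Tr := .c 6 v19 .e
noncomputable def q248 : Tr := .c 3 v1 (.c 4 v1 .e)
noncomputable def r212 : Tr := .c 4 q247 (.c 5 q247 (.c 7 q248 .e))
noncomputable def v69 : Tr := .l 0x6185186146106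
noncomputable def q249 : Tr := .c 4 v69 .e
noncomputable def r213 : Tr := .c 4 q247 (.c 5 q247 (.c 6 q249 .e))
noncomputable def t50 : Tr := .c 0 r212 (.c 1 r213 (.c 6 r210 (.c 7 r211 (.c 8 r141 (.c 9 r142 .e)))))
noncomputable def q250 : Tr := .c 6 v19 (.c 9 v47 .e)
noncomputable def q251 : Tr := .c 3 v33 (.c 5 v33 (.c 9 v47 .e))
noncomputable def r214 : Tr := .c 4 q250 (.c 5 q247 (.c 7 q251 .e))
noncomputable def q252 : Tr := .c 9 v47 .e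
noncomputable def r215 : Tr := .c 3 q252 (.c 4 q250 (.c 5 q247 (.c 6 q109 .e)))
noncomputable def r216 : Tr := .c 3 q252 (.c 5 q247 (.c 6 q109 (.c 7 q251 .e)))
noncomputable def r217 : Tr := .c 1 q186 (.c 2 q186 (.c 4 q190 (.c 5 q191 .e)))
noncomputable def r218 : Tr := .c 0 q111 (.c 2 q186 (.c 3 q235 (.c 4 q190 (.c 5 q191 .e))))
noncomputable def q253 : Tr := .c 5 v9 (.c 9 v45 .e)
noncomputable def q254 : Tr := .c 3 v9 (.c 5 v9 (.c 6 v9 (.c 9 v45 .e)))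
noncomputable def q255 : Tr := .c 9 v45 .e
noncomputable def q256 : Tr := .c 6 v9 (.c 9 v45 .e)
noncomputable def q257 : Tr := .c 5 v46 (.c 9 v45 .e)
noncomputable def r219 : Tr := .c 0 q253 (.c 2 q254 (.c 3 q255 (.c 4 q256 (.c 5 q203 (.c 6 q257 .e)))))
noncomputable def t51 : Tr := .c 0 r214 (.c 1 r215 (.c 2 r216 (.c 6 r217 (.c 7 r218 (.c 8 r219 .e)))))
noncomputable def r220 : Tr := .c 4 q220 (.c 7 q221 .e)
noncomputable def r221 : Tr := .c 3 q224 (.c 6 q35 (.c 7 q221 .e))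
noncomputable def r222 : Tr := .c 1 q225 (.c 2 q226 (.c 7 q221 .e))
noncomputable def r223 : Tr := .c 0 q39 (.c 1 q225 (.c 6 q35 (.c 7 q221 .e)))
noncomputable def r224 : Tr := .c 0 q39 (.c 1 q225 (.c 2 q226 (.c 6 q35 (.c 7 q221 .e))))
noncomputable def r225 : Tr := .c 1 q225 (.c 2 q226 (.c 4 q227 .e))
noncomputable def t52 : Tr := .c 0 r220 (.c 2 r221 (.c 3 r222 (.c 4 r223 (.c 5 r224 (.c 6 r225 .e)))))
noncomputable def r226 : Tr := .c 4 q228 (.c 7 q229 .e)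
noncomputable def r227 : Tr := .c 3 q228 (.c 6 q44 (.c 7 q229 .e))
noncomputable def r228 : Tr := .c 1 q232 (.c 2 q232 (.c 7 q229 .e))
noncomputable def r229 : Tr := .c 0 q47 (.c 1 q232 (.c 6 q44 (.c 7 q229 .e)))
noncomputable def r230 : Tr := .c 1 q232 (.c 2 q232 (.c 4 q233 .e))
noncomputable def t53 : Tr := .c 0 r226 (.c 1 r179 (.c 2 r227 (.c 3 r228 (.c 4 r229 (.c 6 r230 (.c 7 r184 .e))))))
noncomputable def q258 : Tr := .c 3 v56 (.c 4 v56 (.c 5 v56 (.c 6 v56 (.c 9 v57 .e))))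
noncomputable def q259 : Tr := .c 3 v58 (.c 4 v58 (.c 5 v58 (.c 6 v58 .e)))
noncomputable def q260 : Tr := .c 3 v59 (.c 4 v59 (.c 6 v59 .e))
noncomputable def r231 : Tr := .c 0 q154 (.c 1 q258 (.c 8 q259 (.c 9 q260 .e)))
noncomputable def r232 : Tr := .c 0 q154 (.c 1 q258 (.c 8 q259 .e))
noncomputable def q261 : Tr := .c 4 v56 (.c 5 v39 (.c 9 v1 .e))
noncomputable def q262 : Tr := .c 9 v1 .e
noncomputable def q263 : Tr := .c 6 v56 .e
noncomputable def r233 : Tr := .c 0 q261 (.c 3 q262 (.c 5 q263 (.c 9 q260 .e)))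
noncomputable def q264 : Tr := .c 4 v60 (.c 5 v60 (.c 9 v51 .e))
noncomputable def q265 : Tr := .c 9 v51 .e
noncomputable def q266 : Tr := .c 6 v61 .e
noncomputable def r234 : Tr := .c 0 q264 (.c 3 q265 (.c 5 q266 .e))
noncomputable def q267 : Tr := .c 3 v62 (.c 4 v62 (.c 5 v62 (.c 6 v62 (.c 9 v63 .e))))
noncomputable def q268 : Tr := .c 9 v63 .e
noncomputable def r235 : Tr := .c 0 q165 (.c 1 q267 (.c 3 q268 .e))
noncomputable def t54 : Tr := .c 4 r231 (.c 5 r232 (.c 7 r233 (.c 8 r234 (.c 9 r235 .e))))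
noncomputable def r236 : Tr := .c 1 q258 (.c 8 q259 (.c 9 q260 .e))
noncomputable def r237 : Tr := .c 1 q258 (.c 5 q263 (.c 8 q259 (.c 9 q260 .e)))
noncomputable def t55 : Tr := .c 3 r236 (.c 4 r231 (.c 5 r232 (.c 6 r237 (.c 9 r235 .e))))
noncomputable def q269 : Tr := .c 3 v56 (.c 4 v56 (.c 6 v56 .e))
noncomputable def q270 : Tr := .c 3 v58 (.c 4 v58 (.c 6 v58 .e))
noncomputable def r238 : Tr := .c 1 q269 (.c 8 q270 (.c 9 q260 .e))
noncomputable def r239 : Tr := .c 0 q167 (.c 1 q269 (.c 8 q270 .e))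
noncomputable def r240 : Tr := .c 1 q269 (.c 5 q263 (.c 8 q270 (.c 9 q260 .e)))
noncomputable def r241 : Tr := .c 0 q167 (.c 5 q263 (.c 9 q260 .e))
noncomputable def q271 : Tr := .c 4 v60 .e
noncomputable def r242 : Tr := .c 0 q271 (.c 5 q266 .e)
noncomputable def q272 : Tr := .c 3 v62 (.c 4 v62 (.c 6 v62 .e))
noncomputable def r243 : Tr := .c 0 q173 (.c 1 q272 .e)
noncomputable def t56 : Tr := .c 3 r238 (.c 5 r239 (.c 6 r240 (.c 7 r241 (.c 8 r242 (.c 9 r243 .e)))))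
noncomputable def q273 : Tr := .c 6 v64 .e
noncomputable def q274 : Tr := .c 3 v40 (.c 4 v40 (.c 6 v40 .e))
noncomputable def r244 : Tr := .c 3 q262 (.c 5 q273 (.c 9 q274 .e))
noncomputable def q275 : Tr := .c 3 v65 (.c 4 v65 (.c 5 v65 (.c 6 v65 .e)))
noncomputable def r245 : Tr := .c 3 q262 (.c 5 q273 (.c 8 q275 (.c 9 q274 .e)))
noncomputable def t57 : Tr := .c 1 r244 (.c 2 r245 (.c 7 r233 (.c 8 r234 (.c 9 r235 .e))))
noncomputable def q276 : Tr := .c 3 v66 (.c 4 v66 (.c 6 v66 .e))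
noncomputable def r246 : Tr := .c 5 q273 (.c 8 q276 (.c 9 q274 .e))
noncomputable def r247 : Tr := .c 5 q273 (.c 9 q274 .e)
noncomputable def t58 : Tr := .c 0 r246 (.c 1 r247 (.c 6 r240 (.c 7 r241 (.c 8 r242 (.c 9 r243 .e)))))
noncomputable def r248 : Tr := .c 5 q273 (.c 8 q275 (.c 9 q274 .e))
noncomputable def r249 : Tr := .c 0 q31 (.c 1 q216 (.c 8 q275 (.c 9 q274 .e)))
noncomputable def r250 : Tr := .c 0 q31 (.c 1 q216 (.c 8 q275 .e))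
noncomputable def q277 : Tr := .c 4 v60 (.c 5 v60 .e)
noncomputable def r251 : Tr := .c 0 q277 (.c 5 q266 .e)
noncomputable def q278 : Tr := .c 3 v62 (.c 4 v62 (.c 5 v62 (.c 6 v62 .e)))
noncomputable def r252 : Tr := .c 0 q184 (.c 1 q278 .e)
noncomputable def t59 : Tr := .c 1 r247 (.c 2 r248 (.c 4 r249 (.c 5 r250 (.c 8 r251 (.c 9 r252 .e)))))
noncomputable def r253 : Tr := .c 1 q216 (.c 8 q275 (.c 9 q274 .e))
noncomputable def t60 : Tr := .c 0 r248 (.c 2 r248 (.c 3 r253 (.c 4 r249 (.c 5 r250 (.c 9 r252 .e)))))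
noncomputable def q279 : Tr := .c 3 v0 (.c 5 v0 (.c 6 v0 (.c 7 v0 (.c 8 v2 (.c 9 v3 .e)))))
noncomputable def q280 : Tr := .c 3 v4 (.c 5 v4 (.c 9 v6 .e))
noncomputable def q281 : Tr := .c 3 v7 (.c 5 v7 (.c 6 v7 .e))
noncomputable def q282 : Tr := .c 3 v38 (.c 6 v38 (.c 7 v38 .e))
noncomputable def r254 : Tr := .c 1 q186 (.c 2 q279 (.c 7 q280 (.c 8 q281 (.c 9 q282 .e))))
noncomputable def q283 : Tr := .c 5 v4 (.c 8 v5 (.c 9 v6 .e))
noncomputable def r255 : Tr := .c 0 q6 (.c 1 q186 (.c 6 q283 (.c 7 q280 (.c 8 q281 (.c 9 q282 .e)))))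
noncomputable def q284 : Tr := .c 6 v0 (.c 7 v0 (.c 8 v2 (.c 9 v3 .e)))
noncomputable def q285 : Tr := .c 6 v0 (.c 7 v0 (.c 8 v2 .e))
noncomputable def r256 : Tr := .c 1 q186 (.c 2 q279 (.c 4 q284 (.c 5 q285 (.c 8 q281 (.c 9 q282 .e)))))
noncomputable def t61 : Tr := .c 3 r254 (.c 4 r255 (.c 6 r256 .e))
noncomputable def q286 : Tr := .c 3 v0 (.c 6 v0 (.c 7 v0 (.c 8 v2 .e)))
noncomputable def q287 : Tr := .c 3 v4 .e
noncomputable def q288 : Tr := .c 3 v7 (.c 6 v7 .e)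
noncomputable def r257 : Tr := .c 1 q198 (.c 2 q286 (.c 7 q287 (.c 8 q288 (.c 9 q282 .e))))
noncomputable def r258 : Tr := .c 1 q198 (.c 2 q286 (.c 4 q285 (.c 5 q285 (.c 8 q288 (.c 9 q282 .e)))))
noncomputable def r259 : Tr := .c 0 q53 (.c 2 q286 (.c 3 q53 (.c 4 q285 (.c 5 q285 (.c 9 q282 .e)))))
noncomputable def q289 : Tr := .c 3 v9 (.c 6 v9 (.c 7 v9 (.c 8 v1 .e)))
noncomputable def q290 : Tr := .c 6 v9 (.c 7 v9 (.c 8 v1 .e))
noncomputable def q291 : Tr := .c 8 v1 .e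
noncomputable def r260 : Tr := .c 0 q54 (.c 2 q289 (.c 3 q54 (.c 4 q290 (.c 5 q290 (.c 6 q291 .e)))))
noncomputable def t62 : Tr := .c 3 r257 (.c 6 r258 (.c 7 r259 (.c 8 r260 .e)))
noncomputable def q292 : Tr := .c 6 v1 (.c 7 v1 .e)
noncomputable def q293 : Tr := .c 6 v40 (.c 7 v40 .e)
noncomputable def q294 : Tr := .c 3 v16 (.c 5 v16 .e)
noncomputable def q295 : Tr := .c 3 v17 (.c 5 v17 (.c 6 v17 .e))
noncomputable def q296 : Tr := .c 3 v41 (.c 6 v41 (.c 7 v41 .e))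
noncomputable def r261 : Tr := .c 4 q292 (.c 5 q293 (.c 7 q294 (.c 8 q295 (.c 9 q296 .e))))
noncomputable def q297 : Tr := .c 5 v16 .e
noncomputable def r262 : Tr := .c 3 q70 (.c 5 q293 (.c 6 q297 (.c 7 q294 (.c 8 q295 (.c 9 q296 .e)))))
noncomputable def q298 : Tr := .c 3 v18 (.c 5 v18 (.c 6 v18 (.c 7 v18 .e)))
noncomputable def r263 : Tr := .c 1 q215 (.c 2 q298 (.c 7 q294 (.c 8 q295 (.c 9 q296 .e))))
noncomputable def r264 : Tr := .c 0 q25 (.c 1 q215 (.c 6 q297 (.c 7 q294 (.c 8 q295 (.c 9 q296 .e)))))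
noncomputable def t63 : Tr := .c 0 r261 (.c 2 r262 (.c 3 r263 (.c 4 r264 .e)))
noncomputable def q299 : Tr := .c 3 v25 (.c 5 v25 (.c 9 v26 .e))
noncomputable def q300 : Tr := .c 3 v27 (.c 5 v27 .e)
noncomputable def q301 : Tr := .c 3 v43 .e
noncomputable def r265 : Tr := .c 4 q34 (.c 5 q75 (.c 7 q299 (.c 8 q300 (.c 9 q301 .e))))
noncomputable def q302 : Tr := .c 5 v25 (.c 8 v28 (.c 9 v26 .e))
noncomputable def r266 : Tr := .c 3 q37 (.c 5 q75 (.c 6 q302 (.c 7 q299 (.c 8 q300 (.c 9 q301 .e)))))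
noncomputable def q303 : Tr := .c 3 v29 (.c 5 v29 (.c 8 v31 (.c 9 v30 .e)))
noncomputable def r267 : Tr := .c 1 q226 (.c 2 q303 (.c 7 q299 (.c 8 q300 (.c 9 q301 .e))))
noncomputable def r268 : Tr := .c 0 q40 (.c 1 q226 (.c 6 q302 (.c 7 q299 (.c 8 q300 (.c 9 q301 .e)))))
noncomputable def r269 : Tr := .c 1 q226 (.c 2 q303 (.c 4 q42 (.c 5 q77 (.c 8 q300 (.c 9 q301 .e)))))
noncomputable def t64 : Tr := .c 0 r265 (.c 2 r266 (.c 3 r267 (.c 4 r268 (.c 6 r269 .e))))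
noncomputable def r270 : Tr := .c 4 q43 (.c 5 q113 (.c 7 q229 (.c 8 q230 (.c 9 q231 .e))))
noncomputable def r271 : Tr := .c 3 q43 (.c 4 q43 (.c 5 q113 (.c 6 q46 (.c 9 q231 .e))))
noncomputable def r272 : Tr := .c 3 q43 (.c 5 q113 (.c 6 q46 (.c 7 q229 (.c 8 q230 (.c 9 q231 .e)))))
noncomputable def q304 : Tr := .c 3 v36 (.c 5 v36 (.c 8 v23 (.c 9 v37 .e)))
noncomputable def r273 : Tr := .c 1 q232 (.c 2 q304 (.c 7 q229 (.c 8 q230 (.c 9 q231 .e))))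
noncomputable def r274 : Tr := .c 0 q48 (.c 1 q232 (.c 6 q46 (.c 7 q229 (.c 8 q230 (.c 9 q231 .e)))))
noncomputable def r275 : Tr := .c 1 q232 (.c 2 q304 (.c 4 q49 (.c 5 q77 (.c 8 q230 (.c 9 q231 .e)))))
noncomputable def r276 : Tr := .c 0 q48 (.c 2 q304 (.c 3 q49 (.c 4 q49 (.c 5 q77 (.c 9 q231 .e)))))
noncomputable def t65 : Tr := .c 0 r270 (.c 1 r271 (.c 2 r272 (.c 3 r273 (.c 4 r274 (.c 6 r275 (.c 7 r276 .e))))))
noncomputable def r277 : Tr := .c 0 q83 (.c 3 q52 (.c 5 q285 (.c 9 q282 .e)))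
noncomputable def q305 : Tr := .c 5 v11 (.c 8 v1 (.c 9 v10 .e))
noncomputable def r278 : Tr := .c 0 q10 (.c 3 q11 (.c 5 q290 (.c 6 q305 .e)))
noncomputable def t66 : Tr := .c 4 r255 (.c 7 r277 (.c 8 r278 .e))
noncomputable def r279 : Tr := .c 1 q186 (.c 7 q280 (.c 8 q281 (.c 9 q282 .e)))
noncomputable def r280 : Tr := .c 1 q186 (.c 5 q285 (.c 8 q281 (.c 9 q282 .e)))
noncomputable def t67 : Tr := .c 3 r279 (.c 4 r255 (.c 6 r280 .e))
noncomputable def r281 : Tr := .c 1 q198 (.c 7 q287 (.c 8 q288 (.c 9 q282 .e)))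
noncomputable def r282 : Tr := .c 1 q198 (.c 5 q285 (.c 8 q288 (.c 9 q282 .e)))
noncomputable def r283 : Tr := .c 0 q53 (.c 3 q53 (.c 5 q285 (.c 9 q282 .e)))
noncomputable def r284 : Tr := .c 0 q54 (.c 3 q54 (.c 5 q290 (.c 6 q291 .e)))
noncomputable def t68 : Tr := .c 3 r281 (.c 6 r282 (.c 7 r283 (.c 8 r284 .e)))
noncomputable def r285 : Tr := .c 3 q70 (.c 5 q293 (.c 6 q297 (.c 9 q296 .e)))
noncomputable def q306 : Tr := .c 5 v20 (.c 7 v42 .e)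
noncomputable def q307 : Tr := .c 6 v42 (.c 7 v42 .e)
noncomputable def q308 : Tr := .c 5 v21 .e
noncomputable def r286 : Tr := .c 0 q306 (.c 3 q73 (.c 5 q307 (.c 6 q308 .e)))
noncomputable def t69 : Tr := .c 1 r285 (.c 2 r262 (.c 4 r264 (.c 8 r286 .e)))
noncomputable def r287 : Tr := .c 5 q293 (.c 7 q294 (.c 8 q295 (.c 9 q296 .e)))
noncomputable def r288 : Tr := .c 1 q215 (.c 7 q294 (.c 8 q295 (.c 9 q296 .e)))
noncomputable def t70 : Tr := .c 0 r287 (.c 2 r262 (.c 3 r288 (.c 4 r264 .e)))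
noncomputable def r289 : Tr := .c 5 q75 (.c 7 q299 (.c 8 q300 (.c 9 q301 .e)))
noncomputable def r290 : Tr := .c 1 q226 (.c 7 q299 (.c 8 q300 (.c 9 q301 .e)))
noncomputable def r291 : Tr := .c 1 q226 (.c 5 q77 (.c 8 q300 (.c 9 q301 .e)))
noncomputable def t71 : Tr := .c 0 r289 (.c 2 r266 (.c 3 r290 (.c 4 r268 (.c 6 r291 .e))))
noncomputable def r292 : Tr := .c 1 q186 (.c 2 q279 (.c 7 q280 .e))
noncomputable def r293 : Tr := .c 0 q6 (.c 1 q186 (.c 6 q283 (.c 7 q280 .e)))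
noncomputable def r294 : Tr := .c 1 q186 (.c 2 q279 (.c 4 q284 (.c 5 q285 .e)))
noncomputable def t72 : Tr := .c 3 r292 (.c 4 r293 (.c 6 r294 .e))
noncomputable def r295 : Tr := .c 1 q198 (.c 2 q286 (.c 7 q287 .e))
noncomputable def r296 : Tr := .c 1 q198 (.c 2 q286 (.c 4 q285 (.c 5 q285 .e)))
noncomputable def r297 : Tr := .c 0 q53 (.c 2 q286 (.c 3 q53 (.c 4 q285 (.c 5 q285 .e))))
noncomputable def t73 : Tr := .c 3 r295 (.c 6 r296 (.c 7 r297 (.c 8 r260 .e)))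
noncomputable def q309 : Tr := .c 6 v19 (.c 7 v19 (.c 8 v1 .e))
noncomputable def q310 : Tr := .c 3 v1 .e
noncomputable def r298 : Tr := .c 4 q309 (.c 5 q309 (.c 7 q310 .e))
noncomputable def r299 : Tr := .c 3 q104 (.c 4 q309 (.c 5 q309 (.c 6 q291 .e)))
noncomputable def t74 : Tr := .c 0 r298 (.c 1 r299 (.c 6 r296 (.c 7 r297 (.c 8 r260 .e))))
noncomputable def q311 : Tr := .c 6 v19 (.c 7 v19 (.c 8 v1 (.c 9 v47 .e)))
noncomputable def r300 : Tr := .c 4 q311 (.c 5 q309 (.c 7 q251 .e))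
noncomputable def r301 : Tr := .c 3 q103 (.c 4 q311 (.c 5 q309 (.c 6 q110 .e)))
noncomputable def r302 : Tr := .c 3 q103 (.c 5 q309 (.c 6 q110 (.c 7 q251 .e)))
noncomputable def r303 : Tr := .c 0 q6 (.c 2 q279 (.c 3 q8 (.c 4 q284 (.c 5 q285 .e))))
noncomputable def q312 : Tr := .c 3 v9 (.c 5 v9 (.c 6 v9 (.c 7 v9 (.c 8 v1 (.c 9 v45 .e)))))
noncomputable def q313 : Tr := .c 6 v9 (.c 7 v9 (.c 8 v1 (.c 9 v45 .e)))
noncomputable def r304 : Tr := .c 0 q87 (.c 2 q312 (.c 3 q88 (.c 4 q313 (.c 5 q290 (.c 6 q112 .e)))))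
noncomputable def t75 : Tr := .c 0 r300 (.c 1 r301 (.c 2 r302 (.c 6 r294 (.c 7 r303 (.c 8 r304 .e)))))
noncomputable def r305 : Tr := .c 4 q34 (.c 5 q75 (.c 7 q299 .e))
noncomputable def r306 : Tr := .c 3 q37 (.c 5 q75 (.c 6 q302 (.c 7 q299 .e)))
noncomputable def r307 : Tr := .c 1 q226 (.c 2 q303 (.c 7 q299 .e))
noncomputable def r308 : Tr := .c 0 q40 (.c 1 q226 (.c 6 q302 (.c 7 q299 .e)))
noncomputable def r309 : Tr := .c 1 q226 (.c 2 q303 (.c 4 q42 (.c 5 q77 .e)))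
noncomputable def t76 : Tr := .c 0 r305 (.c 2 r306 (.c 3 r307 (.c 4 r308 (.c 6 r309 .e))))
noncomputable def r310 : Tr := .c 4 q43 (.c 5 q113 (.c 7 q229 .e))
noncomputable def r311 : Tr := .c 3 q43 (.c 5 q113 (.c 6 q46 (.c 7 q229 .e)))
noncomputable def r312 : Tr := .c 1 q232 (.c 2 q304 (.c 7 q229 .e))
noncomputable def r313 : Tr := .c 0 q48 (.c 1 q232 (.c 6 q46 (.c 7 q229 .e)))
noncomputable def r314 : Tr := .c 1 q232 (.c 2 q304 (.c 4 q49 (.c 5 q77 .e)))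
noncomputable def r315 : Tr := .c 0 q48 (.c 2 q304 (.c 3 q49 (.c 4 q49 (.c 5 q77 .e))))
noncomputable def t77 : Tr := .c 0 r310 (.c 1 r74 (.c 2 r311 (.c 3 r312 (.c 4 r313 (.c 6 r314 (.c 7 r315 .e))))))
noncomputable def q314 : Tr := .c 5 v19 (.c 8 v1 (.c 9 v23 .e))
noncomputable def q315 : Tr := .c 3 v19 (.c 5 v19 (.c 9 v23 .e))
noncomputable def r316 : Tr := .c 0 q6 (.c 1 q186 (.c 6 q314 (.c 7 q315 .e)))
noncomputable def t78 : Tr := .c 4 r316 (.c 7 r303 (.c 8 r304 .e))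
noncomputable def t79 : Tr := .c 1 r301 (.c 2 r302 (.c 7 r303 (.c 8 r304 .e)))
noncomputable def q316 : Tr := .c 3 v48 (.c 5 v48 (.c 6 v48 (.c 9 v23 .e)))
noncomputable def q317 : Tr := .c 3 v49 (.c 5 v49 (.c 6 v49 .e))
noncomputable def q318 : Tr := .c 3 v23 (.c 6 v23 (.c 7 v23 .e))
noncomputable def r317 : Tr := .c 0 q118 (.c 1 q316 (.c 8 q317 (.c 9 q318 .e)))
noncomputable def q319 : Tr := .c 3 v48 (.c 5 v48 (.c 6 v48 (.c 7 v48 (.c 8 v1 (.c 9 v23 .e)))))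
noncomputable def q320 : Tr := .c 6 v48 (.c 7 v48 (.c 8 v1 (.c 9 v23 .e)))
noncomputable def q321 : Tr := .c 6 v48 (.c 7 v48 (.c 8 v1 .e))
noncomputable def r318 : Tr := .c 0 q118 (.c 2 q319 (.c 3 q119 (.c 4 q320 (.c 5 q321 (.c 9 q318 .e)))))
noncomputable def q322 : Tr := .c 3 v1 (.c 5 v1 (.c 6 v1 (.c 7 v1 (.c 8 v1 (.c 9 v1 .e)))))
noncomputable def q323 : Tr := .c 6 v1 (.c 7 v1 (.c 8 v1 (.c 9 v1 .e)))
noncomputable def q324 : Tr := .c 6 v1 (.c 7 v1 (.c 8 v1 .e))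
noncomputable def r319 : Tr := .c 0 q122 (.c 2 q322 (.c 3 q123 (.c 4 q323 (.c 5 q324 .e))))
noncomputable def t80 : Tr := .c 4 r317 (.c 7 r318 (.c 8 r319 .e))
noncomputable def q325 : Tr := .c 3 v48 (.c 6 v48 .e)
noncomputable def q326 : Tr := .c 3 v48 (.c 6 v48 (.c 7 v48 (.c 8 v1 .e)))
noncomputable def q327 : Tr := .c 3 v49 (.c 6 v49 .e)
noncomputable def r320 : Tr := .c 1 q325 (.c 2 q326 (.c 8 q327 (.c 9 q318 .e)))
noncomputable def r321 : Tr := .c 1 q325 (.c 2 q326 (.c 4 q321 (.c 5 q321 (.c 8 q327 (.c 9 q318 .e)))))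
noncomputable def r322 : Tr := .c 0 q120 (.c 2 q326 (.c 3 q120 (.c 4 q321 (.c 5 q321 (.c 9 q318 .e)))))
noncomputable def q328 : Tr := .c 3 v1 (.c 6 v1 (.c 7 v1 (.c 8 v1 .e)))
noncomputable def r323 : Tr := .c 0 q124 (.c 2 q328 (.c 3 q124 (.c 4 q324 (.c 5 q324 .e))))
noncomputable def t81 : Tr := .c 3 r320 (.c 6 r321 (.c 7 r322 (.c 8 r323 .e)))
noncomputable def q329 : Tr := .c 6 v1 (.c 7 v1 (.c 8 v15 (.c 9 v15 .e)))
noncomputable def q330 : Tr := .c 6 v1 (.c 7 v1 (.c 8 v15 .e))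
noncomputable def q331 : Tr := .c 3 v52 (.c 6 v52 (.c 7 v52 .e))
noncomputable def r324 : Tr := .c 3 q136 (.c 4 q329 (.c 5 q330 (.c 9 q331 .e)))
noncomputable def q332 : Tr := .c 3 v53 (.c 5 v53 (.c 6 v53 .e))
noncomputable def r325 : Tr := .c 3 q136 (.c 5 q330 (.c 8 q332 (.c 9 q331 .e)))
noncomputable def t82 : Tr := .c 1 r324 (.c 2 r325 (.c 7 r318 (.c 8 r319 .e)))
noncomputable def q333 : Tr := .c 3 v1 (.c 6 v1 .e)
noncomputable def r326 : Tr := .c 4 q330 (.c 5 q330 (.c 8 q333 (.c 9 q331 .e)))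
noncomputable def r327 : Tr := .c 3 q137 (.c 4 q330 (.c 5 q330 (.c 9 q331 .e)))
noncomputable def t83 : Tr := .c 0 r326 (.c 1 r327 (.c 6 r321 (.c 7 r322 (.c 8 r323 .e))))
noncomputable def r328 : Tr := .c 4 q329 (.c 5 q330 (.c 8 q332 (.c 9 q331 .e)))
noncomputable def q334 : Tr := .c 3 v23 (.c 5 v23 (.c 6 v23 .e))
noncomputable def r329 : Tr := .c 1 q316 (.c 2 q319 (.c 4 q320 (.c 5 q321 (.c 8 q334 (.c 9 q318 .e)))))
noncomputable def t84 : Tr := .c 0 r328 (.c 1 r324 (.c 2 r325 (.c 6 r329 (.c 7 r318 (.c 8 r319 .e)))))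
noncomputable def r330 : Tr := .c 3 q28 (.c 4 q292 (.c 5 q292 (.c 9 q331 .e)))
noncomputable def r331 : Tr := .c 3 q28 (.c 5 q292 (.c 8 q332 (.c 9 q331 .e)))
noncomputable def q335 : Tr := .c 5 v54 (.c 7 v1 .e)
noncomputable def q336 : Tr := .c 3 v54 (.c 5 v54 (.c 6 v54 .e))
noncomputable def r332 : Tr := .c 0 q335 (.c 1 q336 (.c 8 q332 (.c 9 q331 .e)))
noncomputable def q337 : Tr := .c 3 v1 (.c 5 v1 (.c 6 v1 (.c 7 v1 .e)))
noncomputable def r333 : Tr := .c 0 q149 (.c 2 q337 (.c 3 q28 (.c 4 q292 (.c 5 q292 .e))))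
noncomputable def t85 : Tr := .c 1 r330 (.c 2 r331 (.c 4 r332 (.c 8 r333 .e)))
noncomputable def q338 : Tr := .c 5 v56 (.c 7 v56 (.c 8 v23 (.c 9 v57 .e)))
noncomputable def q339 : Tr := .c 3 v56 (.c 5 v56 (.c 6 v56 (.c 9 v57 .e)))
noncomputable def q340 : Tr := .c 3 v58 (.c 5 v58 (.c 6 v58 .e))
noncomputable def q341 : Tr := .c 3 v59 (.c 6 v59 (.c 7 v59 .e))
noncomputable def r334 : Tr := .c 0 q338 (.c 1 q339 (.c 8 q340 (.c 9 q341 .e)))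
noncomputable def q342 : Tr := .c 5 v39 (.c 7 v56 (.c 8 v23 (.c 9 v1 .e)))
noncomputable def q343 : Tr := .c 6 v56 (.c 7 v56 (.c 8 v23 .e))
noncomputable def r335 : Tr := .c 0 q342 (.c 3 q159 (.c 5 q343 (.c 9 q341 .e)))
noncomputable def q344 : Tr := .c 5 v60 (.c 7 v61 (.c 8 v1 (.c 9 v51 .e)))
noncomputable def q345 : Tr := .c 6 v61 (.c 7 v61 (.c 8 v1 .e))
noncomputable def r336 : Tr := .c 0 q344 (.c 3 q162 (.c 5 q345 .e))
noncomputable def t86 : Tr := .c 4 r334 (.c 7 r335 (.c 8 r336 .e))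
noncomputable def r337 : Tr := .c 1 q339 (.c 8 q340 (.c 9 q341 .e))
noncomputable def r338 : Tr := .c 1 q339 (.c 5 q343 (.c 8 q340 (.c 9 q341 .e)))
noncomputable def t87 : Tr := .c 3 r337 (.c 4 r334 (.c 6 r338 .e))
noncomputable def q346 : Tr := .c 3 v56 (.c 6 v56 .e)
noncomputable def q347 : Tr := .c 3 v58 (.c 6 v58 .e)
noncomputable def r339 : Tr := .c 1 q346 (.c 8 q347 (.c 9 q341 .e))
noncomputable def r340 : Tr := .c 1 q346 (.c 5 q343 (.c 8 q347 (.c 9 q341 .e)))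
noncomputable def r341 : Tr := .c 0 q160 (.c 3 q160 (.c 5 q343 (.c 9 q341 .e)))
noncomputable def r342 : Tr := .c 0 q163 (.c 3 q163 (.c 5 q345 .e))
noncomputable def t88 : Tr := .c 3 r339 (.c 6 r340 (.c 7 r341 (.c 8 r342 .e)))
noncomputable def q348 : Tr := .c 6 v64 (.c 7 v64 (.c 8 v15 .e))
noncomputable def q349 : Tr := .c 3 v40 (.c 6 v40 (.c 7 v40 .e))
noncomputable def r343 : Tr := .c 3 q175 (.c 5 q348 (.c 9 q349 .e))
noncomputable def q350 : Tr := .c 3 v65 (.c 5 v65 (.c 6 v65 .e))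
noncomputable def r344 : Tr := .c 3 q175 (.c 5 q348 (.c 8 q350 (.c 9 q349 .e)))
noncomputable def t89 : Tr := .c 1 r343 (.c 2 r344 (.c 7 r335 (.c 8 r336 .e)))
noncomputable def q351 : Tr := .c 3 v66 (.c 6 v66 .e)
noncomputable def r345 : Tr := .c 5 q348 (.c 8 q351 (.c 9 q349 .e))
noncomputable def r346 : Tr := .c 3 q176 (.c 5 q348 (.c 9 q349 .e))
noncomputable def t90 : Tr := .c 0 r345 (.c 1 r346 (.c 6 r340 (.c 7 r341 (.c 8 r342 .e))))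
noncomputable def q352 : Tr := .c 6 v64 (.c 7 v64 .e)
noncomputable def r347 : Tr := .c 3 q180 (.c 5 q352 (.c 9 q349 .e))
noncomputable def r348 : Tr := .c 3 q180 (.c 5 q352 (.c 8 q350 (.c 9 q349 .e)))
noncomputable def r349 : Tr := .c 0 q32 (.c 1 q217 (.c 8 q350 (.c 9 q349 .e)))
noncomputable def q353 : Tr := .c 5 v60 (.c 7 v61 .e)
noncomputable def q354 : Tr := .c 6 v61 (.c 7 v61 .e)
noncomputable def r350 : Tr := .c 0 q353 (.c 3 q182 (.c 5 q354 .e))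
noncomputable def t91 : Tr := .c 1 r347 (.c 2 r348 (.c 4 r349 (.c 8 r350 .e)))
noncomputable def r351 : Tr := .c 5 q352 (.c 8 q350 (.c 9 q349 .e))
noncomputable def r352 : Tr := .c 1 q217 (.c 8 q350 (.c 9 q349 .e))
noncomputable def t92 : Tr := .c 0 r351 (.c 2 r348 (.c 3 r352 (.c 4 r349 .e)))
noncomputable def v70 : Tr := .l 0x61861860c6186
noncomputable def v71 : Tr := .l 0x6186186106186
noncomputable def q355 : Tr := .c 1 v70 (.c 2 v70 (.c 7 v1 (.c 8 v71 (.c 9 v71 .e))))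
noncomputable def q356 : Tr := .c 1 v70 (.c 7 v1 (.c 8 v71 (.c 9 v71 .e)))
noncomputable def q357 : Tr := .c 1 v70 (.c 2 v70 (.c 7 v1 (.c 8 v71 .e)))
noncomputable def q358 : Tr := .c 1 v70 (.c 2 v70 (.c 8 v71 (.c 9 v71 .e)))
noncomputable def v72 : Tr := .l 0x6186185106186
noncomputable def q359 : Tr := .c 1 v72 (.c 2 v72 (.c 7 v15 .e))
noncomputable def r353 : Tr := .c 3 q355 (.c 4 q356 (.c 5 q357 (.c 6 q358 (.c 9 q359 .e))))
noncomputable def q360 : Tr := .c 2 v70 (.c 9 v71 .e)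
noncomputable def q361 : Tr := .c 2 v53 .e
noncomputable def r354 : Tr := .c 3 q355 (.c 5 q357 (.c 6 q358 (.c 7 q360 (.c 8 q361 (.c 9 q359 .e)))))
noncomputable def q362 : Tr := .c 7 v19 (.c 8 v1 (.c 9 v23 .e))
noncomputable def q363 : Tr := .c 1 v1 (.c 2 v1 (.c 7 v19 (.c 8 v1 (.c 9 v23 .e))))
noncomputable def q364 : Tr := .c 1 v1 (.c 7 v19 (.c 8 v1 (.c 9 v23 .e)))
noncomputable def q365 : Tr := .c 1 v1 (.c 2 v1 (.c 7 v19 (.c 8 v1 .e)))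
noncomputable def q366 : Tr := .c 1 v1 (.c 2 v1 (.c 7 v23 .e))
noncomputable def r355 : Tr := .c 0 q362 (.c 2 q362 (.c 3 q363 (.c 4 q364 (.c 5 q365 (.c 9 q366 .e)))))
noncomputable def q367 : Tr := .c 1 v71 (.c 2 v71 (.c 7 v1 (.c 8 v15 (.c 9 v15 .e))))
noncomputable def q368 : Tr := .c 1 v71 (.c 7 v1 (.c 8 v15 (.c 9 v15 .e)))
noncomputable def q369 : Tr := .c 1 v71 (.c 2 v71 (.c 7 v1 (.c 8 v15 .e)))
noncomputable def q370 : Tr := .c 1 v71 (.c 2 v71 (.c 8 v15 (.c 9 v15 .e)))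
noncomputable def r356 : Tr := .c 0 q136 (.c 2 q136 (.c 3 q367 (.c 4 q368 (.c 5 q369 (.c 6 q370 .e)))))
noncomputable def v73 : Tr := .l 0x5186146185184
noncomputable def q371 : Tr := .c 7 v73 (.c 8 v15 (.c 9 v1 .e))
noncomputable def q372 : Tr := .c 1 v71 (.c 2 v71 (.c 7 v73 (.c 8 v15 (.c 9 v1 .e))))
noncomputable def q373 : Tr := .c 1 v71 (.c 7 v73 (.c 8 v15 (.c 9 v1 .e)))
noncomputable def q374 : Tr := .c 1 v71 (.c 2 v71 (.c 8 v15 (.c 9 v1 .e)))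
noncomputable def q375 : Tr := .c 2 v71 (.c 9 v1 .e)
noncomputable def r357 : Tr := .c 0 q371 (.c 1 q262 (.c 2 q371 (.c 3 q372 (.c 4 q373 (.c 6 q374 (.c 7 q375 .e))))))
noncomputable def t93 : Tr := .c 1 r353 (.c 2 r354 (.c 7 r355 (.c 8 r356 (.c 9 r357 .e))))
noncomputable def q376 : Tr := .c 1 v70 (.c 7 v1 (.c 8 v71 .e))
noncomputable def q377 : Tr := .c 2 v70 .e
noncomputable def q378 : Tr := .c 2 v1 .e
noncomputable def r358 : Tr := .c 4 q376 (.c 5 q357 (.c 7 q377 (.c 8 q378 (.c 9 q359 .e))))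
noncomputable def q379 : Tr := .c 1 v70 (.c 2 v70 (.c 8 v71 .e))
noncomputable def r359 : Tr := .c 3 q357 (.c 4 q376 (.c 5 q357 (.c 6 q379 (.c 9 q359 .e))))
noncomputable def q380 : Tr := .c 1 v1 (.c 7 v19 (.c 8 v1 .e))
noncomputable def r360 : Tr := .c 2 q104 (.c 4 q380 (.c 5 q365 (.c 8 q378 (.c 9 q366 .e))))
noncomputable def r361 : Tr := .c 0 q104 (.c 2 q104 (.c 3 q365 (.c 4 q380 (.c 5 q365 (.c 9 q366 .e)))))
noncomputable def q381 : Tr := .c 1 v71 (.c 7 v1 (.c 8 v15 .e))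
noncomputable def q382 : Tr := .c 1 v71 (.c 2 v71 (.c 8 v15 .e))
noncomputable def r362 : Tr := .c 0 q137 (.c 2 q137 (.c 3 q369 (.c 4 q381 (.c 5 q369 (.c 6 q382 .e)))))
noncomputable def q383 : Tr := .c 7 v73 (.c 8 v15 .e)
noncomputable def q384 : Tr := .c 1 v71 (.c 2 v71 (.c 7 v73 (.c 8 v15 .e)))
noncomputable def q385 : Tr := .c 1 v71 (.c 7 v73 (.c 8 v15 .e))
noncomputable def q386 : Tr := .c 2 v71 .e
noncomputable def r363 : Tr := .c 0 q383 (.c 2 q383 (.c 3 q384 (.c 4 q385 (.c 6 q382 (.c 7 q386 .e)))))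
noncomputable def t94 : Tr := .c 0 r358 (.c 1 r359 (.c 6 r360 (.c 7 r361 (.c 8 r362 (.c 9 r363 .e)))))
noncomputable def q387 : Tr := .c 9 v71 .e
noncomputable def q388 : Tr := .c 1 v72 (.c 7 v15 .e)
noncomputable def r364 : Tr := .c 4 q356 (.c 5 q376 (.c 7 q387 (.c 9 q388 .e)))
noncomputable def q389 : Tr := .c 1 v70 (.c 8 v71 (.c 9 v71 .e))
noncomputable def r365 : Tr := .c 3 q356 (.c 4 q356 (.c 5 q376 (.c 6 q389 (.c 9 q388 .e))))
noncomputable def r366 : Tr := .c 3 q356 (.c 5 q376 (.c 6 q389 (.c 7 q387 (.c 9 q388 .e))))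
noncomputable def q390 : Tr := .c 9 v23 .e
noncomputable def q391 : Tr := .c 1 v1 (.c 7 v23 .e)
noncomputable def r367 : Tr := .c 1 q390 (.c 2 q362 (.c 4 q364 (.c 5 q380 (.c 9 q391 .e))))
noncomputable def r368 : Tr := .c 0 q362 (.c 2 q362 (.c 3 q364 (.c 4 q364 (.c 5 q380 (.c 9 q391 .e)))))
noncomputable def q392 : Tr := .c 1 v71 (.c 8 v15 (.c 9 v15 .e))
noncomputable def r369 : Tr := .c 0 q136 (.c 2 q136 (.c 3 q368 (.c 4 q368 (.c 5 q381 (.c 6 q392 .e)))))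
noncomputable def t95 : Tr := .c 0 r364 (.c 1 r365 (.c 2 r366 (.c 6 r367 (.c 7 r368 (.c 8 r369 .e)))))
noncomputable def q393 : Tr := .c 1 v70 (.c 2 v70 (.c 7 v1 .e))
noncomputable def q394 : Tr := .c 1 v70 (.c 7 v1 .e)
noncomputable def q395 : Tr := .c 1 v70 (.c 2 v70 .e)
noncomputable def r370 : Tr := .c 3 q393 (.c 4 q394 (.c 5 q393 (.c 6 q395 (.c 9 q359 .e))))
noncomputable def r371 : Tr := .c 3 q393 (.c 5 q393 (.c 6 q395 (.c 7 q377 (.c 8 q361 (.c 9 q359 .e)))))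
noncomputable def r372 : Tr := .c 0 q28 (.c 6 q395 (.c 7 q377 (.c 8 q361 (.c 9 q359 .e))))
noncomputable def v74 : Tr := .l 0x6186105186185
noncomputable def q396 : Tr := .c 7 v74 .e
noncomputable def r373 : Tr := .c 0 q396 (.c 2 q396 (.c 6 q395 (.c 7 q377 (.c 8 q361 .e))))
noncomputable def q397 : Tr := .c 1 v71 (.c 2 v71 (.c 7 v1 .e))
noncomputable def q398 : Tr := .c 1 v71 (.c 7 v1 .e)
noncomputable def q399 : Tr := .c 1 v71 (.c 2 v71 .e)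
noncomputable def r374 : Tr := .c 0 q28 (.c 2 q28 (.c 3 q397 (.c 4 q398 (.c 5 q397 (.c 6 q399 .e)))))
noncomputable def q400 : Tr := .c 7 v73 .e
noncomputable def q401 : Tr := .c 1 v71 (.c 2 v71 (.c 7 v73 .e))
noncomputable def q402 : Tr := .c 1 v71 (.c 7 v73 .e)
noncomputable def r375 : Tr := .c 0 q400 (.c 2 q400 (.c 3 q401 (.c 4 q402 (.c 6 q399 (.c 7 q386 .e)))))
noncomputable def t96 : Tr := .c 1 r370 (.c 2 r371 (.c 4 r372 (.c 5 r373 (.c 8 r374 (.c 9 r375 .e)))))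
noncomputable def v75 : Tr := .l 0x6185186106186
noncomputable def q403 : Tr := .c 1 v75 (.c 8 v15 (.c 9 v15 .e))
noncomputable def q404 : Tr := .c 1 v75 (.c 8 v15 .e)
noncomputable def q405 : Tr := .c 9 v15 .e
noncomputable def q406 : Tr := .c 1 v15 .e
noncomputable def r376 : Tr := .c 4 q403 (.c 5 q404 (.c 7 q405 (.c 9 q406 .e)))
noncomputable def r377 : Tr := .c 3 q403 (.c 4 q403 (.c 5 q404 (.c 6 q403 (.c 9 q406 .e))))
noncomputable def r378 : Tr := .c 3 q403 (.c 5 q404 (.c 6 q403 (.c 7 q405 (.c 9 q406 .e))))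
noncomputable def q407 : Tr := .c 8 v1 (.c 9 v39 .e)
noncomputable def r379 : Tr := .c 1 q245 (.c 2 q407 (.c 7 q405 (.c 9 q406 .e)))
noncomputable def r380 : Tr := .c 0 q407 (.c 1 q245 (.c 6 q403 (.c 7 q405 (.c 9 q406 .e))))
noncomputable def q408 : Tr := .c 1 v1 (.c 8 v1 (.c 9 v39 .e))
noncomputable def q409 : Tr := .c 1 v1 (.c 8 v1 .e)
noncomputable def r381 : Tr := .c 1 q245 (.c 2 q407 (.c 4 q408 (.c 5 q409 (.c 9 q406 .e))))
noncomputable def r382 : Tr := .c 0 q407 (.c 2 q407 (.c 3 q408 (.c 4 q408 (.c 5 q409 (.c 9 q406 .e)))))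
noncomputable def t97 : Tr := .c 0 r376 (.c 1 r377 (.c 2 r378 (.c 3 r379 (.c 4 r380 (.c 6 r381 (.c 7 r382 .e))))))
noncomputable def r383 : Tr := .c 3 q355 (.c 4 q356 (.c 6 q358 .e))
noncomputable def r384 : Tr := .c 3 q355 (.c 6 q358 (.c 7 q360 (.c 8 q361 .e)))
noncomputable def r385 : Tr := .c 0 q362 (.c 2 q362 (.c 3 q363 (.c 4 q364 .e)))
noncomputable def r386 : Tr := .c 0 q136 (.c 2 q136 (.c 3 q367 (.c 4 q368 (.c 6 q370 .e))))
noncomputable def t98 : Tr := .c 1 r383 (.c 2 r384 (.c 7 r385 (.c 8 r386 (.c 9 r357 .e))))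
noncomputable def r387 : Tr := .c 4 q356 (.c 7 q387 .e)
noncomputable def r388 : Tr := .c 3 q356 (.c 4 q356 (.c 6 q389 .e))
noncomputable def r389 : Tr := .c 3 q356 (.c 6 q389 (.c 7 q387 .e))
noncomputable def r390 : Tr := .c 1 q390 (.c 2 q362 (.c 4 q364 .e))
noncomputable def r391 : Tr := .c 0 q362 (.c 2 q362 (.c 3 q364 (.c 4 q364 .e)))
noncomputable def r392 : Tr := .c 0 q136 (.c 2 q136 (.c 3 q368 (.c 4 q368 (.c 6 q392 .e))))
noncomputable def t99 : Tr := .c 0 r387 (.c 1 r388 (.c 2 r389 (.c 6 r390 (.c 7 r391 (.c 8 r392 .e)))))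
noncomputable def r393 : Tr := .c 3 q393 (.c 4 q394 (.c 6 q395 .e))
noncomputable def r394 : Tr := .c 3 q393 (.c 6 q395 (.c 7 q377 (.c 8 q361 .e)))
noncomputable def r395 : Tr := .c 0 q28 (.c 6 q395 (.c 7 q377 (.c 8 q361 .e)))
noncomputable def r396 : Tr := .c 0 q28 (.c 2 q28 (.c 3 q397 (.c 4 q398 (.c 6 q399 .e))))
noncomputable def t100 : Tr := .c 1 r393 (.c 2 r394 (.c 4 r395 (.c 5 r373 (.c 8 r396 (.c 9 r375 .e)))))
noncomputable def r397 : Tr := .c 4 q394 (.c 7 q377 (.c 8 q361 .e))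
noncomputable def r398 : Tr := .c 2 q396 (.c 7 q377 (.c 8 q361 .e))
noncomputable def t101 : Tr := .c 0 r397 (.c 2 r394 (.c 3 r398 (.c 4 r395 (.c 5 r373 (.c 9 r375 .e)))))
noncomputable def q410 : Tr := .c 1 v1 (.c 8 v1 (.c 9 v1 .e))
noncomputable def v76 : Tr := .l 0x6184186186146
noncomputable def q411 : Tr := .c 2 v28 (.c 9 v76 .e)
noncomputable def v77 : Tr := .l 0x40c6186184184
noncomputable def q412 : Tr := .c 2 v77 .e
noncomputable def r399 : Tr := .c 4 q410 (.c 7 q411 (.c 8 q412 .e))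
noncomputable def q413 : Tr := .c 1 v28 (.c 2 v28 (.c 8 v76 (.c 9 v76 .e)))
noncomputable def r400 : Tr := .c 3 q413 (.c 6 q413 (.c 7 q411 (.c 8 q412 .e)))
noncomputable def v78 : Tr := .l 0x4146186185184
noncomputable def q414 : Tr := .c 9 v78 .e
noncomputable def q415 : Tr := .c 8 v1 (.c 9 v78 .e)
noncomputable def r401 : Tr := .c 1 q414 (.c 2 q415 (.c 7 q411 (.c 8 q412 .e)))
noncomputable def r402 : Tr := .c 0 q415 (.c 1 q414 (.c 6 q413 (.c 7 q411 (.c 8 q412 .e))))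
noncomputable def r403 : Tr := .c 0 q415 (.c 1 q414 (.c 2 q415 (.c 6 q413 (.c 7 q411 (.c 8 q412 .e)))))
noncomputable def q416 : Tr := .c 1 v1 (.c 8 v1 (.c 9 v78 .e))
noncomputable def r404 : Tr := .c 1 q414 (.c 2 q415 (.c 4 q416 (.c 8 q412 .e)))
noncomputable def t102 : Tr := .c 0 r399 (.c 2 r400 (.c 3 r401 (.c 4 r402 (.c 5 r403 (.c 6 r404 .e)))))
noncomputable def r405 : Tr := .c 4 q403 (.c 7 q405 .e)
noncomputable def r406 : Tr := .c 3 q403 (.c 4 q403 (.c 6 q403 .e))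
noncomputable def r407 : Tr := .c 3 q403 (.c 6 q403 (.c 7 q405 .e))
noncomputable def r408 : Tr := .c 1 q245 (.c 2 q407 (.c 7 q405 .e))
noncomputable def r409 : Tr := .c 0 q407 (.c 1 q245 (.c 6 q403 (.c 7 q405 .e)))
noncomputable def r410 : Tr := .c 1 q245 (.c 2 q407 (.c 4 q408 .e))
noncomputable def r411 : Tr := .c 0 q407 (.c 2 q407 (.c 3 q408 (.c 4 q408 .e)))
noncomputable def t103 : Tr := .c 0 r405 (.c 1 r406 (.c 2 r407 (.c 3 r408 (.c 4 r409 (.c 6 r410 (.c 7 r411 .e))))))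
noncomputable def q417 : Tr := .c 1 v1 (.c 2 v1 (.c 8 v1 (.c 9 v23 .e)))
noncomputable def q418 : Tr := .c 2 v1 (.c 9 v23 .e)
noncomputable def r412 : Tr := .c 0 q8 (.c 1 q235 (.c 6 q417 (.c 7 q418 .e)))
noncomputable def v79 : Tr := .l 0x6185186186105
noncomputable def q419 : Tr := .c 1 v79 (.c 2 v79 (.c 8 v44 (.c 9 v1 .e)))
noncomputable def q420 : Tr := .c 2 v79 (.c 9 v1 .e)
noncomputable def r413 : Tr := .c 0 q52 (.c 1 q245 (.c 2 q52 (.c 6 q419 (.c 7 q420 .e))))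
noncomputable def q421 : Tr := .c 1 v19 (.c 2 v19 (.c 7 v0 (.c 8 v2 (.c 9 v3 .e))))
noncomputable def q422 : Tr := .c 1 v19 (.c 7 v0 (.c 8 v2 (.c 9 v3 .e)))
noncomputable def q423 : Tr := .c 1 v19 (.c 2 v19 (.c 7 v0 (.c 8 v2 .e)))
noncomputable def r414 : Tr := .c 0 q8 (.c 2 q8 (.c 3 q421 (.c 4 q422 (.c 5 q423 .e))))
noncomputable def q424 : Tr := .c 1 v1 (.c 2 v1 (.c 7 v9 (.c 8 v1 (.c 9 v45 .e))))
noncomputable def q425 : Tr := .c 1 v1 (.c 7 v9 (.c 8 v1 (.c 9 v45 .e)))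
noncomputable def q426 : Tr := .c 1 v1 (.c 2 v1 (.c 7 v9 (.c 8 v1 .e)))
noncomputable def q427 : Tr := .c 1 v1 (.c 2 v1 (.c 8 v1 (.c 9 v45 .e)))
noncomputable def r415 : Tr := .c 0 q88 (.c 2 q88 (.c 3 q424 (.c 4 q425 (.c 5 q426 (.c 6 q427 .e)))))
noncomputable def v80 : Tr := .l 0x5186186185144
noncomputable def q428 : Tr := .c 1 v80 (.c 2 v80 (.c 7 v12 (.c 8 v23 (.c 9 v1 .e))))
noncomputable def q429 : Tr := .c 1 v80 (.c 7 v12 (.c 8 v23 (.c 9 v1 .e)))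
noncomputable def q430 : Tr := .c 1 v80 (.c 2 v80 (.c 8 v23 (.c 9 v1 .e)))
noncomputable def q431 : Tr := .c 2 v80 (.c 9 v1 .e)
noncomputable def r416 : Tr := .c 0 q93 (.c 1 q262 (.c 2 q93 (.c 3 q428 (.c 4 q429 (.c 6 q430 (.c 7 q431 .e))))))
noncomputable def t104 : Tr := .c 4 r412 (.c 5 r413 (.c 7 r414 (.c 8 r415 (.c 9 r416 .e))))
noncomputable def q432 : Tr := .c 2 v79 .e
noncomputable def r417 : Tr := .c 2 q53 (.c 7 q432 .e)
noncomputable def q433 : Tr := .c 1 v79 (.c 2 v79 (.c 8 v44 .e))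
noncomputable def r418 : Tr := .c 0 q53 (.c 2 q53 (.c 6 q433 (.c 7 q432 .e)))
noncomputable def q434 : Tr := .c 1 v19 (.c 7 v0 (.c 8 v2 .e))
noncomputable def r419 : Tr := .c 2 q53 (.c 4 q434 (.c 5 q423 .e))
noncomputable def r420 : Tr := .c 0 q53 (.c 2 q53 (.c 3 q423 (.c 4 q434 (.c 5 q423 .e))))
noncomputable def q435 : Tr := .c 1 v1 (.c 7 v9 (.c 8 v1 .e))
noncomputable def q436 : Tr := .c 1 v1 (.c 2 v1 (.c 8 v1 .e))
noncomputable def r421 : Tr := .c 0 q54 (.c 2 q54 (.c 3 q426 (.c 4 q435 (.c 5 q426 (.c 6 q436 .e)))))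
noncomputable def q437 : Tr := .c 1 v80 (.c 2 v80 (.c 7 v12 (.c 8 v23 .e)))
noncomputable def q438 : Tr := .c 1 v80 (.c 7 v12 (.c 8 v23 .e))
noncomputable def q439 : Tr := .c 1 v80 (.c 2 v80 (.c 8 v23 .e))
noncomputable def q440 : Tr := .c 2 v80 .e
noncomputable def r422 : Tr := .c 0 q100 (.c 2 q100 (.c 3 q437 (.c 4 q438 (.c 6 q439 (.c 7 q440 .e)))))
noncomputable def t105 : Tr := .c 3 r417 (.c 5 r418 (.c 6 r419 (.c 7 r420 (.c 8 r421 (.c 9 r422 .e)))))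
noncomputable def q441 : Tr := .c 1 v1 (.c 2 v1 (.c 7 v19 (.c 8 v1 (.c 9 v47 .e))))
noncomputable def q442 : Tr := .c 1 v1 (.c 7 v19 (.c 8 v1 (.c 9 v47 .e)))
noncomputable def q443 : Tr := .c 1 v1 (.c 2 v1 (.c 8 v1 (.c 9 v47 .e)))
noncomputable def r423 : Tr := .c 3 q441 (.c 4 q442 (.c 5 q365 (.c 6 q443 .e)))
noncomputable def q444 : Tr := .c 2 v1 (.c 9 v47 .e)
noncomputable def r424 : Tr := .c 3 q441 (.c 5 q365 (.c 6 q443 (.c 7 q444 .e)))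
noncomputable def t106 : Tr := .c 1 r423 (.c 2 r424 (.c 7 r414 (.c 8 r415 (.c 9 r416 .e))))
noncomputable def r425 : Tr := .c 4 q380 (.c 5 q365 (.c 7 q378 .e))
noncomputable def r426 : Tr := .c 3 q365 (.c 4 q380 (.c 5 q365 (.c 6 q436 .e)))
noncomputable def t107 : Tr := .c 0 r425 (.c 1 r426 (.c 6 r419 (.c 7 r420 (.c 8 r421 (.c 9 r422 .e)))))
noncomputable def r427 : Tr := .c 4 q442 (.c 5 q380 (.c 7 q252 .e))
noncomputable def q445 : Tr := .c 1 v1 (.c 8 v1 (.c 9 v47 .e))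
noncomputable def r428 : Tr := .c 3 q442 (.c 4 q442 (.c 5 q380 (.c 6 q445 .e)))
noncomputable def r429 : Tr := .c 3 q442 (.c 5 q380 (.c 6 q445 (.c 7 q252 .e)))
noncomputable def r430 : Tr := .c 1 q235 (.c 2 q8 (.c 4 q422 (.c 5 q434 .e)))
noncomputable def r431 : Tr := .c 0 q8 (.c 2 q8 (.c 3 q422 (.c 4 q422 (.c 5 q434 .e))))
noncomputable def q446 : Tr := .c 1 v1 (.c 8 v1 (.c 9 v45 .e))
noncomputable def r432 : Tr := .c 0 q88 (.c 2 q88 (.c 3 q425 (.c 4 q425 (.c 5 q435 (.c 6 q446 .e)))))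
noncomputable def t108 : Tr := .c 0 r427 (.c 1 r428 (.c 2 r429 (.c 6 r430 (.c 7 r431 (.c 8 r432 .e)))))
noncomputable def q447 : Tr := .c 1 v15 (.c 8 v32 (.c 9 v33 .e))
noncomputable def q448 : Tr := .c 1 v15 (.c 8 v32 .e)
noncomputable def r433 : Tr := .c 4 q447 (.c 5 q448 (.c 7 q228 .e))
noncomputable def r434 : Tr := .c 3 q447 (.c 4 q447 (.c 5 q448 (.c 6 q447 .e)))
noncomputable def r435 : Tr := .c 3 q447 (.c 5 q448 (.c 6 q447 (.c 7 q228 .e)))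
noncomputable def r436 : Tr := .c 1 q233 (.c 2 q49 (.c 7 q228 .e))
noncomputable def r437 : Tr := .c 0 q49 (.c 1 q233 (.c 6 q447 (.c 7 q228 .e)))
noncomputable def q449 : Tr := .c 1 v23 (.c 8 v23 (.c 9 v37 .e))
noncomputable def q450 : Tr := .c 1 v23 (.c 8 v23 .e)
noncomputable def r438 : Tr := .c 1 q233 (.c 2 q49 (.c 4 q449 (.c 5 q450 .e)))
noncomputable def r439 : Tr := .c 0 q49 (.c 2 q49 (.c 3 q449 (.c 4 q449 (.c 5 q450 .e))))
noncomputable def t109 : Tr := .c 0 r433 (.c 1 r434 (.c 2 r435 (.c 3 r436 (.c 4 r437 (.c 6 r438 (.c 7 r439 .e))))))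
noncomputable def r440 : Tr := .c 0 q119 (.c 1 q390 (.c 8 q378 (.c 9 q366 .e)))
noncomputable def r441 : Tr := .c 0 q119 (.c 1 q390 (.c 2 q119 (.c 8 q378 .e)))
noncomputable def q451 : Tr := .c 1 v1 (.c 2 v1 (.c 7 v48 (.c 8 v1 (.c 9 v23 .e))))
noncomputable def q452 : Tr := .c 1 v1 (.c 7 v48 (.c 8 v1 (.c 9 v23 .e)))
noncomputable def q453 : Tr := .c 1 v1 (.c 2 v1 (.c 7 v48 (.c 8 v1 .e)))
noncomputable def r442 : Tr := .c 0 q119 (.c 2 q119 (.c 3 q451 (.c 4 q452 (.c 5 q453 (.c 9 q366 .e)))))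
noncomputable def q454 : Tr := .c 1 v15 (.c 2 v15 (.c 7 v1 (.c 8 v1 (.c 9 v1 .e))))
noncomputable def q455 : Tr := .c 1 v15 (.c 7 v1 (.c 8 v1 (.c 9 v1 .e)))
noncomputable def q456 : Tr := .c 1 v15 (.c 2 v15 (.c 7 v1 (.c 8 v1 .e)))
noncomputable def r443 : Tr := .c 0 q123 (.c 2 q123 (.c 3 q454 (.c 4 q455 (.c 5 q456 .e))))
noncomputable def q457 : Tr := .c 1 v15 (.c 2 v15 (.c 7 v23 (.c 8 v1 (.c 9 v51 .e))))
noncomputable def q458 : Tr := .c 1 v15 (.c 7 v23 (.c 8 v1 (.c 9 v51 .e)))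
noncomputable def r444 : Tr := .c 0 q128 (.c 1 q265 (.c 2 q128 (.c 3 q457 (.c 4 q458 .e))))
noncomputable def t110 : Tr := .c 4 r440 (.c 5 r441 (.c 7 r442 (.c 8 r443 (.c 9 r444 .e))))
noncomputable def r445 : Tr := .c 2 q120 (.c 8 q378 (.c 9 q366 .e))
noncomputable def r446 : Tr := .c 0 q120 (.c 2 q120 (.c 8 q378 .e))
noncomputable def q459 : Tr := .c 1 v1 (.c 7 v48 (.c 8 v1 .e))
noncomputable def r447 : Tr := .c 2 q120 (.c 4 q459 (.c 5 q453 (.c 8 q378 (.c 9 q366 .e))))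
noncomputable def r448 : Tr := .c 0 q120 (.c 2 q120 (.c 3 q453 (.c 4 q459 (.c 5 q453 (.c 9 q366 .e)))))
noncomputable def q460 : Tr := .c 1 v15 (.c 7 v1 (.c 8 v1 .e))
noncomputable def r449 : Tr := .c 0 q124 (.c 2 q124 (.c 3 q456 (.c 4 q460 (.c 5 q456 .e))))
noncomputable def q461 : Tr := .c 1 v15 (.c 2 v15 (.c 7 v23 (.c 8 v1 .e)))
noncomputable def q462 : Tr := .c 1 v15 (.c 7 v23 (.c 8 v1 .e))
noncomputable def r450 : Tr := .c 0 q135 (.c 2 q135 (.c 3 q461 (.c 4 q462 .e)))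
noncomputable def t111 : Tr := .c 3 r445 (.c 5 r446 (.c 6 r447 (.c 7 r448 (.c 8 r449 (.c 9 r450 .e)))))
noncomputable def q463 : Tr := .c 1 v15 (.c 2 v15 (.c 7 v52 .e))
noncomputable def r451 : Tr := .c 3 q367 (.c 4 q368 (.c 5 q369 (.c 9 q463 .e)))
noncomputable def v81 : Tr := .l 0x6186144186186
noncomputable def q464 : Tr := .c 2 v81 .e
noncomputable def r452 : Tr := .c 3 q367 (.c 5 q369 (.c 8 q464 (.c 9 q463 .e)))
noncomputable def t112 : Tr := .c 1 r451 (.c 2 r452 (.c 7 r442 (.c 8 r443 (.c 9 r444 .e))))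
noncomputable def r453 : Tr := .c 4 q381 (.c 5 q369 (.c 8 q378 (.c 9 q463 .e)))
noncomputable def r454 : Tr := .c 3 q369 (.c 4 q381 (.c 5 q369 (.c 9 q463 .e)))
noncomputable def t113 : Tr := .c 0 r453 (.c 1 r454 (.c 6 r447 (.c 7 r448 (.c 8 r449 (.c 9 r450 .e)))))
noncomputable def q465 : Tr := .c 1 v15 (.c 7 v52 .e)
noncomputable def r455 : Tr := .c 4 q368 (.c 5 q381 (.c 9 q465 .e))
noncomputable def r456 : Tr := .c 3 q368 (.c 4 q368 (.c 5 q381 (.c 9 q465 .e)))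
noncomputable def r457 : Tr := .c 3 q368 (.c 5 q381 (.c 9 q465 .e))
noncomputable def r458 : Tr := .c 1 q390 (.c 2 q119 (.c 4 q452 (.c 5 q459 (.c 9 q391 .e))))
noncomputable def r459 : Tr := .c 0 q119 (.c 2 q119 (.c 3 q452 (.c 4 q452 (.c 5 q459 (.c 9 q391 .e)))))
noncomputable def r460 : Tr := .c 0 q123 (.c 2 q123 (.c 3 q455 (.c 4 q455 (.c 5 q460 .e))))
noncomputable def t114 : Tr := .c 0 r455 (.c 1 r456 (.c 2 r457 (.c 6 r458 (.c 7 r459 (.c 8 r460 .e)))))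
noncomputable def r461 : Tr := .c 3 q397 (.c 4 q398 (.c 5 q397 (.c 9 q463 .e)))
noncomputable def r462 : Tr := .c 3 q397 (.c 5 q397 (.c 8 q464 (.c 9 q463 .e)))
noncomputable def r463 : Tr := .c 0 q28 (.c 8 q464 (.c 9 q463 .e))
noncomputable def q466 : Tr := .c 7 v55 .e
noncomputable def r464 : Tr := .c 0 q466 (.c 2 q466 (.c 8 q464 .e))
noncomputable def q467 : Tr := .c 1 v15 (.c 2 v15 (.c 7 v1 .e))
noncomputable def q468 : Tr := .c 1 v15 (.c 7 v1 .e)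
noncomputable def r465 : Tr := .c 0 q28 (.c 2 q28 (.c 3 q467 (.c 4 q468 (.c 5 q467 .e))))
noncomputable def q469 : Tr := .c 1 v15 (.c 2 v15 (.c 7 v23 .e))
noncomputable def q470 : Tr := .c 1 v15 (.c 7 v23 .e)
noncomputable def r466 : Tr := .c 0 q33 (.c 2 q33 (.c 3 q469 (.c 4 q470 .e)))
noncomputable def t115 : Tr := .c 1 r461 (.c 2 r462 (.c 4 r463 (.c 5 r464 (.c 8 r465 (.c 9 r466 .e)))))
noncomputable def q471 : Tr := .c 7 v56 (.c 8 v23 (.c 9 v57 .e))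
noncomputable def q472 : Tr := .c 9 v57 .e
noncomputable def v82 : Tr := .l 0x5146186184184
noncomputable def q473 : Tr := .c 2 v82 .e
noncomputable def q474 : Tr := .c 1 v39 (.c 2 v39 (.c 7 v59 .e))
noncomputable def r467 : Tr := .c 0 q471 (.c 1 q472 (.c 8 q473 (.c 9 q474 .e)))
noncomputable def q475 : Tr := .c 7 v39 (.c 8 v23 (.c 9 v57 .e))
noncomputable def r468 : Tr := .c 0 q475 (.c 1 q472 (.c 8 q473 .e))
noncomputable def q476 : Tr := .c 1 v23 (.c 2 v23 (.c 7 v56 (.c 8 v23 (.c 9 v1 .e))))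
noncomputable def q477 : Tr := .c 1 v23 (.c 2 v23 (.c 7 v56 (.c 8 v23 .e)))
noncomputable def r469 : Tr := .c 0 q159 (.c 3 q476 (.c 5 q477 (.c 9 q474 .e)))
noncomputable def q478 : Tr := .c 1 v15 (.c 2 v15 (.c 7 v61 (.c 8 v1 (.c 9 v51 .e))))
noncomputable def q479 : Tr := .c 1 v15 (.c 2 v15 (.c 7 v61 (.c 8 v1 .e)))
noncomputable def r470 : Tr := .c 0 q162 (.c 3 q478 (.c 5 q479 .e))
noncomputable def q480 : Tr := .c 1 v1 (.c 2 v1 (.c 7 v1 (.c 8 v51 (.c 9 v63 .e))))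
noncomputable def r471 : Tr := .c 0 q166 (.c 1 q268 (.c 3 q480 .e))
noncomputable def t116 : Tr := .c 4 r467 (.c 5 r468 (.c 7 r469 (.c 8 r470 (.c 9 r471 .e))))
noncomputable def r472 : Tr := .c 1 q472 (.c 8 q473 (.c 9 q474 .e))
noncomputable def r473 : Tr := .c 1 q472 (.c 5 q477 (.c 8 q473 (.c 9 q474 .e)))
noncomputable def t117 : Tr := .c 3 r472 (.c 4 r467 (.c 5 r468 (.c 6 r473 (.c 9 r471 .e))))
noncomputable def r474 : Tr := .c 8 q473 (.c 9 q474 .e)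
noncomputable def q481 : Tr := .c 7 v39 (.c 8 v23 .e)
noncomputable def r475 : Tr := .c 0 q481 (.c 8 q473 .e)
noncomputable def r476 : Tr := .c 5 q477 (.c 8 q473 (.c 9 q474 .e))
noncomputable def r477 : Tr := .c 0 q160 (.c 3 q477 (.c 5 q477 (.c 9 q474 .e)))
noncomputable def r478 : Tr := .c 0 q163 (.c 3 q479 (.c 5 q479 .e))
noncomputable def q482 : Tr := .c 1 v1 (.c 2 v1 (.c 7 v1 (.c 8 v51 .e)))
noncomputable def r479 : Tr := .c 0 q174 (.c 3 q482 .e)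
noncomputable def t118 : Tr := .c 3 r474 (.c 5 r475 (.c 6 r476 (.c 7 r477 (.c 8 r478 (.c 9 r479 .e)))))
noncomputable def q483 : Tr := .c 1 v71 (.c 2 v71 (.c 7 v64 (.c 8 v15 (.c 9 v1 .e))))
noncomputable def q484 : Tr := .c 1 v71 (.c 2 v71 (.c 7 v64 (.c 8 v15 .e)))
noncomputable def q485 : Tr := .c 1 v15 (.c 2 v15 (.c 7 v40 .e))
noncomputable def r480 : Tr := .c 3 q483 (.c 5 q484 (.c 9 q485 .e))
noncomputable def r481 : Tr := .c 3 q483 (.c 5 q484 (.c 8 q464 (.c 9 q485 .e)))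
noncomputable def t119 : Tr := .c 1 r480 (.c 2 r481 (.c 7 r469 (.c 8 r470 (.c 9 r471 .e))))
noncomputable def r482 : Tr := .c 5 q484 (.c 8 q378 (.c 9 q485 .e))
noncomputable def r483 : Tr := .c 3 q484 (.c 5 q484 (.c 9 q485 .e))
noncomputable def t120 : Tr := .c 0 r482 (.c 1 r483 (.c 6 r476 (.c 7 r477 (.c 8 r478 (.c 9 r479 .e)))))
noncomputable def q486 : Tr := .c 1 v71 (.c 2 v71 (.c 7 v64 .e))
noncomputable def r484 : Tr := .c 3 q486 (.c 5 q486 (.c 9 q485 .e))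
noncomputable def r485 : Tr := .c 3 q486 (.c 5 q486 (.c 8 q464 (.c 9 q485 .e)))
noncomputable def r486 : Tr := .c 0 q33 (.c 8 q464 (.c 9 q485 .e))
noncomputable def r487 : Tr := .c 0 q28 (.c 8 q464 .e)
noncomputable def q487 : Tr := .c 1 v15 (.c 2 v15 (.c 7 v61 .e))
noncomputable def r488 : Tr := .c 0 q182 (.c 3 q487 (.c 5 q487 .e))
noncomputable def q488 : Tr := .c 1 v1 (.c 2 v1 (.c 7 v1 .e))
noncomputable def r489 : Tr := .c 0 q28 (.c 3 q488 .e)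
noncomputable def t121 : Tr := .c 1 r484 (.c 2 r485 (.c 4 r486 (.c 5 r487 (.c 8 r488 (.c 9 r489 .e)))))
noncomputable def r490 : Tr := .c 5 q486 (.c 8 q464 (.c 9 q485 .e))
noncomputable def r491 : Tr := .c 8 q464 (.c 9 q485 .e)
noncomputable def t122 : Tr := .c 0 r490 (.c 2 r485 (.c 3 r491 (.c 4 r486 (.c 5 r487 (.c 9 r489 .e)))))
noncomputable def q489 : Tr := .c 0 v70 (.c 1 v70 (.c 6 v1 (.c 7 v1 (.c 8 v71 .e))))
noncomputable def q490 : Tr := .c 0 v1 .e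
noncomputable def q491 : Tr := .c 0 v1 (.c 6 v1 .e)
noncomputable def q492 : Tr := .c 0 v72 (.c 1 v72 (.c 6 v15 (.c 7 v15 .e)))
noncomputable def r492 : Tr := .c 4 q489 (.c 5 q489 (.c 7 q490 (.c 8 q491 (.c 9 q492 .e))))
noncomputable def q493 : Tr := .c 1 v70 (.c 8 v71 .e)
noncomputable def r493 : Tr := .c 3 q376 (.c 4 q489 (.c 5 q489 (.c 6 q493 (.c 9 q492 .e))))
noncomputable def q494 : Tr := .c 0 v1 (.c 1 v1 (.c 6 v19 (.c 7 v19 (.c 8 v1 .e))))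
noncomputable def q495 : Tr := .c 0 v1 (.c 6 v82 .e)
noncomputable def q496 : Tr := .c 0 v1 (.c 1 v1 (.c 6 v23 (.c 7 v23 .e)))
noncomputable def r494 : Tr := .c 1 q247 (.c 2 q309 (.c 4 q494 (.c 5 q494 (.c 8 q495 (.c 9 q496 .e)))))
noncomputable def r495 : Tr := .c 0 q104 (.c 2 q309 (.c 3 q380 (.c 4 q494 (.c 5 q494 (.c 9 q496 .e)))))
noncomputable def q497 : Tr := .c 0 v71 (.c 1 v71 (.c 6 v1 (.c 7 v1 (.c 8 v15 .e))))
noncomputable def q498 : Tr := .c 1 v71 (.c 8 v15 .e)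
noncomputable def r496 : Tr := .c 0 q137 (.c 2 q330 (.c 3 q381 (.c 4 q497 (.c 5 q497 (.c 6 q498 .e)))))
noncomputable def t123 : Tr := .c 0 r492 (.c 1 r493 (.c 6 r494 (.c 7 r495 (.c 8 r496 .e))))
noncomputable def q499 : Tr := .c 0 v70 (.c 1 v70 (.c 6 v1 (.c 7 v1 (.c 8 v71 (.c 9 v71 .e)))))
noncomputable def q500 : Tr := .c 0 v70 (.c 9 v71 .e)
noncomputable def q501 : Tr := .c 0 v1 (.c 6 v81 .e)
noncomputable def r497 : Tr := .c 4 q499 (.c 5 q489 (.c 7 q500 (.c 8 q501 (.c 9 q492 .e))))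
noncomputable def r498 : Tr := .c 3 q356 (.c 4 q499 (.c 5 q489 (.c 6 q389 (.c 9 q492 .e))))
noncomputable def r499 : Tr := .c 3 q356 (.c 5 q489 (.c 6 q389 (.c 7 q500 (.c 8 q501 (.c 9 q492 .e)))))
noncomputable def q502 : Tr := .c 6 v19 (.c 9 v23 .e)
noncomputable def q503 : Tr := .c 6 v19 (.c 7 v19 (.c 8 v1 (.c 9 v23 .e)))
noncomputable def q504 : Tr := .c 0 v1 (.c 1 v1 (.c 6 v19 (.c 7 v19 (.c 8 v1 (.c 9 v23 .e)))))
noncomputable def q505 : Tr := .c 0 v1 (.c 6 v23 .e)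
noncomputable def r500 : Tr := .c 1 q502 (.c 2 q503 (.c 4 q504 (.c 5 q494 (.c 8 q505 (.c 9 q496 .e)))))
noncomputable def r501 : Tr := .c 0 q362 (.c 2 q503 (.c 3 q364 (.c 4 q504 (.c 5 q494 (.c 9 q496 .e)))))
noncomputable def q506 : Tr := .c 0 v71 (.c 1 v71 (.c 6 v1 (.c 7 v1 (.c 8 v15 (.c 9 v15 .e)))))
noncomputable def r502 : Tr := .c 0 q136 (.c 2 q329 (.c 3 q368 (.c 4 q506 (.c 5 q497 (.c 6 q392 .e)))))
noncomputable def t124 : Tr := .c 0 r497 (.c 1 r498 (.c 2 r499 (.c 6 r500 (.c 7 r501 (.c 8 r502 .e)))))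
noncomputable def q507 : Tr := .c 0 v1 (.c 1 v1 (.c 6 v1 (.c 7 v1 .e)))
noncomputable def q508 : Tr := .c 0 v70 (.c 1 v70 (.c 6 v1 (.c 7 v1 .e)))
noncomputable def q509 : Tr := .c 0 v70 .e
noncomputable def q510 : Tr := .c 0 v72 (.c 1 v72 (.c 6 v1 (.c 7 v1 .e)))
noncomputable def r503 : Tr := .c 4 q507 (.c 5 q508 (.c 7 q509 (.c 8 q491 (.c 9 q510 .e))))
noncomputable def q511 : Tr := .c 1 v70 .e
noncomputable def r504 : Tr := .c 3 q394 (.c 5 q508 (.c 6 q511 (.c 7 q509 (.c 8 q491 (.c 9 q510 .e)))))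
noncomputable def r505 : Tr := .c 1 q209 (.c 2 q292 (.c 7 q509 (.c 8 q491 (.c 9 q510 .e))))
noncomputable def r506 : Tr := .c 0 q28 (.c 1 q209 (.c 6 q511 (.c 7 q509 (.c 8 q491 (.c 9 q510 .e)))))
noncomputable def t125 : Tr := .c 0 r503 (.c 2 r504 (.c 3 r505 (.c 4 r506 .e)))
noncomputable def q512 : Tr := .c 0 v1 (.c 1 v1 (.c 8 v1 (.c 9 v1 .e)))
noncomputable def q513 : Tr := .c 0 v1 (.c 1 v1 (.c 8 v1 .e))
noncomputable def q514 : Tr := .c 0 v1 (.c 9 v76 .e)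
noncomputable def q515 : Tr := .c 0 v1 (.c 1 v1 .e)
noncomputable def r507 : Tr := .c 4 q512 (.c 5 q513 (.c 7 q514 (.c 8 q490 (.c 9 q515 .e))))
noncomputable def q516 : Tr := .c 1 v1 (.c 8 v1 (.c 9 v76 .e))
noncomputable def r508 : Tr := .c 3 q516 (.c 5 q513 (.c 6 q516 (.c 7 q514 (.c 8 q490 (.c 9 q515 .e)))))
noncomputable def v83 : Tr := .l 0x4146186186185
noncomputable def q517 : Tr := .c 9 v83 .e
noncomputable def q518 : Tr := .c 8 v1 (.c 9 v83 .e)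
noncomputable def r509 : Tr := .c 1 q517 (.c 2 q518 (.c 7 q514 (.c 8 q490 (.c 9 q515 .e))))
noncomputable def r510 : Tr := .c 0 q518 (.c 1 q517 (.c 6 q516 (.c 7 q514 (.c 8 q490 (.c 9 q515 .e)))))
noncomputable def q519 : Tr := .c 0 v1 (.c 1 v1 (.c 8 v1 (.c 9 v83 .e)))
noncomputable def r511 : Tr := .c 1 q517 (.c 2 q518 (.c 4 q519 (.c 5 q513 (.c 8 q490 (.c 9 q515 .e)))))
noncomputable def t126 : Tr := .c 0 r507 (.c 2 r508 (.c 3 r509 (.c 4 r510 (.c 6 r511 .e))))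
noncomputable def q520 : Tr := .c 0 v75 (.c 1 v75 (.c 8 v15 (.c 9 v15 .e)))
noncomputable def q521 : Tr := .c 0 v75 (.c 1 v75 (.c 8 v15 .e))
noncomputable def q522 : Tr := .c 0 v75 (.c 9 v15 .e)
noncomputable def q523 : Tr := .c 0 v15 (.c 1 v15 .e)
noncomputable def r512 : Tr := .c 4 q520 (.c 5 q521 (.c 7 q522 (.c 8 q490 (.c 9 q523 .e))))
noncomputable def r513 : Tr := .c 3 q403 (.c 4 q520 (.c 5 q521 (.c 6 q403 (.c 9 q523 .e))))
noncomputable def r514 : Tr := .c 3 q403 (.c 5 q521 (.c 6 q403 (.c 7 q522 (.c 8 q490 (.c 9 q523 .e)))))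
noncomputable def r515 : Tr := .c 1 q245 (.c 2 q407 (.c 7 q522 (.c 8 q490 (.c 9 q523 .e))))
noncomputable def r516 : Tr := .c 0 q407 (.c 1 q245 (.c 6 q403 (.c 7 q522 (.c 8 q490 (.c 9 q523 .e)))))
noncomputable def q524 : Tr := .c 0 v1 (.c 1 v1 (.c 8 v1 (.c 9 v39 .e)))
noncomputable def r517 : Tr := .c 1 q245 (.c 2 q407 (.c 4 q524 (.c 5 q513 (.c 8 q490 (.c 9 q523 .e)))))
noncomputable def r518 : Tr := .c 0 q407 (.c 2 q407 (.c 3 q408 (.c 4 q524 (.c 5 q513 (.c 9 q523 .e)))))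
noncomputable def t127 : Tr := .c 0 r512 (.c 1 r513 (.c 2 r514 (.c 3 r515 (.c 4 r516 (.c 6 r517 (.c 7 r518 .e))))))
noncomputable def t128 : Tr := .c 1 r498 (.c 2 r499 (.c 7 r501 (.c 8 r502 .e)))
noncomputable def r519 : Tr := .c 3 q394 (.c 4 q508 (.c 5 q508 (.c 6 q511 (.c 9 q492 .e))))
noncomputable def r520 : Tr := .c 3 q394 (.c 5 q508 (.c 6 q511 (.c 7 q509 (.c 8 q501 (.c 9 q492 .e)))))
noncomputable def v84 : Tr := .l 0x6186105186186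
noncomputable def q525 : Tr := .c 6 v84 .e
noncomputable def r521 : Tr := .c 0 q28 (.c 1 q525 (.c 6 q511 (.c 7 q509 (.c 8 q501 (.c 9 q492 .e)))))
noncomputable def q526 : Tr := .c 0 v71 (.c 1 v71 (.c 6 v1 (.c 7 v1 .e)))
noncomputable def q527 : Tr := .c 1 v71 .e
noncomputable def r522 : Tr := .c 0 q28 (.c 2 q292 (.c 3 q398 (.c 4 q526 (.c 5 q526 (.c 6 q527 .e)))))
noncomputable def t129 : Tr := .c 1 r519 (.c 2 r520 (.c 4 r521 (.c 8 r522 .e)))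
noncomputable def q528 : Tr := .c 0 v1 (.c 9 v6 .e)
noncomputable def r523 : Tr := .c 1 q190 (.c 2 q284 (.c 7 q528 .e))
noncomputable def v85 : Tr := .l 0x6185186186106
noncomputable def q529 : Tr := .c 1 v85 (.c 8 v5 (.c 9 v6 .e))
noncomputable def r524 : Tr := .c 0 q8 (.c 1 q190 (.c 6 q529 (.c 7 q528 .e)))
noncomputable def q530 : Tr := .c 0 v19 (.c 1 v19 (.c 6 v0 (.c 7 v0 (.c 8 v2 (.c 9 v3 .e)))))
noncomputable def q531 : Tr := .c 0 v19 (.c 1 v19 (.c 6 v0 (.c 7 v0 (.c 8 v2 .e))))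
noncomputable def r525 : Tr := .c 1 q190 (.c 2 q284 (.c 4 q530 (.c 5 q531 .e)))
noncomputable def t130 : Tr := .c 3 r523 (.c 4 r524 (.c 6 r525 .e))
noncomputable def r526 : Tr := .c 1 q191 (.c 2 q285 (.c 7 q490 .e))
noncomputable def r527 : Tr := .c 1 q191 (.c 2 q285 (.c 4 q531 (.c 5 q531 .e)))
noncomputable def r528 : Tr := .c 0 q53 (.c 2 q285 (.c 3 q434 (.c 4 q531 (.c 5 q531 .e))))
noncomputable def q532 : Tr := .c 0 v1 (.c 1 v1 (.c 6 v9 (.c 7 v9 (.c 8 v1 .e))))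
noncomputable def r529 : Tr := .c 0 q54 (.c 2 q290 (.c 3 q435 (.c 4 q532 (.c 5 q532 (.c 6 q409 .e)))))
noncomputable def t131 : Tr := .c 3 r526 (.c 6 r527 (.c 7 r528 (.c 8 r529 .e)))
noncomputable def r530 : Tr := .c 4 q494 (.c 5 q494 (.c 7 q490 .e))
noncomputable def r531 : Tr := .c 3 q380 (.c 4 q494 (.c 5 q494 (.c 6 q409 .e)))
noncomputable def t132 : Tr := .c 0 r530 (.c 1 r531 (.c 6 r527 (.c 7 r528 (.c 8 r529 .e))))
noncomputable def q533 : Tr := .c 0 v1 (.c 1 v1 (.c 6 v19 (.c 7 v19 (.c 8 v1 (.c 9 v47 .e)))))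
noncomputable def q534 : Tr := .c 0 v1 (.c 9 v47 .e)
noncomputable def r532 : Tr := .c 4 q533 (.c 5 q494 (.c 7 q534 .e))
noncomputable def r533 : Tr := .c 3 q442 (.c 4 q533 (.c 5 q494 (.c 6 q445 .e)))
noncomputable def r534 : Tr := .c 3 q442 (.c 5 q494 (.c 6 q445 (.c 7 q534 .e)))
noncomputable def r535 : Tr := .c 0 q8 (.c 2 q284 (.c 3 q422 (.c 4 q530 (.c 5 q531 .e))))
noncomputable def q535 : Tr := .c 0 v1 (.c 1 v1 (.c 6 v9 (.c 7 v9 (.c 8 v1 (.c 9 v45 .e)))))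
noncomputable def r536 : Tr := .c 0 q88 (.c 2 q313 (.c 3 q425 (.c 4 q535 (.c 5 q532 (.c 6 q446 .e)))))
noncomputable def t133 : Tr := .c 0 r532 (.c 1 r533 (.c 2 r534 (.c 6 r525 (.c 7 r535 (.c 8 r536 .e)))))
noncomputable def q536 : Tr := .c 0 v1 (.c 1 v1 (.c 8 v1 (.c 9 v24 .e)))
noncomputable def q537 : Tr := .c 0 v76 (.c 1 v76 (.c 8 v28 .e))
noncomputable def q538 : Tr := .c 0 v1 (.c 9 v26 .e)
noncomputable def r537 : Tr := .c 4 q536 (.c 5 q537 (.c 7 q538 .e))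
noncomputable def q539 : Tr := .c 1 v76 (.c 8 v28 (.c 9 v26 .e))
noncomputable def r538 : Tr := .c 3 q539 (.c 5 q537 (.c 6 q539 (.c 7 q538 .e)))
noncomputable def r539 : Tr := .c 1 q227 (.c 2 q42 (.c 7 q538 .e))
noncomputable def r540 : Tr := .c 0 q42 (.c 1 q227 (.c 6 q539 (.c 7 q538 .e)))
noncomputable def q540 : Tr := .c 0 v78 (.c 1 v78 (.c 8 v31 (.c 9 v30 .e)))
noncomputable def q541 : Tr := .c 0 v23 (.c 1 v23 (.c 8 v23 .e))
noncomputable def r541 : Tr := .c 1 q227 (.c 2 q42 (.c 4 q540 (.c 5 q541 .e)))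
noncomputable def t134 : Tr := .c 0 r537 (.c 2 r538 (.c 3 r539 (.c 4 r540 (.c 6 r541 .e))))
noncomputable def q542 : Tr := .c 0 v15 (.c 1 v15 (.c 8 v32 (.c 9 v33 .e)))
noncomputable def q543 : Tr := .c 0 v15 (.c 1 v15 (.c 8 v32 .e))
noncomputable def q544 : Tr := .c 0 v1 (.c 9 v33 .e)
noncomputable def r542 : Tr := .c 4 q542 (.c 5 q543 (.c 7 q544 .e))
noncomputable def r543 : Tr := .c 3 q447 (.c 4 q542 (.c 5 q543 (.c 6 q447 .e)))
noncomputable def r544 : Tr := .c 3 q447 (.c 5 q543 (.c 6 q447 (.c 7 q544 .e)))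
noncomputable def r545 : Tr := .c 1 q233 (.c 2 q49 (.c 7 q544 .e))
noncomputable def r546 : Tr := .c 0 q49 (.c 1 q233 (.c 6 q447 (.c 7 q544 .e)))
noncomputable def q545 : Tr := .c 0 v23 (.c 1 v23 (.c 8 v23 (.c 9 v37 .e)))
noncomputable def r547 : Tr := .c 1 q233 (.c 2 q49 (.c 4 q545 (.c 5 q541 .e)))
noncomputable def r548 : Tr := .c 0 q49 (.c 2 q49 (.c 3 q449 (.c 4 q545 (.c 5 q541 .e))))
noncomputable def t135 : Tr := .c 0 r542 (.c 1 r543 (.c 2 r544 (.c 3 r545 (.c 4 r546 (.c 6 r547 (.c 7 r548 .e))))))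
noncomputable def q546 : Tr := .c 1 v1 (.c 8 v1 (.c 9 v23 .e))
noncomputable def q547 : Tr := .c 0 v1 (.c 9 v23 .e)
noncomputable def r549 : Tr := .c 0 q8 (.c 1 q190 (.c 6 q546 (.c 7 q547 .e)))
noncomputable def t136 : Tr := .c 4 r549 (.c 7 r535 (.c 8 r536 .e))
noncomputable def t137 : Tr := .c 1 r533 (.c 2 r534 (.c 7 r535 (.c 8 r536 .e)))
noncomputable def q548 : Tr := .c 6 v48 (.c 9 v23 .e)
noncomputable def q549 : Tr := .c 0 v1 (.c 6 v49 .e)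
noncomputable def r550 : Tr := .c 0 q119 (.c 1 q548 (.c 8 q549 (.c 9 q496 .e)))
noncomputable def q550 : Tr := .c 0 v1 (.c 1 v1 (.c 6 v48 (.c 7 v48 (.c 8 v1 (.c 9 v23 .e)))))
noncomputable def q551 : Tr := .c 0 v1 (.c 1 v1 (.c 6 v48 (.c 7 v48 (.c 8 v1 .e))))
noncomputable def r551 : Tr := .c 0 q119 (.c 2 q320 (.c 3 q452 (.c 4 q550 (.c 5 q551 (.c 9 q496 .e)))))
noncomputable def q552 : Tr := .c 0 v15 (.c 1 v15 (.c 6 v1 (.c 7 v1 (.c 8 v1 (.c 9 v1 .e)))))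
noncomputable def q553 : Tr := .c 0 v15 (.c 1 v15 (.c 6 v1 (.c 7 v1 (.c 8 v1 .e))))
noncomputable def r552 : Tr := .c 0 q123 (.c 2 q323 (.c 3 q455 (.c 4 q552 (.c 5 q553 .e))))
noncomputable def t138 : Tr := .c 4 r550 (.c 7 r551 (.c 8 r552 .e))
noncomputable def q554 : Tr := .c 6 v48 .e
noncomputable def r553 : Tr := .c 1 q554 (.c 2 q321 (.c 8 q549 (.c 9 q496 .e)))
noncomputable def r554 : Tr := .c 1 q554 (.c 2 q321 (.c 4 q551 (.c 5 q551 (.c 8 q549 (.c 9 q496 .e)))))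
noncomputable def r555 : Tr := .c 0 q120 (.c 2 q321 (.c 3 q459 (.c 4 q551 (.c 5 q551 (.c 9 q496 .e)))))
noncomputable def r556 : Tr := .c 0 q124 (.c 2 q324 (.c 3 q460 (.c 4 q553 (.c 5 q553 .e))))
noncomputable def t139 : Tr := .c 3 r553 (.c 6 r554 (.c 7 r555 (.c 8 r556 .e)))
noncomputable def q555 : Tr := .c 0 v15 (.c 1 v15 (.c 6 v52 (.c 7 v52 .e)))
noncomputable def r557 : Tr := .c 3 q368 (.c 4 q506 (.c 5 q497 (.c 9 q555 .e)))
noncomputable def q556 : Tr := .c 0 v1 (.c 6 v53 .e)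
noncomputable def r558 : Tr := .c 3 q368 (.c 5 q497 (.c 8 q556 (.c 9 q555 .e)))
noncomputable def t140 : Tr := .c 1 r557 (.c 2 r558 (.c 7 r551 (.c 8 r552 .e)))
noncomputable def r559 : Tr := .c 4 q497 (.c 5 q497 (.c 8 q491 (.c 9 q555 .e)))
noncomputable def r560 : Tr := .c 3 q381 (.c 4 q497 (.c 5 q497 (.c 9 q555 .e)))
noncomputable def t141 : Tr := .c 0 r559 (.c 1 r560 (.c 6 r554 (.c 7 r555 (.c 8 r556 .e))))
noncomputable def r561 : Tr := .c 4 q506 (.c 5 q497 (.c 8 q556 (.c 9 q555 .e)))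
noncomputable def r562 : Tr := .c 1 q548 (.c 2 q320 (.c 4 q550 (.c 5 q551 (.c 8 q505 (.c 9 q496 .e)))))
noncomputable def t142 : Tr := .c 0 r561 (.c 1 r557 (.c 2 r558 (.c 6 r562 (.c 7 r551 (.c 8 r552 .e)))))
noncomputable def r563 : Tr := .c 3 q398 (.c 4 q526 (.c 5 q526 (.c 9 q555 .e)))
noncomputable def r564 : Tr := .c 3 q398 (.c 5 q526 (.c 8 q556 (.c 9 q555 .e)))
noncomputable def q557 : Tr := .c 6 v54 .e
noncomputable def r565 : Tr := .c 0 q28 (.c 1 q557 (.c 8 q556 (.c 9 q555 .e)))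
noncomputable def q558 : Tr := .c 0 v15 (.c 1 v15 (.c 6 v1 (.c 7 v1 .e)))
noncomputable def r566 : Tr := .c 0 q28 (.c 2 q292 (.c 3 q468 (.c 4 q558 (.c 5 q558 .e))))
noncomputable def t143 : Tr := .c 1 r563 (.c 2 r564 (.c 4 r565 (.c 8 r566 .e)))
noncomputable def q559 : Tr := .c 6 v56 (.c 9 v57 .e)
noncomputable def v86 : Tr := .l 0x6146186184185
noncomputable def q560 : Tr := .c 0 v86 (.c 6 v58 .e)
noncomputable def q561 : Tr := .c 0 v39 (.c 1 v39 (.c 6 v59 (.c 7 v59 .e)))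
noncomputable def r567 : Tr := .c 0 q471 (.c 1 q559 (.c 8 q560 (.c 9 q561 .e)))
noncomputable def q562 : Tr := .c 1 v23 (.c 7 v56 (.c 8 v23 (.c 9 v1 .e)))
noncomputable def q563 : Tr := .c 0 v23 (.c 1 v23 (.c 6 v56 (.c 7 v56 (.c 8 v23 .e))))
noncomputable def r568 : Tr := .c 0 q159 (.c 3 q562 (.c 5 q563 (.c 9 q561 .e)))
noncomputable def q564 : Tr := .c 1 v15 (.c 7 v61 (.c 8 v1 (.c 9 v51 .e)))
noncomputable def q565 : Tr := .c 0 v15 (.c 1 v15 (.c 6 v61 (.c 7 v61 (.c 8 v1 .e))))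
noncomputable def r569 : Tr := .c 0 q162 (.c 3 q564 (.c 5 q565 .e))
noncomputable def t144 : Tr := .c 4 r567 (.c 7 r568 (.c 8 r569 .e))
noncomputable def r570 : Tr := .c 1 q559 (.c 8 q560 (.c 9 q561 .e))
noncomputable def r571 : Tr := .c 1 q559 (.c 5 q563 (.c 8 q560 (.c 9 q561 .e)))
noncomputable def t145 : Tr := .c 3 r570 (.c 4 r567 (.c 6 r571 .e))
noncomputable def r572 : Tr := .c 1 q263 (.c 8 q560 (.c 9 q561 .e))
noncomputable def r573 : Tr := .c 1 q263 (.c 5 q563 (.c 8 q560 (.c 9 q561 .e)))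
noncomputable def q566 : Tr := .c 1 v23 (.c 7 v56 (.c 8 v23 .e))
noncomputable def r574 : Tr := .c 0 q160 (.c 3 q566 (.c 5 q563 (.c 9 q561 .e)))
noncomputable def q567 : Tr := .c 1 v15 (.c 7 v61 (.c 8 v1 .e))
noncomputable def r575 : Tr := .c 0 q163 (.c 3 q567 (.c 5 q565 .e))
noncomputable def t146 : Tr := .c 3 r572 (.c 6 r573 (.c 7 r574 (.c 8 r575 .e)))
noncomputable def q568 : Tr := .c 1 v71 (.c 7 v64 (.c 8 v15 (.c 9 v1 .e)))
noncomputable def q569 : Tr := .c 0 v71 (.c 1 v71 (.c 6 v64 (.c 7 v64 (.c 8 v15 .e))))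
noncomputable def q570 : Tr := .c 0 v15 (.c 1 v15 (.c 6 v40 (.c 7 v40 .e)))
noncomputable def r576 : Tr := .c 3 q568 (.c 5 q569 (.c 9 q570 .e))
noncomputable def q571 : Tr := .c 0 v81 (.c 6 v65 .e)
noncomputable def r577 : Tr := .c 3 q568 (.c 5 q569 (.c 8 q571 (.c 9 q570 .e)))
noncomputable def t147 : Tr := .c 1 r576 (.c 2 r577 (.c 7 r568 (.c 8 r569 .e)))
noncomputable def q572 : Tr := .c 0 v1 (.c 6 v66 .e)
noncomputable def r578 : Tr := .c 5 q569 (.c 8 q572 (.c 9 q570 .e))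
noncomputable def q573 : Tr := .c 1 v71 (.c 7 v64 (.c 8 v15 .e))
noncomputable def r579 : Tr := .c 3 q573 (.c 5 q569 (.c 9 q570 .e))
noncomputable def t148 : Tr := .c 0 r578 (.c 1 r579 (.c 6 r573 (.c 7 r574 (.c 8 r575 .e))))
noncomputable def q574 : Tr := .c 1 v71 (.c 7 v64 .e)
noncomputable def q575 : Tr := .c 0 v71 (.c 1 v71 (.c 6 v64 (.c 7 v64 .e)))
noncomputable def r580 : Tr := .c 3 q574 (.c 5 q575 (.c 9 q570 .e))
noncomputable def r581 : Tr := .c 3 q574 (.c 5 q575 (.c 8 q571 (.c 9 q570 .e)))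
noncomputable def r582 : Tr := .c 0 q33 (.c 1 q218 (.c 8 q571 (.c 9 q570 .e)))
noncomputable def q576 : Tr := .c 1 v15 (.c 7 v61 .e)
noncomputable def q577 : Tr := .c 0 v15 (.c 1 v15 (.c 6 v61 (.c 7 v61 .e)))
noncomputable def r583 : Tr := .c 0 q182 (.c 3 q576 (.c 5 q577 .e))
noncomputable def t149 : Tr := .c 1 r580 (.c 2 r581 (.c 4 r582 (.c 8 r583 .e)))
noncomputable def r584 : Tr := .c 5 q575 (.c 8 q571 (.c 9 q570 .e))
noncomputable def r585 : Tr := .c 1 q218 (.c 8 q571 (.c 9 q570 .e))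
noncomputable def t150 : Tr := .c 0 r584 (.c 2 r581 (.c 3 r585 (.c 4 r582 .e)))
noncomputable def q578 : Tr := .c 0 v70 (.c 1 v70 (.c 2 v70 (.c 6 v1 (.c 7 v1 (.c 8 v71 .e)))))
noncomputable def q579 : Tr := .c 0 v70 (.c 2 v70 .e)
noncomputable def q580 : Tr := .c 0 v1 (.c 2 v1 (.c 6 v1 .e))
noncomputable def q581 : Tr := .c 0 v72 (.c 1 v72 (.c 2 v72 (.c 6 v15 (.c 7 v15 .e))))
noncomputable def r586 : Tr := .c 4 q489 (.c 5 q578 (.c 7 q579 (.c 8 q580 (.c 9 q581 .e))))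
noncomputable def r587 : Tr := .c 3 q357 (.c 4 q489 (.c 5 q578 (.c 6 q379 (.c 9 q581 .e))))
noncomputable def q582 : Tr := .c 0 v1 (.c 1 v1 (.c 2 v1 (.c 6 v19 (.c 7 v19 (.c 8 v1 .e)))))
noncomputable def q583 : Tr := .c 0 v1 (.c 2 v1 (.c 6 v23 .e))
noncomputable def q584 : Tr := .c 0 v1 (.c 1 v1 (.c 2 v1 (.c 6 v23 (.c 7 v23 .e))))
noncomputable def r588 : Tr := .c 1 q247 (.c 2 q309 (.c 4 q494 (.c 5 q582 (.c 8 q583 (.c 9 q584 .e)))))
noncomputable def r589 : Tr := .c 0 q104 (.c 2 q309 (.c 3 q365 (.c 4 q494 (.c 5 q582 (.c 9 q584 .e)))))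
noncomputable def q585 : Tr := .c 0 v71 (.c 1 v71 (.c 2 v71 (.c 6 v1 (.c 7 v1 (.c 8 v15 .e)))))
noncomputable def r590 : Tr := .c 0 q137 (.c 2 q330 (.c 3 q369 (.c 4 q497 (.c 5 q585 (.c 6 q382 .e)))))
noncomputable def q586 : Tr := .c 6 v73 .e
noncomputable def q587 : Tr := .c 6 v73 (.c 7 v73 (.c 8 v15 .e))
noncomputable def q588 : Tr := .c 0 v71 (.c 1 v71 (.c 6 v73 (.c 7 v73 (.c 8 v15 .e))))
noncomputable def q589 : Tr := .c 0 v71 (.c 2 v71 .e)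
noncomputable def r591 : Tr := .c 0 q383 (.c 1 q586 (.c 2 q587 (.c 3 q384 (.c 4 q588 (.c 6 q382 (.c 7 q589 .e))))))
noncomputable def t151 : Tr := .c 0 r586 (.c 1 r587 (.c 6 r588 (.c 7 r589 (.c 8 r590 (.c 9 r591 .e)))))
noncomputable def q590 : Tr := .c 0 v71 .e
noncomputable def q591 : Tr := .c 0 v81 (.c 6 v81 .e)
noncomputable def r592 : Tr := .c 4 q489 (.c 5 q489 (.c 7 q590 (.c 8 q591 (.c 9 q492 .e))))
noncomputable def r593 : Tr := .c 1 q247 (.c 2 q309 (.c 4 q494 (.c 5 q494 (.c 8 q505 (.c 9 q496 .e)))))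
noncomputable def t152 : Tr := .c 0 r592 (.c 1 r493 (.c 6 r593 (.c 7 r495 (.c 8 r496 .e))))
noncomputable def q592 : Tr := .c 0 v71 (.c 1 v71 (.c 2 v71 (.c 6 v1 (.c 7 v1 .e))))
noncomputable def q593 : Tr := .c 0 v53 (.c 2 v53 (.c 6 v81 .e))
noncomputable def v87 : Tr := .l 0x6186185146186
noncomputable def q594 : Tr := .c 0 v87 (.c 1 v87 (.c 2 v87 (.c 6 v15 (.c 7 v15 .e))))
noncomputable def r594 : Tr := .c 4 q508 (.c 5 q592 (.c 7 q579 (.c 8 q593 (.c 9 q594 .e))))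
noncomputable def q595 : Tr := .c 6 v74 .e
noncomputable def q596 : Tr := .c 6 v74 (.c 7 v74 .e)
noncomputable def r595 : Tr := .c 1 q595 (.c 2 q596 (.c 7 q579 (.c 8 q593 (.c 9 q594 .e))))
noncomputable def r596 : Tr := .c 0 q396 (.c 1 q595 (.c 2 q596 (.c 6 q395 (.c 7 q579 (.c 8 q593 .e)))))
noncomputable def q597 : Tr := .c 6 v73 (.c 7 v73 .e)
noncomputable def q598 : Tr := .c 0 v71 (.c 1 v71 (.c 6 v73 (.c 7 v73 .e)))
noncomputable def r597 : Tr := .c 0 q400 (.c 1 q586 (.c 2 q597 (.c 3 q401 (.c 4 q598 (.c 6 q399 (.c 7 q589 .e))))))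
noncomputable def t153 : Tr := .c 0 r594 (.c 3 r595 (.c 5 r596 (.c 9 r597 .e)))
noncomputable def q599 : Tr := .c 0 v76 (.c 1 v76 (.c 2 v76 (.c 8 v32 .e)))
noncomputable def q600 : Tr := .c 0 v28 (.c 2 v28 .e)
noncomputable def q601 : Tr := .c 0 v77 (.c 2 v77 .e)
noncomputable def v88 : Tr := .l 0x6145186186186
noncomputable def q602 : Tr := .c 0 v88 (.c 1 v88 (.c 2 v88 .e))
noncomputable def r598 : Tr := .c 4 q513 (.c 5 q599 (.c 7 q600 (.c 8 q601 (.c 9 q602 .e))))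
noncomputable def r599 : Tr := .c 2 q291 (.c 7 q600 (.c 8 q601 (.c 9 q602 .e)))
noncomputable def q603 : Tr := .c 1 v28 (.c 2 v28 (.c 8 v76 .e))
noncomputable def r600 : Tr := .c 0 q291 (.c 2 q291 (.c 6 q603 (.c 7 q600 (.c 8 q601 .e))))
noncomputable def q604 : Tr := .c 0 v1 (.c 1 v1 (.c 2 v1 (.c 8 v1 .e)))
noncomputable def r601 : Tr := .c 2 q291 (.c 4 q513 (.c 5 q604 (.c 8 q601 (.c 9 q602 .e))))
noncomputable def t154 : Tr := .c 0 r598 (.c 3 r599 (.c 5 r600 (.c 6 r601 .e)))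
noncomputable def v89 : Tr := .l 0x6185186146186
noncomputable def q605 : Tr := .c 0 v89 .e
noncomputable def v90 : Tr := .l 0x6146185186186
noncomputable def q606 : Tr := .c 0 v90 .e
noncomputable def r602 : Tr := .c 4 q521 (.c 5 q521 (.c 7 q605 (.c 8 q606 (.c 9 q523 .e))))
noncomputable def r603 : Tr := .c 3 q404 (.c 4 q521 (.c 5 q521 (.c 6 q404 (.c 9 q523 .e))))
noncomputable def r604 : Tr := .c 2 q291 (.c 7 q605 (.c 8 q606 (.c 9 q523 .e)))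
noncomputable def r605 : Tr := .c 2 q291 (.c 4 q513 (.c 5 q513 (.c 8 q606 (.c 9 q523 .e))))
noncomputable def r606 : Tr := .c 0 q291 (.c 2 q291 (.c 3 q409 (.c 4 q513 (.c 5 q513 (.c 9 q523 .e)))))
noncomputable def t155 : Tr := .c 0 r602 (.c 1 r603 (.c 3 r604 (.c 6 r605 (.c 7 r606 .e))))
noncomputable def t156 : Tr := .c 1 r587 (.c 7 r589 (.c 8 r590 (.c 9 r591 .e)))
noncomputable def q607 : Tr := .c 0 v70 (.c 1 v70 (.c 2 v70 (.c 6 v1 (.c 7 v1 .e))))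
noncomputable def r607 : Tr := .c 3 q393 (.c 4 q508 (.c 5 q607 (.c 6 q395 (.c 9 q581 .e))))
noncomputable def r608 : Tr := .c 0 q28 (.c 2 q292 (.c 3 q397 (.c 4 q526 (.c 5 q592 (.c 6 q399 .e)))))
noncomputable def t157 : Tr := .c 1 r607 (.c 5 r596 (.c 8 r608 (.c 9 r597 .e)))
noncomputable def r609 : Tr := .c 3 q357 (.c 4 q489 (.c 6 q379 .e))
noncomputable def r610 : Tr := .c 0 q104 (.c 2 q309 (.c 3 q365 (.c 4 q494 .e)))
noncomputable def r611 : Tr := .c 0 q137 (.c 2 q330 (.c 3 q369 (.c 4 q497 (.c 6 q382 .e))))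
noncomputable def t158 : Tr := .c 1 r609 (.c 7 r610 (.c 8 r611 (.c 9 r591 .e)))
noncomputable def r612 : Tr := .c 4 q489 (.c 7 q590 (.c 8 q591 .e))
noncomputable def r613 : Tr := .c 3 q376 (.c 4 q489 (.c 6 q493 .e))
noncomputable def r614 : Tr := .c 1 q247 (.c 2 q309 (.c 4 q494 (.c 8 q505 .e)))
noncomputable def r615 : Tr := .c 0 q104 (.c 2 q309 (.c 3 q380 (.c 4 q494 .e)))
noncomputable def r616 : Tr := .c 0 q137 (.c 2 q330 (.c 3 q381 (.c 4 q497 (.c 6 q498 .e))))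
noncomputable def t159 : Tr := .c 0 r612 (.c 1 r613 (.c 6 r614 (.c 7 r615 (.c 8 r616 .e))))
noncomputable def r617 : Tr := .c 3 q393 (.c 4 q508 (.c 6 q395 .e))
noncomputable def r618 : Tr := .c 0 q28 (.c 2 q292 (.c 3 q397 (.c 4 q526 (.c 6 q399 .e))))
noncomputable def t160 : Tr := .c 1 r617 (.c 5 r596 (.c 8 r618 (.c 9 r597 .e)))
noncomputable def r619 : Tr := .c 4 q508 (.c 7 q579 (.c 8 q593 .e))
noncomputable def r620 : Tr := .c 1 q595 (.c 2 q596 (.c 7 q579 (.c 8 q593 .e)))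
noncomputable def t161 : Tr := .c 0 r619 (.c 3 r620 (.c 5 r596 (.c 9 r597 .e)))
noncomputable def r621 : Tr := .c 4 q513 (.c 7 q600 (.c 8 q601 .e))
noncomputable def r622 : Tr := .c 2 q291 (.c 7 q600 (.c 8 q601 .e))
noncomputable def r623 : Tr := .c 2 q291 (.c 4 q513 (.c 8 q601 .e))
noncomputable def t162 : Tr := .c 0 r621 (.c 3 r622 (.c 5 r600 (.c 6 r623 .e)))
noncomputable def r624 : Tr := .c 4 q521 (.c 7 q605 (.c 8 q606 .e))
noncomputable def r625 : Tr := .c 3 q404 (.c 4 q521 (.c 6 q404 .e))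
noncomputable def r626 : Tr := .c 2 q291 (.c 7 q605 (.c 8 q606 .e))
noncomputable def r627 : Tr := .c 2 q291 (.c 4 q513 (.c 8 q606 .e))
noncomputable def r628 : Tr := .c 0 q291 (.c 2 q291 (.c 3 q409 (.c 4 q513 .e)))
noncomputable def t163 : Tr := .c 0 r624 (.c 1 r625 (.c 3 r626 (.c 6 r627 (.c 7 r628 .e))))
noncomputable def q608 : Tr := .c 0 v79 (.c 2 v79 .e)
noncomputable def r629 : Tr := .c 1 q191 (.c 2 q285 (.c 7 q608 .e))
noncomputable def r630 : Tr := .c 0 q53 (.c 1 q191 (.c 2 q285 (.c 6 q433 (.c 7 q608 .e))))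
noncomputable def q609 : Tr := .c 0 v19 (.c 1 v19 (.c 2 v19 (.c 6 v0 (.c 7 v0 (.c 8 v2 .e)))))
noncomputable def r631 : Tr := .c 1 q191 (.c 2 q285 (.c 4 q531 (.c 5 q609 .e)))
noncomputable def q610 : Tr := .c 6 v12 (.c 7 v12 (.c 8 v23 .e))
noncomputable def q611 : Tr := .c 0 v80 (.c 1 v80 (.c 6 v12 (.c 7 v12 (.c 8 v23 .e))))
noncomputable def q612 : Tr := .c 0 v80 (.c 2 v80 .e)
noncomputable def r632 : Tr := .c 0 q100 (.c 1 q207 (.c 2 q610 (.c 3 q437 (.c 4 q611 (.c 6 q439 (.c 7 q612 .e))))))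
noncomputable def t164 : Tr := .c 3 r629 (.c 5 r630 (.c 6 r631 (.c 9 r632 .e)))
noncomputable def r633 : Tr := .c 0 q53 (.c 2 q285 (.c 3 q423 (.c 4 q531 (.c 5 q609 .e))))
noncomputable def q613 : Tr := .c 0 v1 (.c 1 v1 (.c 2 v1 (.c 6 v9 (.c 7 v9 (.c 8 v1 .e)))))
noncomputable def r634 : Tr := .c 0 q54 (.c 2 q290 (.c 3 q426 (.c 4 q532 (.c 5 q613 (.c 6 q436 .e)))))
noncomputable def t165 : Tr := .c 3 r629 (.c 5 r630 (.c 6 r631 (.c 7 r633 (.c 8 r634 (.c 9 r632 .e)))))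
noncomputable def q614 : Tr := .c 0 v1 (.c 2 v1 .e)
noncomputable def r635 : Tr := .c 4 q494 (.c 5 q582 (.c 7 q614 .e))
noncomputable def r636 : Tr := .c 3 q365 (.c 4 q494 (.c 5 q582 (.c 6 q436 .e)))
noncomputable def t166 : Tr := .c 0 r635 (.c 1 r636 (.c 6 r631 (.c 7 r633 (.c 8 r634 (.c 9 r632 .e)))))
noncomputable def q615 : Tr := .c 0 v76 (.c 2 v76 .e)
noncomputable def r637 : Tr := .c 4 q513 (.c 5 q599 (.c 7 q615 .e))
noncomputable def r638 : Tr := .c 2 q77 (.c 7 q615 .e)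
noncomputable def q616 : Tr := .c 1 v76 (.c 2 v76 (.c 8 v32 .e))
noncomputable def r639 : Tr := .c 0 q77 (.c 2 q77 (.c 6 q616 (.c 7 q615 .e)))
noncomputable def q617 : Tr := .c 0 v23 (.c 1 v23 (.c 2 v23 (.c 8 v23 .e)))
noncomputable def r640 : Tr := .c 2 q77 (.c 4 q541 (.c 5 q617 .e))
noncomputable def t167 : Tr := .c 0 r637 (.c 3 r638 (.c 5 r639 (.c 6 r640 .e)))
noncomputable def q618 : Tr := .c 0 v15 .e
noncomputable def r641 : Tr := .c 4 q543 (.c 5 q543 (.c 7 q618 .e))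
noncomputable def r642 : Tr := .c 3 q448 (.c 4 q543 (.c 5 q543 (.c 6 q448 .e)))
noncomputable def r643 : Tr := .c 2 q77 (.c 7 q618 .e)
noncomputable def r644 : Tr := .c 2 q77 (.c 4 q541 (.c 5 q541 .e))
noncomputable def r645 : Tr := .c 0 q77 (.c 2 q77 (.c 3 q450 (.c 4 q541 (.c 5 q541 .e))))
noncomputable def t168 : Tr := .c 0 r641 (.c 1 r642 (.c 3 r643 (.c 6 r644 (.c 7 r645 .e))))
noncomputable def t169 : Tr := .c 5 r630 (.c 7 r633 (.c 8 r634 (.c 9 r632 .e)))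
noncomputable def t170 : Tr := .c 1 r636 (.c 7 r633 (.c 8 r634 (.c 9 r632 .e)))
noncomputable def r646 : Tr := .c 0 q120 (.c 1 q554 (.c 2 q321 (.c 8 q583 .e)))
noncomputable def q619 : Tr := .c 0 v1 (.c 1 v1 (.c 2 v1 (.c 6 v48 (.c 7 v48 (.c 8 v1 .e)))))
noncomputable def r647 : Tr := .c 0 q120 (.c 2 q321 (.c 3 q453 (.c 4 q551 (.c 5 q619 (.c 9 q584 .e)))))
noncomputable def q620 : Tr := .c 0 v15 (.c 1 v15 (.c 2 v15 (.c 6 v1 (.c 7 v1 (.c 8 v1 .e)))))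
noncomputable def r648 : Tr := .c 0 q124 (.c 2 q324 (.c 3 q456 (.c 4 q553 (.c 5 q620 .e))))
noncomputable def q621 : Tr := .c 6 v23 .e
noncomputable def q622 : Tr := .c 6 v23 (.c 7 v23 (.c 8 v1 .e))
noncomputable def q623 : Tr := .c 0 v15 (.c 1 v15 (.c 6 v23 (.c 7 v23 (.c 8 v1 .e))))
noncomputable def r649 : Tr := .c 0 q135 (.c 1 q621 (.c 2 q622 (.c 3 q461 (.c 4 q623 .e))))
noncomputable def t171 : Tr := .c 5 r646 (.c 7 r647 (.c 8 r648 (.c 9 r649 .e)))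
noncomputable def r650 : Tr := .c 1 q554 (.c 2 q321 (.c 8 q583 (.c 9 q584 .e)))
noncomputable def r651 : Tr := .c 1 q554 (.c 2 q321 (.c 4 q551 (.c 5 q619 (.c 8 q583 (.c 9 q584 .e)))))
noncomputable def t172 : Tr := .c 3 r650 (.c 5 r646 (.c 6 r651 (.c 7 r647 (.c 8 r648 (.c 9 r649 .e)))))
noncomputable def q624 : Tr := .c 0 v15 (.c 1 v15 (.c 2 v15 (.c 6 v52 (.c 7 v52 .e))))
noncomputable def r652 : Tr := .c 3 q369 (.c 4 q497 (.c 5 q585 (.c 9 q624 .e)))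
noncomputable def t173 : Tr := .c 1 r652 (.c 7 r647 (.c 8 r648 (.c 9 r649 .e)))
noncomputable def r653 : Tr := .c 4 q497 (.c 5 q585 (.c 8 q580 (.c 9 q624 .e)))
noncomputable def t174 : Tr := .c 0 r653 (.c 1 r652 (.c 6 r651 (.c 7 r647 (.c 8 r648 (.c 9 r649 .e)))))
noncomputable def q625 : Tr := .c 0 v52 (.c 6 v52 .e)
noncomputable def r654 : Tr := .c 4 q497 (.c 5 q497 (.c 8 q625 (.c 9 q555 .e)))
noncomputable def r655 : Tr := .c 1 q554 (.c 2 q321 (.c 4 q551 (.c 5 q551 (.c 8 q505 (.c 9 q496 .e)))))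
noncomputable def t175 : Tr := .c 0 r654 (.c 1 r560 (.c 6 r655 (.c 7 r555 (.c 8 r556 .e))))
noncomputable def r656 : Tr := .c 3 q397 (.c 4 q526 (.c 5 q592 (.c 9 q624 .e)))
noncomputable def q626 : Tr := .c 6 v55 .e
noncomputable def q627 : Tr := .c 6 v55 (.c 7 v55 .e)
noncomputable def q628 : Tr := .c 0 v81 (.c 2 v81 (.c 6 v52 .e))
noncomputable def r657 : Tr := .c 0 q466 (.c 1 q626 (.c 2 q627 (.c 8 q628 .e)))
noncomputable def q629 : Tr := .c 0 v15 (.c 1 v15 (.c 2 v15 (.c 6 v1 (.c 7 v1 .e))))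
noncomputable def r658 : Tr := .c 0 q28 (.c 2 q292 (.c 3 q467 (.c 4 q558 (.c 5 q629 .e))))
noncomputable def q630 : Tr := .c 6 v23 (.c 7 v23 .e)
noncomputable def q631 : Tr := .c 0 v15 (.c 1 v15 (.c 6 v23 (.c 7 v23 .e)))
noncomputable def r659 : Tr := .c 0 q33 (.c 1 q621 (.c 2 q630 (.c 3 q469 (.c 4 q631 .e))))
noncomputable def t176 : Tr := .c 1 r656 (.c 5 r657 (.c 8 r658 (.c 9 r659 .e)))
noncomputable def q632 : Tr := .c 1 v70 (.c 2 v70 (.c 4 v70 (.c 5 v70 (.c 8 v71 (.c 9 v71 .e)))))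
noncomputable def q633 : Tr := .c 1 v72 (.c 2 v72 (.c 4 v72 .e))
noncomputable def r660 : Tr := .c 3 q358 (.c 4 q389 (.c 5 q379 (.c 6 q632 (.c 9 q633 .e))))
noncomputable def q634 : Tr := .c 2 v70 (.c 4 v70 (.c 5 v70 (.c 9 v71 .e)))
noncomputable def q635 : Tr := .c 2 v53 (.c 4 v53 (.c 5 v53 .e))
noncomputable def r661 : Tr := .c 3 q358 (.c 5 q379 (.c 6 q632 (.c 7 q634 (.c 8 q635 (.c 9 q633 .e)))))
noncomputable def q636 : Tr := .c 4 v1 (.c 5 v39 (.c 8 v1 (.c 9 v23 .e)))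
noncomputable def q637 : Tr := .c 5 v39 (.c 8 v1 (.c 9 v23 .e))
noncomputable def q638 : Tr := .c 1 v1 (.c 2 v1 (.c 4 v1 .e))
noncomputable def r662 : Tr := .c 0 q636 (.c 2 q637 (.c 3 q417 (.c 4 q546 (.c 5 q436 (.c 9 q638 .e)))))
noncomputable def t177 : Tr := .c 1 r660 (.c 2 r661 (.c 7 r662 .e))
noncomputable def q639 : Tr := .c 2 v70 (.c 4 v70 .e)
noncomputable def q640 : Tr := .c 2 v1 (.c 4 v1 .e)
noncomputable def r663 : Tr := .c 4 q493 (.c 5 q379 (.c 7 q639 (.c 8 q640 (.c 9 q633 .e))))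
noncomputable def q641 : Tr := .c 1 v70 (.c 2 v70 (.c 4 v70 (.c 8 v71 .e)))
noncomputable def r664 : Tr := .c 3 q379 (.c 4 q493 (.c 5 q379 (.c 6 q641 (.c 9 q633 .e))))
noncomputable def r665 : Tr := .c 1 q107 (.c 2 q291 (.c 4 q409 (.c 5 q436 (.c 8 q640 (.c 9 q638 .e)))))
noncomputable def r666 : Tr := .c 0 q98 (.c 2 q291 (.c 3 q436 (.c 4 q409 (.c 5 q436 (.c 9 q638 .e)))))
noncomputable def t178 : Tr := .c 0 r663 (.c 1 r664 (.c 6 r665 (.c 7 r666 .e)))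
noncomputable def q642 : Tr := .c 5 v70 (.c 9 v71 .e)
noncomputable def q643 : Tr := .c 1 v72 .e
noncomputable def r667 : Tr := .c 4 q389 (.c 5 q493 (.c 7 q642 (.c 8 q140 (.c 9 q643 .e))))
noncomputable def q644 : Tr := .c 1 v70 (.c 5 v70 (.c 8 v71 (.c 9 v71 .e)))
noncomputable def r668 : Tr := .c 3 q389 (.c 4 q389 (.c 5 q493 (.c 6 q644 (.c 9 q643 .e))))
noncomputable def r669 : Tr := .c 3 q389 (.c 5 q493 (.c 6 q644 (.c 7 q642 (.c 8 q140 (.c 9 q643 .e)))))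
noncomputable def q645 : Tr := .c 5 v39 (.c 9 v23 .e)
noncomputable def q646 : Tr := .c 5 v52 .e
noncomputable def q647 : Tr := .c 1 v1 .e
noncomputable def r670 : Tr := .c 1 q645 (.c 2 q637 (.c 4 q546 (.c 5 q409 (.c 8 q646 (.c 9 q647 .e)))))
noncomputable def r671 : Tr := .c 0 q637 (.c 2 q637 (.c 3 q546 (.c 4 q546 (.c 5 q409 (.c 9 q647 .e)))))
noncomputable def t179 : Tr := .c 0 r667 (.c 1 r668 (.c 2 r669 (.c 6 r670 (.c 7 r671 .e))))
noncomputable def q648 : Tr := .c 1 v70 (.c 2 v70 (.c 4 v70 (.c 5 v70 .e)))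
noncomputable def r672 : Tr := .c 3 q395 (.c 4 q511 (.c 5 q395 (.c 6 q648 (.c 9 q633 .e))))
noncomputable def q649 : Tr := .c 2 v70 (.c 4 v70 (.c 5 v70 .e))
noncomputable def r673 : Tr := .c 3 q395 (.c 5 q395 (.c 6 q648 (.c 7 q649 (.c 8 q635 (.c 9 q633 .e)))))
noncomputable def v91 : Tr := .l 0x61860c4186186
noncomputable def q650 : Tr := .c 4 v91 (.c 5 v91 .e)
noncomputable def r674 : Tr := .c 0 q650 (.c 1 q650 (.c 6 q648 (.c 7 q649 (.c 8 q635 (.c 9 q633 .e)))))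
noncomputable def q651 : Tr := .c 5 v91 .e
noncomputable def r675 : Tr := .c 0 q650 (.c 1 q650 (.c 2 q651 (.c 6 q648 (.c 7 q649 (.c 8 q635 .e)))))
noncomputable def t180 : Tr := .c 1 r672 (.c 2 r673 (.c 4 r674 (.c 5 r675 .e)))
noncomputable def q652 : Tr := .c 5 v75 (.c 9 v15 .e)
noncomputable def v92 : Tr := .l 0x6146144186185
noncomputable def q653 : Tr := .c 5 v92 .e
noncomputable def r676 : Tr := .c 4 q403 (.c 5 q404 (.c 7 q652 (.c 8 q653 (.c 9 q406 .e))))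
noncomputable def q654 : Tr := .c 1 v75 (.c 5 v75 (.c 8 v15 (.c 9 v15 .e)))
noncomputable def r677 : Tr := .c 3 q403 (.c 4 q403 (.c 5 q404 (.c 6 q654 (.c 9 q406 .e))))
noncomputable def r678 : Tr := .c 3 q403 (.c 5 q404 (.c 6 q654 (.c 7 q652 (.c 8 q653 (.c 9 q406 .e)))))
noncomputable def q655 : Tr := .c 5 v61 (.c 9 v39 .e)
noncomputable def q656 : Tr := .c 5 v61 (.c 8 v1 (.c 9 v39 .e))
noncomputable def r679 : Tr := .c 1 q655 (.c 2 q656 (.c 7 q652 (.c 8 q653 (.c 9 q406 .e))))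
noncomputable def r680 : Tr := .c 0 q656 (.c 1 q655 (.c 6 q654 (.c 7 q652 (.c 8 q653 (.c 9 q406 .e)))))
noncomputable def r681 : Tr := .c 1 q655 (.c 2 q656 (.c 4 q408 (.c 5 q409 (.c 8 q653 (.c 9 q406 .e)))))
noncomputable def r682 : Tr := .c 0 q656 (.c 2 q656 (.c 3 q408 (.c 4 q408 (.c 5 q409 (.c 9 q406 .e)))))
noncomputable def t181 : Tr := .c 0 r676 (.c 1 r677 (.c 2 r678 (.c 3 r679 (.c 4 r680 (.c 6 r681 (.c 7 r682 .e))))))
noncomputable def r683 : Tr := .c 3 q358 (.c 4 q389 (.c 6 q632 .e))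
noncomputable def r684 : Tr := .c 3 q358 (.c 6 q632 (.c 7 q634 (.c 8 q635 .e)))
noncomputable def r685 : Tr := .c 0 q636 (.c 2 q637 (.c 3 q417 (.c 4 q546 .e)))
noncomputable def t182 : Tr := .c 1 r683 (.c 2 r684 (.c 7 r685 .e))
noncomputable def r686 : Tr := .c 4 q389 (.c 7 q642 (.c 8 q140 .e))
noncomputable def r687 : Tr := .c 3 q389 (.c 4 q389 (.c 6 q644 .e))
noncomputable def r688 : Tr := .c 3 q389 (.c 6 q644 (.c 7 q642 (.c 8 q140 .e)))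
noncomputable def r689 : Tr := .c 1 q645 (.c 2 q637 (.c 4 q546 (.c 8 q646 .e)))
noncomputable def r690 : Tr := .c 0 q637 (.c 2 q637 (.c 3 q546 (.c 4 q546 .e)))
noncomputable def t183 : Tr := .c 0 r686 (.c 1 r687 (.c 2 r688 (.c 6 r689 (.c 7 r690 .e))))
noncomputable def r691 : Tr := .c 3 q395 (.c 4 q511 (.c 6 q648 .e))
noncomputable def r692 : Tr := .c 3 q395 (.c 6 q648 (.c 7 q649 (.c 8 q635 .e)))
noncomputable def r693 : Tr := .c 0 q650 (.c 1 q650 (.c 6 q648 (.c 7 q649 (.c 8 q635 .e))))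
noncomputable def t184 : Tr := .c 1 r691 (.c 2 r692 (.c 4 r693 (.c 5 r675 .e)))
noncomputable def r694 : Tr := .c 4 q511 (.c 7 q649 (.c 8 q635 .e))
noncomputable def r695 : Tr := .c 1 q650 (.c 2 q651 (.c 7 q649 (.c 8 q635 .e)))
noncomputable def t185 : Tr := .c 0 r694 (.c 2 r692 (.c 3 r695 (.c 4 r693 (.c 5 r675 .e))))
noncomputable def q657 : Tr := .c 2 v28 (.c 4 v28 (.c 5 v28 (.c 9 v76 .e)))
noncomputable def q658 : Tr := .c 2 v77 (.c 4 v77 (.c 5 v77 .e))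
noncomputable def r696 : Tr := .c 4 q410 (.c 7 q657 (.c 8 q658 .e))
noncomputable def q659 : Tr := .c 1 v28 (.c 2 v28 (.c 4 v28 (.c 5 v28 (.c 8 v76 (.c 9 v76 .e)))))
noncomputable def r697 : Tr := .c 3 q413 (.c 6 q659 (.c 7 q657 (.c 8 q658 .e)))
noncomputable def q660 : Tr := .c 4 v31 (.c 5 v31 (.c 9 v78 .e))
noncomputable def q661 : Tr := .c 5 v31 (.c 8 v1 (.c 9 v78 .e))
noncomputable def r698 : Tr := .c 1 q660 (.c 2 q661 (.c 7 q657 (.c 8 q658 .e)))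
noncomputable def q662 : Tr := .c 4 v31 (.c 5 v31 (.c 8 v1 (.c 9 v78 .e)))
noncomputable def r699 : Tr := .c 0 q662 (.c 1 q660 (.c 6 q659 (.c 7 q657 (.c 8 q658 .e))))
noncomputable def r700 : Tr := .c 0 q662 (.c 1 q660 (.c 2 q661 (.c 6 q659 (.c 7 q657 (.c 8 q658 .e)))))
noncomputable def r701 : Tr := .c 1 q660 (.c 2 q661 (.c 4 q416 (.c 8 q658 .e)))
noncomputable def t186 : Tr := .c 0 r696 (.c 2 r697 (.c 3 r698 (.c 4 r699 (.c 5 r700 (.c 6 r701 .e)))))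
noncomputable def r702 : Tr := .c 4 q403 (.c 7 q652 (.c 8 q653 .e))
noncomputable def r703 : Tr := .c 3 q403 (.c 4 q403 (.c 6 q654 .e))
noncomputable def r704 : Tr := .c 3 q403 (.c 6 q654 (.c 7 q652 (.c 8 q653 .e)))
noncomputable def r705 : Tr := .c 1 q655 (.c 2 q656 (.c 7 q652 (.c 8 q653 .e)))
noncomputable def r706 : Tr := .c 0 q656 (.c 1 q655 (.c 6 q654 (.c 7 q652 (.c 8 q653 .e))))
noncomputable def r707 : Tr := .c 1 q655 (.c 2 q656 (.c 4 q408 (.c 8 q653 .e)))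
noncomputable def r708 : Tr := .c 0 q656 (.c 2 q656 (.c 3 q408 (.c 4 q408 .e)))
noncomputable def t187 : Tr := .c 0 r702 (.c 1 r703 (.c 2 r704 (.c 3 r705 (.c 4 r706 (.c 6 r707 (.c 7 r708 .e))))))
noncomputable def q663 : Tr := .c 4 v19 (.c 5 v19 (.c 8 v39 (.c 9 v9 .e)))
noncomputable def q664 : Tr := .c 4 v19 (.c 5 v19 (.c 9 v9 .e))
noncomputable def v93 : Tr := .l 0x61841861860c6
noncomputable def q665 : Tr := .c 1 v93 (.c 2 v93 (.c 4 v93 (.c 5 v93 (.c 8 v85 (.c 9 v85 .e)))))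
noncomputable def q666 : Tr := .c 2 v93 (.c 4 v93 (.c 5 v93 (.c 9 v85 .e)))
noncomputable def q667 : Tr := .c 2 v49 (.c 4 v49 (.c 5 v49 .e))
noncomputable def r709 : Tr := .c 0 q663 (.c 1 q664 (.c 6 q665 (.c 7 q666 (.c 8 q667 .e))))
noncomputable def q668 : Tr := .c 5 v19 (.c 8 v39 (.c 9 v9 .e))
noncomputable def r710 : Tr := .c 0 q663 (.c 1 q664 (.c 2 q668 (.c 6 q665 (.c 7 q666 (.c 8 q667 .e)))))
noncomputable def r711 : Tr := .c 0 q80 (.c 2 q314 (.c 3 q417 (.c 4 q546 .e)))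
noncomputable def t188 : Tr := .c 4 r709 (.c 5 r710 (.c 7 r711 .e))
noncomputable def r712 : Tr := .c 1 q664 (.c 2 q668 (.c 7 q666 (.c 8 q667 .e)))
noncomputable def q669 : Tr := .c 1 v1 (.c 8 v39 (.c 9 v9 .e))
noncomputable def r713 : Tr := .c 1 q664 (.c 2 q668 (.c 4 q669 (.c 8 q667 .e)))
noncomputable def t189 : Tr := .c 3 r712 (.c 4 r709 (.c 5 r710 (.c 6 r713 .e)))
noncomputable def q670 : Tr := .c 1 v45 (.c 2 v45 (.c 4 v45 .e))
noncomputable def r714 : Tr := .c 0 q663 (.c 1 q664 (.c 6 q665 (.c 7 q666 (.c 8 q667 (.c 9 q670 .e)))))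
noncomputable def q671 : Tr := .c 4 v19 (.c 5 v1 (.c 8 v39 (.c 9 v1 .e)))
noncomputable def q672 : Tr := .c 1 v39 (.c 2 v39 (.c 8 v39 (.c 9 v1 .e)))
noncomputable def q673 : Tr := .c 1 v39 (.c 2 v39 (.c 8 v39 .e))
noncomputable def r715 : Tr := .c 0 q671 (.c 3 q672 (.c 5 q673 (.c 9 q670 .e)))
noncomputable def t190 : Tr := .c 4 r714 (.c 5 r709 (.c 7 r715 .e))
noncomputable def r716 : Tr := .c 1 q664 (.c 7 q666 (.c 8 q667 (.c 9 q670 .e)))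
noncomputable def r717 : Tr := .c 1 q664 (.c 5 q673 (.c 8 q667 (.c 9 q670 .e)))
noncomputable def t191 : Tr := .c 3 r716 (.c 4 r714 (.c 5 r709 (.c 6 r717 .e)))
noncomputable def q674 : Tr := .c 2 v93 (.c 4 v93 .e)
noncomputable def q675 : Tr := .c 2 v49 (.c 4 v49 .e)
noncomputable def r718 : Tr := .c 1 q96 (.c 7 q674 (.c 8 q675 (.c 9 q670 .e)))
noncomputable def q676 : Tr := .c 4 v19 (.c 8 v39 .e)
noncomputable def q677 : Tr := .c 1 v93 (.c 2 v93 (.c 4 v93 (.c 8 v85 .e)))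
noncomputable def r719 : Tr := .c 0 q676 (.c 1 q96 (.c 6 q677 (.c 7 q674 (.c 8 q675 .e))))
noncomputable def r720 : Tr := .c 1 q96 (.c 5 q673 (.c 8 q675 (.c 9 q670 .e)))
noncomputable def r721 : Tr := .c 0 q676 (.c 3 q673 (.c 5 q673 (.c 9 q670 .e)))
noncomputable def t192 : Tr := .c 3 r718 (.c 5 r719 (.c 6 r720 (.c 7 r721 .e)))
noncomputable def r722 : Tr := .c 3 q395 (.c 5 q395 (.c 6 q648 (.c 9 q633 .e)))
noncomputable def t193 : Tr := .c 1 r722 (.c 2 r673 (.c 4 r674 (.c 5 r693 .e)))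
noncomputable def r723 : Tr := .c 5 q395 (.c 7 q649 (.c 8 q635 (.c 9 q633 .e)))
noncomputable def r724 : Tr := .c 1 q650 (.c 7 q649 (.c 8 q635 (.c 9 q633 .e)))
noncomputable def t194 : Tr := .c 0 r723 (.c 2 r673 (.c 3 r724 (.c 4 r674 (.c 5 r693 .e))))
noncomputable def v94 : Tr := .l 0x6144186186145
noncomputable def q678 : Tr := .c 1 v94 (.c 2 v94 (.c 4 v94 .e))
noncomputable def r725 : Tr := .c 5 q603 (.c 7 q657 (.c 8 q658 (.c 9 q678 .e)))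
noncomputable def r726 : Tr := .c 3 q413 (.c 5 q603 (.c 6 q659 (.c 7 q657 (.c 8 q658 (.c 9 q678 .e)))))
noncomputable def r727 : Tr := .c 1 q660 (.c 7 q657 (.c 8 q658 (.c 9 q678 .e)))
noncomputable def r728 : Tr := .c 0 q662 (.c 1 q660 (.c 6 q659 (.c 7 q657 (.c 8 q658 (.c 9 q678 .e)))))
noncomputable def q679 : Tr := .c 1 v32 (.c 2 v32 (.c 8 v1 .e))
noncomputable def r729 : Tr := .c 1 q660 (.c 5 q679 (.c 8 q658 (.c 9 q678 .e)))
noncomputable def t195 : Tr := .c 0 r725 (.c 2 r726 (.c 3 r727 (.c 4 r728 (.c 5 r699 (.c 6 r729 .e)))))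
noncomputable def q680 : Tr := .c 4 v39 (.c 5 v39 (.c 8 v1 (.c 9 v23 .e)))
noncomputable def q681 : Tr := .c 4 v39 (.c 5 v39 (.c 9 v23 .e))
noncomputable def q682 : Tr := .c 2 v1 (.c 4 v1 (.c 5 v1 .e))
noncomputable def r730 : Tr := .c 0 q680 (.c 1 q681 (.c 8 q682 (.c 9 q638 .e)))
noncomputable def r731 : Tr := .c 0 q680 (.c 1 q681 (.c 2 q637 (.c 8 q682 .e)))
noncomputable def t196 : Tr := .c 4 r730 (.c 5 r731 (.c 7 r662 .e))
noncomputable def q683 : Tr := .c 4 v39 .e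
noncomputable def r732 : Tr := .c 1 q683 (.c 2 q291 (.c 8 q640 (.c 9 q638 .e)))
noncomputable def q684 : Tr := .c 4 v39 (.c 8 v1 .e)
noncomputable def r733 : Tr := .c 0 q684 (.c 1 q683 (.c 2 q291 (.c 8 q640 .e)))
noncomputable def r734 : Tr := .c 1 q683 (.c 2 q291 (.c 4 q409 (.c 5 q436 (.c 8 q640 (.c 9 q638 .e)))))
noncomputable def t197 : Tr := .c 3 r732 (.c 5 r733 (.c 6 r734 (.c 7 r666 .e)))
noncomputable def q685 : Tr := .c 1 v15 (.c 2 v15 (.c 4 v15 .e))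
noncomputable def r735 : Tr := .c 3 q370 (.c 4 q392 (.c 5 q382 (.c 9 q685 .e)))
noncomputable def q686 : Tr := .c 2 v81 (.c 4 v81 (.c 5 v81 .e))
noncomputable def r736 : Tr := .c 3 q370 (.c 5 q382 (.c 8 q686 (.c 9 q685 .e)))
noncomputable def t198 : Tr := .c 1 r735 (.c 2 r736 (.c 7 r662 .e))
noncomputable def r737 : Tr := .c 4 q498 (.c 5 q382 (.c 8 q640 (.c 9 q685 .e)))
noncomputable def r738 : Tr := .c 3 q382 (.c 4 q498 (.c 5 q382 (.c 9 q685 .e)))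
noncomputable def t199 : Tr := .c 0 r737 (.c 1 r738 (.c 6 r734 (.c 7 r666 .e)))
noncomputable def q687 : Tr := .c 5 v81 .e
noncomputable def r739 : Tr := .c 4 q392 (.c 5 q498 (.c 8 q687 (.c 9 q406 .e)))
noncomputable def r740 : Tr := .c 3 q392 (.c 4 q392 (.c 5 q498 (.c 9 q406 .e)))
noncomputable def r741 : Tr := .c 3 q392 (.c 5 q498 (.c 8 q687 (.c 9 q406 .e)))
noncomputable def q688 : Tr := .c 5 v1 .e
noncomputable def r742 : Tr := .c 1 q645 (.c 2 q637 (.c 4 q546 (.c 5 q409 (.c 8 q688 (.c 9 q647 .e)))))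
noncomputable def t200 : Tr := .c 0 r739 (.c 1 r740 (.c 2 r741 (.c 6 r742 (.c 7 r671 .e))))
noncomputable def r743 : Tr := .c 3 q399 (.c 4 q527 (.c 5 q399 (.c 9 q685 .e)))
noncomputable def r744 : Tr := .c 3 q399 (.c 5 q399 (.c 8 q686 (.c 9 q685 .e)))
noncomputable def q689 : Tr := .c 4 v84 (.c 5 v84 .e)
noncomputable def r745 : Tr := .c 0 q689 (.c 1 q689 (.c 8 q686 (.c 9 q685 .e)))
noncomputable def q690 : Tr := .c 5 v84 .e
noncomputable def r746 : Tr := .c 0 q689 (.c 1 q689 (.c 2 q690 (.c 8 q686 .e)))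
noncomputable def t201 : Tr := .c 1 r743 (.c 2 r744 (.c 4 r745 (.c 5 r746 .e)))
noncomputable def q691 : Tr := .c 4 v9 (.c 5 v9 (.c 8 v23 (.c 9 v57 .e)))
noncomputable def q692 : Tr := .c 4 v9 (.c 5 v9 (.c 9 v57 .e))
noncomputable def q693 : Tr := .c 2 v82 (.c 4 v82 (.c 5 v82 .e))
noncomputable def q694 : Tr := .c 1 v39 (.c 2 v39 (.c 4 v39 .e))
noncomputable def r747 : Tr := .c 0 q691 (.c 1 q692 (.c 8 q693 (.c 9 q694 .e)))
noncomputable def r748 : Tr := .c 0 q691 (.c 1 q692 (.c 8 q693 .e))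
noncomputable def q695 : Tr := .c 1 v23 (.c 2 v23 (.c 8 v23 (.c 9 v1 .e)))
noncomputable def q696 : Tr := .c 1 v23 (.c 2 v23 (.c 8 v23 .e))
noncomputable def r749 : Tr := .c 0 q94 (.c 3 q695 (.c 5 q696 (.c 9 q694 .e)))
noncomputable def t202 : Tr := .c 4 r747 (.c 5 r748 (.c 7 r749 .e))
noncomputable def r750 : Tr := .c 1 q692 (.c 8 q693 (.c 9 q694 .e))
noncomputable def r751 : Tr := .c 1 q692 (.c 5 q696 (.c 8 q693 (.c 9 q694 .e)))
noncomputable def t203 : Tr := .c 3 r750 (.c 4 r747 (.c 5 r748 (.c 6 r751 .e)))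
noncomputable def q697 : Tr := .c 2 v82 (.c 4 v82 .e)
noncomputable def r752 : Tr := .c 1 q201 (.c 8 q697 (.c 9 q694 .e))
noncomputable def q698 : Tr := .c 4 v9 (.c 8 v23 .e)
noncomputable def r753 : Tr := .c 0 q698 (.c 1 q201 (.c 8 q697 .e))
noncomputable def r754 : Tr := .c 1 q201 (.c 5 q696 (.c 8 q697 (.c 9 q694 .e)))
noncomputable def r755 : Tr := .c 0 q101 (.c 3 q696 (.c 5 q696 (.c 9 q694 .e)))
noncomputable def t204 : Tr := .c 3 r752 (.c 5 r753 (.c 6 r754 (.c 7 r755 .e)))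
noncomputable def r756 : Tr := .c 3 q374 (.c 5 q382 (.c 9 q685 .e))
noncomputable def r757 : Tr := .c 3 q374 (.c 5 q382 (.c 8 q686 (.c 9 q685 .e)))
noncomputable def t205 : Tr := .c 1 r756 (.c 2 r757 (.c 7 r749 .e))
noncomputable def r758 : Tr := .c 5 q382 (.c 8 q640 (.c 9 q685 .e))
noncomputable def r759 : Tr := .c 3 q382 (.c 5 q382 (.c 9 q685 .e))
noncomputable def t206 : Tr := .c 0 r758 (.c 1 r759 (.c 6 r754 (.c 7 r755 .e)))
noncomputable def r760 : Tr := .c 3 q399 (.c 5 q399 (.c 9 q685 .e))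
noncomputable def r761 : Tr := .c 0 q689 (.c 1 q689 (.c 8 q686 .e))
noncomputable def t207 : Tr := .c 1 r760 (.c 2 r744 (.c 4 r745 (.c 5 r761 .e)))
noncomputable def r762 : Tr := .c 5 q399 (.c 8 q686 (.c 9 q685 .e))
noncomputable def r763 : Tr := .c 1 q689 (.c 8 q686 (.c 9 q685 .e))
noncomputable def t208 : Tr := .c 0 r762 (.c 2 r744 (.c 3 r763 (.c 4 r745 (.c 5 r761 .e))))
noncomputable def q699 : Tr := .c 0 v70 (.c 2 v70 (.c 3 v70 (.c 4 v70 .e)))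
noncomputable def q700 : Tr := .c 0 v1 (.c 2 v1 (.c 3 v1 (.c 4 v1 .e)))
noncomputable def q701 : Tr := .c 0 v72 (.c 2 v72 (.c 3 v72 (.c 4 v72 .e)))
noncomputable def r764 : Tr := .c 4 q490 (.c 5 q579 (.c 7 q699 (.c 8 q700 (.c 9 q701 .e))))
noncomputable def r765 : Tr := .c 3 q377 (.c 4 q490 (.c 5 q579 (.c 6 q639 (.c 9 q701 .e))))
noncomputable def r766 : Tr := .c 1 q248 (.c 2 q310 (.c 4 q490 (.c 5 q614 (.c 8 q700 (.c 9 q700 .e)))))
noncomputable def r767 : Tr := .c 0 q107 (.c 2 q310 (.c 3 q378 (.c 4 q490 (.c 5 q614 (.c 9 q700 .e)))))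
noncomputable def t209 : Tr := .c 0 r764 (.c 1 r765 (.c 6 r766 (.c 7 r767 .e)))
noncomputable def q702 : Tr := .c 0 v70 (.c 3 v70 (.c 5 v70 (.c 9 v71 .e)))
noncomputable def q703 : Tr := .c 0 v53 (.c 3 v53 (.c 5 v53 .e))
noncomputable def q704 : Tr := .c 0 v52 (.c 3 v52 .e)
noncomputable def r768 : Tr := .c 4 q500 (.c 5 q490 (.c 7 q702 (.c 8 q703 (.c 9 q704 .e))))
noncomputable def r769 : Tr := .c 3 q387 (.c 4 q500 (.c 5 q490 (.c 6 q642 (.c 9 q704 .e))))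
noncomputable def r770 : Tr := .c 3 q387 (.c 5 q490 (.c 6 q642 (.c 7 q702 (.c 8 q703 (.c 9 q704 .e)))))
noncomputable def q705 : Tr := .c 3 v39 (.c 5 v39 (.c 9 v23 .e))
noncomputable def q706 : Tr := .c 0 v52 (.c 3 v52 (.c 5 v52 .e))
noncomputable def q707 : Tr := .c 0 v1 (.c 3 v1 .e)
noncomputable def r771 : Tr := .c 1 q705 (.c 2 q705 (.c 4 q547 (.c 5 q490 (.c 8 q706 (.c 9 q707 .e)))))
noncomputable def r772 : Tr := .c 0 q645 (.c 2 q705 (.c 3 q390 (.c 4 q547 (.c 5 q490 (.c 9 q707 .e)))))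
noncomputable def t210 : Tr := .c 0 r768 (.c 1 r769 (.c 2 r770 (.c 6 r771 (.c 7 r772 .e))))
noncomputable def q708 : Tr := .c 0 v70 (.c 2 v70 (.c 3 v70 (.c 4 v70 (.c 5 v70 .e))))
noncomputable def q709 : Tr := .c 0 v53 (.c 2 v53 (.c 3 v53 (.c 4 v53 (.c 5 v53 .e))))
noncomputable def r773 : Tr := .c 4 q509 (.c 5 q579 (.c 7 q708 (.c 8 q709 (.c 9 q701 .e))))
noncomputable def r774 : Tr := .c 3 q377 (.c 5 q579 (.c 6 q649 (.c 7 q708 (.c 8 q709 (.c 9 q701 .e)))))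
noncomputable def q710 : Tr := .c 3 v91 (.c 4 v91 (.c 5 v91 .e))
noncomputable def q711 : Tr := .c 3 v91 (.c 5 v91 .e)
noncomputable def r775 : Tr := .c 1 q710 (.c 2 q711 (.c 7 q708 (.c 8 q709 (.c 9 q701 .e))))
noncomputable def r776 : Tr := .c 0 q650 (.c 1 q710 (.c 6 q649 (.c 7 q708 (.c 8 q709 (.c 9 q701 .e)))))
noncomputable def r777 : Tr := .c 0 q650 (.c 1 q710 (.c 2 q711 (.c 6 q649 (.c 7 q708 (.c 8 q709 .e)))))
noncomputable def t211 : Tr := .c 0 r773 (.c 2 r774 (.c 3 r775 (.c 4 r776 (.c 5 r777 .e))))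
noncomputable def q712 : Tr := .c 0 v1 (.c 9 v1 .e)
noncomputable def q713 : Tr := .c 0 v28 (.c 2 v28 (.c 3 v28 (.c 4 v28 (.c 5 v28 (.c 9 v76 .e)))))
noncomputable def q714 : Tr := .c 0 v77 (.c 2 v77 (.c 3 v77 (.c 4 v77 (.c 5 v77 .e))))
noncomputable def q715 : Tr := .c 0 v94 (.c 2 v94 (.c 3 v94 (.c 4 v94 .e)))
noncomputable def r778 : Tr := .c 4 q712 (.c 5 q600 (.c 7 q713 (.c 8 q714 (.c 9 q715 .e))))
noncomputable def r779 : Tr := .c 3 q411 (.c 5 q600 (.c 6 q657 (.c 7 q713 (.c 8 q714 (.c 9 q715 .e)))))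
noncomputable def q716 : Tr := .c 3 v31 (.c 4 v31 (.c 5 v31 (.c 9 v78 .e)))
noncomputable def q717 : Tr := .c 3 v31 (.c 5 v31 (.c 9 v78 .e))
noncomputable def r780 : Tr := .c 1 q716 (.c 2 q717 (.c 7 q713 (.c 8 q714 (.c 9 q715 .e))))
noncomputable def r781 : Tr := .c 0 q660 (.c 1 q716 (.c 6 q657 (.c 7 q713 (.c 8 q714 (.c 9 q715 .e)))))
noncomputable def r782 : Tr := .c 0 q660 (.c 1 q716 (.c 2 q717 (.c 6 q657 (.c 7 q713 (.c 8 q714 .e)))))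
noncomputable def q718 : Tr := .c 0 v1 (.c 9 v78 .e)
noncomputable def q719 : Tr := .c 0 v32 (.c 2 v32 .e)
noncomputable def r783 : Tr := .c 1 q716 (.c 2 q717 (.c 4 q718 (.c 5 q719 (.c 8 q714 (.c 9 q715 .e)))))
noncomputable def t212 : Tr := .c 0 r778 (.c 2 r779 (.c 3 r780 (.c 4 r781 (.c 5 r782 (.c 6 r783 .e)))))
noncomputable def q720 : Tr := .c 0 v32 .e
noncomputable def q721 : Tr := .c 0 v75 (.c 3 v75 (.c 5 v75 (.c 9 v15 .e)))
noncomputable def q722 : Tr := .c 0 v92 (.c 3 v92 (.c 5 v92 .e))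
noncomputable def r784 : Tr := .c 4 q522 (.c 5 q720 (.c 7 q721 (.c 8 q722 (.c 9 q707 .e))))
noncomputable def r785 : Tr := .c 3 q405 (.c 4 q522 (.c 5 q720 (.c 6 q652 (.c 9 q707 .e))))
noncomputable def r786 : Tr := .c 3 q405 (.c 5 q720 (.c 6 q652 (.c 7 q721 (.c 8 q722 (.c 9 q707 .e)))))
noncomputable def q723 : Tr := .c 3 v61 (.c 5 v61 (.c 9 v39 .e))
noncomputable def r787 : Tr := .c 1 q723 (.c 2 q723 (.c 7 q721 (.c 8 q722 (.c 9 q707 .e))))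
noncomputable def r788 : Tr := .c 0 q655 (.c 1 q723 (.c 6 q652 (.c 7 q721 (.c 8 q722 (.c 9 q707 .e)))))
noncomputable def q724 : Tr := .c 0 v1 (.c 9 v39 .e)
noncomputable def r789 : Tr := .c 1 q723 (.c 2 q723 (.c 4 q724 (.c 5 q490 (.c 8 q722 (.c 9 q707 .e)))))
noncomputable def r790 : Tr := .c 0 q655 (.c 2 q723 (.c 3 q245 (.c 4 q724 (.c 5 q490 (.c 9 q707 .e)))))
noncomputable def t213 : Tr := .c 0 r784 (.c 1 r785 (.c 2 r786 (.c 3 r787 (.c 4 r788 (.c 6 r789 (.c 7 r790 .e))))))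
noncomputable def r791 : Tr := .c 3 q360 (.c 4 q500 (.c 6 q634 .e))
noncomputable def q725 : Tr := .c 0 v70 (.c 2 v70 (.c 3 v70 (.c 4 v70 (.c 5 v70 (.c 9 v71 .e)))))
noncomputable def r792 : Tr := .c 3 q360 (.c 6 q634 (.c 7 q725 (.c 8 q709 .e)))
noncomputable def q726 : Tr := .c 4 v1 (.c 5 v39 (.c 9 v23 .e))
noncomputable def r793 : Tr := .c 0 q726 (.c 2 q705 (.c 3 q418 (.c 4 q547 .e)))
noncomputable def t214 : Tr := .c 1 r791 (.c 2 r792 (.c 7 r793 .e))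
noncomputable def r794 : Tr := .c 4 q500 (.c 7 q702 (.c 8 q703 .e))
noncomputable def r795 : Tr := .c 3 q387 (.c 4 q500 (.c 6 q642 .e))
noncomputable def r796 : Tr := .c 3 q387 (.c 6 q642 (.c 7 q702 (.c 8 q703 .e)))
noncomputable def r797 : Tr := .c 1 q705 (.c 2 q705 (.c 4 q547 (.c 8 q706 .e)))
noncomputable def r798 : Tr := .c 0 q645 (.c 2 q705 (.c 3 q390 (.c 4 q547 .e)))
noncomputable def t215 : Tr := .c 0 r794 (.c 1 r795 (.c 2 r796 (.c 6 r797 (.c 7 r798 .e))))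
noncomputable def r799 : Tr := .c 3 q377 (.c 4 q509 (.c 6 q649 .e))
noncomputable def r800 : Tr := .c 3 q377 (.c 6 q649 (.c 7 q708 (.c 8 q709 .e)))
noncomputable def r801 : Tr := .c 0 q650 (.c 1 q710 (.c 6 q649 (.c 7 q708 (.c 8 q709 .e))))
noncomputable def t216 : Tr := .c 1 r799 (.c 2 r800 (.c 4 r801 (.c 5 r777 .e)))
noncomputable def r802 : Tr := .c 4 q509 (.c 7 q708 (.c 8 q709 .e))
noncomputable def r803 : Tr := .c 1 q710 (.c 2 q711 (.c 7 q708 (.c 8 q709 .e)))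
noncomputable def t217 : Tr := .c 0 r802 (.c 2 r800 (.c 3 r803 (.c 4 r801 (.c 5 r777 .e))))
noncomputable def r804 : Tr := .c 4 q712 (.c 7 q713 (.c 8 q714 .e))
noncomputable def r805 : Tr := .c 3 q411 (.c 6 q657 (.c 7 q713 (.c 8 q714 .e)))
noncomputable def r806 : Tr := .c 1 q716 (.c 2 q717 (.c 7 q713 (.c 8 q714 .e)))
noncomputable def r807 : Tr := .c 0 q660 (.c 1 q716 (.c 6 q657 (.c 7 q713 (.c 8 q714 .e))))
noncomputable def r808 : Tr := .c 1 q716 (.c 2 q717 (.c 4 q718 (.c 8 q714 .e)))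
noncomputable def t218 : Tr := .c 0 r804 (.c 2 r805 (.c 3 r806 (.c 4 r807 (.c 5 r782 (.c 6 r808 .e)))))
noncomputable def r809 : Tr := .c 4 q522 (.c 7 q721 (.c 8 q722 .e))
noncomputable def r810 : Tr := .c 3 q405 (.c 4 q522 (.c 6 q652 .e))
noncomputable def r811 : Tr := .c 3 q405 (.c 6 q652 (.c 7 q721 (.c 8 q722 .e)))
noncomputable def r812 : Tr := .c 1 q723 (.c 2 q723 (.c 7 q721 (.c 8 q722 .e)))
noncomputable def r813 : Tr := .c 0 q655 (.c 1 q723 (.c 6 q652 (.c 7 q721 (.c 8 q722 .e))))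
noncomputable def r814 : Tr := .c 1 q723 (.c 2 q723 (.c 4 q724 (.c 8 q722 .e)))
noncomputable def r815 : Tr := .c 0 q655 (.c 2 q723 (.c 3 q245 (.c 4 q724 .e)))
noncomputable def t219 : Tr := .c 0 r809 (.c 1 r810 (.c 2 r811 (.c 3 r812 (.c 4 r813 (.c 6 r814 (.c 7 r815 .e))))))
noncomputable def q727 : Tr := .c 3 v19 (.c 4 v19 (.c 5 v19 (.c 9 v9 .e)))
noncomputable def q728 : Tr := .c 3 v19 (.c 5 v19 (.c 9 v9 .e))
noncomputable def q729 : Tr := .c 0 v93 (.c 2 v93 (.c 3 v93 (.c 4 v93 (.c 5 v93 (.c 9 v85 .e)))))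
noncomputable def q730 : Tr := .c 0 v49 (.c 2 v49 (.c 3 v49 (.c 4 v49 (.c 5 v49 .e))))
noncomputable def q731 : Tr := .c 0 v45 (.c 2 v45 (.c 3 v45 (.c 4 v45 .e)))
noncomputable def r816 : Tr := .c 1 q727 (.c 2 q728 (.c 7 q729 (.c 8 q730 (.c 9 q731 .e))))
noncomputable def r817 : Tr := .c 0 q664 (.c 1 q727 (.c 6 q666 (.c 7 q729 (.c 8 q730 (.c 9 q731 .e)))))
noncomputable def r818 : Tr := .c 0 q664 (.c 1 q727 (.c 2 q728 (.c 6 q666 (.c 7 q729 (.c 8 q730 .e)))))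
noncomputable def q732 : Tr := .c 0 v1 (.c 9 v9 .e)
noncomputable def q733 : Tr := .c 0 v39 (.c 2 v39 .e)
noncomputable def r819 : Tr := .c 1 q727 (.c 2 q728 (.c 4 q732 (.c 5 q733 (.c 8 q730 (.c 9 q731 .e)))))
noncomputable def t220 : Tr := .c 3 r816 (.c 4 r817 (.c 5 r818 (.c 6 r819 .e)))
noncomputable def q734 : Tr := .c 3 v19 (.c 4 v19 .e)
noncomputable def q735 : Tr := .c 3 v19 .e
noncomputable def q736 : Tr := .c 0 v93 (.c 2 v93 (.c 3 v93 (.c 4 v93 .e)))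
noncomputable def q737 : Tr := .c 0 v49 (.c 2 v49 (.c 3 v49 (.c 4 v49 .e)))
noncomputable def r820 : Tr := .c 1 q734 (.c 2 q735 (.c 7 q736 (.c 8 q737 (.c 9 q731 .e))))
noncomputable def r821 : Tr := .c 0 q96 (.c 1 q734 (.c 2 q735 (.c 6 q674 (.c 7 q736 (.c 8 q737 .e)))))
noncomputable def r822 : Tr := .c 1 q734 (.c 2 q735 (.c 4 q490 (.c 5 q733 (.c 8 q737 (.c 9 q731 .e)))))
noncomputable def q738 : Tr := .c 2 v39 .e
noncomputable def r823 : Tr := .c 0 q96 (.c 2 q735 (.c 3 q738 (.c 4 q490 (.c 5 q733 (.c 9 q731 .e)))))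
noncomputable def t221 : Tr := .c 3 r820 (.c 5 r821 (.c 6 r822 (.c 7 r823 .e)))
noncomputable def r824 : Tr := .c 0 q664 (.c 1 q727 (.c 6 q666 (.c 7 q729 (.c 8 q730 .e))))
noncomputable def r825 : Tr := .c 0 q81 (.c 2 q315 (.c 3 q418 (.c 4 q547 .e)))
noncomputable def t222 : Tr := .c 4 r824 (.c 5 r818 (.c 7 r825 .e))
noncomputable def r826 : Tr := .c 1 q727 (.c 2 q728 (.c 7 q729 (.c 8 q730 .e)))
noncomputable def r827 : Tr := .c 1 q727 (.c 2 q728 (.c 4 q732 (.c 8 q730 .e)))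
noncomputable def t223 : Tr := .c 3 r826 (.c 4 r824 (.c 5 r818 (.c 6 r827 .e)))
noncomputable def q739 : Tr := .c 2 v39 (.c 9 v1 .e)
noncomputable def r828 : Tr := .c 0 q85 (.c 3 q739 (.c 5 q733 (.c 9 q731 .e)))
noncomputable def t224 : Tr := .c 4 r817 (.c 5 r824 (.c 7 r828 .e))
noncomputable def r829 : Tr := .c 1 q727 (.c 7 q729 (.c 8 q730 (.c 9 q731 .e)))
noncomputable def r830 : Tr := .c 1 q727 (.c 5 q733 (.c 8 q730 (.c 9 q731 .e)))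
noncomputable def t225 : Tr := .c 3 r829 (.c 4 r817 (.c 5 r824 (.c 6 r830 .e)))
noncomputable def r831 : Tr := .c 1 q734 (.c 7 q736 (.c 8 q737 (.c 9 q731 .e)))
noncomputable def r832 : Tr := .c 0 q96 (.c 1 q734 (.c 6 q674 (.c 7 q736 (.c 8 q737 .e))))
noncomputable def r833 : Tr := .c 1 q734 (.c 5 q733 (.c 8 q737 (.c 9 q731 .e)))
noncomputable def r834 : Tr := .c 0 q96 (.c 3 q738 (.c 5 q733 (.c 9 q731 .e)))
noncomputable def t226 : Tr := .c 3 r831 (.c 5 r832 (.c 6 r833 (.c 7 r834 .e)))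
noncomputable def r835 : Tr := .c 3 q377 (.c 5 q579 (.c 6 q649 (.c 9 q701 .e)))
noncomputable def t227 : Tr := .c 1 r835 (.c 2 r774 (.c 4 r776 (.c 5 r801 .e)))
noncomputable def r836 : Tr := .c 5 q579 (.c 7 q708 (.c 8 q709 (.c 9 q701 .e)))
noncomputable def r837 : Tr := .c 1 q710 (.c 7 q708 (.c 8 q709 (.c 9 q701 .e)))
noncomputable def t228 : Tr := .c 0 r836 (.c 2 r774 (.c 3 r837 (.c 4 r776 (.c 5 r801 .e))))
noncomputable def r838 : Tr := .c 5 q600 (.c 7 q713 (.c 8 q714 (.c 9 q715 .e)))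
noncomputable def r839 : Tr := .c 1 q716 (.c 7 q713 (.c 8 q714 (.c 9 q715 .e)))
noncomputable def r840 : Tr := .c 1 q716 (.c 5 q719 (.c 8 q714 (.c 9 q715 .e)))
noncomputable def t229 : Tr := .c 0 r838 (.c 2 r779 (.c 3 r839 (.c 4 r781 (.c 5 r807 (.c 6 r840 .e)))))
noncomputable def q740 : Tr := .c 3 v9 (.c 4 v9 (.c 5 v9 (.c 9 v57 .e)))
noncomputable def q741 : Tr := .c 0 v82 (.c 2 v82 (.c 3 v82 (.c 4 v82 (.c 5 v82 .e))))
noncomputable def q742 : Tr := .c 0 v39 (.c 2 v39 (.c 3 v39 (.c 4 v39 .e)))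
noncomputable def r841 : Tr := .c 0 q692 (.c 1 q740 (.c 8 q741 (.c 9 q742 .e)))
noncomputable def r842 : Tr := .c 0 q692 (.c 1 q740 (.c 8 q741 .e))
noncomputable def q743 : Tr := .c 2 v23 (.c 9 v1 .e)
noncomputable def q744 : Tr := .c 0 v23 (.c 2 v23 .e)
noncomputable def r843 : Tr := .c 0 q95 (.c 3 q743 (.c 5 q744 (.c 9 q742 .e)))
noncomputable def t230 : Tr := .c 4 r841 (.c 5 r842 (.c 7 r843 .e))
noncomputable def r844 : Tr := .c 1 q740 (.c 8 q741 (.c 9 q742 .e))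
noncomputable def r845 : Tr := .c 1 q740 (.c 5 q744 (.c 8 q741 (.c 9 q742 .e)))
noncomputable def t231 : Tr := .c 3 r844 (.c 4 r841 (.c 5 r842 (.c 6 r845 .e)))
noncomputable def q745 : Tr := .c 3 v9 (.c 4 v9 .e)
noncomputable def q746 : Tr := .c 0 v82 (.c 2 v82 (.c 3 v82 (.c 4 v82 .e)))
noncomputable def r846 : Tr := .c 1 q745 (.c 8 q746 (.c 9 q742 .e))
noncomputable def r847 : Tr := .c 0 q201 (.c 1 q745 (.c 8 q746 .e))
noncomputable def r848 : Tr := .c 1 q745 (.c 5 q744 (.c 8 q746 (.c 9 q742 .e)))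
noncomputable def q747 : Tr := .c 2 v23 .e
noncomputable def r849 : Tr := .c 0 q102 (.c 3 q747 (.c 5 q744 (.c 9 q742 .e)))
noncomputable def t232 : Tr := .c 3 r846 (.c 5 r847 (.c 6 r848 (.c 7 r849 .e)))
noncomputable def q748 : Tr := .c 0 v15 (.c 2 v15 (.c 3 v15 (.c 4 v15 .e)))
noncomputable def r850 : Tr := .c 3 q375 (.c 5 q589 (.c 9 q748 .e))
noncomputable def q749 : Tr := .c 0 v81 (.c 2 v81 (.c 3 v81 (.c 4 v81 (.c 5 v81 .e))))
noncomputable def r851 : Tr := .c 3 q375 (.c 5 q589 (.c 8 q749 (.c 9 q748 .e)))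
noncomputable def t233 : Tr := .c 1 r850 (.c 2 r851 (.c 7 r843 .e))
noncomputable def r852 : Tr := .c 5 q589 (.c 8 q700 (.c 9 q748 .e))
noncomputable def r853 : Tr := .c 3 q386 (.c 5 q589 (.c 9 q748 .e))
noncomputable def t234 : Tr := .c 0 r852 (.c 1 r853 (.c 6 r848 (.c 7 r849 .e)))
noncomputable def r854 : Tr := .c 3 q386 (.c 5 q589 (.c 8 q749 (.c 9 q748 .e)))
noncomputable def q750 : Tr := .c 3 v84 (.c 4 v84 (.c 5 v84 .e))
noncomputable def r855 : Tr := .c 0 q689 (.c 1 q750 (.c 8 q749 (.c 9 q748 .e)))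
noncomputable def r856 : Tr := .c 0 q689 (.c 1 q750 (.c 8 q749 .e))
noncomputable def t235 : Tr := .c 1 r853 (.c 2 r854 (.c 4 r855 (.c 5 r856 .e)))
noncomputable def r857 : Tr := .c 5 q589 (.c 8 q749 (.c 9 q748 .e))
noncomputable def r858 : Tr := .c 1 q750 (.c 8 q749 (.c 9 q748 .e))
noncomputable def t236 : Tr := .c 0 r857 (.c 2 r854 (.c 3 r858 (.c 4 r855 (.c 5 r856 .e))))
noncomputable def q751 : Tr := .c 0 v15 (.c 6 v1 .e)
noncomputable def q752 : Tr := .c 0 v15 (.c 2 v15 (.c 6 v1 .e))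
noncomputable def q753 : Tr := .c 0 v1 (.c 2 v1 (.c 3 v1 (.c 4 v1 (.c 6 v1 .e))))
noncomputable def r859 : Tr := .c 4 q751 (.c 5 q752 (.c 7 q748 (.c 8 q753 (.c 9 q753 .e))))
noncomputable def q754 : Tr := .c 2 v15 .e
noncomputable def q755 : Tr := .c 2 v15 (.c 4 v15 .e)
noncomputable def r860 : Tr := .c 3 q754 (.c 4 q751 (.c 5 q752 (.c 6 q755 (.c 9 q753 .e))))
noncomputable def r861 : Tr := .c 0 q107 (.c 2 q333 (.c 3 q378 (.c 4 q491 (.c 5 q580 (.c 6 q640 .e)))))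
noncomputable def q756 : Tr := .c 3 v39 (.c 4 v39 (.c 6 v39 .e))
noncomputable def q757 : Tr := .c 3 v39 (.c 6 v39 .e)
noncomputable def v95 : Tr := .l 0x6186186186146
noncomputable def q758 : Tr := .c 2 v95 .e
noncomputable def q759 : Tr := .c 0 v1 (.c 6 v39 .e)
noncomputable def q760 : Tr := .c 2 v95 (.c 4 v95 .e)
noncomputable def q761 : Tr := .c 0 v95 (.c 2 v95 (.c 3 v95 (.c 4 v95 .e)))
noncomputable def r862 : Tr := .c 0 q683 (.c 1 q756 (.c 2 q757 (.c 3 q758 (.c 4 q759 (.c 6 q760 (.c 7 q761 .e))))))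
noncomputable def t237 : Tr := .c 0 r859 (.c 1 r860 (.c 8 r861 (.c 9 r862 .e)))
noncomputable def v96 : Tr := .l 0x6186146186186
noncomputable def q762 : Tr := .c 0 v15 (.c 6 v96 .e)
noncomputable def v97 : Tr := .l 0x6184144146146
noncomputable def q763 : Tr := .c 0 v97 (.c 6 v81 .e)
noncomputable def v98 : Tr := .l 0x6184104046106
noncomputable def q764 : Tr := .c 0 v98 (.c 3 v98 (.c 5 v98 .e))
noncomputable def v99 : Tr := .l 0x5106081104184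
noncomputable def q765 : Tr := .c 0 v99 (.c 3 v99 (.c 5 v99 (.c 6 v99 .e)))
noncomputable def v100 : Tr := .l 0x6185103186186
noncomputable def q766 : Tr := .c 0 v100 (.c 3 v100 (.c 6 v100 .e))
noncomputable def r863 : Tr := .c 4 q762 (.c 5 q763 (.c 7 q764 (.c 8 q765 (.c 9 q766 .e))))
noncomputable def q767 : Tr := .c 5 v98 .e
noncomputable def r864 : Tr := .c 4 q762 (.c 5 q763 (.c 6 q767 (.c 9 q766 .e)))
noncomputable def r865 : Tr := .c 5 q763 (.c 6 q767 (.c 7 q764 (.c 8 q765 (.c 9 q766 .e))))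
noncomputable def q768 : Tr := .c 5 v68 .e
noncomputable def q769 : Tr := .c 3 v68 (.c 5 v68 (.c 6 v68 .e))
noncomputable def q770 : Tr := .c 0 v1 (.c 6 v68 .e)
noncomputable def v101 : Tr := .l 0x6185185186186
noncomputable def q771 : Tr := .c 0 v101 (.c 6 v52 .e)
noncomputable def v102 : Tr := .l 0x6185145086146
noncomputable def q772 : Tr := .c 5 v102 .e
noncomputable def r866 : Tr := .c 0 q768 (.c 2 q769 (.c 4 q770 (.c 5 q771 (.c 6 q772 .e))))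
noncomputable def t238 : Tr := .c 0 r863 (.c 1 r864 (.c 2 r865 (.c 8 r866 .e)))
noncomputable def v103 : Tr := .l 0x61861440c6186
noncomputable def q773 : Tr := .c 0 v98 (.c 2 v98 (.c 6 v103 .e))
noncomputable def q774 : Tr := .c 0 v98 (.c 2 v98 (.c 3 v98 (.c 4 v98 (.c 5 v98 .e))))
noncomputable def q775 : Tr := .c 0 v99 (.c 2 v99 (.c 3 v99 (.c 4 v99 (.c 5 v99 (.c 6 v99 .e)))))
noncomputable def v104 : Tr := .l 0x6185103086145
noncomputable def q776 : Tr := .c 0 v104 (.c 2 v104 (.c 3 v104 (.c 4 v104 (.c 6 v104 .e))))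
noncomputable def r867 : Tr := .c 4 q751 (.c 5 q773 (.c 7 q774 (.c 8 q775 (.c 9 q776 .e))))
noncomputable def q777 : Tr := .c 2 v98 .e
noncomputable def q778 : Tr := .c 2 v98 (.c 4 v98 (.c 5 v98 .e))
noncomputable def r868 : Tr := .c 3 q777 (.c 5 q773 (.c 6 q778 (.c 7 q774 (.c 8 q775 (.c 9 q776 .e)))))
noncomputable def v105 : Tr := .l 0x5146042105184
noncomputable def q779 : Tr := .c 3 v105 (.c 4 v105 (.c 5 v105 (.c 6 v105 .e)))
noncomputable def q780 : Tr := .c 3 v105 (.c 5 v105 (.c 6 v105 .e))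
noncomputable def r869 : Tr := .c 1 q779 (.c 2 q780 (.c 7 q774 (.c 8 q775 (.c 9 q776 .e))))
noncomputable def q781 : Tr := .c 4 v105 (.c 5 v105 .e)
noncomputable def r870 : Tr := .c 0 q781 (.c 1 q779 (.c 6 q778 (.c 7 q774 (.c 8 q775 (.c 9 q776 .e)))))
noncomputable def r871 : Tr := .c 0 q781 (.c 1 q779 (.c 2 q780 (.c 6 q778 (.c 7 q774 (.c 8 q775 .e)))))
noncomputable def v106 : Tr := .l 0x5186083145184
noncomputable def q782 : Tr := .c 4 v106 (.c 5 v106 .e)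
noncomputable def q783 : Tr := .c 3 v106 (.c 4 v106 (.c 5 v106 (.c 6 v106 .e)))
noncomputable def q784 : Tr := .c 3 v106 (.c 5 v106 (.c 6 v106 .e))
noncomputable def q785 : Tr := .c 2 v102 .e
noncomputable def q786 : Tr := .c 0 v96 (.c 6 v106 .e)
noncomputable def q787 : Tr := .c 2 v102 (.c 4 v102 (.c 5 v102 .e))
noncomputable def q788 : Tr := .c 0 v102 (.c 2 v102 (.c 3 v102 (.c 4 v102 (.c 5 v102 .e))))
noncomputable def r872 : Tr := .c 0 q782 (.c 1 q783 (.c 2 q784 (.c 3 q785 (.c 4 q786 (.c 6 q787 (.c 7 q788 .e))))))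
noncomputable def t239 : Tr := .c 0 r867 (.c 2 r868 (.c 3 r869 (.c 4 r870 (.c 5 r871 (.c 9 r872 .e)))))
noncomputable def v107 : Tr := .l 0x4101186105084
noncomputable def q789 : Tr := .c 0 v107 (.c 2 v107 .e)
noncomputable def q790 : Tr := .c 0 v107 (.c 2 v107 (.c 3 v107 (.c 4 v107 (.c 5 v107 .e))))
noncomputable def v108 : Tr := .l 0x2044144182143
noncomputable def q791 : Tr := .c 0 v108 (.c 2 v108 (.c 3 v108 (.c 4 v108 (.c 5 v108 .e))))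
noncomputable def v109 : Tr := .l 0x40c21861440c3
noncomputable def q792 : Tr := .c 0 v109 (.c 2 v109 (.c 3 v109 (.c 4 v109 .e)))
noncomputable def r873 : Tr := .c 4 q490 (.c 5 q789 (.c 7 q790 (.c 8 q791 (.c 9 q792 .e))))
noncomputable def q793 : Tr := .c 2 v107 .e
noncomputable def q794 : Tr := .c 2 v107 (.c 4 v107 (.c 5 v107 .e))
noncomputable def r874 : Tr := .c 3 q793 (.c 5 q789 (.c 6 q794 (.c 7 q790 (.c 8 q791 (.c 9 q792 .e)))))
noncomputable def v110 : Tr := .l 0x1084145183142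
noncomputable def q795 : Tr := .c 3 v110 (.c 4 v110 (.c 5 v110 .e))
noncomputable def q796 : Tr := .c 3 v110 (.c 5 v110 .e)
noncomputable def r875 : Tr := .c 1 q795 (.c 2 q796 (.c 7 q790 (.c 8 q791 (.c 9 q792 .e))))
noncomputable def q797 : Tr := .c 4 v110 (.c 5 v110 .e)
noncomputable def r876 : Tr := .c 0 q797 (.c 1 q795 (.c 6 q794 (.c 7 q790 (.c 8 q791 (.c 9 q792 .e)))))
noncomputable def r877 : Tr := .c 0 q797 (.c 1 q795 (.c 2 q796 (.c 6 q794 (.c 7 q790 (.c 8 q791 .e)))))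
noncomputable def t240 : Tr := .c 0 r873 (.c 2 r874 (.c 3 r875 (.c 4 r876 (.c 5 r877 .e))))
noncomputable def v111 : Tr := .l 0x6183185186106
noncomputable def q798 : Tr := .c 0 v111 .e
noncomputable def v112 : Tr := .l 0x6183145086105
noncomputable def q799 : Tr := .c 0 v112 (.c 3 v112 (.c 5 v112 .e))
noncomputable def v113 : Tr := .l 0x40c60c2144183
noncomputable def q800 : Tr := .c 0 v113 (.c 3 v113 (.c 5 v113 .e))
noncomputable def v114 : Tr := .l 0x6144144186145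
noncomputable def q801 : Tr := .c 0 v114 (.c 3 v114 .e)
noncomputable def r878 : Tr := .c 4 q490 (.c 5 q798 (.c 7 q799 (.c 8 q800 (.c 9 q801 .e))))
noncomputable def q802 : Tr := .c 5 v112 .e
noncomputable def r879 : Tr := .c 4 q490 (.c 5 q798 (.c 6 q802 (.c 9 q801 .e)))
noncomputable def r880 : Tr := .c 5 q798 (.c 6 q802 (.c 7 q799 (.c 8 q800 (.c 9 q801 .e))))
noncomputable def v115 : Tr := .l 0x3106103143142
noncomputable def q803 : Tr := .c 3 v115 (.c 5 v115 .e)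
noncomputable def r881 : Tr := .c 1 q803 (.c 2 q803 (.c 7 q799 (.c 8 q800 (.c 9 q801 .e))))
noncomputable def q804 : Tr := .c 5 v115 .e
noncomputable def r882 : Tr := .c 0 q804 (.c 1 q803 (.c 6 q802 (.c 7 q799 (.c 8 q800 (.c 9 q801 .e)))))
noncomputable def t241 : Tr := .c 0 r878 (.c 1 r879 (.c 2 r880 (.c 3 r881 (.c 4 r882 .e))))
noncomputable def r883 : Tr := .c 3 q777 (.c 4 q762 (.c 6 q778 .e))
noncomputable def r884 : Tr := .c 3 q777 (.c 6 q778 (.c 7 q774 (.c 8 q775 .e)))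
noncomputable def q805 : Tr := .c 4 v68 (.c 5 v68 .e)
noncomputable def r885 : Tr := .c 0 q805 (.c 2 q769 (.c 3 q785 (.c 4 q770 (.c 6 q787 .e))))
noncomputable def t242 : Tr := .c 1 r883 (.c 2 r884 (.c 8 r885 (.c 9 r872 .e)))
noncomputable def r886 : Tr := .c 4 q762 (.c 7 q764 (.c 8 q765 .e))
noncomputable def r887 : Tr := .c 4 q762 (.c 6 q767 .e)
noncomputable def r888 : Tr := .c 6 q767 (.c 7 q764 (.c 8 q765 .e))
noncomputable def r889 : Tr := .c 0 q768 (.c 2 q769 (.c 4 q770 (.c 6 q772 .e)))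
noncomputable def t243 : Tr := .c 0 r886 (.c 1 r887 (.c 2 r888 (.c 8 r889 .e)))
noncomputable def r890 : Tr := .c 0 q781 (.c 1 q779 (.c 6 q778 (.c 7 q774 (.c 8 q775 .e))))
noncomputable def t244 : Tr := .c 1 r883 (.c 2 r884 (.c 4 r890 (.c 5 r871 (.c 8 r885 (.c 9 r872 .e)))))
noncomputable def r891 : Tr := .c 4 q751 (.c 7 q774 (.c 8 q775 .e))
noncomputable def r892 : Tr := .c 1 q779 (.c 2 q780 (.c 7 q774 (.c 8 q775 .e)))
noncomputable def t245 : Tr := .c 0 r891 (.c 2 r884 (.c 3 r892 (.c 4 r890 (.c 5 r871 (.c 9 r872 .e)))))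
noncomputable def r893 : Tr := .c 4 q490 (.c 7 q790 (.c 8 q791 .e))
noncomputable def r894 : Tr := .c 3 q793 (.c 6 q794 (.c 7 q790 (.c 8 q791 .e)))
noncomputable def r895 : Tr := .c 1 q795 (.c 2 q796 (.c 7 q790 (.c 8 q791 .e)))
noncomputable def r896 : Tr := .c 0 q797 (.c 1 q795 (.c 6 q794 (.c 7 q790 (.c 8 q791 .e))))
noncomputable def t246 : Tr := .c 0 r893 (.c 2 r894 (.c 3 r895 (.c 4 r896 (.c 5 r877 .e))))
noncomputable def r897 : Tr := .c 4 q490 (.c 7 q799 (.c 8 q800 .e))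
noncomputable def r898 : Tr := .c 4 q490 (.c 6 q802 .e)
noncomputable def r899 : Tr := .c 6 q802 (.c 7 q799 (.c 8 q800 .e))
noncomputable def r900 : Tr := .c 1 q803 (.c 2 q803 (.c 7 q799 (.c 8 q800 .e)))
noncomputable def r901 : Tr := .c 0 q804 (.c 1 q803 (.c 6 q802 (.c 7 q799 (.c 8 q800 .e))))
noncomputable def t247 : Tr := .c 0 r897 (.c 1 r898 (.c 2 r899 (.c 3 r900 (.c 4 r901 .e))))
noncomputable def v116 : Tr := .l 0x20c5105182101
noncomputable def q806 : Tr := .c 3 v116 (.c 4 v116 (.c 5 v116 (.c 6 v116 .e)))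
noncomputable def q807 : Tr := .c 3 v116 (.c 5 v116 (.c 6 v116 .e))
noncomputable def v117 : Tr := .l 0x5142186105044
noncomputable def q808 : Tr := .c 0 v117 (.c 2 v117 (.c 3 v117 (.c 4 v117 (.c 5 v117 .e))))
noncomputable def v118 : Tr := .l 0x3085144181142
noncomputable def q809 : Tr := .c 0 v118 (.c 2 v118 (.c 3 v118 (.c 4 v118 (.c 5 v118 (.c 6 v118 .e)))))
noncomputable def v119 : Tr := .l 0x3103146143102
noncomputable def q810 : Tr := .c 0 v119 (.c 2 v119 (.c 3 v119 (.c 4 v119 (.c 6 v119 .e))))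
noncomputable def r902 : Tr := .c 1 q806 (.c 2 q807 (.c 7 q808 (.c 8 q809 (.c 9 q810 .e))))
noncomputable def q811 : Tr := .c 4 v116 (.c 5 v116 .e)
noncomputable def q812 : Tr := .c 2 v117 (.c 4 v117 (.c 5 v117 .e))
noncomputable def r903 : Tr := .c 0 q811 (.c 1 q806 (.c 6 q812 (.c 7 q808 (.c 8 q809 (.c 9 q810 .e)))))
noncomputable def r904 : Tr := .c 0 q811 (.c 1 q806 (.c 2 q807 (.c 6 q812 (.c 7 q808 (.c 8 q809 .e)))))
noncomputable def q813 : Tr := .c 4 v57 (.c 5 v57 .e)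
noncomputable def q814 : Tr := .c 3 v57 (.c 4 v57 (.c 5 v57 (.c 6 v57 .e)))
noncomputable def q815 : Tr := .c 3 v57 (.c 5 v57 (.c 6 v57 .e))
noncomputable def v120 : Tr := .l 0x5183186145084
noncomputable def q816 : Tr := .c 2 v120 .e
noncomputable def q817 : Tr := .c 0 v39 (.c 6 v57 .e)
noncomputable def q818 : Tr := .c 2 v120 (.c 4 v120 (.c 5 v120 .e))
noncomputable def q819 : Tr := .c 0 v120 (.c 2 v120 (.c 3 v120 (.c 4 v120 (.c 5 v120 .e))))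
noncomputable def r905 : Tr := .c 0 q813 (.c 1 q814 (.c 2 q815 (.c 3 q816 (.c 4 q817 (.c 6 q818 (.c 7 q819 .e))))))
noncomputable def t248 : Tr := .c 3 r902 (.c 4 r903 (.c 5 r904 (.c 9 r905 .e)))
noncomputable def q820 : Tr := .c 3 v116 (.c 4 v116 (.c 6 v116 .e))
noncomputable def q821 : Tr := .c 3 v116 (.c 6 v116 .e)
noncomputable def q822 : Tr := .c 0 v117 (.c 2 v117 (.c 3 v117 (.c 4 v117 .e)))
noncomputable def q823 : Tr := .c 0 v118 (.c 2 v118 (.c 3 v118 (.c 4 v118 (.c 6 v118 .e))))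
noncomputable def r906 : Tr := .c 1 q820 (.c 2 q821 (.c 7 q822 (.c 8 q823 (.c 9 q810 .e))))
noncomputable def q824 : Tr := .c 4 v116 .e
noncomputable def q825 : Tr := .c 2 v117 (.c 4 v117 .e)
noncomputable def r907 : Tr := .c 0 q824 (.c 1 q820 (.c 2 q821 (.c 6 q825 (.c 7 q822 (.c 8 q823 .e)))))
noncomputable def q826 : Tr := .c 3 v23 (.c 6 v23 .e)
noncomputable def q827 : Tr := .c 2 v69 .e
noncomputable def q828 : Tr := .c 0 v69 (.c 2 v69 (.c 6 v23 .e))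
noncomputable def q829 : Tr := .c 2 v69 (.c 4 v69 .e)
noncomputable def r908 : Tr := .c 0 q102 (.c 2 q826 (.c 3 q827 (.c 4 q505 (.c 5 q828 (.c 6 q829 .e)))))
noncomputable def q830 : Tr := .c 4 v57 .e
noncomputable def q831 : Tr := .c 3 v57 (.c 4 v57 (.c 6 v57 .e))
noncomputable def q832 : Tr := .c 3 v57 (.c 6 v57 .e)
noncomputable def q833 : Tr := .c 2 v120 (.c 4 v120 .e)
noncomputable def q834 : Tr := .c 0 v120 (.c 2 v120 (.c 3 v120 (.c 4 v120 .e)))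
noncomputable def r909 : Tr := .c 0 q830 (.c 1 q831 (.c 2 q832 (.c 3 q816 (.c 4 q817 (.c 6 q833 (.c 7 q834 .e))))))
noncomputable def t249 : Tr := .c 3 r906 (.c 5 r907 (.c 8 r908 (.c 9 r909 .e)))
noncomputable def r910 : Tr := .c 0 q811 (.c 1 q806 (.c 6 q812 (.c 7 q808 (.c 8 q809 .e))))
noncomputable def q835 : Tr := .c 4 v23 (.c 5 v23 .e)
noncomputable def q836 : Tr := .c 2 v69 (.c 4 v69 (.c 5 v69 .e))
noncomputable def r911 : Tr := .c 0 q835 (.c 2 q334 (.c 3 q827 (.c 4 q505 (.c 6 q836 .e))))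
noncomputable def t250 : Tr := .c 4 r910 (.c 5 r904 (.c 8 r911 (.c 9 r905 .e)))
noncomputable def r912 : Tr := .c 1 q806 (.c 2 q807 (.c 7 q808 (.c 8 q809 .e)))
noncomputable def t251 : Tr := .c 3 r912 (.c 4 r910 (.c 5 r904 (.c 9 r905 .e)))
noncomputable def r913 : Tr := .c 0 q835 (.c 3 q827 (.c 5 q828 (.c 6 q836 .e)))
noncomputable def r914 : Tr := .c 0 q813 (.c 1 q814 (.c 3 q816 (.c 6 q818 (.c 7 q819 .e))))
noncomputable def t252 : Tr := .c 4 r903 (.c 5 r910 (.c 8 r913 (.c 9 r914 .e)))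
noncomputable def r915 : Tr := .c 1 q806 (.c 7 q808 (.c 8 q809 (.c 9 q810 .e)))
noncomputable def t253 : Tr := .c 3 r915 (.c 4 r903 (.c 5 r910 (.c 9 r914 .e)))
noncomputable def r916 : Tr := .c 1 q820 (.c 7 q822 (.c 8 q823 (.c 9 q810 .e)))
noncomputable def r917 : Tr := .c 0 q824 (.c 1 q820 (.c 6 q825 (.c 7 q822 (.c 8 q823 .e))))
noncomputable def r918 : Tr := .c 0 q102 (.c 3 q827 (.c 5 q828 (.c 6 q829 .e)))
noncomputable def r919 : Tr := .c 0 q830 (.c 1 q831 (.c 3 q816 (.c 6 q833 (.c 7 q834 .e))))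
noncomputable def t254 : Tr := .c 3 r916 (.c 5 r917 (.c 8 r918 (.c 9 r919 .e)))
noncomputable def r920 : Tr := .c 3 q777 (.c 5 q773 (.c 6 q778 (.c 9 q776 .e)))
noncomputable def q837 : Tr := .c 0 v102 (.c 2 v102 (.c 6 v72 .e))
noncomputable def r921 : Tr := .c 0 q805 (.c 3 q785 (.c 5 q837 (.c 6 q787 .e)))
noncomputable def r922 : Tr := .c 0 q782 (.c 1 q783 (.c 3 q785 (.c 6 q787 (.c 7 q788 .e))))
noncomputable def t255 : Tr := .c 1 r920 (.c 2 r868 (.c 4 r870 (.c 5 r890 (.c 8 r921 (.c 9 r922 .e)))))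
noncomputable def r923 : Tr := .c 5 q773 (.c 7 q774 (.c 8 q775 (.c 9 q776 .e)))
noncomputable def r924 : Tr := .c 1 q779 (.c 7 q774 (.c 8 q775 (.c 9 q776 .e)))
noncomputable def t256 : Tr := .c 0 r923 (.c 2 r868 (.c 3 r924 (.c 4 r870 (.c 5 r890 (.c 9 r922 .e)))))
noncomputable def r925 : Tr := .c 5 q789 (.c 7 q790 (.c 8 q791 (.c 9 q792 .e)))
noncomputable def r926 : Tr := .c 1 q795 (.c 7 q790 (.c 8 q791 (.c 9 q792 .e)))
noncomputable def t257 : Tr := .c 0 r925 (.c 2 r874 (.c 3 r926 (.c 4 r876 (.c 5 r896 .e))))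
noncomputable def r927 : Tr := .c 1 q806 (.c 2 q807 (.c 7 q808 .e))
noncomputable def r928 : Tr := .c 0 q811 (.c 1 q806 (.c 6 q812 (.c 7 q808 .e)))
noncomputable def r929 : Tr := .c 0 q811 (.c 1 q806 (.c 2 q807 (.c 6 q812 (.c 7 q808 .e))))
noncomputable def t258 : Tr := .c 3 r927 (.c 4 r928 (.c 5 r929 (.c 9 r905 .e)))
noncomputable def r930 : Tr := .c 1 q820 (.c 2 q821 (.c 7 q822 .e))
noncomputable def r931 : Tr := .c 0 q824 (.c 1 q820 (.c 2 q821 (.c 6 q825 (.c 7 q822 .e))))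
noncomputable def t259 : Tr := .c 3 r930 (.c 5 r931 (.c 8 r908 (.c 9 r909 .e)))
noncomputable def q838 : Tr := .c 0 v95 (.c 2 v95 (.c 6 v23 .e))
noncomputable def r932 : Tr := .c 4 q505 (.c 5 q838 (.c 7 q700 .e))
noncomputable def r933 : Tr := .c 3 q758 (.c 4 q505 (.c 5 q838 (.c 6 q760 .e)))
noncomputable def t260 : Tr := .c 0 r932 (.c 1 r933 (.c 8 r908 (.c 9 r909 .e)))
noncomputable def q839 : Tr := .c 0 v76 (.c 6 v23 .e)
noncomputable def v121 : Tr := .l 0x61841860c6146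
noncomputable def q840 : Tr := .c 0 v121 (.c 3 v121 (.c 5 v121 .e))
noncomputable def r934 : Tr := .c 4 q505 (.c 5 q839 (.c 7 q840 .e))
noncomputable def q841 : Tr := .c 5 v121 .e
noncomputable def r935 : Tr := .c 4 q505 (.c 5 q839 (.c 6 q841 .e))
noncomputable def r936 : Tr := .c 5 q839 (.c 6 q841 (.c 7 q840 .e))
noncomputable def q842 : Tr := .c 0 v32 (.c 6 v23 .e)
noncomputable def q843 : Tr := .c 5 v75 .e
noncomputable def r937 : Tr := .c 0 q143 (.c 2 q334 (.c 4 q505 (.c 5 q842 (.c 6 q843 .e))))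
noncomputable def t261 : Tr := .c 0 r934 (.c 1 r935 (.c 2 r936 (.c 8 r937 .e)))
noncomputable def r938 : Tr := .c 4 q490 (.c 5 q789 (.c 7 q790 .e))
noncomputable def r939 : Tr := .c 3 q793 (.c 5 q789 (.c 6 q794 (.c 7 q790 .e)))
noncomputable def r940 : Tr := .c 1 q795 (.c 2 q796 (.c 7 q790 .e))
noncomputable def r941 : Tr := .c 0 q797 (.c 1 q795 (.c 6 q794 (.c 7 q790 .e)))
noncomputable def r942 : Tr := .c 0 q797 (.c 1 q795 (.c 2 q796 (.c 6 q794 (.c 7 q790 .e))))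
noncomputable def t262 : Tr := .c 0 r938 (.c 2 r939 (.c 3 r940 (.c 4 r941 (.c 5 r942 .e))))
noncomputable def r943 : Tr := .c 4 q490 (.c 5 q798 (.c 7 q799 .e))
noncomputable def r944 : Tr := .c 4 q490 (.c 5 q798 (.c 6 q802 .e))
noncomputable def r945 : Tr := .c 5 q798 (.c 6 q802 (.c 7 q799 .e))
noncomputable def r946 : Tr := .c 1 q803 (.c 2 q803 (.c 7 q799 .e))
noncomputable def r947 : Tr := .c 0 q804 (.c 1 q803 (.c 6 q802 (.c 7 q799 .e)))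
noncomputable def t263 : Tr := .c 0 r943 (.c 1 r944 (.c 2 r945 (.c 3 r946 (.c 4 r947 .e))))
noncomputable def q844 : Tr := .c 0 v70 (.c 1 v70 (.c 6 v15 (.c 7 v15 .e)))
noncomputable def q845 : Tr := .c 0 v70 (.c 1 v70 (.c 2 v70 (.c 6 v15 (.c 7 v15 .e))))
noncomputable def q846 : Tr := .c 0 v72 (.c 1 v72 (.c 2 v72 (.c 3 v72 (.c 4 v72 (.c 6 v72 (.c 7 v72 .e))))))
noncomputable def r948 : Tr := .c 4 q844 (.c 5 q845 (.c 7 q699 (.c 8 q753 (.c 9 q846 .e))))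
noncomputable def q847 : Tr := .c 1 v70 (.c 2 v70 (.c 7 v15 .e))
noncomputable def q848 : Tr := .c 1 v70 (.c 2 v70 (.c 4 v70 .e))
noncomputable def r949 : Tr := .c 3 q847 (.c 4 q844 (.c 5 q845 (.c 6 q848 (.c 9 q846 .e))))
noncomputable def q849 : Tr := .c 4 v1 (.c 7 v1 .e)
noncomputable def q850 : Tr := .c 3 v1 (.c 6 v1 (.c 7 v1 .e))
noncomputable def q851 : Tr := .c 1 v71 (.c 2 v71 (.c 4 v71 .e))
noncomputable def r950 : Tr := .c 0 q849 (.c 2 q850 (.c 3 q397 (.c 4 q526 (.c 5 q592 (.c 6 q851 .e)))))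
noncomputable def q852 : Tr := .c 4 v74 (.c 7 v74 .e)
noncomputable def q853 : Tr := .c 3 v74 (.c 4 v74 (.c 6 v74 .e))
noncomputable def q854 : Tr := .c 3 v74 (.c 6 v74 (.c 7 v74 .e))
noncomputable def q855 : Tr := .c 1 v71 (.c 2 v71 (.c 7 v74 .e))
noncomputable def q856 : Tr := .c 0 v71 (.c 1 v71 (.c 6 v74 (.c 7 v74 .e)))
noncomputable def q857 : Tr := .c 0 v71 (.c 2 v71 (.c 3 v71 (.c 4 v71 .e)))
noncomputable def r951 : Tr := .c 0 q852 (.c 1 q853 (.c 2 q854 (.c 3 q855 (.c 4 q856 (.c 6 q851 (.c 7 q857 .e))))))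
noncomputable def t264 : Tr := .c 0 r948 (.c 1 r949 (.c 8 r950 (.c 9 r951 .e)))
noncomputable def q858 : Tr := .c 0 v70 (.c 3 v70 .e)
noncomputable def q859 : Tr := .c 0 v53 (.c 3 v53 (.c 6 v53 .e))
noncomputable def q860 : Tr := .c 0 v72 (.c 1 v72 (.c 3 v72 (.c 6 v72 (.c 7 v72 .e))))
noncomputable def r952 : Tr := .c 4 q844 (.c 5 q844 (.c 7 q858 (.c 8 q859 (.c 9 q860 .e))))
noncomputable def q861 : Tr := .c 1 v70 (.c 7 v15 .e)
noncomputable def r953 : Tr := .c 3 q861 (.c 4 q844 (.c 5 q844 (.c 6 q511 (.c 9 q860 .e))))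
noncomputable def r954 : Tr := .c 0 q28 (.c 2 q850 (.c 3 q398 (.c 4 q526 (.c 5 q526 (.c 6 q527 .e)))))
noncomputable def t265 : Tr := .c 0 r952 (.c 1 r953 (.c 8 r954 .e))
noncomputable def v122 : Tr := .l 0x6186103186185
noncomputable def q862 : Tr := .c 0 v122 (.c 2 v122 (.c 3 v122 (.c 4 v122 (.c 6 v122 .e))))
noncomputable def r955 : Tr := .c 4 q508 (.c 5 q845 (.c 7 q699 (.c 8 q862 (.c 9 q846 .e))))
noncomputable def v123 : Tr := .l 0x51860c4185184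
noncomputable def q863 : Tr := .c 3 v123 (.c 4 v123 (.c 6 v123 .e))
noncomputable def q864 : Tr := .c 3 v123 (.c 6 v123 (.c 7 v123 .e))
noncomputable def r956 : Tr := .c 1 q863 (.c 2 q864 (.c 7 q699 (.c 8 q862 (.c 9 q846 .e))))
noncomputable def q865 : Tr := .c 4 v123 (.c 7 v123 .e)
noncomputable def r957 : Tr := .c 0 q865 (.c 1 q863 (.c 2 q864 (.c 6 q848 (.c 7 q699 (.c 8 q862 .e)))))
noncomputable def t266 : Tr := .c 0 r955 (.c 3 r956 (.c 5 r957 (.c 9 r951 .e)))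
noncomputable def q866 : Tr := .c 0 v28 (.c 1 v28 (.c 2 v28 .e))
noncomputable def v124 : Tr := .l 0x6183186186105
noncomputable def q867 : Tr := .c 0 v124 (.c 2 v124 (.c 3 v124 (.c 4 v124 .e)))
noncomputable def v125 : Tr := .l 0x40c6186184183
noncomputable def q868 : Tr := .c 0 v125 (.c 2 v125 (.c 3 v125 (.c 4 v125 .e)))
noncomputable def q869 : Tr := .c 0 v94 (.c 1 v94 (.c 2 v94 (.c 3 v94 (.c 4 v94 .e))))
noncomputable def r958 : Tr := .c 4 q515 (.c 5 q866 (.c 7 q867 (.c 8 q868 (.c 9 q869 .e))))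
noncomputable def v126 : Tr := .l 0x3106146183142
noncomputable def q870 : Tr := .c 3 v126 (.c 4 v126 .e)
noncomputable def q871 : Tr := .c 3 v126 .e
noncomputable def r959 : Tr := .c 1 q870 (.c 2 q871 (.c 7 q867 (.c 8 q868 (.c 9 q869 .e))))
noncomputable def q872 : Tr := .c 4 v126 .e
noncomputable def q873 : Tr := .c 1 v124 (.c 2 v124 (.c 4 v124 .e))
noncomputable def r960 : Tr := .c 0 q872 (.c 1 q870 (.c 2 q871 (.c 6 q873 (.c 7 q867 (.c 8 q868 .e)))))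
noncomputable def t267 : Tr := .c 0 r958 (.c 3 r959 (.c 5 r960 .e))
noncomputable def q874 : Tr := .c 0 v75 (.c 1 v75 .e)
noncomputable def q875 : Tr := .c 0 v75 (.c 3 v75 .e)
noncomputable def q876 : Tr := .c 0 v92 (.c 3 v92 .e)
noncomputable def q877 : Tr := .c 0 v15 (.c 1 v15 (.c 3 v15 .e))
noncomputable def r961 : Tr := .c 4 q874 (.c 5 q874 (.c 7 q875 (.c 8 q876 (.c 9 q877 .e))))
noncomputable def q878 : Tr := .c 1 v75 .e
noncomputable def r962 : Tr := .c 3 q878 (.c 4 q874 (.c 5 q874 (.c 6 q878 (.c 9 q877 .e))))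
noncomputable def q879 : Tr := .c 3 v61 .e
noncomputable def r963 : Tr := .c 1 q879 (.c 2 q879 (.c 7 q875 (.c 8 q876 (.c 9 q877 .e))))
noncomputable def t268 : Tr := .c 0 r961 (.c 1 r962 (.c 3 r963 .e))
noncomputable def t269 : Tr := .c 1 r949 (.c 8 r950 (.c 9 r951 .e))
noncomputable def t270 : Tr := .c 1 r949 (.c 5 r957 (.c 8 r950 (.c 9 r951 .e)))
noncomputable def r964 : Tr := .c 3 q847 (.c 4 q844 (.c 6 q848 .e))
noncomputable def r965 : Tr := .c 0 q849 (.c 2 q850 (.c 3 q397 (.c 4 q526 (.c 6 q851 .e))))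
noncomputable def t271 : Tr := .c 1 r964 (.c 8 r965 (.c 9 r951 .e))
noncomputable def r966 : Tr := .c 4 q844 (.c 7 q858 (.c 8 q859 .e))
noncomputable def r967 : Tr := .c 3 q861 (.c 4 q844 (.c 6 q511 .e))
noncomputable def r968 : Tr := .c 0 q28 (.c 2 q850 (.c 3 q398 (.c 4 q526 (.c 6 q527 .e))))
noncomputable def t272 : Tr := .c 0 r966 (.c 1 r967 (.c 8 r968 .e))
noncomputable def t273 : Tr := .c 1 r964 (.c 5 r957 (.c 8 r965 (.c 9 r951 .e)))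
noncomputable def r969 : Tr := .c 4 q508 (.c 7 q699 (.c 8 q862 .e))
noncomputable def r970 : Tr := .c 1 q863 (.c 2 q864 (.c 7 q699 (.c 8 q862 .e)))
noncomputable def t274 : Tr := .c 0 r969 (.c 3 r970 (.c 5 r957 (.c 9 r951 .e)))
noncomputable def r971 : Tr := .c 4 q515 (.c 7 q867 (.c 8 q868 .e))
noncomputable def r972 : Tr := .c 1 q870 (.c 2 q871 (.c 7 q867 (.c 8 q868 .e)))
noncomputable def t275 : Tr := .c 0 r971 (.c 3 r972 (.c 5 r960 .e))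
noncomputable def r973 : Tr := .c 4 q874 (.c 7 q875 (.c 8 q876 .e))
noncomputable def r974 : Tr := .c 3 q878 (.c 4 q874 (.c 6 q878 .e))
noncomputable def r975 : Tr := .c 1 q879 (.c 2 q879 (.c 7 q875 (.c 8 q876 .e)))
noncomputable def t276 : Tr := .c 0 r973 (.c 1 r974 (.c 3 r975 .e))
noncomputable def q880 : Tr := .c 3 v116 (.c 6 v116 (.c 7 v116 .e))
noncomputable def v127 : Tr := .l 0x51841861850c4
noncomputable def q881 : Tr := .c 0 v127 (.c 2 v127 (.c 3 v127 (.c 4 v127 .e)))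
noncomputable def q882 : Tr := .c 0 v126 (.c 2 v126 (.c 3 v126 (.c 4 v126 (.c 6 v126 .e))))
noncomputable def q883 : Tr := .c 0 v45 (.c 1 v45 (.c 2 v45 (.c 3 v45 (.c 4 v45 (.c 6 v45 (.c 7 v45 .e))))))
noncomputable def r976 : Tr := .c 1 q820 (.c 2 q880 (.c 7 q881 (.c 8 q882 (.c 9 q883 .e))))
noncomputable def q884 : Tr := .c 4 v116 (.c 7 v116 .e)
noncomputable def q885 : Tr := .c 1 v127 (.c 2 v127 (.c 4 v127 .e))
noncomputable def r977 : Tr := .c 0 q884 (.c 1 q820 (.c 2 q880 (.c 6 q885 (.c 7 q881 (.c 8 q882 .e)))))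
noncomputable def q886 : Tr := .c 4 v57 (.c 7 v57 .e)
noncomputable def q887 : Tr := .c 3 v57 (.c 6 v57 (.c 7 v57 .e))
noncomputable def q888 : Tr := .c 1 v79 (.c 2 v79 (.c 7 v57 .e))
noncomputable def q889 : Tr := .c 0 v79 (.c 1 v79 (.c 6 v57 (.c 7 v57 .e)))
noncomputable def q890 : Tr := .c 1 v79 (.c 2 v79 (.c 4 v79 .e))
noncomputable def q891 : Tr := .c 0 v79 (.c 2 v79 (.c 3 v79 (.c 4 v79 .e)))
noncomputable def r978 : Tr := .c 0 q886 (.c 1 q831 (.c 2 q887 (.c 3 q888 (.c 4 q889 (.c 6 q890 (.c 7 q891 .e))))))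
noncomputable def t277 : Tr := .c 3 r976 (.c 5 r977 (.c 9 r978 .e))
noncomputable def r979 : Tr := .c 0 q117 (.c 2 q318 (.c 3 q366 (.c 4 q496 (.c 5 q584 (.c 6 q638 .e)))))
noncomputable def t278 : Tr := .c 3 r976 (.c 5 r977 (.c 8 r979 (.c 9 r978 .e)))
noncomputable def r980 : Tr := .c 0 q117 (.c 2 q318 (.c 3 q366 (.c 4 q496 (.c 6 q638 .e))))
noncomputable def t279 : Tr := .c 5 r977 (.c 8 r980 (.c 9 r978 .e))
noncomputable def r981 : Tr := .c 1 q820 (.c 2 q880 (.c 7 q881 (.c 8 q882 .e)))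
noncomputable def t280 : Tr := .c 3 r981 (.c 5 r977 (.c 9 r978 .e))
noncomputable def r982 : Tr := .c 1 q820 (.c 2 q880 (.c 7 q881 .e))
noncomputable def r983 : Tr := .c 0 q884 (.c 1 q820 (.c 2 q880 (.c 6 q885 (.c 7 q881 .e))))
noncomputable def t281 : Tr := .c 3 r982 (.c 5 r983 (.c 9 r978 .e))
noncomputable def t282 : Tr := .c 3 r982 (.c 5 r983 (.c 8 r979 (.c 9 r978 .e)))
noncomputable def q892 : Tr := .c 0 v15 (.c 1 v15 (.c 2 v15 (.c 6 v23 (.c 7 v23 .e))))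
noncomputable def r984 : Tr := .c 4 q631 (.c 5 q892 (.c 7 q700 .e))
noncomputable def r985 : Tr := .c 3 q469 (.c 4 q631 (.c 5 q892 (.c 6 q685 .e)))
noncomputable def t283 : Tr := .c 0 r984 (.c 1 r985 (.c 8 r979 (.c 9 r978 .e)))
noncomputable def q893 : Tr := .c 0 v15 (.c 3 v15 .e)
noncomputable def r986 : Tr := .c 4 q631 (.c 5 q631 (.c 7 q893 .e))
noncomputable def r987 : Tr := .c 3 q470 (.c 4 q631 (.c 5 q631 (.c 6 q406 .e)))
noncomputable def r988 : Tr := .c 0 q33 (.c 2 q318 (.c 3 q391 (.c 4 q496 (.c 5 q496 (.c 6 q647 .e)))))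
noncomputable def t284 : Tr := .c 0 r986 (.c 1 r987 (.c 8 r988 .e))
noncomputable def r989 : Tr := .c 4 q515 (.c 5 q866 (.c 7 q867 .e))
noncomputable def r990 : Tr := .c 1 q870 (.c 2 q871 (.c 7 q867 .e))
noncomputable def r991 : Tr := .c 0 q872 (.c 1 q870 (.c 2 q871 (.c 6 q873 (.c 7 q867 .e))))
noncomputable def t285 : Tr := .c 0 r989 (.c 3 r990 (.c 5 r991 .e))
noncomputable def r992 : Tr := .c 4 q874 (.c 5 q874 (.c 7 q875 .e))
noncomputable def r993 : Tr := .c 3 q878 (.c 4 q874 (.c 5 q874 (.c 6 q878 .e)))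
noncomputable def r994 : Tr := .c 1 q879 (.c 2 q879 (.c 7 q875 .e))
noncomputable def t286 : Tr := .c 0 r992 (.c 1 r993 (.c 3 r994 .e))
noncomputable def t287 : Tr := .c 5 r983 (.c 8 r979 (.c 9 r978 .e))
noncomputable def t288 : Tr := .c 1 r985 (.c 8 r979 (.c 9 r978 .e))

/-- the diagram -/
noncomputable def T : Tr := (.c 0 (.c 4 (.c 0 t0 (.c 1 t1 (.c 6 t2 (.c 7 t3 (.c 8 t4 (.c 9 t5 .e)))))) (.c 5 (.c 0 t6 (.c 1
t7 (.c 2 t8 (.c 6 t9 (.c 7 t10 (.c 8 t11 .e)))))) (.c 7 (.c 0 t12 (.c 2 t13 (.c 3 t14 (.c 4 t15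
(.c 5 t16 (.c 9 t17 .e)))))) (.c 8 (.c 0 t18 (.c 2 t19 (.c 3 t20 (.c 4 t21 (.c 5 t22 (.c 6 t23
.e)))))) (.c 9 (.c 0 t24 (.c 1 t25 (.c 2 t26 (.c 3 t27 (.c 4 t28 (.c 6 t29 (.c 7 t30 .e)))))))
.e))))) (.c 1 (.c 3 (.c 1 t31 (.c 2 t32 (.c 7 t33 (.c 8 t34 (.c 9 t35 .e))))) (.c 4 (.c 0 t36
(.c 1 t37 (.c 6 t38 (.c 7 t39 (.c 8 t40 (.c 9 t41 .e)))))) (.c 5 (.c 0 t42 (.c 1 t43 (.c 2 t44
(.c 6 t45 (.c 7 t46 (.c 8 t47 .e)))))) (.c 6 (.c 1 t48 (.c 2 t49 (.c 4 t50 (.c 5 t51 (.c 8 t52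
(.c 9 t53 .e)))))) (.c 9 (.c 0 t54 (.c 1 t55 (.c 2 t56 (.c 3 t57 (.c 4 t58 (.c 6 t59 (.c 7 t60
.e))))))) .e))))) (.c 2 (.c 3 (.c 1 t61 (.c 2 t62 (.c 7 t63 (.c 8 t64 (.c 9 t65 .e))))) (.c 5
(.c 0 t66 (.c 1 t67 (.c 2 t68 (.c 6 t69 (.c 7 t70 (.c 8 t71 .e)))))) (.c 6 (.c 1 t72 (.c 2 t73
(.c 4 t74 (.c 5 t75 (.c 8 t76 (.c 9 t77 .e)))))) (.c 7 (.c 0 t78 (.c 2 t73 (.c 3 t79 (.c 4 t74
(.c 5 t75 (.c 9 t77 .e)))))) (.c 8 (.c 0 t80 (.c 2 t81 (.c 3 t82 (.c 4 t83 (.c 5 t84 (.c 6 t85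
.e)))))) (.c 9 (.c 0 t86 (.c 1 t87 (.c 2 t88 (.c 3 t89 (.c 4 t90 (.c 6 t91 (.c 7 t92 .e)))))))
.e)))))) (.c 3 (.c 1 (.c 3 t93 (.c 4 t94 (.c 5 t95 (.c 6 t96 (.c 9 t97 .e))))) (.c 2 (.c 3 t98
(.c 5 t99 (.c 6 t100 (.c 7 t101 (.c 8 t102 (.c 9 t103 .e)))))) (.c 7 (.c 0 t104 (.c 2 t105 (.c
3 t106 (.c 4 t107 (.c 5 t108 (.c 9 t109 .e)))))) (.c 8 (.c 0 t110 (.c 2 t111 (.c 3 t112 (.c 4
t113 (.c 5 t114 (.c 6 t115 .e)))))) (.c 9 (.c 0 t116 (.c 1 t117 (.c 2 t118 (.c 3 t119 (.c 4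
t120 (.c 6 t121 (.c 7 t122 .e))))))) .e))))) (.c 4 (.c 0 (.c 4 t123 (.c 5 t124 (.c 7 t125 (.c 8
t126 (.c 9 t127 .e))))) (.c 1 (.c 3 t128 (.c 4 t123 (.c 5 t124 (.c 6 t129 (.c 9 t127 .e)))))
(.c 6 (.c 1 t130 (.c 2 t131 (.c 4 t132 (.c 5 t133 (.c 8 t134 (.c 9 t135 .e)))))) (.c 7 (.c 0
t136 (.c 2 t131 (.c 3 t137 (.c 4 t132 (.c 5 t133 (.c 9 t135 .e)))))) (.c 8 (.c 0 t138 (.c 2
t139 (.c 3 t140 (.c 4 t141 (.c 5 t142 (.c 6 t143 .e)))))) (.c 9 (.c 0 t144 (.c 1 t145 (.c 2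
t146 (.c 3 t147 (.c 4 t148 (.c 6 t149 (.c 7 t150 .e))))))) .e)))))) (.c 5 (.c 0 (.c 4 t151 (.c
5 t152 (.c 7 t153 (.c 8 t154 (.c 9 t155 .e))))) (.c 1 (.c 3 t156 (.c 4 t151 (.c 5 t152 (.c 6
t157 (.c 9 t155 .e))))) (.c 2 (.c 3 t158 (.c 5 t159 (.c 6 t160 (.c 7 t161 (.c 8 t162 (.c 9 t163
.e)))))) (.c 6 (.c 1 t164 (.c 2 t165 (.c 4 t166 (.c 5 t132 (.c 8 t167 (.c 9 t168 .e)))))) (.c 7
(.c 0 t169 (.c 2 t165 (.c 3 t170 (.c 4 t166 (.c 5 t132 (.c 9 t168 .e)))))) (.c 8 (.c 0 t171 (.c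
2 t172 (.c 3 t173 (.c 4 t174 (.c 5 t175 (.c 6 t176 .e)))))) .e)))))) (.c 6 (.c 1 (.c 3 t177 (.c
4 t178 (.c 5 t179 (.c 6 t180 (.c 9 t181 .e))))) (.c 2 (.c 3 t182 (.c 5 t183 (.c 6 t184 (.c 7
t185 (.c 8 t186 (.c 9 t187 .e)))))) (.c 4 (.c 0 t188 (.c 1 t189 (.c 6 t184 (.c 7 t185 (.c 8
t186 (.c 9 t187 .e)))))) (.c 5 (.c 0 t190 (.c 1 t191 (.c 2 t192 (.c 6 t193 (.c 7 t194 (.c 8
t195 .e)))))) (.c 8 (.c 0 t196 (.c 2 t197 (.c 3 t198 (.c 4 t199 (.c 5 t200 (.c 6 t201 .e))))))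
(.c 9 (.c 0 t202 (.c 1 t203 (.c 2 t204 (.c 3 t205 (.c 4 t206 (.c 6 t207 (.c 7 t208 .e)))))))
.e)))))) (.c 7 (.c 0 (.c 4 t209 (.c 5 t210 (.c 7 t211 (.c 8 t212 (.c 9 t213 .e))))) (.c 2 (.c 3
t214 (.c 5 t215 (.c 6 t216 (.c 7 t217 (.c 8 t218 (.c 9 t219 .e)))))) (.c 3 (.c 1 t220 (.c 2
t221 (.c 7 t211 (.c 8 t212 (.c 9 t213 .e))))) (.c 4 (.c 0 t222 (.c 1 t223 (.c 6 t216 (.c 7 t217
(.c 8 t218 (.c 9 t219 .e)))))) (.c 5 (.c 0 t224 (.c 1 t225 (.c 2 t226 (.c 6 t227 (.c 7 t228 (.c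
8 t229 .e)))))) (.c 9 (.c 0 t230 (.c 1 t231 (.c 2 t232 (.c 3 t233 (.c 4 t234 (.c 6 t235 (.c 7
t236 .e))))))) .e)))))) (.c 8 (.c 0 (.c 4 t237 (.c 5 t238 (.c 7 t239 (.c 8 t240 (.c 9 t241
.e))))) (.c 2 (.c 3 t242 (.c 5 t243 (.c 6 t244 (.c 7 t245 (.c 8 t246 (.c 9 t247 .e)))))) (.c 3
(.c 1 t248 (.c 2 t249 (.c 7 t239 (.c 8 t240 (.c 9 t241 .e))))) (.c 4 (.c 0 t250 (.c 1 t251 (.c
6 t244 (.c 7 t245 (.c 8 t246 (.c 9 t247 .e)))))) (.c 5 (.c 0 t252 (.c 1 t253 (.c 2 t254 (.c 6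
t255 (.c 7 t256 (.c 8 t257 .e)))))) (.c 6 (.c 1 t258 (.c 2 t259 (.c 4 t260 (.c 5 t261 (.c 8
t262 (.c 9 t263 .e)))))) .e)))))) (.c 9 (.c 0 (.c 4 t264 (.c 5 t265 (.c 7 t266 (.c 8 t267 (.c 9
t268 .e))))) (.c 1 (.c 3 t269 (.c 4 t264 (.c 5 t265 (.c 6 t270 (.c 9 t268 .e))))) (.c 2 (.c 3
t271 (.c 5 t272 (.c 6 t273 (.c 7 t274 (.c 8 t275 (.c 9 t276 .e)))))) (.c 3 (.c 1 t277 (.c 2
t278 (.c 7 t266 (.c 8 t267 (.c 9 t268 .e))))) (.c 4 (.c 0 t279 (.c 1 t280 (.c 6 t273 (.c 7 t274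
(.c 8 t275 (.c 9 t276 .e)))))) (.c 6 (.c 1 t281 (.c 2 t282 (.c 4 t283 (.c 5 t284 (.c 8 t285 (.c
9 t286 .e)))))) (.c 7 (.c 0 t287 (.c 2 t282 (.c 3 t288 (.c 4 t283 (.c 5 t284 (.c 9 t286
.e)))))) .e))))))) .e))))))))))

theorem chk : chk [3, 1, 0, 1, 0, 2, 0, 0] 9 6 0 2 T = true := by decide +kernel

end Vale.Agent.P032.Words.Trie.BetaN5
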