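import Vale.Agent.P032.Words.H151.Beta

/-!
# BETA pair, special end near: Cf+2Pf+Qd ≥ 6

Decision diagram of 4 potentials.
-/

namespace Vale.Agent.P032.Words.Trie.BetaN6

noncomputable def v0 : Tr := .l 0x81040
noncomputable def v1 : Tr := .l 0x42001
noncomputable def v2 : Tr := .l 0x1030c2
noncomputable def v3 : Tr := .l 0x83042
noncomputable def q0 : Tr := .c 4 v0 (.c 5 v1 (.c 7 v2 (.c 8 v3 (.c 9 v3 .e))))
noncomputable def q1 : Tr := .c 4 v0 (.c 5 v1 (.c 9 v3 .e))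
noncomputable def q2 : Tr := .c 4 v0 (.c 5 v1 (.c 8 v3 (.c 9 v3 .e)))
noncomputable def q3 : Tr := .c 4 v0 (.c 5 v1 .e)
noncomputable def r0 : Tr := .c 0 q0 (.c 1 q1 (.c 6 q2 (.c 7 q1 (.c 8 q3 .e))))
noncomputable def v4 : Tr := .l 0xc2081
noncomputable def v5 : Tr := .l 0x146105
noncomputable def v6 : Tr := .l 0xc4083
noncomputable def q4 : Tr := .c 4 v4 (.c 5 v3 (.c 7 v5 (.c 8 v6 (.c 9 v6 .e))))
noncomputable def q5 : Tr := .c 4 v4 (.c 5 v3 (.c 9 v6 .e))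
noncomputable def q6 : Tr := .c 5 v3 (.c 7 v5 (.c 8 v6 (.c 9 v6 .e)))
noncomputable def q7 : Tr := .c 4 v4 (.c 5 v3 (.c 8 v6 (.c 9 v6 .e)))
noncomputable def q8 : Tr := .c 4 v4 (.c 5 v3 .e)
noncomputable def r1 : Tr := .c 0 q4 (.c 1 q5 (.c 2 q6 (.c 6 q7 (.c 7 q5 (.c 8 q8 .e)))))
noncomputable def v7 : Tr := .l 0x186186
noncomputable def v8 : Tr := .l 0x1050c4
noncomputable def q9 : Tr := .c 4 v2 (.c 5 v5 (.c 7 v7 (.c 8 v8 (.c 9 v8 .e))))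
noncomputable def q10 : Tr := .c 5 v5 (.c 7 v7 (.c 8 v8 (.c 9 v8 .e)))
noncomputable def q11 : Tr := .c 7 v7 (.c 8 v8 (.c 9 v8 .e))
noncomputable def r2 : Tr := .c 0 q9 (.c 2 q10 (.c 3 q11 (.c 4 q11 .e)))
noncomputable def v9 : Tr := .l 0x185144
noncomputable def q12 : Tr := .c 4 v2 (.c 5 v6 (.c 7 v9 (.c 8 v8 (.c 9 v8 .e))))
noncomputable def q13 : Tr := .c 5 v6 (.c 7 v9 (.c 8 v8 (.c 9 v8 .e)))
noncomputable def q14 : Tr := .c 7 v9 (.c 8 v8 (.c 9 v8 .e))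
noncomputable def q15 : Tr := .c 4 v2 (.c 5 v6 (.c 8 v8 (.c 9 v8 .e)))
noncomputable def r3 : Tr := .c 0 q12 (.c 2 q13 (.c 3 q14 (.c 4 q14 (.c 6 q15 .e))))
noncomputable def q16 : Tr := .c 4 v2 (.c 5 v6 (.c 9 v8 .e))
noncomputable def r4 : Tr := .c 0 q12 (.c 1 q16 (.c 2 q13 (.c 3 q14 (.c 4 q14 (.c 6 q15 (.c 7 q16 .e))))))
noncomputable def t0 : Tr := .c 4 r0 (.c 5 r1 (.c 7 r2 (.c 8 r3 (.c 9 r4 .e))))
noncomputable def r5 : Tr := .c 1 q1 (.c 2 q13 (.c 7 q1 (.c 8 q3 .e)))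
noncomputable def r6 : Tr := .c 1 q1 (.c 2 q13 (.c 4 q14 (.c 8 q3 .e)))
noncomputable def t1 : Tr := .c 3 r5 (.c 4 r0 (.c 5 r1 (.c 6 r6 (.c 9 r4 .e))))
noncomputable def q17 : Tr := .c 7 v9 .e
noncomputable def q18 : Tr := .c 4 v2 (.c 5 v6 .e)
noncomputable def r7 : Tr := .c 3 q17 (.c 4 q17 (.c 6 q18 .e))
noncomputable def q19 : Tr := .c 7 v2 .e
noncomputable def r8 : Tr := .c 3 q19 (.c 6 q3 (.c 7 q3 (.c 8 q3 .e)))
noncomputable def q20 : Tr := .c 4 v0 (.c 5 v1 (.c 7 v2 .e))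
noncomputable def r9 : Tr := .c 0 q20 (.c 1 q3 (.c 6 q3 (.c 7 q3 (.c 8 q3 .e))))
noncomputable def q21 : Tr := .c 4 v4 (.c 5 v3 (.c 7 v5 .e))
noncomputable def q22 : Tr := .c 5 v3 (.c 7 v5 .e)
noncomputable def r10 : Tr := .c 0 q21 (.c 1 q8 (.c 2 q22 (.c 6 q8 (.c 7 q8 (.c 8 q8 .e)))))
noncomputable def q23 : Tr := .c 4 v2 (.c 5 v6 (.c 7 v9 .e))
noncomputable def q24 : Tr := .c 5 v6 (.c 7 v9 .e)
noncomputable def r11 : Tr := .c 0 q23 (.c 2 q24 (.c 3 q17 (.c 4 q17 (.c 6 q18 .e))))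
noncomputable def r12 : Tr := .c 0 q23 (.c 1 q18 (.c 2 q24 (.c 3 q17 (.c 4 q17 (.c 6 q18 (.c 7 q18 .e))))))
noncomputable def t2 : Tr := .c 1 r7 (.c 2 r8 (.c 4 r9 (.c 5 r10 (.c 8 r11 (.c 9 r12 .e)))))
noncomputable def q25 : Tr := .c 7 v7 .e
noncomputable def r13 : Tr := .c 4 q25 (.c 7 q3 (.c 8 q3 .e))
noncomputable def r14 : Tr := .c 1 q3 (.c 2 q24 (.c 7 q3 (.c 8 q3 .e)))
noncomputable def t3 : Tr := .c 0 r13 (.c 2 r8 (.c 3 r14 (.c 4 r9 (.c 5 r10 (.c 9 r12 .e)))))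
noncomputable def q26 : Tr := .c 8 v8 (.c 9 v8 .e)
noncomputable def r15 : Tr := .c 4 q26 (.c 7 q1 (.c 8 q3 .e))
noncomputable def q27 : Tr := .c 8 v3 (.c 9 v3 .e)
noncomputable def r16 : Tr := .c 3 q27 (.c 6 q2 (.c 7 q1 (.c 8 q3 .e)))
noncomputable def q28 : Tr := .c 5 v6 (.c 8 v8 (.c 9 v8 .e))
noncomputable def r17 : Tr := .c 1 q1 (.c 2 q28 (.c 7 q1 (.c 8 q3 .e)))
noncomputable def r18 : Tr := .c 0 q2 (.c 1 q1 (.c 6 q2 (.c 7 q1 (.c 8 q3 .e))))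
noncomputable def q29 : Tr := .c 5 v3 (.c 8 v6 (.c 9 v6 .e))
noncomputable def r19 : Tr := .c 0 q7 (.c 1 q5 (.c 2 q29 (.c 6 q7 (.c 7 q5 (.c 8 q8 .e)))))
noncomputable def r20 : Tr := .c 1 q1 (.c 2 q28 (.c 4 q26 (.c 8 q3 .e)))
noncomputable def t4 : Tr := .c 0 r15 (.c 2 r16 (.c 3 r17 (.c 4 r18 (.c 5 r19 (.c 6 r20 .e)))))
noncomputable def q30 : Tr := .c 5 v1 (.c 9 v3 .e)
noncomputable def q31 : Tr := .c 5 v1 .e
noncomputable def r21 : Tr := .c 4 q26 (.c 7 q30 (.c 8 q31 .e))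
noncomputable def r22 : Tr := .c 3 q26 (.c 4 q26 (.c 6 q28 .e))
noncomputable def q32 : Tr := .c 5 v1 (.c 8 v3 (.c 9 v3 .e))
noncomputable def r23 : Tr := .c 3 q27 (.c 6 q32 (.c 7 q30 (.c 8 q31 .e)))
noncomputable def r24 : Tr := .c 1 q30 (.c 2 q28 (.c 7 q30 (.c 8 q31 .e)))
noncomputable def r25 : Tr := .c 0 q32 (.c 1 q30 (.c 6 q32 (.c 7 q30 (.c 8 q31 .e))))
noncomputable def r26 : Tr := .c 1 q30 (.c 2 q28 (.c 4 q26 (.c 8 q31 .e)))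
noncomputable def r27 : Tr := .c 0 q28 (.c 2 q28 (.c 3 q26 (.c 4 q26 .e)))
noncomputable def t5 : Tr := .c 0 r21 (.c 1 r22 (.c 2 r23 (.c 3 r24 (.c 4 r25 (.c 6 r26 (.c 7 r27 .e))))))
noncomputable def v10 : Tr := .l 0x40081
noncomputable def v11 : Tr := .l 0x1042
noncomputable def v12 : Tr := .l 0xc4105
noncomputable def v13 : Tr := .l 0x42083
noncomputable def q33 : Tr := .c 4 v10 (.c 5 v11 (.c 7 v12 (.c 8 v13 (.c 9 v13 .e))))
noncomputable def q34 : Tr := .c 4 v10 (.c 5 v11 (.c 9 v13 .e))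
noncomputable def q35 : Tr := .c 4 v10 (.c 5 v11 (.c 8 v13 (.c 9 v13 .e)))
noncomputable def q36 : Tr := .c 4 v10 (.c 5 v11 .e)
noncomputable def q37 : Tr := .c 4 v10 (.c 7 v13 .e)
noncomputable def r28 : Tr := .c 0 q33 (.c 1 q34 (.c 6 q35 (.c 7 q34 (.c 8 q36 (.c 9 q37 .e)))))
noncomputable def v14 : Tr := .l 0x810c2
noncomputable def v15 : Tr := .l 0x830c4
noncomputable def q38 : Tr := .c 4 v14 (.c 5 v13 (.c 7 v7 (.c 8 v15 (.c 9 v15 .e))))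
noncomputable def q39 : Tr := .c 4 v14 (.c 5 v13 (.c 9 v15 .e))
noncomputable def q40 : Tr := .c 4 v14 (.c 5 v13 (.c 8 v15 (.c 9 v15 .e)))
noncomputable def q41 : Tr := .c 4 v14 (.c 5 v13 .e)
noncomputable def r29 : Tr := .c 0 q38 (.c 1 q39 (.c 6 q40 (.c 7 q39 (.c 8 q41 .e))))
noncomputable def v16 : Tr := .l 0x144185
noncomputable def v17 : Tr := .l 0x146186
noncomputable def q42 : Tr := .c 4 v16 (.c 5 v7 (.c 7 v17 (.c 8 v17 (.c 9 v17 .e))))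
noncomputable def q43 : Tr := .c 7 v17 (.c 8 v17 (.c 9 v17 .e))
noncomputable def v18 : Tr := .l 0x105146
noncomputable def q44 : Tr := .c 7 v18 (.c 8 v18 .e)
noncomputable def v19 : Tr := .l 0xc2103
noncomputable def q45 : Tr := .c 4 v19 (.c 7 v12 .e)
noncomputable def r30 : Tr := .c 0 q42 (.c 3 q43 (.c 5 q44 (.c 9 q45 .e)))
noncomputable def q46 : Tr := .c 4 v19 (.c 5 v15 (.c 7 v17 (.c 8 v12 (.c 9 v12 .e))))
noncomputable def q47 : Tr := .c 7 v17 (.c 8 v12 (.c 9 v12 .e))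
noncomputable def q48 : Tr := .c 4 v19 (.c 5 v15 (.c 8 v12 (.c 9 v12 .e)))
noncomputable def r31 : Tr := .c 0 q46 (.c 3 q47 (.c 5 q44 (.c 6 q48 .e)))
noncomputable def q49 : Tr := .c 4 v19 (.c 5 v15 (.c 9 v12 .e))
noncomputable def r32 : Tr := .c 0 q46 (.c 1 q49 (.c 3 q47 (.c 6 q48 (.c 7 q49 .e))))
noncomputable def t6 : Tr := .c 4 r28 (.c 5 r29 (.c 7 r30 (.c 8 r31 (.c 9 r32 .e))))
noncomputable def r33 : Tr := .c 1 q34 (.c 7 q34 (.c 8 q36 (.c 9 q37 .e)))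
noncomputable def q50 : Tr := .c 7 v15 (.c 8 v15 .e)
noncomputable def r34 : Tr := .c 1 q34 (.c 5 q50 (.c 8 q36 (.c 9 q37 .e)))
noncomputable def t7 : Tr := .c 3 r33 (.c 4 r28 (.c 5 r29 (.c 6 r34 (.c 9 r32 .e))))
noncomputable def q51 : Tr := .c 4 v19 .e
noncomputable def r35 : Tr := .c 1 q51 (.c 7 q51 (.c 8 q51 (.c 9 q45 .e)))
noncomputable def q52 : Tr := .c 4 v14 (.c 7 v7 (.c 8 v15 .e))
noncomputable def q53 : Tr := .c 4 v14 .e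
noncomputable def q54 : Tr := .c 4 v14 (.c 8 v15 .e)
noncomputable def r36 : Tr := .c 0 q52 (.c 1 q53 (.c 6 q54 (.c 7 q53 (.c 8 q53 .e))))
noncomputable def r37 : Tr := .c 1 q51 (.c 5 q44 (.c 8 q51 (.c 9 q45 .e)))
noncomputable def q55 : Tr := .c 4 v16 (.c 7 v17 (.c 8 v17 .e))
noncomputable def q56 : Tr := .c 7 v17 (.c 8 v17 .e)
noncomputable def r38 : Tr := .c 0 q55 (.c 3 q56 (.c 5 q44 (.c 9 q45 .e)))
noncomputable def q57 : Tr := .c 4 v19 (.c 7 v17 (.c 8 v12 .e))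
noncomputable def q58 : Tr := .c 7 v17 (.c 8 v12 .e)
noncomputable def q59 : Tr := .c 4 v19 (.c 8 v12 .e)
noncomputable def r39 : Tr := .c 0 q57 (.c 3 q58 (.c 5 q44 (.c 6 q59 .e)))
noncomputable def r40 : Tr := .c 0 q57 (.c 1 q51 (.c 3 q58 (.c 6 q59 (.c 7 q51 .e))))
noncomputable def t8 : Tr := .c 3 r35 (.c 5 r36 (.c 6 r37 (.c 7 r38 (.c 8 r39 (.c 9 r40 .e)))))
noncomputable def q60 : Tr := .c 7 v17 .e
noncomputable def q61 : Tr := .c 7 v18 .e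
noncomputable def q62 : Tr := .c 4 v19 (.c 5 v15 .e)
noncomputable def r41 : Tr := .c 3 q60 (.c 5 q61 (.c 6 q62 (.c 9 q45 .e)))
noncomputable def q63 : Tr := .c 7 v12 .e
noncomputable def q64 : Tr := .c 7 v15 .e
noncomputable def r42 : Tr := .c 3 q63 (.c 5 q64 (.c 6 q36 (.c 7 q36 (.c 8 q36 (.c 9 q37 .e)))))
noncomputable def q65 : Tr := .c 4 v10 (.c 5 v11 (.c 7 v12 .e))
noncomputable def r43 : Tr := .c 0 q65 (.c 1 q36 (.c 6 q36 (.c 7 q36 (.c 8 q36 (.c 9 q37 .e)))))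
noncomputable def q66 : Tr := .c 4 v14 (.c 5 v13 (.c 7 v7 .e))
noncomputable def r44 : Tr := .c 0 q66 (.c 1 q41 (.c 6 q41 (.c 7 q41 (.c 8 q41 .e))))
noncomputable def q67 : Tr := .c 4 v19 (.c 5 v15 (.c 7 v17 .e))
noncomputable def r45 : Tr := .c 0 q67 (.c 3 q60 (.c 5 q61 (.c 6 q62 .e)))
noncomputable def r46 : Tr := .c 0 q67 (.c 1 q62 (.c 3 q60 (.c 6 q62 (.c 7 q62 .e))))
noncomputable def t9 : Tr := .c 1 r41 (.c 2 r42 (.c 4 r43 (.c 5 r44 (.c 8 r45 (.c 9 r46 .e)))))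
noncomputable def r47 : Tr := .c 5 q64 (.c 7 q36 (.c 8 q36 (.c 9 q37 .e)))
noncomputable def r48 : Tr := .c 1 q36 (.c 7 q36 (.c 8 q36 (.c 9 q37 .e)))
noncomputable def t10 : Tr := .c 0 r47 (.c 2 r42 (.c 3 r48 (.c 4 r43 (.c 5 r44 (.c 9 r46 .e)))))
noncomputable def q68 : Tr := .c 8 v15 .e
noncomputable def q69 : Tr := .c 4 v10 .e
noncomputable def r49 : Tr := .c 5 q68 (.c 7 q34 (.c 8 q36 (.c 9 q69 .e)))
noncomputable def q70 : Tr := .c 8 v13 (.c 9 v13 .e)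
noncomputable def r50 : Tr := .c 3 q70 (.c 5 q68 (.c 6 q35 (.c 7 q34 (.c 8 q36 (.c 9 q69 .e)))))
noncomputable def r51 : Tr := .c 1 q34 (.c 7 q34 (.c 8 q36 (.c 9 q69 .e)))
noncomputable def r52 : Tr := .c 0 q35 (.c 1 q34 (.c 6 q35 (.c 7 q34 (.c 8 q36 (.c 9 q69 .e)))))
noncomputable def r53 : Tr := .c 0 q40 (.c 1 q39 (.c 6 q40 (.c 7 q39 (.c 8 q41 .e))))
noncomputable def r54 : Tr := .c 1 q34 (.c 5 q68 (.c 8 q36 (.c 9 q69 .e)))
noncomputable def t11 : Tr := .c 0 r49 (.c 2 r50 (.c 3 r51 (.c 4 r52 (.c 5 r53 (.c 6 r54 .e)))))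
noncomputable def q71 : Tr := .c 4 v2 (.c 5 v12 (.c 7 v7 (.c 8 v8 (.c 9 v8 .e))))
noncomputable def q72 : Tr := .c 4 v2 (.c 5 v12 (.c 9 v8 .e))
noncomputable def q73 : Tr := .c 4 v2 (.c 5 v12 (.c 8 v8 (.c 9 v8 .e)))
noncomputable def r55 : Tr := .c 0 q71 (.c 1 q72 (.c 6 q73 (.c 7 q72 .e)))
noncomputable def q74 : Tr := .c 4 v16 (.c 5 v7 (.c 9 v17 .e))
noncomputable def q75 : Tr := .c 5 v7 (.c 7 v17 (.c 8 v17 (.c 9 v17 .e)))
noncomputable def q76 : Tr := .c 4 v16 (.c 5 v7 (.c 8 v17 (.c 9 v17 .e)))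
noncomputable def r56 : Tr := .c 0 q42 (.c 1 q74 (.c 2 q75 (.c 6 q76 (.c 7 q74 .e))))
noncomputable def q77 : Tr := .c 4 v7 (.c 5 v17 (.c 7 v18 (.c 8 v18 (.c 9 v18 .e))))
noncomputable def q78 : Tr := .c 5 v17 (.c 7 v18 (.c 8 v18 (.c 9 v18 .e)))
noncomputable def q79 : Tr := .c 7 v18 (.c 8 v18 (.c 9 v18 .e))
noncomputable def v20 : Tr := .l 0x146185
noncomputable def q80 : Tr := .c 7 v20 (.c 8 v20 .e)
noncomputable def r57 : Tr := .c 0 q77 (.c 2 q78 (.c 3 q79 (.c 4 q79 (.c 5 q80 .e))))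
noncomputable def q81 : Tr := .c 4 v9 (.c 5 v17 (.c 7 v18 (.c 8 v18 (.c 9 v18 .e))))
noncomputable def q82 : Tr := .c 4 v9 (.c 5 v17 (.c 8 v18 (.c 9 v18 .e)))
noncomputable def r58 : Tr := .c 0 q81 (.c 2 q78 (.c 3 q79 (.c 4 q79 (.c 5 q80 (.c 6 q82 .e)))))
noncomputable def q83 : Tr := .c 4 v9 (.c 5 v17 (.c 9 v18 .e))
noncomputable def r59 : Tr := .c 0 q81 (.c 1 q83 (.c 2 q78 (.c 3 q79 (.c 4 q79 (.c 6 q82 (.c 7 q83 .e))))))
noncomputable def t12 : Tr := .c 4 r55 (.c 5 r56 (.c 7 r57 (.c 8 r58 (.c 9 r59 .e))))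
noncomputable def q84 : Tr := .c 4 v9 .e
noncomputable def r60 : Tr := .c 1 q84 (.c 2 q44 (.c 7 q84 .e))
noncomputable def q85 : Tr := .c 4 v16 .e
noncomputable def q86 : Tr := .c 4 v16 (.c 8 v17 .e)
noncomputable def r61 : Tr := .c 0 q55 (.c 1 q85 (.c 2 q56 (.c 6 q86 (.c 7 q85 .e))))
noncomputable def r62 : Tr := .c 1 q84 (.c 2 q44 (.c 4 q44 (.c 5 q80 .e)))
noncomputable def q87 : Tr := .c 4 v7 (.c 7 v18 (.c 8 v18 .e))
noncomputable def r63 : Tr := .c 0 q87 (.c 2 q44 (.c 3 q44 (.c 4 q44 (.c 5 q80 .e))))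
noncomputable def q88 : Tr := .c 4 v9 (.c 7 v18 (.c 8 v18 .e))
noncomputable def q89 : Tr := .c 4 v9 (.c 8 v18 .e)
noncomputable def r64 : Tr := .c 0 q88 (.c 2 q44 (.c 3 q44 (.c 4 q44 (.c 5 q80 (.c 6 q89 .e)))))
noncomputable def r65 : Tr := .c 0 q88 (.c 1 q84 (.c 2 q44 (.c 3 q44 (.c 4 q44 (.c 6 q89 (.c 7 q84 .e))))))
noncomputable def t13 : Tr := .c 3 r60 (.c 5 r61 (.c 6 r62 (.c 7 r63 (.c 8 r64 (.c 9 r65 .e)))))
noncomputable def r66 : Tr := .c 3 q79 (.c 4 q79 (.c 5 q80 (.c 6 q82 .e)))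
noncomputable def q90 : Tr := .c 7 v15 (.c 8 v15 (.c 9 v15 .e))
noncomputable def q91 : Tr := .c 7 v12 (.c 8 v12 .e)
noncomputable def q92 : Tr := .c 4 v2 (.c 5 v12 (.c 8 v15 (.c 9 v15 .e)))
noncomputable def q93 : Tr := .c 4 v2 (.c 5 v12 (.c 9 v15 .e))
noncomputable def r67 : Tr := .c 3 q90 (.c 5 q91 (.c 6 q92 (.c 7 q93 .e)))
noncomputable def t14 : Tr := .c 1 r66 (.c 2 r67 (.c 7 r57 (.c 8 r58 (.c 9 r59 .e))))
noncomputable def q94 : Tr := .c 4 v7 .e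
noncomputable def r68 : Tr := .c 4 q44 (.c 5 q80 (.c 7 q94 .e))
noncomputable def r69 : Tr := .c 3 q44 (.c 4 q44 (.c 5 q80 (.c 6 q89 .e)))
noncomputable def t15 : Tr := .c 0 r68 (.c 1 r69 (.c 6 r62 (.c 7 r63 (.c 8 r64 (.c 9 r65 .e)))))
noncomputable def q95 : Tr := .c 7 v20 (.c 8 v20 (.c 9 v20 .e))
noncomputable def v21 : Tr := .l 0x105144
noncomputable def q96 : Tr := .c 7 v21 (.c 8 v21 .e)
noncomputable def q97 : Tr := .c 5 v15 (.c 9 v12 .e)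
noncomputable def r70 : Tr := .c 4 q95 (.c 5 q96 (.c 7 q97 .e))
noncomputable def q98 : Tr := .c 5 v18 (.c 8 v20 (.c 9 v20 .e))
noncomputable def r71 : Tr := .c 3 q95 (.c 4 q95 (.c 5 q96 (.c 6 q98 .e)))
noncomputable def q99 : Tr := .c 7 v12 (.c 8 v12 (.c 9 v12 .e))
noncomputable def q100 : Tr := .c 5 v15 (.c 8 v12 (.c 9 v12 .e))
noncomputable def r72 : Tr := .c 3 q99 (.c 5 q96 (.c 6 q100 (.c 7 q97 .e)))
noncomputable def q101 : Tr := .c 5 v18 (.c 7 v20 (.c 8 v20 (.c 9 v20 .e)))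
noncomputable def r73 : Tr := .c 1 q97 (.c 2 q101 (.c 4 q95 (.c 5 q96 .e)))
noncomputable def r74 : Tr := .c 0 q101 (.c 2 q101 (.c 3 q95 (.c 4 q95 (.c 5 q96 .e))))
noncomputable def r75 : Tr := .c 0 q101 (.c 2 q101 (.c 3 q95 (.c 4 q95 (.c 5 q96 (.c 6 q98 .e)))))
noncomputable def t16 : Tr := .c 0 r70 (.c 1 r71 (.c 2 r72 (.c 6 r73 (.c 7 r74 (.c 8 r75 .e)))))
noncomputable def q102 : Tr := .c 8 v21 (.c 9 v21 .e)
noncomputable def v22 : Tr := .l 0xc4103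
noncomputable def q103 : Tr := .c 8 v22 .e
noncomputable def q104 : Tr := .c 5 v13 (.c 9 v15 .e)
noncomputable def r76 : Tr := .c 4 q102 (.c 5 q103 (.c 7 q104 .e))
noncomputable def q105 : Tr := .c 5 v12 (.c 8 v21 (.c 9 v21 .e))
noncomputable def r77 : Tr := .c 3 q102 (.c 4 q102 (.c 5 q103 (.c 6 q105 .e)))
noncomputable def q106 : Tr := .c 8 v15 (.c 9 v15 .e)
noncomputable def q107 : Tr := .c 5 v13 (.c 8 v15 (.c 9 v15 .e))
noncomputable def r78 : Tr := .c 3 q106 (.c 5 q103 (.c 6 q107 (.c 7 q104 .e)))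
noncomputable def r79 : Tr := .c 1 q104 (.c 2 q105 (.c 7 q104 .e))
noncomputable def r80 : Tr := .c 0 q107 (.c 1 q104 (.c 6 q107 (.c 7 q104 .e)))
noncomputable def r81 : Tr := .c 1 q104 (.c 2 q105 (.c 4 q102 (.c 5 q103 .e)))
noncomputable def r82 : Tr := .c 0 q105 (.c 2 q105 (.c 3 q102 (.c 4 q102 (.c 5 q103 .e))))
noncomputable def t17 : Tr := .c 0 r76 (.c 1 r77 (.c 2 r78 (.c 3 r79 (.c 4 r80 (.c 6 r81 (.c 7 r82 .e))))))
noncomputable def v23 : Tr := .l 0x103144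
noncomputable def q108 : Tr := .c 4 v14 (.c 5 v13 (.c 7 v23 (.c 8 v15 (.c 9 v15 .e))))
noncomputable def q109 : Tr := .c 4 v14 (.c 7 v15 .e)
noncomputable def r83 : Tr := .c 0 q108 (.c 1 q39 (.c 8 q41 (.c 9 q109 .e)))
noncomputable def q110 : Tr := .c 5 v15 (.c 7 v17 (.c 8 v12 (.c 9 v12 .e)))
noncomputable def r84 : Tr := .c 0 q46 (.c 1 q49 (.c 2 q110 (.c 8 q62 .e)))
noncomputable def q111 : Tr := .c 4 v23 (.c 5 v17 (.c 7 v18 (.c 8 v18 (.c 9 v18 .e))))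
noncomputable def q112 : Tr := .c 4 v23 (.c 7 v21 .e)
noncomputable def r85 : Tr := .c 0 q111 (.c 2 q78 (.c 3 q79 (.c 4 q79 (.c 5 q80 (.c 9 q112 .e)))))
noncomputable def q113 : Tr := .c 4 v23 (.c 5 v12 (.c 7 v18 (.c 8 v18 (.c 9 v18 .e))))
noncomputable def q114 : Tr := .c 5 v12 (.c 7 v18 (.c 8 v18 (.c 9 v18 .e)))
noncomputable def r86 : Tr := .c 0 q113 (.c 2 q114 (.c 3 q79 (.c 4 q79 (.c 5 q80 .e))))
noncomputable def q115 : Tr := .c 4 v23 (.c 5 v12 (.c 9 v18 .e))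
noncomputable def r87 : Tr := .c 0 q113 (.c 1 q115 (.c 2 q114 (.c 3 q79 (.c 4 q79 .e))))
noncomputable def t18 : Tr := .c 4 r83 (.c 5 r84 (.c 7 r85 (.c 8 r86 (.c 9 r87 .e))))
noncomputable def q116 : Tr := .c 4 v23 .e
noncomputable def r88 : Tr := .c 1 q116 (.c 2 q44 (.c 8 q116 (.c 9 q112 .e)))
noncomputable def r89 : Tr := .c 0 q57 (.c 1 q51 (.c 2 q58 (.c 8 q51 .e)))
noncomputable def r90 : Tr := .c 1 q116 (.c 2 q44 (.c 4 q44 (.c 5 q80 (.c 8 q116 (.c 9 q112 .e)))))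
noncomputable def q117 : Tr := .c 4 v23 (.c 7 v18 (.c 8 v18 .e))
noncomputable def r91 : Tr := .c 0 q117 (.c 2 q44 (.c 3 q44 (.c 4 q44 (.c 5 q80 (.c 9 q112 .e)))))
noncomputable def r92 : Tr := .c 0 q117 (.c 2 q44 (.c 3 q44 (.c 4 q44 (.c 5 q80 .e))))
noncomputable def r93 : Tr := .c 0 q117 (.c 1 q116 (.c 2 q44 (.c 3 q44 (.c 4 q44 .e))))
noncomputable def t19 : Tr := .c 3 r88 (.c 5 r89 (.c 6 r90 (.c 7 r91 (.c 8 r92 (.c 9 r93 .e)))))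
noncomputable def r94 : Tr := .c 3 q79 (.c 4 q79 (.c 5 q80 (.c 9 q112 .e)))
noncomputable def r95 : Tr := .c 3 q90 (.c 5 q91 (.c 8 q41 (.c 9 q109 .e)))
noncomputable def t20 : Tr := .c 1 r94 (.c 2 r95 (.c 7 r85 (.c 8 r86 (.c 9 r87 .e))))
noncomputable def r96 : Tr := .c 4 q44 (.c 5 q80 (.c 8 q116 (.c 9 q112 .e)))
noncomputable def r97 : Tr := .c 3 q44 (.c 4 q44 (.c 5 q80 (.c 9 q112 .e)))
noncomputable def t21 : Tr := .c 0 r96 (.c 1 r97 (.c 6 r90 (.c 7 r91 (.c 8 r92 (.c 9 r93 .e)))))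
noncomputable def q118 : Tr := .c 5 v15 .e
noncomputable def q119 : Tr := .c 7 v22 .e
noncomputable def r98 : Tr := .c 4 q95 (.c 5 q96 (.c 8 q118 (.c 9 q119 .e)))
noncomputable def r99 : Tr := .c 3 q95 (.c 4 q95 (.c 5 q96 (.c 9 q119 .e)))
noncomputable def r100 : Tr := .c 3 q99 (.c 5 q96 (.c 8 q118 (.c 9 q119 .e)))
noncomputable def r101 : Tr := .c 1 q97 (.c 2 q101 (.c 4 q95 (.c 5 q96 (.c 8 q118 (.c 9 q119 .e)))))
noncomputable def r102 : Tr := .c 0 q101 (.c 2 q101 (.c 3 q95 (.c 4 q95 (.c 5 q96 (.c 9 q119 .e)))))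
noncomputable def t22 : Tr := .c 0 r98 (.c 1 r99 (.c 2 r100 (.c 6 r101 (.c 7 r102 (.c 8 r74 .e)))))
noncomputable def q120 : Tr := .c 7 v20 .e
noncomputable def r103 : Tr := .c 3 q61 (.c 4 q61 (.c 5 q120 (.c 9 q112 .e)))
noncomputable def r104 : Tr := .c 3 q64 (.c 5 q63 (.c 8 q41 (.c 9 q109 .e)))
noncomputable def q121 : Tr := .c 4 v14 (.c 5 v13 (.c 7 v23 .e))
noncomputable def r105 : Tr := .c 0 q121 (.c 1 q41 (.c 8 q41 (.c 9 q109 .e)))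
noncomputable def q122 : Tr := .c 5 v15 (.c 7 v17 .e)
noncomputable def r106 : Tr := .c 0 q67 (.c 1 q62 (.c 2 q122 (.c 8 q62 .e)))
noncomputable def q123 : Tr := .c 4 v23 (.c 5 v12 (.c 7 v18 .e))
noncomputable def q124 : Tr := .c 5 v12 (.c 7 v18 .e)
noncomputable def r107 : Tr := .c 0 q123 (.c 2 q124 (.c 3 q61 (.c 4 q61 (.c 5 q120 .e))))
noncomputable def q125 : Tr := .c 4 v23 (.c 5 v12 .e)
noncomputable def r108 : Tr := .c 0 q123 (.c 1 q125 (.c 2 q124 (.c 3 q61 (.c 4 q61 .e))))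
noncomputable def t23 : Tr := .c 1 r103 (.c 2 r104 (.c 4 r105 (.c 5 r106 (.c 8 r107 (.c 9 r108 .e)))))
noncomputable def r109 : Tr := .c 0 q46 (.c 1 q49 (.c 8 q62 .e))
noncomputable def r110 : Tr := .c 0 q111 (.c 3 q79 (.c 5 q80 (.c 9 q112 .e)))
noncomputable def r111 : Tr := .c 0 q113 (.c 3 q79 (.c 5 q80 .e))
noncomputable def r112 : Tr := .c 0 q113 (.c 1 q115 (.c 3 q79 .e))
noncomputable def t24 : Tr := .c 4 r83 (.c 5 r109 (.c 7 r110 (.c 8 r111 (.c 9 r112 .e))))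
noncomputable def r113 : Tr := .c 1 q39 (.c 8 q41 (.c 9 q109 .e))
noncomputable def r114 : Tr := .c 1 q39 (.c 5 q91 (.c 8 q41 (.c 9 q109 .e)))
noncomputable def t25 : Tr := .c 3 r113 (.c 4 r83 (.c 5 r109 (.c 6 r114 (.c 9 r112 .e))))
noncomputable def r115 : Tr := .c 1 q116 (.c 8 q116 (.c 9 q112 .e))
noncomputable def r116 : Tr := .c 0 q57 (.c 1 q51 (.c 8 q51 .e))
noncomputable def r117 : Tr := .c 1 q116 (.c 5 q80 (.c 8 q116 (.c 9 q112 .e)))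
noncomputable def r118 : Tr := .c 0 q117 (.c 3 q44 (.c 5 q80 (.c 9 q112 .e)))
noncomputable def r119 : Tr := .c 0 q117 (.c 3 q44 (.c 5 q80 .e))
noncomputable def r120 : Tr := .c 0 q117 (.c 1 q116 (.c 3 q44 .e))
noncomputable def t26 : Tr := .c 3 r115 (.c 5 r116 (.c 6 r117 (.c 7 r118 (.c 8 r119 (.c 9 r120 .e)))))
noncomputable def r121 : Tr := .c 3 q79 (.c 5 q80 (.c 9 q112 .e))
noncomputable def t27 : Tr := .c 1 r121 (.c 2 r95 (.c 7 r110 (.c 8 r111 (.c 9 r112 .e))))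
noncomputable def r122 : Tr := .c 5 q80 (.c 8 q116 (.c 9 q112 .e))
noncomputable def r123 : Tr := .c 3 q44 (.c 5 q80 (.c 9 q112 .e))
noncomputable def t28 : Tr := .c 0 r122 (.c 1 r123 (.c 6 r117 (.c 7 r118 (.c 8 r119 (.c 9 r120 .e)))))
noncomputable def r124 : Tr := .c 3 q61 (.c 5 q120 (.c 9 q112 .e))
noncomputable def r125 : Tr := .c 0 q67 (.c 1 q62 (.c 8 q62 .e))
noncomputable def r126 : Tr := .c 0 q123 (.c 3 q61 (.c 5 q120 .e))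
noncomputable def r127 : Tr := .c 0 q123 (.c 1 q125 (.c 3 q61 .e))
noncomputable def t29 : Tr := .c 1 r124 (.c 2 r104 (.c 4 r105 (.c 5 r125 (.c 8 r126 (.c 9 r127 .e)))))
noncomputable def r128 : Tr := .c 5 q63 (.c 8 q41 (.c 9 q109 .e))
noncomputable def r129 : Tr := .c 1 q41 (.c 8 q41 (.c 9 q109 .e))
noncomputable def t30 : Tr := .c 0 r128 (.c 2 r104 (.c 3 r129 (.c 4 r105 (.c 5 r125 (.c 9 r127 .e)))))
noncomputable def q126 : Tr := .c 3 v0 (.c 4 v0 (.c 5 v1 (.c 6 v0 (.c 9 v3 .e))))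
noncomputable def q127 : Tr := .c 3 v2 (.c 5 v6 (.c 6 v2 (.c 9 v8 .e)))
noncomputable def q128 : Tr := .c 3 v0 (.c 4 v0 (.c 5 v1 (.c 9 v3 .e)))
noncomputable def q129 : Tr := .c 3 v0 (.c 4 v0 (.c 5 v1 (.c 6 v0 .e)))
noncomputable def q130 : Tr := .c 3 v0 (.c 4 v0 (.c 6 v0 .e))
noncomputable def r130 : Tr := .c 1 q126 (.c 2 q127 (.c 7 q128 (.c 8 q129 (.c 9 q130 .e))))
noncomputable def r131 : Tr := .c 0 q1 (.c 1 q126 (.c 6 q1 (.c 7 q128 (.c 8 q129 (.c 9 q130 .e)))))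
noncomputable def q131 : Tr := .c 3 v4 (.c 4 v4 (.c 5 v3 (.c 6 v4 (.c 9 v6 .e))))
noncomputable def q132 : Tr := .c 3 v6 (.c 5 v3 (.c 6 v6 (.c 9 v6 .e)))
noncomputable def q133 : Tr := .c 3 v4 (.c 4 v4 (.c 5 v3 (.c 9 v6 .e)))
noncomputable def q134 : Tr := .c 3 v4 (.c 4 v4 (.c 5 v3 (.c 6 v4 .e)))
noncomputable def r132 : Tr := .c 0 q5 (.c 1 q131 (.c 2 q132 (.c 6 q5 (.c 7 q133 (.c 8 q134 .e)))))
noncomputable def q135 : Tr := .c 6 v2 (.c 9 v8 .e)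
noncomputable def q136 : Tr := .c 6 v4 .e
noncomputable def r133 : Tr := .c 1 q126 (.c 2 q127 (.c 4 q135 (.c 5 q136 (.c 8 q129 (.c 9 q130 .e)))))
noncomputable def q137 : Tr := .c 3 v2 (.c 4 v2 (.c 5 v6 (.c 6 v2 (.c 9 v8 .e))))
noncomputable def q138 : Tr := .c 3 v8 (.c 5 v6 (.c 6 v8 (.c 9 v8 .e)))
noncomputable def q139 : Tr := .c 9 v8 .e
noncomputable def q140 : Tr := .c 6 v8 (.c 9 v8 .e)
noncomputable def q141 : Tr := .c 3 v2 (.c 4 v2 (.c 5 v6 (.c 9 v8 .e)))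
noncomputable def r134 : Tr := .c 0 q16 (.c 1 q137 (.c 2 q138 (.c 3 q139 (.c 4 q140 (.c 6 q16 (.c 7 q141 .e))))))
noncomputable def t31 : Tr := .c 3 r130 (.c 4 r131 (.c 5 r132 (.c 6 r133 (.c 9 r134 .e))))
noncomputable def q142 : Tr := .c 3 v2 (.c 4 v2 (.c 6 v2 .e))
noncomputable def q143 : Tr := .c 3 v9 (.c 6 v9 .e)
noncomputable def q144 : Tr := .c 3 v2 (.c 4 v2 .e)
noncomputable def r135 : Tr := .c 1 q142 (.c 2 q143 (.c 7 q144 (.c 8 q142 (.c 9 q142 .e))))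
noncomputable def q145 : Tr := .c 3 v19 (.c 4 v19 (.c 6 v19 .e))
noncomputable def v24 : Tr := .l 0x144105
noncomputable def q146 : Tr := .c 3 v24 (.c 6 v24 .e)
noncomputable def q147 : Tr := .c 3 v19 (.c 4 v19 .e)
noncomputable def r136 : Tr := .c 0 q51 (.c 1 q145 (.c 2 q146 (.c 6 q51 (.c 7 q147 (.c 8 q145 .e)))))
noncomputable def q148 : Tr := .c 6 v9 .e
noncomputable def v25 : Tr := .l 0x144103
noncomputable def q149 : Tr := .c 6 v25 .e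
noncomputable def r137 : Tr := .c 1 q142 (.c 2 q143 (.c 4 q148 (.c 5 q149 (.c 8 q142 (.c 9 q142 .e)))))
noncomputable def r138 : Tr := .c 0 q84 (.c 2 q143 (.c 4 q148 (.c 5 q149 (.c 9 q142 .e))))
noncomputable def r139 : Tr := .c 0 q116 (.c 2 q143 (.c 4 q148 (.c 5 q149 (.c 6 q116 .e))))
noncomputable def q150 : Tr := .c 3 v23 (.c 4 v23 (.c 6 v23 .e))
noncomputable def q151 : Tr := .c 3 v23 (.c 4 v23 .e)
noncomputable def r140 : Tr := .c 0 q116 (.c 1 q150 (.c 2 q143 (.c 4 q148 (.c 6 q116 (.c 7 q151 .e)))))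
noncomputable def t32 : Tr := .c 3 r135 (.c 5 r136 (.c 6 r137 (.c 7 r138 (.c 8 r139 (.c 9 r140 .e)))))
noncomputable def q152 : Tr := .c 3 v0 (.c 4 v0 (.c 5 v1 .e))
noncomputable def r141 : Tr := .c 4 q148 (.c 5 q136 (.c 7 q152 (.c 8 q129 (.c 9 q130 .e))))
noncomputable def r142 : Tr := .c 5 q136 (.c 6 q3 (.c 7 q152 (.c 8 q129 (.c 9 q130 .e))))
noncomputable def q153 : Tr := .c 3 v2 (.c 5 v6 (.c 6 v2 .e))
noncomputable def r143 : Tr := .c 1 q129 (.c 2 q153 (.c 7 q152 (.c 8 q129 (.c 9 q130 .e))))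
noncomputable def r144 : Tr := .c 0 q3 (.c 1 q129 (.c 6 q3 (.c 7 q152 (.c 8 q129 (.c 9 q130 .e)))))
noncomputable def q154 : Tr := .c 3 v6 (.c 5 v3 (.c 6 v6 .e))
noncomputable def q155 : Tr := .c 3 v4 (.c 4 v4 (.c 5 v3 .e))
noncomputable def r145 : Tr := .c 0 q8 (.c 1 q134 (.c 2 q154 (.c 6 q8 (.c 7 q155 (.c 8 q134 .e)))))
noncomputable def q156 : Tr := .c 3 v2 (.c 4 v2 (.c 5 v6 (.c 6 v2 .e)))
noncomputable def q157 : Tr := .c 3 v8 (.c 5 v6 (.c 6 v8 .e))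
noncomputable def q158 : Tr := .c 6 v8 .e
noncomputable def q159 : Tr := .c 3 v2 (.c 4 v2 (.c 5 v6 .e))
noncomputable def r146 : Tr := .c 0 q18 (.c 1 q156 (.c 2 q157 (.c 4 q158 (.c 6 q18 (.c 7 q159 .e)))))
noncomputable def t33 : Tr := .c 0 r141 (.c 2 r142 (.c 3 r143 (.c 4 r144 (.c 5 r145 (.c 9 r146 .e)))))
noncomputable def q160 : Tr := .c 3 v0 (.c 4 v0 .e)
noncomputable def r147 : Tr := .c 4 q139 (.c 7 q128 (.c 8 q152 (.c 9 q160 .e)))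
noncomputable def q161 : Tr := .c 9 v3 .e
noncomputable def r148 : Tr := .c 3 q161 (.c 6 q1 (.c 7 q128 (.c 8 q152 (.c 9 q160 .e))))
noncomputable def q162 : Tr := .c 3 v2 (.c 5 v6 (.c 9 v8 .e))
noncomputable def r149 : Tr := .c 1 q128 (.c 2 q162 (.c 7 q128 (.c 8 q152 (.c 9 q160 .e))))
noncomputable def r150 : Tr := .c 0 q1 (.c 1 q128 (.c 6 q1 (.c 7 q128 (.c 8 q152 (.c 9 q160 .e)))))
noncomputable def q163 : Tr := .c 3 v6 (.c 5 v3 (.c 9 v6 .e))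
noncomputable def r151 : Tr := .c 0 q5 (.c 1 q133 (.c 2 q163 (.c 6 q5 (.c 7 q133 (.c 8 q155 .e)))))
noncomputable def r152 : Tr := .c 1 q128 (.c 2 q162 (.c 4 q139 (.c 8 q152 (.c 9 q160 .e))))
noncomputable def t34 : Tr := .c 0 r147 (.c 2 r148 (.c 3 r149 (.c 4 r150 (.c 5 r151 (.c 6 r152 .e)))))
noncomputable def q164 : Tr := .c 3 v0 (.c 5 v1 (.c 9 v3 .e))
noncomputable def q165 : Tr := .c 3 v0 (.c 5 v1 .e)
noncomputable def q166 : Tr := .c 3 v0 .e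
noncomputable def r153 : Tr := .c 4 q139 (.c 7 q164 (.c 8 q165 (.c 9 q166 .e)))
noncomputable def q167 : Tr := .c 5 v6 (.c 9 v8 .e)
noncomputable def r154 : Tr := .c 3 q139 (.c 4 q139 (.c 6 q167 (.c 9 q166 .e)))
noncomputable def r155 : Tr := .c 3 q161 (.c 6 q30 (.c 7 q164 (.c 8 q165 (.c 9 q166 .e))))
noncomputable def r156 : Tr := .c 1 q164 (.c 2 q162 (.c 7 q164 (.c 8 q165 (.c 9 q166 .e))))
noncomputable def r157 : Tr := .c 0 q30 (.c 1 q164 (.c 6 q30 (.c 7 q164 (.c 8 q165 (.c 9 q166 .e)))))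
noncomputable def r158 : Tr := .c 1 q164 (.c 2 q162 (.c 4 q139 (.c 8 q165 (.c 9 q166 .e))))
noncomputable def r159 : Tr := .c 0 q167 (.c 2 q162 (.c 3 q139 (.c 4 q139 (.c 9 q166 .e))))
noncomputable def t35 : Tr := .c 0 r153 (.c 1 r154 (.c 2 r155 (.c 3 r156 (.c 4 r157 (.c 6 r158 (.c 7 r159 .e))))))
noncomputable def r160 : Tr := .c 0 q1 (.c 1 q126 (.c 6 q1 (.c 7 q128 (.c 8 q129 .e))))
noncomputable def q168 : Tr := .c 4 v2 (.c 5 v5 (.c 9 v8 .e))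
noncomputable def q169 : Tr := .c 3 v9 (.c 5 v5 (.c 6 v9 (.c 9 v8 .e)))
noncomputable def q170 : Tr := .c 6 v9 (.c 9 v8 .e)
noncomputable def r161 : Tr := .c 0 q168 (.c 2 q169 (.c 3 q139 (.c 4 q170 .e)))
noncomputable def r162 : Tr := .c 0 q16 (.c 2 q138 (.c 3 q139 (.c 4 q140 (.c 6 q16 .e))))
noncomputable def t36 : Tr := .c 4 r160 (.c 5 r132 (.c 7 r161 (.c 8 r162 (.c 9 r134 .e))))
noncomputable def r163 : Tr := .c 1 q126 (.c 2 q127 (.c 7 q128 (.c 8 q129 .e)))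
noncomputable def r164 : Tr := .c 1 q126 (.c 2 q127 (.c 4 q135 (.c 8 q129 .e)))
noncomputable def t37 : Tr := .c 3 r163 (.c 4 r160 (.c 5 r132 (.c 6 r164 (.c 9 r134 .e))))
noncomputable def r165 : Tr := .c 4 q158 (.c 6 q18 .e)
noncomputable def r166 : Tr := .c 6 q3 (.c 7 q152 (.c 8 q129 .e))
noncomputable def r167 : Tr := .c 0 q3 (.c 1 q129 (.c 6 q3 (.c 7 q152 (.c 8 q129 .e))))
noncomputable def r168 : Tr := .c 0 q18 (.c 2 q157 (.c 4 q158 (.c 6 q18 .e)))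
noncomputable def t38 : Tr := .c 1 r165 (.c 2 r166 (.c 4 r167 (.c 5 r145 (.c 8 r168 (.c 9 r146 .e)))))
noncomputable def r169 : Tr := .c 4 q148 (.c 7 q152 (.c 8 q129 .e))
noncomputable def r170 : Tr := .c 1 q129 (.c 2 q153 (.c 7 q152 (.c 8 q129 .e)))
noncomputable def t39 : Tr := .c 0 r169 (.c 2 r166 (.c 3 r170 (.c 4 r167 (.c 5 r145 (.c 9 r146 .e)))))
noncomputable def r171 : Tr := .c 4 q139 (.c 7 q128 (.c 8 q152 .e))
noncomputable def r172 : Tr := .c 3 q161 (.c 6 q1 (.c 7 q128 (.c 8 q152 .e)))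
noncomputable def r173 : Tr := .c 1 q128 (.c 2 q162 (.c 7 q128 (.c 8 q152 .e)))
noncomputable def r174 : Tr := .c 0 q1 (.c 1 q128 (.c 6 q1 (.c 7 q128 (.c 8 q152 .e))))
noncomputable def r175 : Tr := .c 1 q128 (.c 2 q162 (.c 4 q139 (.c 8 q152 .e)))
noncomputable def t40 : Tr := .c 0 r171 (.c 2 r172 (.c 3 r173 (.c 4 r174 (.c 5 r151 (.c 6 r175 .e)))))
noncomputable def r176 : Tr := .c 4 q139 (.c 7 q164 (.c 8 q165 .e))
noncomputable def r177 : Tr := .c 3 q139 (.c 4 q139 (.c 6 q167 .e))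
noncomputable def r178 : Tr := .c 3 q161 (.c 6 q30 (.c 7 q164 (.c 8 q165 .e)))
noncomputable def r179 : Tr := .c 1 q164 (.c 2 q162 (.c 7 q164 (.c 8 q165 .e)))
noncomputable def r180 : Tr := .c 0 q30 (.c 1 q164 (.c 6 q30 (.c 7 q164 (.c 8 q165 .e))))
noncomputable def r181 : Tr := .c 1 q164 (.c 2 q162 (.c 4 q139 (.c 8 q165 .e)))
noncomputable def r182 : Tr := .c 0 q167 (.c 2 q162 (.c 3 q139 (.c 4 q139 .e)))
noncomputable def t41 : Tr := .c 0 r176 (.c 1 r177 (.c 2 r178 (.c 3 r179 (.c 4 r180 (.c 6 r181 (.c 7 r182 .e))))))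
noncomputable def q171 : Tr := .c 3 v10 (.c 4 v10 (.c 5 v11 (.c 6 v10 (.c 9 v13 .e))))
noncomputable def q172 : Tr := .c 3 v10 (.c 4 v10 (.c 5 v11 (.c 9 v13 .e)))
noncomputable def q173 : Tr := .c 3 v10 (.c 4 v10 (.c 5 v11 (.c 6 v10 .e)))
noncomputable def q174 : Tr := .c 3 v10 (.c 4 v10 (.c 6 v10 .e))
noncomputable def r183 : Tr := .c 0 q34 (.c 1 q171 (.c 6 q34 (.c 7 q172 (.c 8 q173 (.c 9 q174 .e)))))
noncomputable def q175 : Tr := .c 3 v14 (.c 4 v14 (.c 5 v13 (.c 6 v14 (.c 9 v15 .e))))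
noncomputable def q176 : Tr := .c 3 v14 (.c 4 v14 (.c 5 v13 (.c 9 v15 .e)))
noncomputable def q177 : Tr := .c 3 v14 (.c 4 v14 (.c 5 v13 (.c 6 v14 .e)))
noncomputable def r184 : Tr := .c 0 q39 (.c 1 q175 (.c 6 q39 (.c 7 q176 (.c 8 q177 .e))))
noncomputable def q178 : Tr := .c 9 v17 .e
noncomputable def q179 : Tr := .c 6 v23 .e
noncomputable def r185 : Tr := .c 0 q74 (.c 3 q178 (.c 5 q179 (.c 9 q145 .e)))
noncomputable def q180 : Tr := .c 9 v12 .e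
noncomputable def r186 : Tr := .c 0 q49 (.c 3 q180 (.c 5 q179 (.c 6 q49 .e)))
noncomputable def q181 : Tr := .c 3 v19 (.c 4 v19 (.c 5 v15 (.c 6 v19 (.c 9 v12 .e))))
noncomputable def q182 : Tr := .c 3 v19 (.c 4 v19 (.c 5 v15 (.c 9 v12 .e)))
noncomputable def r187 : Tr := .c 0 q49 (.c 1 q181 (.c 3 q180 (.c 6 q49 (.c 7 q182 .e))))
noncomputable def t42 : Tr := .c 4 r183 (.c 5 r184 (.c 7 r185 (.c 8 r186 (.c 9 r187 .e))))
noncomputable def r188 : Tr := .c 1 q171 (.c 7 q172 (.c 8 q173 (.c 9 q174 .e)))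
noncomputable def q183 : Tr := .c 6 v14 .e
noncomputable def r189 : Tr := .c 1 q171 (.c 5 q183 (.c 8 q173 (.c 9 q174 .e)))
noncomputable def t43 : Tr := .c 3 r188 (.c 4 r183 (.c 5 r184 (.c 6 r189 (.c 9 r187 .e))))
noncomputable def r190 : Tr := .c 1 q145 (.c 7 q147 (.c 8 q145 (.c 9 q145 .e)))
noncomputable def q184 : Tr := .c 3 v14 (.c 4 v14 (.c 6 v14 .e))
noncomputable def q185 : Tr := .c 3 v14 (.c 4 v14 .e)
noncomputable def r191 : Tr := .c 0 q53 (.c 1 q184 (.c 6 q53 (.c 7 q185 (.c 8 q184 .e))))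
noncomputable def r192 : Tr := .c 1 q145 (.c 5 q179 (.c 8 q145 (.c 9 q145 .e)))
noncomputable def r193 : Tr := .c 0 q85 (.c 5 q179 (.c 9 q145 .e))
noncomputable def r194 : Tr := .c 0 q51 (.c 5 q179 (.c 6 q51 .e))
noncomputable def r195 : Tr := .c 0 q51 (.c 1 q145 (.c 6 q51 (.c 7 q147 .e)))
noncomputable def t44 : Tr := .c 3 r190 (.c 5 r191 (.c 6 r192 (.c 7 r193 (.c 8 r194 (.c 9 r195 .e)))))
noncomputable def r196 : Tr := .c 5 q179 (.c 6 q62 (.c 9 q145 .e))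
noncomputable def q186 : Tr := .c 3 v10 (.c 4 v10 (.c 5 v11 .e))
noncomputable def r197 : Tr := .c 5 q183 (.c 6 q36 (.c 7 q186 (.c 8 q173 (.c 9 q174 .e))))
noncomputable def r198 : Tr := .c 0 q36 (.c 1 q173 (.c 6 q36 (.c 7 q186 (.c 8 q173 (.c 9 q174 .e)))))
noncomputable def q187 : Tr := .c 3 v14 (.c 4 v14 (.c 5 v13 .e))
noncomputable def r199 : Tr := .c 0 q41 (.c 1 q177 (.c 6 q41 (.c 7 q187 (.c 8 q177 .e))))
noncomputable def r200 : Tr := .c 0 q62 (.c 5 q179 (.c 6 q62 .e))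
noncomputable def q188 : Tr := .c 3 v19 (.c 4 v19 (.c 5 v15 (.c 6 v19 .e)))
noncomputable def q189 : Tr := .c 3 v19 (.c 4 v19 (.c 5 v15 .e))
noncomputable def r201 : Tr := .c 0 q62 (.c 1 q188 (.c 6 q62 (.c 7 q189 .e)))
noncomputable def t45 : Tr := .c 1 r196 (.c 2 r197 (.c 4 r198 (.c 5 r199 (.c 8 r200 (.c 9 r201 .e)))))
noncomputable def r202 : Tr := .c 5 q183 (.c 7 q186 (.c 8 q173 (.c 9 q174 .e)))
noncomputable def r203 : Tr := .c 1 q173 (.c 7 q186 (.c 8 q173 (.c 9 q174 .e)))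
noncomputable def t46 : Tr := .c 0 r202 (.c 2 r197 (.c 3 r203 (.c 4 r198 (.c 5 r199 (.c 9 r201 .e)))))
noncomputable def q190 : Tr := .c 3 v10 (.c 4 v10 .e)
noncomputable def r204 : Tr := .c 7 q172 (.c 8 q186 (.c 9 q190 .e))
noncomputable def q191 : Tr := .c 9 v13 .e
noncomputable def r205 : Tr := .c 3 q191 (.c 6 q34 (.c 7 q172 (.c 8 q186 (.c 9 q190 .e))))
noncomputable def r206 : Tr := .c 1 q172 (.c 7 q172 (.c 8 q186 (.c 9 q190 .e)))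
noncomputable def r207 : Tr := .c 0 q34 (.c 1 q172 (.c 6 q34 (.c 7 q172 (.c 8 q186 (.c 9 q190 .e)))))
noncomputable def r208 : Tr := .c 0 q39 (.c 1 q176 (.c 6 q39 (.c 7 q176 (.c 8 q187 .e))))
noncomputable def r209 : Tr := .c 1 q172 (.c 8 q186 (.c 9 q190 .e))
noncomputable def t47 : Tr := .c 0 r204 (.c 2 r205 (.c 3 r206 (.c 4 r207 (.c 5 r208 (.c 6 r209 .e)))))
noncomputable def r210 : Tr := .c 1 q126 (.c 2 q127 (.c 7 q128 .e))
noncomputable def r211 : Tr := .c 0 q1 (.c 1 q126 (.c 6 q1 (.c 7 q128 .e)))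
noncomputable def r212 : Tr := .c 0 q5 (.c 1 q131 (.c 2 q132 (.c 6 q5 (.c 7 q133 .e))))
noncomputable def r213 : Tr := .c 1 q126 (.c 2 q127 (.c 4 q135 (.c 5 q136 .e)))
noncomputable def t48 : Tr := .c 3 r210 (.c 4 r211 (.c 5 r212 (.c 6 r213 (.c 9 r134 .e))))
noncomputable def r214 : Tr := .c 1 q142 (.c 2 q143 (.c 7 q144 .e))
noncomputable def r215 : Tr := .c 0 q51 (.c 1 q145 (.c 2 q146 (.c 6 q51 (.c 7 q147 .e))))
noncomputable def r216 : Tr := .c 1 q142 (.c 2 q143 (.c 4 q148 (.c 5 q149 .e)))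
noncomputable def r217 : Tr := .c 0 q84 (.c 2 q143 (.c 4 q148 (.c 5 q149 .e)))
noncomputable def t49 : Tr := .c 3 r214 (.c 5 r215 (.c 6 r216 (.c 7 r217 (.c 8 r139 (.c 9 r140 .e)))))
noncomputable def q192 : Tr := .c 3 v9 (.c 4 v9 .e)
noncomputable def r218 : Tr := .c 4 q148 (.c 5 q149 (.c 7 q192 .e))
noncomputable def r219 : Tr := .c 4 q148 (.c 5 q149 (.c 6 q116 .e))
noncomputable def t50 : Tr := .c 0 r218 (.c 1 r219 (.c 6 r216 (.c 7 r217 (.c 8 r139 (.c 9 r140 .e)))))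
noncomputable def q193 : Tr := .c 6 v25 (.c 9 v5 .e)
noncomputable def q194 : Tr := .c 6 v2 .e
noncomputable def q195 : Tr := .c 3 v4 (.c 5 v3 (.c 9 v6 .e))
noncomputable def r220 : Tr := .c 4 q193 (.c 5 q194 (.c 7 q195 .e))
noncomputable def q196 : Tr := .c 9 v5 .e
noncomputable def q197 : Tr := .c 5 v8 (.c 9 v5 .e)
noncomputable def r221 : Tr := .c 3 q196 (.c 4 q193 (.c 5 q194 (.c 6 q197 .e)))
noncomputable def q198 : Tr := .c 9 v6 .e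
noncomputable def q199 : Tr := .c 5 v3 (.c 9 v6 .e)
noncomputable def r222 : Tr := .c 3 q198 (.c 5 q194 (.c 6 q199 (.c 7 q195 .e)))
noncomputable def q200 : Tr := .c 3 v4 (.c 5 v3 (.c 6 v4 (.c 9 v6 .e)))
noncomputable def q201 : Tr := .c 3 v25 (.c 5 v8 (.c 6 v25 (.c 9 v5 .e)))
noncomputable def r223 : Tr := .c 1 q200 (.c 2 q201 (.c 4 q193 (.c 5 q194 .e)))
noncomputable def r224 : Tr := .c 0 q197 (.c 2 q201 (.c 3 q196 (.c 4 q193 (.c 5 q194 .e))))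
noncomputable def r225 : Tr := .c 0 q197 (.c 2 q201 (.c 3 q196 (.c 4 q193 (.c 5 q194 (.c 6 q197 .e)))))
noncomputable def t51 : Tr := .c 0 r220 (.c 1 r221 (.c 2 r222 (.c 6 r223 (.c 7 r224 (.c 8 r225 .e)))))
noncomputable def r226 : Tr := .c 4 q139 (.c 7 q128 .e)
noncomputable def r227 : Tr := .c 3 q161 (.c 6 q1 (.c 7 q128 .e))
noncomputable def r228 : Tr := .c 1 q128 (.c 2 q162 (.c 7 q128 .e))
noncomputable def r229 : Tr := .c 0 q1 (.c 1 q128 (.c 6 q1 (.c 7 q128 .e)))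
noncomputable def r230 : Tr := .c 0 q5 (.c 1 q133 (.c 2 q163 (.c 6 q5 (.c 7 q133 .e))))
noncomputable def r231 : Tr := .c 1 q128 (.c 2 q162 (.c 4 q139 .e))
noncomputable def t52 : Tr := .c 0 r226 (.c 2 r227 (.c 3 r228 (.c 4 r229 (.c 5 r230 (.c 6 r231 .e)))))
noncomputable def r232 : Tr := .c 4 q139 (.c 7 q164 .e)
noncomputable def r233 : Tr := .c 3 q161 (.c 6 q30 (.c 7 q164 .e))
noncomputable def r234 : Tr := .c 1 q164 (.c 2 q162 (.c 7 q164 .e))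
noncomputable def r235 : Tr := .c 0 q30 (.c 1 q164 (.c 6 q30 (.c 7 q164 .e)))
noncomputable def r236 : Tr := .c 1 q164 (.c 2 q162 (.c 4 q139 .e))
noncomputable def t53 : Tr := .c 0 r232 (.c 1 r177 (.c 2 r233 (.c 3 r234 (.c 4 r235 (.c 6 r236 (.c 7 r182 .e))))))
noncomputable def r237 : Tr := .c 0 q39 (.c 1 q175 (.c 8 q177 (.c 9 q184 .e)))
noncomputable def r238 : Tr := .c 0 q49 (.c 1 q181 (.c 8 q188 .e))
noncomputable def q202 : Tr := .c 4 v23 (.c 5 v17 (.c 9 v18 .e))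
noncomputable def q203 : Tr := .c 9 v18 .e
noncomputable def q204 : Tr := .c 6 v16 .e
noncomputable def r239 : Tr := .c 0 q202 (.c 3 q203 (.c 5 q204 (.c 9 q150 .e)))
noncomputable def r240 : Tr := .c 0 q115 (.c 3 q203 (.c 5 q204 .e))
noncomputable def q205 : Tr := .c 3 v23 (.c 4 v23 (.c 5 v12 (.c 6 v23 (.c 9 v18 .e))))
noncomputable def r241 : Tr := .c 0 q115 (.c 1 q205 (.c 3 q203 .e))
noncomputable def t54 : Tr := .c 4 r237 (.c 5 r238 (.c 7 r239 (.c 8 r240 (.c 9 r241 .e))))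
noncomputable def r242 : Tr := .c 1 q175 (.c 8 q177 (.c 9 q184 .e))
noncomputable def q206 : Tr := .c 6 v19 .e
noncomputable def r243 : Tr := .c 1 q175 (.c 5 q206 (.c 8 q177 (.c 9 q184 .e)))
noncomputable def t55 : Tr := .c 3 r242 (.c 4 r237 (.c 5 r238 (.c 6 r243 (.c 9 r241 .e))))
noncomputable def r244 : Tr := .c 1 q150 (.c 8 q150 (.c 9 q150 .e))
noncomputable def r245 : Tr := .c 0 q51 (.c 1 q145 (.c 8 q145 .e))
noncomputable def r246 : Tr := .c 1 q150 (.c 5 q204 (.c 8 q150 (.c 9 q150 .e)))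
noncomputable def r247 : Tr := .c 0 q116 (.c 5 q204 (.c 9 q150 .e))
noncomputable def r248 : Tr := .c 0 q116 (.c 5 q204 .e)
noncomputable def r249 : Tr := .c 0 q116 (.c 1 q150 .e)
noncomputable def t56 : Tr := .c 3 r244 (.c 5 r245 (.c 6 r246 (.c 7 r247 (.c 8 r248 (.c 9 r249 .e)))))
noncomputable def r250 : Tr := .c 3 q203 (.c 5 q204 (.c 9 q150 .e))
noncomputable def q207 : Tr := .c 9 v15 .e
noncomputable def r251 : Tr := .c 3 q207 (.c 5 q206 (.c 8 q177 (.c 9 q184 .e)))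
noncomputable def t57 : Tr := .c 1 r250 (.c 2 r251 (.c 7 r239 (.c 8 r240 (.c 9 r241 .e))))
noncomputable def r252 : Tr := .c 5 q204 (.c 8 q150 (.c 9 q150 .e))
noncomputable def r253 : Tr := .c 5 q204 (.c 9 q150 .e)
noncomputable def t58 : Tr := .c 0 r252 (.c 1 r253 (.c 6 r246 (.c 7 r247 (.c 8 r248 (.c 9 r249 .e)))))
noncomputable def r254 : Tr := .c 5 q206 (.c 8 q177 (.c 9 q184 .e))
noncomputable def r255 : Tr := .c 0 q41 (.c 1 q177 (.c 8 q177 (.c 9 q184 .e)))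
noncomputable def r256 : Tr := .c 0 q62 (.c 1 q188 (.c 8 q188 .e))
noncomputable def r257 : Tr := .c 0 q125 (.c 5 q204 .e)
noncomputable def q208 : Tr := .c 3 v23 (.c 4 v23 (.c 5 v12 (.c 6 v23 .e)))
noncomputable def r258 : Tr := .c 0 q125 (.c 1 q208 .e)
noncomputable def t59 : Tr := .c 1 r253 (.c 2 r254 (.c 4 r255 (.c 5 r256 (.c 8 r257 (.c 9 r258 .e)))))
noncomputable def r259 : Tr := .c 1 q177 (.c 8 q177 (.c 9 q184 .e))
noncomputable def t60 : Tr := .c 0 r254 (.c 2 r254 (.c 3 r259 (.c 4 r255 (.c 5 r256 (.c 9 r258 .e)))))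
noncomputable def v26 : Tr := .l 0x830c2
noncomputable def q209 : Tr := .c 3 v26 (.c 5 v13 (.c 6 v26 (.c 9 v15 .e)))
noncomputable def q210 : Tr := .c 3 v21 (.c 5 v12 (.c 6 v21 (.c 7 v21 (.c 8 v21 (.c 9 v21 .e)))))
noncomputable def q211 : Tr := .c 3 v26 (.c 5 v13 (.c 9 v15 .e))
noncomputable def q212 : Tr := .c 3 v26 (.c 5 v13 (.c 6 v26 .e))
noncomputable def q213 : Tr := .c 3 v26 (.c 6 v26 (.c 7 v26 .e))
noncomputable def r260 : Tr := .c 1 q209 (.c 2 q210 (.c 7 q211 (.c 8 q212 (.c 9 q213 .e))))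
noncomputable def q214 : Tr := .c 5 v13 (.c 7 v21 (.c 8 v15 (.c 9 v15 .e)))
noncomputable def r261 : Tr := .c 0 q214 (.c 1 q209 (.c 6 q107 (.c 7 q211 (.c 8 q212 (.c 9 q213 .e)))))
noncomputable def q215 : Tr := .c 6 v21 (.c 7 v21 (.c 8 v21 (.c 9 v21 .e)))
noncomputable def q216 : Tr := .c 6 v22 (.c 7 v22 (.c 8 v22 .e))
noncomputable def r262 : Tr := .c 1 q209 (.c 2 q210 (.c 4 q215 (.c 5 q216 (.c 8 q212 (.c 9 q213 .e)))))
noncomputable def t61 : Tr := .c 3 r260 (.c 4 r261 (.c 6 r262 .e))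
noncomputable def q217 : Tr := .c 3 v21 (.c 6 v21 .e)
noncomputable def q218 : Tr := .c 3 v18 (.c 6 v18 (.c 7 v18 (.c 8 v18 .e)))
noncomputable def q219 : Tr := .c 3 v21 .e
noncomputable def q220 : Tr := .c 3 v21 (.c 6 v21 (.c 7 v21 .e))
noncomputable def r263 : Tr := .c 1 q217 (.c 2 q218 (.c 7 q219 (.c 8 q217 (.c 9 q220 .e))))
noncomputable def q221 : Tr := .c 6 v18 (.c 7 v18 (.c 8 v18 .e))
noncomputable def q222 : Tr := .c 6 v20 (.c 7 v20 (.c 8 v20 .e))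
noncomputable def r264 : Tr := .c 1 q217 (.c 2 q218 (.c 4 q221 (.c 5 q222 (.c 8 q217 (.c 9 q220 .e)))))
noncomputable def r265 : Tr := .c 0 q44 (.c 2 q218 (.c 3 q44 (.c 4 q221 (.c 5 q222 (.c 9 q220 .e)))))
noncomputable def q223 : Tr := .c 8 v18 .e
noncomputable def r266 : Tr := .c 0 q44 (.c 2 q218 (.c 3 q44 (.c 4 q221 (.c 5 q222 (.c 6 q223 .e)))))
noncomputable def t62 : Tr := .c 3 r263 (.c 6 r264 (.c 7 r265 (.c 8 r266 .e)))
noncomputable def q224 : Tr := .c 6 v7 (.c 7 v7 .e)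
noncomputable def q225 : Tr := .c 6 v22 (.c 7 v22 .e)
noncomputable def q226 : Tr := .c 3 v26 (.c 5 v13 .e)
noncomputable def r267 : Tr := .c 4 q224 (.c 5 q225 (.c 7 q226 (.c 8 q212 (.c 9 q213 .e))))
noncomputable def q227 : Tr := .c 7 v21 .e
noncomputable def q228 : Tr := .c 5 v13 .e
noncomputable def r268 : Tr := .c 3 q227 (.c 5 q225 (.c 6 q228 (.c 7 q226 (.c 8 q212 (.c 9 q213 .e)))))
noncomputable def q229 : Tr := .c 3 v21 (.c 5 v12 (.c 6 v21 (.c 7 v21 .e)))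
noncomputable def r269 : Tr := .c 1 q212 (.c 2 q229 (.c 7 q226 (.c 8 q212 (.c 9 q213 .e))))
noncomputable def q230 : Tr := .c 5 v13 (.c 7 v21 .e)
noncomputable def r270 : Tr := .c 0 q230 (.c 1 q212 (.c 6 q228 (.c 7 q226 (.c 8 q212 (.c 9 q213 .e)))))
noncomputable def t63 : Tr := .c 0 r267 (.c 2 r268 (.c 3 r269 (.c 4 r270 .e)))
noncomputable def q231 : Tr := .c 3 v26 .e
noncomputable def r271 : Tr := .c 4 q102 (.c 5 q103 (.c 7 q211 (.c 8 q226 (.c 9 q231 .e))))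
noncomputable def r272 : Tr := .c 3 q106 (.c 5 q103 (.c 6 q107 (.c 7 q211 (.c 8 q226 (.c 9 q231 .e)))))
noncomputable def q232 : Tr := .c 3 v21 (.c 5 v12 (.c 8 v21 (.c 9 v21 .e)))
noncomputable def r273 : Tr := .c 1 q211 (.c 2 q232 (.c 7 q211 (.c 8 q226 (.c 9 q231 .e))))
noncomputable def r274 : Tr := .c 0 q107 (.c 1 q211 (.c 6 q107 (.c 7 q211 (.c 8 q226 (.c 9 q231 .e)))))
noncomputable def r275 : Tr := .c 1 q211 (.c 2 q232 (.c 4 q102 (.c 5 q103 (.c 8 q226 (.c 9 q231 .e)))))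
noncomputable def t64 : Tr := .c 0 r271 (.c 2 r272 (.c 3 r273 (.c 4 r274 (.c 6 r275 .e))))
noncomputable def r276 : Tr := .c 3 q102 (.c 4 q102 (.c 5 q103 (.c 6 q105 (.c 9 q231 .e))))
noncomputable def r277 : Tr := .c 0 q105 (.c 2 q232 (.c 3 q102 (.c 4 q102 (.c 5 q103 (.c 9 q231 .e)))))
noncomputable def t65 : Tr := .c 0 r271 (.c 1 r276 (.c 2 r272 (.c 3 r273 (.c 4 r274 (.c 6 r275 (.c 7 r277 .e))))))
noncomputable def q233 : Tr := .c 5 v11 (.c 7 v12 (.c 8 v13 (.c 9 v13 .e)))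
noncomputable def q234 : Tr := .c 3 v13 (.c 5 v11 (.c 6 v13 (.c 9 v13 .e)))
noncomputable def q235 : Tr := .c 5 v11 (.c 8 v13 (.c 9 v13 .e))
noncomputable def q236 : Tr := .c 3 v13 (.c 5 v11 (.c 9 v13 .e))
noncomputable def q237 : Tr := .c 3 v13 (.c 5 v11 (.c 6 v13 .e))
noncomputable def q238 : Tr := .c 3 v13 (.c 6 v13 (.c 7 v13 .e))
noncomputable def r278 : Tr := .c 0 q233 (.c 1 q234 (.c 6 q235 (.c 7 q236 (.c 8 q237 (.c 9 q238 .e)))))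
noncomputable def q239 : Tr := .c 3 v12 (.c 6 v12 (.c 7 v12 .e))
noncomputable def r279 : Tr := .c 0 q75 (.c 3 q43 (.c 5 q221 (.c 9 q239 .e)))
noncomputable def r280 : Tr := .c 0 q110 (.c 3 q47 (.c 5 q221 (.c 6 q100 .e)))
noncomputable def t66 : Tr := .c 4 r278 (.c 7 r279 (.c 8 r280 .e))
noncomputable def r281 : Tr := .c 1 q234 (.c 7 q236 (.c 8 q237 (.c 9 q238 .e)))
noncomputable def q240 : Tr := .c 6 v15 (.c 7 v15 (.c 8 v15 .e))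
noncomputable def r282 : Tr := .c 1 q234 (.c 5 q240 (.c 8 q237 (.c 9 q238 .e)))
noncomputable def t67 : Tr := .c 3 r281 (.c 4 r278 (.c 6 r282 .e))
noncomputable def q241 : Tr := .c 3 v12 (.c 6 v12 .e)
noncomputable def q242 : Tr := .c 3 v12 .e
noncomputable def r283 : Tr := .c 1 q241 (.c 7 q242 (.c 8 q241 (.c 9 q239 .e)))
noncomputable def r284 : Tr := .c 1 q241 (.c 5 q221 (.c 8 q241 (.c 9 q239 .e)))
noncomputable def r285 : Tr := .c 0 q56 (.c 3 q56 (.c 5 q221 (.c 9 q239 .e)))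
noncomputable def q243 : Tr := .c 8 v12 .e
noncomputable def r286 : Tr := .c 0 q58 (.c 3 q58 (.c 5 q221 (.c 6 q243 .e)))
noncomputable def t68 : Tr := .c 3 r283 (.c 6 r284 (.c 7 r285 (.c 8 r286 .e)))
noncomputable def q244 : Tr := .c 6 v18 (.c 7 v18 .e)
noncomputable def r287 : Tr := .c 3 q60 (.c 5 q244 (.c 6 q118 (.c 9 q239 .e)))
noncomputable def q245 : Tr := .c 6 v15 (.c 7 v15 .e)
noncomputable def q246 : Tr := .c 5 v11 .e
noncomputable def q247 : Tr := .c 3 v13 (.c 5 v11 .e)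
noncomputable def r288 : Tr := .c 3 q63 (.c 5 q245 (.c 6 q246 (.c 7 q247 (.c 8 q237 (.c 9 q238 .e)))))
noncomputable def q248 : Tr := .c 5 v11 (.c 7 v12 .e)
noncomputable def r289 : Tr := .c 0 q248 (.c 1 q237 (.c 6 q246 (.c 7 q247 (.c 8 q237 (.c 9 q238 .e)))))
noncomputable def r290 : Tr := .c 0 q122 (.c 3 q60 (.c 5 q244 (.c 6 q118 .e)))
noncomputable def t69 : Tr := .c 1 r287 (.c 2 r288 (.c 4 r289 (.c 8 r290 .e)))
noncomputable def r291 : Tr := .c 5 q245 (.c 7 q247 (.c 8 q237 (.c 9 q238 .e)))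
noncomputable def r292 : Tr := .c 1 q237 (.c 7 q247 (.c 8 q237 (.c 9 q238 .e)))
noncomputable def t70 : Tr := .c 0 r291 (.c 2 r288 (.c 3 r292 (.c 4 r289 .e)))
noncomputable def q249 : Tr := .c 3 v13 .e
noncomputable def r293 : Tr := .c 5 q68 (.c 7 q236 (.c 8 q247 (.c 9 q249 .e)))
noncomputable def r294 : Tr := .c 3 q70 (.c 5 q68 (.c 6 q235 (.c 7 q236 (.c 8 q247 (.c 9 q249 .e)))))
noncomputable def r295 : Tr := .c 1 q236 (.c 7 q236 (.c 8 q247 (.c 9 q249 .e)))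
noncomputable def r296 : Tr := .c 0 q235 (.c 1 q236 (.c 6 q235 (.c 7 q236 (.c 8 q247 (.c 9 q249 .e)))))
noncomputable def r297 : Tr := .c 1 q236 (.c 5 q68 (.c 8 q247 (.c 9 q249 .e)))
noncomputable def t71 : Tr := .c 0 r293 (.c 2 r294 (.c 3 r295 (.c 4 r296 (.c 6 r297 .e))))
noncomputable def r298 : Tr := .c 1 q209 (.c 2 q210 (.c 7 q211 .e))
noncomputable def r299 : Tr := .c 0 q214 (.c 1 q209 (.c 6 q107 (.c 7 q211 .e)))
noncomputable def r300 : Tr := .c 1 q209 (.c 2 q210 (.c 4 q215 (.c 5 q216 .e)))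
noncomputable def t72 : Tr := .c 3 r298 (.c 4 r299 (.c 6 r300 .e))
noncomputable def r301 : Tr := .c 1 q217 (.c 2 q218 (.c 7 q219 .e))
noncomputable def r302 : Tr := .c 1 q217 (.c 2 q218 (.c 4 q221 (.c 5 q222 .e)))
noncomputable def r303 : Tr := .c 0 q44 (.c 2 q218 (.c 3 q44 (.c 4 q221 (.c 5 q222 .e))))
noncomputable def t73 : Tr := .c 3 r301 (.c 6 r302 (.c 7 r303 (.c 8 r266 .e)))
noncomputable def q250 : Tr := .c 3 v7 .e
noncomputable def r304 : Tr := .c 4 q221 (.c 5 q222 (.c 7 q250 .e))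
noncomputable def r305 : Tr := .c 3 q44 (.c 4 q221 (.c 5 q222 (.c 6 q223 .e)))
noncomputable def t74 : Tr := .c 0 r304 (.c 1 r305 (.c 6 r302 (.c 7 r303 (.c 8 r266 .e))))
noncomputable def q251 : Tr := .c 6 v20 (.c 7 v20 (.c 8 v20 (.c 9 v20 .e)))
noncomputable def q252 : Tr := .c 6 v21 (.c 7 v21 (.c 8 v21 .e))
noncomputable def q253 : Tr := .c 3 v22 (.c 5 v15 (.c 9 v12 .e))
noncomputable def r306 : Tr := .c 4 q251 (.c 5 q252 (.c 7 q253 .e))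
noncomputable def r307 : Tr := .c 3 q95 (.c 4 q251 (.c 5 q252 (.c 6 q98 .e)))
noncomputable def r308 : Tr := .c 3 q99 (.c 5 q252 (.c 6 q100 (.c 7 q253 .e)))
noncomputable def q254 : Tr := .c 3 v22 (.c 5 v15 (.c 6 v22 (.c 9 v12 .e)))
noncomputable def q255 : Tr := .c 3 v20 (.c 5 v18 (.c 6 v20 (.c 7 v20 (.c 8 v20 (.c 9 v20 .e)))))
noncomputable def r309 : Tr := .c 1 q254 (.c 2 q255 (.c 4 q251 (.c 5 q252 .e)))
noncomputable def r310 : Tr := .c 0 q101 (.c 2 q255 (.c 3 q95 (.c 4 q251 (.c 5 q252 .e))))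
noncomputable def r311 : Tr := .c 0 q101 (.c 2 q255 (.c 3 q95 (.c 4 q251 (.c 5 q252 (.c 6 q98 .e)))))
noncomputable def t75 : Tr := .c 0 r306 (.c 1 r307 (.c 2 r308 (.c 6 r309 (.c 7 r310 (.c 8 r311 .e)))))
noncomputable def r312 : Tr := .c 4 q102 (.c 5 q103 (.c 7 q211 .e))
noncomputable def r313 : Tr := .c 3 q106 (.c 5 q103 (.c 6 q107 (.c 7 q211 .e)))
noncomputable def r314 : Tr := .c 1 q211 (.c 2 q232 (.c 7 q211 .e))
noncomputable def r315 : Tr := .c 0 q107 (.c 1 q211 (.c 6 q107 (.c 7 q211 .e)))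
noncomputable def r316 : Tr := .c 1 q211 (.c 2 q232 (.c 4 q102 (.c 5 q103 .e)))
noncomputable def t76 : Tr := .c 0 r312 (.c 2 r313 (.c 3 r314 (.c 4 r315 (.c 6 r316 .e))))
noncomputable def r317 : Tr := .c 0 q105 (.c 2 q232 (.c 3 q102 (.c 4 q102 (.c 5 q103 .e))))
noncomputable def t77 : Tr := .c 0 r312 (.c 1 r77 (.c 2 r313 (.c 3 r314 (.c 4 r315 (.c 6 r316 (.c 7 r317 .e))))))
noncomputable def q256 : Tr := .c 5 v12 (.c 7 v7 (.c 8 v8 (.c 9 v8 .e)))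
noncomputable def q257 : Tr := .c 3 v21 (.c 5 v12 (.c 6 v21 (.c 9 v8 .e)))
noncomputable def q258 : Tr := .c 5 v12 (.c 8 v8 (.c 9 v8 .e))
noncomputable def q259 : Tr := .c 3 v21 (.c 5 v12 (.c 9 v8 .e))
noncomputable def r318 : Tr := .c 0 q256 (.c 1 q257 (.c 6 q258 (.c 7 q259 .e)))
noncomputable def q260 : Tr := .c 3 v18 (.c 5 v17 (.c 6 v18 (.c 7 v18 (.c 8 v18 (.c 9 v18 .e)))))
noncomputable def q261 : Tr := .c 6 v18 (.c 7 v18 (.c 8 v18 (.c 9 v18 .e)))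
noncomputable def r319 : Tr := .c 0 q78 (.c 2 q260 (.c 3 q79 (.c 4 q261 (.c 5 q222 .e))))
noncomputable def q262 : Tr := .c 5 v17 (.c 8 v18 (.c 9 v18 .e))
noncomputable def r320 : Tr := .c 0 q78 (.c 2 q260 (.c 3 q79 (.c 4 q261 (.c 5 q222 (.c 6 q262 .e)))))
noncomputable def t78 : Tr := .c 4 r318 (.c 7 r319 (.c 8 r320 .e))
noncomputable def r321 : Tr := .c 3 q79 (.c 4 q261 (.c 5 q222 (.c 6 q262 .e)))
noncomputable def q263 : Tr := .c 6 v12 (.c 7 v12 (.c 8 v12 .e))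
noncomputable def q264 : Tr := .c 5 v12 (.c 8 v15 (.c 9 v15 .e))
noncomputable def q265 : Tr := .c 3 v21 (.c 5 v12 (.c 9 v15 .e))
noncomputable def r322 : Tr := .c 3 q90 (.c 5 q263 (.c 6 q264 (.c 7 q265 .e)))
noncomputable def t79 : Tr := .c 1 r321 (.c 2 r322 (.c 7 r319 (.c 8 r320 .e)))
noncomputable def q266 : Tr := .c 5 v13 (.c 7 v23 (.c 8 v15 (.c 9 v15 .e)))
noncomputable def q267 : Tr := .c 3 v15 (.c 5 v13 (.c 6 v15 (.c 9 v15 .e)))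
noncomputable def q268 : Tr := .c 3 v15 (.c 5 v13 (.c 6 v15 .e))
noncomputable def q269 : Tr := .c 3 v15 (.c 6 v15 (.c 7 v15 .e))
noncomputable def r323 : Tr := .c 0 q266 (.c 1 q267 (.c 8 q268 (.c 9 q269 .e)))
noncomputable def r324 : Tr := .c 0 q78 (.c 2 q260 (.c 3 q79 (.c 4 q261 (.c 5 q222 (.c 9 q220 .e)))))
noncomputable def q270 : Tr := .c 3 v18 (.c 5 v12 (.c 6 v18 (.c 7 v18 (.c 8 v18 (.c 9 v18 .e)))))
noncomputable def r325 : Tr := .c 0 q114 (.c 2 q270 (.c 3 q79 (.c 4 q261 (.c 5 q222 .e))))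
noncomputable def t80 : Tr := .c 4 r323 (.c 7 r324 (.c 8 r325 .e))
noncomputable def r326 : Tr := .c 1 q217 (.c 2 q218 (.c 8 q217 (.c 9 q220 .e)))
noncomputable def t81 : Tr := .c 3 r326 (.c 6 r264 (.c 7 r265 (.c 8 r303 .e)))
noncomputable def r327 : Tr := .c 3 q79 (.c 4 q261 (.c 5 q222 (.c 9 q220 .e)))
noncomputable def r328 : Tr := .c 3 q90 (.c 5 q263 (.c 8 q268 (.c 9 q269 .e)))
noncomputable def t82 : Tr := .c 1 r327 (.c 2 r328 (.c 7 r324 (.c 8 r325 .e)))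
noncomputable def r329 : Tr := .c 4 q221 (.c 5 q222 (.c 8 q217 (.c 9 q220 .e)))
noncomputable def r330 : Tr := .c 3 q44 (.c 4 q221 (.c 5 q222 (.c 9 q220 .e)))
noncomputable def t83 : Tr := .c 0 r329 (.c 1 r330 (.c 6 r264 (.c 7 r265 (.c 8 r303 .e))))
noncomputable def q271 : Tr := .c 3 v22 (.c 5 v15 (.c 6 v22 .e))
noncomputable def q272 : Tr := .c 3 v22 (.c 6 v22 (.c 7 v22 .e))
noncomputable def r331 : Tr := .c 4 q251 (.c 5 q252 (.c 8 q271 (.c 9 q272 .e)))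
noncomputable def r332 : Tr := .c 3 q95 (.c 4 q251 (.c 5 q252 (.c 9 q272 .e)))
noncomputable def r333 : Tr := .c 3 q99 (.c 5 q252 (.c 8 q271 (.c 9 q272 .e)))
noncomputable def r334 : Tr := .c 1 q254 (.c 2 q255 (.c 4 q251 (.c 5 q252 (.c 8 q271 (.c 9 q272 .e)))))
noncomputable def r335 : Tr := .c 0 q101 (.c 2 q255 (.c 3 q95 (.c 4 q251 (.c 5 q252 (.c 9 q272 .e)))))
noncomputable def t84 : Tr := .c 0 r331 (.c 1 r332 (.c 2 r333 (.c 6 r334 (.c 7 r335 (.c 8 r310 .e)))))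
noncomputable def q273 : Tr := .c 6 v20 (.c 7 v20 .e)
noncomputable def r336 : Tr := .c 3 q61 (.c 4 q244 (.c 5 q273 (.c 9 q220 .e)))
noncomputable def q274 : Tr := .c 6 v12 (.c 7 v12 .e)
noncomputable def r337 : Tr := .c 3 q64 (.c 5 q274 (.c 8 q268 (.c 9 q269 .e)))
noncomputable def q275 : Tr := .c 5 v13 (.c 7 v23 .e)
noncomputable def r338 : Tr := .c 0 q275 (.c 1 q268 (.c 8 q268 (.c 9 q269 .e)))
noncomputable def q276 : Tr := .c 3 v18 (.c 5 v12 (.c 6 v18 (.c 7 v18 .e)))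
noncomputable def r339 : Tr := .c 0 q124 (.c 2 q276 (.c 3 q61 (.c 4 q244 (.c 5 q273 .e))))
noncomputable def t85 : Tr := .c 1 r336 (.c 2 r337 (.c 4 r338 (.c 8 r339 .e)))
noncomputable def r340 : Tr := .c 0 q78 (.c 3 q79 (.c 5 q222 (.c 9 q220 .e)))
noncomputable def r341 : Tr := .c 0 q114 (.c 3 q79 (.c 5 q222 .e))
noncomputable def t86 : Tr := .c 4 r323 (.c 7 r340 (.c 8 r341 .e))
noncomputable def r342 : Tr := .c 1 q267 (.c 8 q268 (.c 9 q269 .e))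
noncomputable def r343 : Tr := .c 1 q267 (.c 5 q263 (.c 8 q268 (.c 9 q269 .e)))
noncomputable def t87 : Tr := .c 3 r342 (.c 4 r323 (.c 6 r343 .e))
noncomputable def r344 : Tr := .c 1 q217 (.c 8 q217 (.c 9 q220 .e))
noncomputable def r345 : Tr := .c 1 q217 (.c 5 q222 (.c 8 q217 (.c 9 q220 .e)))
noncomputable def r346 : Tr := .c 0 q44 (.c 3 q44 (.c 5 q222 (.c 9 q220 .e)))
noncomputable def r347 : Tr := .c 0 q44 (.c 3 q44 (.c 5 q222 .e))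
noncomputable def t88 : Tr := .c 3 r344 (.c 6 r345 (.c 7 r346 (.c 8 r347 .e)))
noncomputable def r348 : Tr := .c 3 q79 (.c 5 q222 (.c 9 q220 .e))
noncomputable def t89 : Tr := .c 1 r348 (.c 2 r328 (.c 7 r340 (.c 8 r341 .e)))
noncomputable def r349 : Tr := .c 5 q222 (.c 8 q217 (.c 9 q220 .e))
noncomputable def r350 : Tr := .c 3 q44 (.c 5 q222 (.c 9 q220 .e))
noncomputable def t90 : Tr := .c 0 r349 (.c 1 r350 (.c 6 r345 (.c 7 r346 (.c 8 r347 .e))))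
noncomputable def r351 : Tr := .c 3 q61 (.c 5 q273 (.c 9 q220 .e))
noncomputable def r352 : Tr := .c 0 q124 (.c 3 q61 (.c 5 q273 .e))
noncomputable def t91 : Tr := .c 1 r351 (.c 2 r337 (.c 4 r338 (.c 8 r352 .e)))
noncomputable def r353 : Tr := .c 5 q274 (.c 8 q268 (.c 9 q269 .e))
noncomputable def r354 : Tr := .c 1 q268 (.c 8 q268 (.c 9 q269 .e))
noncomputable def t92 : Tr := .c 0 r353 (.c 2 r337 (.c 3 r354 (.c 4 r338 .e)))
noncomputable def q277 : Tr := .c 1 v18 (.c 2 v23 (.c 7 v18 (.c 8 v18 (.c 9 v18 .e))))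
noncomputable def q278 : Tr := .c 1 v18 (.c 7 v18 (.c 8 v18 (.c 9 v18 .e)))
noncomputable def q279 : Tr := .c 1 v20 (.c 2 v16 (.c 7 v20 (.c 8 v20 .e)))
noncomputable def q280 : Tr := .c 1 v18 (.c 2 v23 (.c 8 v18 (.c 9 v18 .e)))
noncomputable def q281 : Tr := .c 1 v21 (.c 2 v23 (.c 7 v21 .e))
noncomputable def r355 : Tr := .c 3 q277 (.c 4 q278 (.c 5 q279 (.c 6 q280 (.c 9 q281 .e))))
noncomputable def q282 : Tr := .c 1 v15 (.c 2 v14 (.c 7 v15 (.c 8 v15 (.c 9 v15 .e))))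
noncomputable def q283 : Tr := .c 1 v12 (.c 2 v19 (.c 7 v12 (.c 8 v12 .e)))
noncomputable def q284 : Tr := .c 1 v15 (.c 2 v14 (.c 8 v15 (.c 9 v15 .e)))
noncomputable def q285 : Tr := .c 2 v14 (.c 9 v15 .e)
noncomputable def q286 : Tr := .c 2 v14 .e
noncomputable def q287 : Tr := .c 1 v15 (.c 2 v14 (.c 7 v15 .e))
noncomputable def r356 : Tr := .c 3 q282 (.c 5 q283 (.c 6 q284 (.c 7 q285 (.c 8 q286 (.c 9 q287 .e)))))
noncomputable def r357 : Tr := .c 0 q79 (.c 2 q79 (.c 3 q277 (.c 4 q278 (.c 5 q279 (.c 9 q281 .e)))))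
noncomputable def r358 : Tr := .c 0 q79 (.c 2 q79 (.c 3 q277 (.c 4 q278 (.c 5 q279 (.c 6 q280 .e)))))
noncomputable def q288 : Tr := .c 2 v23 (.c 9 v18 .e)
noncomputable def r359 : Tr := .c 0 q79 (.c 1 q203 (.c 2 q79 (.c 3 q277 (.c 4 q278 (.c 6 q280 (.c 7 q288 .e))))))
noncomputable def t93 : Tr := .c 1 r355 (.c 2 r356 (.c 7 r357 (.c 8 r358 (.c 9 r359 .e))))
noncomputable def q289 : Tr := .c 1 v18 (.c 7 v18 (.c 8 v18 .e))
noncomputable def q290 : Tr := .c 2 v23 .e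
noncomputable def r360 : Tr := .c 4 q289 (.c 5 q279 (.c 7 q290 (.c 8 q290 (.c 9 q281 .e))))
noncomputable def q291 : Tr := .c 1 v18 (.c 2 v23 (.c 7 v18 (.c 8 v18 .e)))
noncomputable def q292 : Tr := .c 1 v18 (.c 2 v23 (.c 8 v18 .e))
noncomputable def r361 : Tr := .c 3 q291 (.c 4 q289 (.c 5 q279 (.c 6 q292 (.c 9 q281 .e))))
noncomputable def r362 : Tr := .c 2 q44 (.c 4 q289 (.c 5 q279 (.c 8 q290 (.c 9 q281 .e))))
noncomputable def r363 : Tr := .c 0 q44 (.c 2 q44 (.c 3 q291 (.c 4 q289 (.c 5 q279 (.c 9 q281 .e)))))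
noncomputable def r364 : Tr := .c 0 q44 (.c 2 q44 (.c 3 q291 (.c 4 q289 (.c 5 q279 (.c 6 q292 .e)))))
noncomputable def r365 : Tr := .c 0 q44 (.c 2 q44 (.c 3 q291 (.c 4 q289 (.c 6 q292 (.c 7 q290 .e)))))
noncomputable def t94 : Tr := .c 0 r360 (.c 1 r361 (.c 6 r362 (.c 7 r363 (.c 8 r364 (.c 9 r365 .e)))))
noncomputable def q293 : Tr := .c 1 v20 (.c 7 v20 (.c 8 v20 (.c 9 v20 .e)))
noncomputable def q294 : Tr := .c 1 v21 (.c 7 v21 (.c 8 v21 .e))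
noncomputable def q295 : Tr := .c 1 v22 (.c 7 v22 .e)
noncomputable def r366 : Tr := .c 4 q293 (.c 5 q294 (.c 7 q180 (.c 9 q295 .e)))
noncomputable def q296 : Tr := .c 1 v20 (.c 8 v20 (.c 9 v20 .e))
noncomputable def r367 : Tr := .c 3 q293 (.c 4 q293 (.c 5 q294 (.c 6 q296 (.c 9 q295 .e))))
noncomputable def q297 : Tr := .c 1 v12 (.c 7 v12 (.c 8 v12 (.c 9 v12 .e)))
noncomputable def q298 : Tr := .c 1 v12 (.c 8 v12 (.c 9 v12 .e))
noncomputable def r368 : Tr := .c 3 q297 (.c 5 q294 (.c 6 q298 (.c 7 q180 (.c 9 q295 .e))))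
noncomputable def r369 : Tr := .c 1 q180 (.c 2 q95 (.c 4 q293 (.c 5 q294 (.c 9 q295 .e))))
noncomputable def r370 : Tr := .c 0 q95 (.c 2 q95 (.c 3 q293 (.c 4 q293 (.c 5 q294 (.c 9 q295 .e)))))
noncomputable def r371 : Tr := .c 0 q95 (.c 2 q95 (.c 3 q293 (.c 4 q293 (.c 5 q294 (.c 6 q296 .e)))))
noncomputable def t95 : Tr := .c 0 r366 (.c 1 r367 (.c 2 r368 (.c 6 r369 (.c 7 r370 (.c 8 r371 .e)))))
noncomputable def q299 : Tr := .c 1 v18 (.c 2 v23 (.c 7 v18 .e))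
noncomputable def q300 : Tr := .c 1 v18 (.c 7 v18 .e)
noncomputable def q301 : Tr := .c 1 v20 (.c 2 v16 (.c 7 v20 .e))
noncomputable def q302 : Tr := .c 1 v18 (.c 2 v23 .e)
noncomputable def r372 : Tr := .c 3 q299 (.c 4 q300 (.c 5 q301 (.c 6 q302 (.c 9 q281 .e))))
noncomputable def q303 : Tr := .c 1 v12 (.c 2 v19 (.c 7 v12 .e))
noncomputable def q304 : Tr := .c 1 v15 (.c 2 v14 .e)
noncomputable def r373 : Tr := .c 3 q287 (.c 5 q303 (.c 6 q304 (.c 7 q286 (.c 8 q286 (.c 9 q287 .e)))))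
noncomputable def q305 : Tr := .c 7 v23 .e
noncomputable def r374 : Tr := .c 0 q305 (.c 6 q304 (.c 7 q286 (.c 8 q286 (.c 9 q287 .e))))
noncomputable def q306 : Tr := .c 1 v24 (.c 2 v19 .e)
noncomputable def q307 : Tr := .c 2 v19 .e
noncomputable def r375 : Tr := .c 0 q60 (.c 2 q60 (.c 6 q306 (.c 7 q307 (.c 8 q307 .e))))
noncomputable def r376 : Tr := .c 0 q61 (.c 2 q61 (.c 3 q299 (.c 4 q300 (.c 5 q301 (.c 6 q302 .e)))))
noncomputable def r377 : Tr := .c 0 q61 (.c 2 q61 (.c 3 q299 (.c 4 q300 (.c 6 q302 (.c 7 q290 .e)))))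
noncomputable def t96 : Tr := .c 1 r372 (.c 2 r373 (.c 4 r374 (.c 5 r375 (.c 8 r376 (.c 9 r377 .e)))))
noncomputable def q308 : Tr := .c 1 v21 (.c 8 v21 (.c 9 v21 .e))
noncomputable def q309 : Tr := .c 1 v22 (.c 8 v22 .e)
noncomputable def q310 : Tr := .c 1 v2 .e
noncomputable def r378 : Tr := .c 4 q308 (.c 5 q309 (.c 7 q207 (.c 9 q310 .e)))
noncomputable def r379 : Tr := .c 3 q308 (.c 4 q308 (.c 5 q309 (.c 6 q308 (.c 9 q310 .e))))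
noncomputable def q311 : Tr := .c 1 v15 (.c 8 v15 (.c 9 v15 .e))
noncomputable def r380 : Tr := .c 3 q311 (.c 5 q309 (.c 6 q311 (.c 7 q207 (.c 9 q310 .e))))
noncomputable def r381 : Tr := .c 1 q207 (.c 2 q102 (.c 7 q207 (.c 9 q310 .e)))
noncomputable def r382 : Tr := .c 0 q106 (.c 1 q207 (.c 6 q311 (.c 7 q207 (.c 9 q310 .e))))
noncomputable def r383 : Tr := .c 1 q207 (.c 2 q102 (.c 4 q308 (.c 5 q309 (.c 9 q310 .e))))
noncomputable def r384 : Tr := .c 0 q102 (.c 2 q102 (.c 3 q308 (.c 4 q308 (.c 5 q309 (.c 9 q310 .e)))))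
noncomputable def t97 : Tr := .c 0 r378 (.c 1 r379 (.c 2 r380 (.c 3 r381 (.c 4 r382 (.c 6 r383 (.c 7 r384 .e))))))
noncomputable def q312 : Tr := .c 1 v8 (.c 2 v2 (.c 7 v8 (.c 8 v8 (.c 9 v8 .e))))
noncomputable def q313 : Tr := .c 1 v8 (.c 7 v8 (.c 8 v8 (.c 9 v8 .e)))
noncomputable def q314 : Tr := .c 1 v8 (.c 2 v2 (.c 8 v8 (.c 9 v8 .e)))
noncomputable def r385 : Tr := .c 3 q312 (.c 4 q313 (.c 6 q314 .e))
noncomputable def q315 : Tr := .c 1 v3 (.c 2 v0 (.c 7 v3 (.c 8 v3 (.c 9 v3 .e))))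
noncomputable def q316 : Tr := .c 1 v3 (.c 2 v0 (.c 8 v3 (.c 9 v3 .e)))
noncomputable def q317 : Tr := .c 2 v0 (.c 9 v3 .e)
noncomputable def q318 : Tr := .c 2 v0 .e
noncomputable def r386 : Tr := .c 3 q315 (.c 6 q316 (.c 7 q317 (.c 8 q318 .e)))
noncomputable def q319 : Tr := .c 7 v8 (.c 8 v8 (.c 9 v8 .e))
noncomputable def r387 : Tr := .c 0 q319 (.c 2 q319 (.c 3 q312 (.c 4 q313 .e)))
noncomputable def r388 : Tr := .c 0 q319 (.c 2 q319 (.c 3 q312 (.c 4 q313 (.c 6 q314 .e))))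
noncomputable def q320 : Tr := .c 2 v2 (.c 9 v8 .e)
noncomputable def r389 : Tr := .c 0 q319 (.c 1 q139 (.c 2 q319 (.c 3 q312 (.c 4 q313 (.c 6 q314 (.c 7 q320 .e))))))
noncomputable def t98 : Tr := .c 1 r385 (.c 2 r386 (.c 7 r387 (.c 8 r388 (.c 9 r389 .e))))
noncomputable def q321 : Tr := .c 1 v5 (.c 7 v5 (.c 8 v5 (.c 9 v5 .e)))
noncomputable def r390 : Tr := .c 4 q321 (.c 7 q198 .e)
noncomputable def q322 : Tr := .c 1 v5 (.c 8 v5 (.c 9 v5 .e))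
noncomputable def r391 : Tr := .c 3 q321 (.c 4 q321 (.c 6 q322 .e))
noncomputable def q323 : Tr := .c 1 v6 (.c 7 v6 (.c 8 v6 (.c 9 v6 .e)))
noncomputable def q324 : Tr := .c 1 v6 (.c 8 v6 (.c 9 v6 .e))
noncomputable def r392 : Tr := .c 3 q323 (.c 6 q324 (.c 7 q198 .e))
noncomputable def q325 : Tr := .c 7 v5 (.c 8 v5 (.c 9 v5 .e))
noncomputable def r393 : Tr := .c 1 q198 (.c 2 q325 (.c 4 q321 .e))
noncomputable def r394 : Tr := .c 0 q325 (.c 2 q325 (.c 3 q321 (.c 4 q321 .e)))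
noncomputable def r395 : Tr := .c 0 q325 (.c 2 q325 (.c 3 q321 (.c 4 q321 (.c 6 q322 .e))))
noncomputable def t99 : Tr := .c 0 r390 (.c 1 r391 (.c 2 r392 (.c 6 r393 (.c 7 r394 (.c 8 r395 .e)))))
noncomputable def q326 : Tr := .c 1 v8 (.c 2 v2 (.c 7 v8 .e))
noncomputable def q327 : Tr := .c 1 v8 (.c 7 v8 .e)
noncomputable def q328 : Tr := .c 1 v8 (.c 2 v2 .e)
noncomputable def r396 : Tr := .c 3 q326 (.c 4 q327 (.c 6 q328 .e))
noncomputable def q329 : Tr := .c 1 v3 (.c 2 v0 (.c 7 v3 .e))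
noncomputable def q330 : Tr := .c 1 v3 (.c 2 v0 .e)
noncomputable def r397 : Tr := .c 3 q329 (.c 6 q330 (.c 7 q318 (.c 8 q318 .e)))
noncomputable def r398 : Tr := .c 0 q19 (.c 6 q330 (.c 7 q318 (.c 8 q318 .e)))
noncomputable def q331 : Tr := .c 7 v5 .e
noncomputable def q332 : Tr := .c 1 v6 (.c 2 v4 .e)
noncomputable def q333 : Tr := .c 2 v4 .e
noncomputable def r399 : Tr := .c 0 q331 (.c 2 q331 (.c 6 q332 (.c 7 q333 (.c 8 q333 .e))))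
noncomputable def q334 : Tr := .c 7 v8 .e
noncomputable def r400 : Tr := .c 0 q334 (.c 2 q334 (.c 3 q326 (.c 4 q327 (.c 6 q328 .e))))
noncomputable def q335 : Tr := .c 2 v2 .e
noncomputable def r401 : Tr := .c 0 q334 (.c 2 q334 (.c 3 q326 (.c 4 q327 (.c 6 q328 (.c 7 q335 .e)))))
noncomputable def t100 : Tr := .c 1 r396 (.c 2 r397 (.c 4 r398 (.c 5 r399 (.c 8 r400 (.c 9 r401 .e)))))
noncomputable def r402 : Tr := .c 4 q327 (.c 7 q318 (.c 8 q318 .e))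
noncomputable def r403 : Tr := .c 2 q17 (.c 7 q318 (.c 8 q318 .e))
noncomputable def t101 : Tr := .c 0 r402 (.c 2 r397 (.c 3 r403 (.c 4 r398 (.c 5 r399 (.c 9 r401 .e)))))
noncomputable def q336 : Tr := .c 1 v8 (.c 8 v8 (.c 9 v8 .e))
noncomputable def r404 : Tr := .c 4 q336 (.c 7 q317 (.c 8 q318 .e))
noncomputable def r405 : Tr := .c 3 q316 (.c 6 q316 (.c 7 q317 (.c 8 q318 .e)))
noncomputable def r406 : Tr := .c 1 q161 (.c 2 q26 (.c 7 q317 (.c 8 q318 .e)))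
noncomputable def r407 : Tr := .c 0 q27 (.c 1 q161 (.c 6 q316 (.c 7 q317 (.c 8 q318 .e))))
noncomputable def q337 : Tr := .c 8 v6 (.c 9 v6 .e)
noncomputable def q338 : Tr := .c 1 v6 (.c 2 v4 (.c 8 v6 (.c 9 v6 .e)))
noncomputable def q339 : Tr := .c 2 v4 (.c 9 v6 .e)
noncomputable def r408 : Tr := .c 0 q337 (.c 1 q198 (.c 2 q337 (.c 6 q338 (.c 7 q339 (.c 8 q333 .e)))))
noncomputable def r409 : Tr := .c 1 q161 (.c 2 q26 (.c 4 q336 (.c 8 q318 .e)))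
noncomputable def t102 : Tr := .c 0 r404 (.c 2 r405 (.c 3 r406 (.c 4 r407 (.c 5 r408 (.c 6 r409 .e)))))
noncomputable def r410 : Tr := .c 4 q336 (.c 7 q161 .e)
noncomputable def r411 : Tr := .c 3 q336 (.c 4 q336 (.c 6 q336 .e))
noncomputable def q340 : Tr := .c 1 v3 (.c 8 v3 (.c 9 v3 .e))
noncomputable def r412 : Tr := .c 3 q340 (.c 6 q340 (.c 7 q161 .e))
noncomputable def r413 : Tr := .c 1 q161 (.c 2 q26 (.c 7 q161 .e))
noncomputable def r414 : Tr := .c 0 q27 (.c 1 q161 (.c 6 q340 (.c 7 q161 .e)))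
noncomputable def r415 : Tr := .c 1 q161 (.c 2 q26 (.c 4 q336 .e))
noncomputable def r416 : Tr := .c 0 q26 (.c 2 q26 (.c 3 q336 (.c 4 q336 .e)))
noncomputable def t103 : Tr := .c 0 r410 (.c 1 r411 (.c 2 r412 (.c 3 r413 (.c 4 r414 (.c 6 r415 (.c 7 r416 .e))))))
noncomputable def r417 : Tr := .c 0 q11 (.c 1 q139 (.c 6 q314 (.c 7 q320 .e)))
noncomputable def q341 : Tr := .c 1 v17 (.c 2 v16 (.c 8 v17 (.c 9 v17 .e)))
noncomputable def q342 : Tr := .c 2 v16 (.c 9 v17 .e)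
noncomputable def r418 : Tr := .c 0 q43 (.c 1 q178 (.c 2 q43 (.c 6 q341 (.c 7 q342 .e))))
noncomputable def r419 : Tr := .c 0 q79 (.c 2 q79 (.c 3 q277 (.c 4 q278 (.c 5 q279 .e))))
noncomputable def t104 : Tr := .c 4 r417 (.c 5 r418 (.c 7 r419 (.c 8 r358 (.c 9 r359 .e))))
noncomputable def q343 : Tr := .c 2 v9 .e
noncomputable def r420 : Tr := .c 2 q44 (.c 7 q343 .e)
noncomputable def q344 : Tr := .c 1 v17 (.c 2 v16 (.c 8 v17 .e))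
noncomputable def q345 : Tr := .c 2 v16 .e
noncomputable def r421 : Tr := .c 0 q56 (.c 2 q56 (.c 6 q344 (.c 7 q345 .e)))
noncomputable def r422 : Tr := .c 2 q44 (.c 4 q289 (.c 5 q279 .e))
noncomputable def r423 : Tr := .c 0 q44 (.c 2 q44 (.c 3 q291 (.c 4 q289 (.c 5 q279 .e))))
noncomputable def t105 : Tr := .c 3 r420 (.c 5 r421 (.c 6 r422 (.c 7 r423 (.c 8 r364 (.c 9 r365 .e)))))
noncomputable def r424 : Tr := .c 3 q277 (.c 4 q278 (.c 5 q279 (.c 6 q280 .e)))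
noncomputable def r425 : Tr := .c 3 q282 (.c 5 q283 (.c 6 q284 (.c 7 q285 .e)))
noncomputable def t106 : Tr := .c 1 r424 (.c 2 r425 (.c 7 r419 (.c 8 r358 (.c 9 r359 .e))))
noncomputable def r426 : Tr := .c 4 q289 (.c 5 q279 (.c 7 q290 .e))
noncomputable def r427 : Tr := .c 3 q291 (.c 4 q289 (.c 5 q279 (.c 6 q292 .e)))
noncomputable def t107 : Tr := .c 0 r426 (.c 1 r427 (.c 6 r422 (.c 7 r423 (.c 8 r364 (.c 9 r365 .e)))))
noncomputable def r428 : Tr := .c 4 q293 (.c 5 q294 (.c 7 q180 .e))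
noncomputable def r429 : Tr := .c 3 q293 (.c 4 q293 (.c 5 q294 (.c 6 q296 .e)))
noncomputable def r430 : Tr := .c 3 q297 (.c 5 q294 (.c 6 q298 (.c 7 q180 .e)))
noncomputable def r431 : Tr := .c 1 q180 (.c 2 q95 (.c 4 q293 (.c 5 q294 .e)))
noncomputable def r432 : Tr := .c 0 q95 (.c 2 q95 (.c 3 q293 (.c 4 q293 (.c 5 q294 .e))))
noncomputable def t108 : Tr := .c 0 r428 (.c 1 r429 (.c 2 r430 (.c 6 r431 (.c 7 r432 (.c 8 r371 .e)))))
noncomputable def r433 : Tr := .c 4 q308 (.c 5 q309 (.c 7 q207 .e))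
noncomputable def r434 : Tr := .c 3 q308 (.c 4 q308 (.c 5 q309 (.c 6 q308 .e)))
noncomputable def r435 : Tr := .c 3 q311 (.c 5 q309 (.c 6 q311 (.c 7 q207 .e)))
noncomputable def r436 : Tr := .c 1 q207 (.c 2 q102 (.c 7 q207 .e))
noncomputable def r437 : Tr := .c 0 q106 (.c 1 q207 (.c 6 q311 (.c 7 q207 .e)))
noncomputable def r438 : Tr := .c 1 q207 (.c 2 q102 (.c 4 q308 (.c 5 q309 .e)))
noncomputable def r439 : Tr := .c 0 q102 (.c 2 q102 (.c 3 q308 (.c 4 q308 (.c 5 q309 .e))))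
noncomputable def t109 : Tr := .c 0 r433 (.c 1 r434 (.c 2 r435 (.c 3 r436 (.c 4 r437 (.c 6 r438 (.c 7 r439 .e))))))
noncomputable def q346 : Tr := .c 7 v23 (.c 8 v15 (.c 9 v15 .e))
noncomputable def r440 : Tr := .c 0 q346 (.c 1 q207 (.c 8 q286 (.c 9 q287 .e)))
noncomputable def r441 : Tr := .c 0 q47 (.c 1 q180 (.c 2 q47 (.c 8 q307 .e)))
noncomputable def r442 : Tr := .c 0 q79 (.c 1 q203 (.c 2 q79 (.c 3 q277 (.c 4 q278 .e))))
noncomputable def t110 : Tr := .c 4 r440 (.c 5 r441 (.c 7 r357 (.c 8 r419 (.c 9 r442 .e))))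
noncomputable def r443 : Tr := .c 2 q44 (.c 8 q290 (.c 9 q281 .e))
noncomputable def r444 : Tr := .c 0 q58 (.c 2 q58 (.c 8 q307 .e))
noncomputable def r445 : Tr := .c 0 q44 (.c 2 q44 (.c 3 q291 (.c 4 q289 .e)))
noncomputable def t111 : Tr := .c 3 r443 (.c 5 r444 (.c 6 r362 (.c 7 r363 (.c 8 r423 (.c 9 r445 .e)))))
noncomputable def r446 : Tr := .c 3 q277 (.c 4 q278 (.c 5 q279 (.c 9 q281 .e)))
noncomputable def r447 : Tr := .c 3 q282 (.c 5 q283 (.c 8 q286 (.c 9 q287 .e)))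
noncomputable def t112 : Tr := .c 1 r446 (.c 2 r447 (.c 7 r357 (.c 8 r419 (.c 9 r442 .e))))
noncomputable def r448 : Tr := .c 4 q289 (.c 5 q279 (.c 8 q290 (.c 9 q281 .e)))
noncomputable def r449 : Tr := .c 3 q291 (.c 4 q289 (.c 5 q279 (.c 9 q281 .e)))
noncomputable def t113 : Tr := .c 0 r448 (.c 1 r449 (.c 6 r362 (.c 7 r363 (.c 8 r423 (.c 9 r445 .e)))))
noncomputable def r450 : Tr := .c 4 q293 (.c 5 q294 (.c 9 q295 .e))
noncomputable def r451 : Tr := .c 3 q293 (.c 4 q293 (.c 5 q294 (.c 9 q295 .e)))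
noncomputable def r452 : Tr := .c 3 q297 (.c 5 q294 (.c 9 q295 .e))
noncomputable def t114 : Tr := .c 0 r450 (.c 1 r451 (.c 2 r452 (.c 6 r369 (.c 7 r370 (.c 8 r432 .e)))))
noncomputable def r453 : Tr := .c 3 q299 (.c 4 q300 (.c 5 q301 (.c 9 q281 .e)))
noncomputable def r454 : Tr := .c 3 q287 (.c 5 q303 (.c 8 q286 (.c 9 q287 .e)))
noncomputable def r455 : Tr := .c 0 q305 (.c 8 q286 (.c 9 q287 .e))
noncomputable def r456 : Tr := .c 0 q60 (.c 2 q60 (.c 8 q307 .e))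
noncomputable def r457 : Tr := .c 0 q61 (.c 2 q61 (.c 3 q299 (.c 4 q300 (.c 5 q301 .e))))
noncomputable def r458 : Tr := .c 0 q61 (.c 2 q61 (.c 3 q299 (.c 4 q300 .e)))
noncomputable def t115 : Tr := .c 1 r453 (.c 2 r454 (.c 4 r455 (.c 5 r456 (.c 8 r457 (.c 9 r458 .e)))))
noncomputable def r459 : Tr := .c 0 q47 (.c 1 q180 (.c 8 q307 .e))
noncomputable def r460 : Tr := .c 0 q79 (.c 3 q277 (.c 5 q279 (.c 9 q281 .e)))
noncomputable def r461 : Tr := .c 0 q79 (.c 3 q277 (.c 5 q279 .e))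
noncomputable def r462 : Tr := .c 0 q79 (.c 1 q203 (.c 3 q277 .e))
noncomputable def t116 : Tr := .c 4 r440 (.c 5 r459 (.c 7 r460 (.c 8 r461 (.c 9 r462 .e))))
noncomputable def r463 : Tr := .c 1 q207 (.c 8 q286 (.c 9 q287 .e))
noncomputable def r464 : Tr := .c 1 q207 (.c 5 q283 (.c 8 q286 (.c 9 q287 .e)))
noncomputable def t117 : Tr := .c 3 r463 (.c 4 r440 (.c 5 r459 (.c 6 r464 (.c 9 r462 .e))))
noncomputable def r465 : Tr := .c 8 q290 (.c 9 q281 .e)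
noncomputable def r466 : Tr := .c 0 q58 (.c 8 q307 .e)
noncomputable def r467 : Tr := .c 5 q279 (.c 8 q290 (.c 9 q281 .e))
noncomputable def r468 : Tr := .c 0 q44 (.c 3 q291 (.c 5 q279 (.c 9 q281 .e)))
noncomputable def r469 : Tr := .c 0 q44 (.c 3 q291 (.c 5 q279 .e))
noncomputable def r470 : Tr := .c 0 q44 (.c 3 q291 .e)
noncomputable def t118 : Tr := .c 3 r465 (.c 5 r466 (.c 6 r467 (.c 7 r468 (.c 8 r469 (.c 9 r470 .e)))))
noncomputable def r471 : Tr := .c 3 q277 (.c 5 q279 (.c 9 q281 .e))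
noncomputable def t119 : Tr := .c 1 r471 (.c 2 r447 (.c 7 r460 (.c 8 r461 (.c 9 r462 .e))))
noncomputable def r472 : Tr := .c 3 q291 (.c 5 q279 (.c 9 q281 .e))
noncomputable def t120 : Tr := .c 0 r467 (.c 1 r472 (.c 6 r467 (.c 7 r468 (.c 8 r469 (.c 9 r470 .e)))))
noncomputable def r473 : Tr := .c 3 q299 (.c 5 q301 (.c 9 q281 .e))
noncomputable def r474 : Tr := .c 0 q60 (.c 8 q307 .e)
noncomputable def r475 : Tr := .c 0 q61 (.c 3 q299 (.c 5 q301 .e))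
noncomputable def r476 : Tr := .c 0 q61 (.c 3 q299 .e)
noncomputable def t121 : Tr := .c 1 r473 (.c 2 r454 (.c 4 r455 (.c 5 r474 (.c 8 r475 (.c 9 r476 .e)))))
noncomputable def r477 : Tr := .c 5 q303 (.c 8 q286 (.c 9 q287 .e))
noncomputable def r478 : Tr := .c 8 q286 (.c 9 q287 .e)
noncomputable def t122 : Tr := .c 0 r477 (.c 2 r454 (.c 3 r478 (.c 4 r455 (.c 5 r474 (.c 9 r476 .e)))))
noncomputable def q347 : Tr := .c 0 v18 (.c 1 v18 (.c 6 v18 (.c 7 v18 (.c 8 v18 .e))))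
noncomputable def q348 : Tr := .c 0 v20 (.c 1 v20 (.c 6 v20 (.c 7 v20 (.c 8 v20 .e))))
noncomputable def q349 : Tr := .c 0 v7 .e
noncomputable def q350 : Tr := .c 0 v21 (.c 6 v21 .e)
noncomputable def q351 : Tr := .c 0 v21 (.c 1 v21 (.c 6 v21 (.c 7 v21 .e)))
noncomputable def r479 : Tr := .c 4 q347 (.c 5 q348 (.c 7 q349 (.c 8 q350 (.c 9 q351 .e))))
noncomputable def q352 : Tr := .c 1 v18 (.c 8 v18 .e)
noncomputable def r480 : Tr := .c 3 q289 (.c 4 q347 (.c 5 q348 (.c 6 q352 (.c 9 q351 .e))))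
noncomputable def q353 : Tr := .c 6 v21 .e
noncomputable def r481 : Tr := .c 1 q353 (.c 2 q221 (.c 4 q347 (.c 5 q348 (.c 8 q350 (.c 9 q351 .e)))))
noncomputable def r482 : Tr := .c 0 q44 (.c 2 q221 (.c 3 q289 (.c 4 q347 (.c 5 q348 (.c 9 q351 .e)))))
noncomputable def r483 : Tr := .c 0 q44 (.c 2 q221 (.c 3 q289 (.c 4 q347 (.c 5 q348 (.c 6 q352 .e)))))
noncomputable def t123 : Tr := .c 0 r479 (.c 1 r480 (.c 6 r481 (.c 7 r482 (.c 8 r483 .e))))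
noncomputable def q354 : Tr := .c 0 v20 (.c 1 v20 (.c 6 v20 (.c 7 v20 (.c 8 v20 (.c 9 v20 .e)))))
noncomputable def q355 : Tr := .c 0 v21 (.c 1 v21 (.c 6 v21 (.c 7 v21 (.c 8 v21 .e))))
noncomputable def q356 : Tr := .c 0 v12 (.c 9 v12 .e)
noncomputable def q357 : Tr := .c 0 v22 (.c 6 v22 .e)
noncomputable def q358 : Tr := .c 0 v22 (.c 1 v22 (.c 6 v22 (.c 7 v22 .e)))
noncomputable def r484 : Tr := .c 4 q354 (.c 5 q355 (.c 7 q356 (.c 8 q357 (.c 9 q358 .e))))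
noncomputable def r485 : Tr := .c 3 q293 (.c 4 q354 (.c 5 q355 (.c 6 q296 (.c 9 q358 .e))))
noncomputable def r486 : Tr := .c 3 q297 (.c 5 q355 (.c 6 q298 (.c 7 q356 (.c 8 q357 (.c 9 q358 .e)))))
noncomputable def q359 : Tr := .c 6 v22 (.c 9 v12 .e)
noncomputable def r487 : Tr := .c 1 q359 (.c 2 q251 (.c 4 q354 (.c 5 q355 (.c 8 q357 (.c 9 q358 .e)))))
noncomputable def r488 : Tr := .c 0 q95 (.c 2 q251 (.c 3 q293 (.c 4 q354 (.c 5 q355 (.c 9 q358 .e)))))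
noncomputable def r489 : Tr := .c 0 q95 (.c 2 q251 (.c 3 q293 (.c 4 q354 (.c 5 q355 (.c 6 q296 .e)))))
noncomputable def t124 : Tr := .c 0 r484 (.c 1 r485 (.c 2 r486 (.c 6 r487 (.c 7 r488 (.c 8 r489 .e)))))
noncomputable def q360 : Tr := .c 0 v7 (.c 1 v7 (.c 6 v7 (.c 7 v7 .e)))
noncomputable def q361 : Tr := .c 0 v12 (.c 1 v12 (.c 6 v12 (.c 7 v12 .e)))
noncomputable def q362 : Tr := .c 0 v15 .e
noncomputable def q363 : Tr := .c 0 v23 (.c 6 v23 .e)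
noncomputable def q364 : Tr := .c 0 v23 (.c 1 v23 (.c 6 v23 (.c 7 v23 .e)))
noncomputable def r490 : Tr := .c 4 q360 (.c 5 q361 (.c 7 q362 (.c 8 q363 (.c 9 q364 .e))))
noncomputable def q365 : Tr := .c 1 v15 (.c 7 v15 .e)
noncomputable def q366 : Tr := .c 1 v15 .e
noncomputable def r491 : Tr := .c 3 q365 (.c 5 q361 (.c 6 q366 (.c 7 q362 (.c 8 q363 (.c 9 q364 .e)))))
noncomputable def v27 : Tr := .l 0x185186
noncomputable def q367 : Tr := .c 6 v27 (.c 7 v27 .e)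
noncomputable def r492 : Tr := .c 1 q179 (.c 2 q367 (.c 7 q362 (.c 8 q363 (.c 9 q364 .e))))
noncomputable def r493 : Tr := .c 0 q25 (.c 1 q179 (.c 6 q366 (.c 7 q362 (.c 8 q363 (.c 9 q364 .e)))))
noncomputable def t125 : Tr := .c 0 r490 (.c 2 r491 (.c 3 r492 (.c 4 r493 .e)))
noncomputable def q368 : Tr := .c 0 v21 (.c 1 v21 (.c 8 v21 (.c 9 v21 .e)))
noncomputable def q369 : Tr := .c 0 v22 (.c 1 v22 (.c 8 v22 .e))
noncomputable def q370 : Tr := .c 0 v8 (.c 9 v15 .e)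
noncomputable def q371 : Tr := .c 0 v2 .e
noncomputable def q372 : Tr := .c 0 v2 (.c 1 v2 .e)
noncomputable def r494 : Tr := .c 4 q368 (.c 5 q369 (.c 7 q370 (.c 8 q371 (.c 9 q372 .e))))
noncomputable def r495 : Tr := .c 3 q311 (.c 5 q369 (.c 6 q311 (.c 7 q370 (.c 8 q371 (.c 9 q372 .e)))))
noncomputable def r496 : Tr := .c 1 q207 (.c 2 q102 (.c 7 q370 (.c 8 q371 (.c 9 q372 .e))))
noncomputable def r497 : Tr := .c 0 q106 (.c 1 q207 (.c 6 q311 (.c 7 q370 (.c 8 q371 (.c 9 q372 .e)))))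
noncomputable def r498 : Tr := .c 1 q207 (.c 2 q102 (.c 4 q368 (.c 5 q369 (.c 8 q371 (.c 9 q372 .e)))))
noncomputable def t126 : Tr := .c 0 r494 (.c 2 r495 (.c 3 r496 (.c 4 r497 (.c 6 r498 .e))))
noncomputable def r499 : Tr := .c 3 q308 (.c 4 q368 (.c 5 q369 (.c 6 q308 (.c 9 q372 .e))))
noncomputable def r500 : Tr := .c 0 q102 (.c 2 q102 (.c 3 q308 (.c 4 q368 (.c 5 q369 (.c 9 q372 .e)))))
noncomputable def t127 : Tr := .c 0 r494 (.c 1 r499 (.c 2 r495 (.c 3 r496 (.c 4 r497 (.c 6 r498 (.c 7 r500 .e))))))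
noncomputable def q373 : Tr := .c 0 v18 (.c 1 v18 (.c 6 v18 (.c 7 v18 (.c 8 v18 (.c 9 v18 .e)))))
noncomputable def q374 : Tr := .c 1 v18 (.c 8 v18 (.c 9 v18 .e))
noncomputable def r501 : Tr := .c 3 q278 (.c 4 q373 (.c 5 q348 (.c 6 q374 (.c 9 q351 .e))))
noncomputable def q375 : Tr := .c 1 v15 (.c 7 v15 (.c 8 v15 (.c 9 v15 .e)))
noncomputable def q376 : Tr := .c 0 v12 (.c 1 v12 (.c 6 v12 (.c 7 v12 (.c 8 v12 .e))))
noncomputable def q377 : Tr := .c 0 v15 (.c 9 v15 .e)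
noncomputable def q378 : Tr := .c 0 v15 (.c 6 v15 .e)
noncomputable def q379 : Tr := .c 0 v15 (.c 1 v15 (.c 6 v15 (.c 7 v15 .e)))
noncomputable def r502 : Tr := .c 3 q375 (.c 5 q376 (.c 6 q311 (.c 7 q377 (.c 8 q378 (.c 9 q379 .e)))))
noncomputable def r503 : Tr := .c 0 q79 (.c 2 q261 (.c 3 q278 (.c 4 q373 (.c 5 q348 (.c 9 q351 .e)))))
noncomputable def r504 : Tr := .c 0 q79 (.c 2 q261 (.c 3 q278 (.c 4 q373 (.c 5 q348 (.c 6 q374 .e)))))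
noncomputable def t128 : Tr := .c 1 r501 (.c 2 r502 (.c 7 r503 (.c 8 r504 .e)))
noncomputable def q380 : Tr := .c 0 v18 (.c 1 v18 (.c 6 v18 (.c 7 v18 .e)))
noncomputable def q381 : Tr := .c 0 v20 (.c 1 v20 (.c 6 v20 (.c 7 v20 .e)))
noncomputable def q382 : Tr := .c 1 v18 .e
noncomputable def r505 : Tr := .c 3 q300 (.c 4 q380 (.c 5 q381 (.c 6 q382 (.c 9 q351 .e))))
noncomputable def r506 : Tr := .c 3 q365 (.c 5 q361 (.c 6 q366 (.c 7 q362 (.c 8 q378 (.c 9 q379 .e)))))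
noncomputable def q383 : Tr := .c 6 v15 .e
noncomputable def r507 : Tr := .c 0 q305 (.c 1 q383 (.c 6 q366 (.c 7 q362 (.c 8 q378 (.c 9 q379 .e)))))
noncomputable def r508 : Tr := .c 0 q61 (.c 2 q244 (.c 3 q300 (.c 4 q380 (.c 5 q381 (.c 6 q382 .e)))))
noncomputable def t129 : Tr := .c 1 r505 (.c 2 r506 (.c 4 r507 (.c 8 r508 .e)))
noncomputable def q384 : Tr := .c 6 v26 (.c 9 v15 .e)
noncomputable def r509 : Tr := .c 1 q384 (.c 2 q215 (.c 7 q370 .e))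
noncomputable def q385 : Tr := .c 7 v21 (.c 8 v15 (.c 9 v15 .e))
noncomputable def r510 : Tr := .c 0 q385 (.c 1 q384 (.c 6 q311 (.c 7 q370 .e)))
noncomputable def q386 : Tr := .c 0 v21 (.c 1 v21 (.c 6 v21 (.c 7 v21 (.c 8 v21 (.c 9 v21 .e)))))
noncomputable def q387 : Tr := .c 0 v22 (.c 1 v22 (.c 6 v22 (.c 7 v22 (.c 8 v22 .e))))
noncomputable def r511 : Tr := .c 1 q384 (.c 2 q215 (.c 4 q386 (.c 5 q387 .e)))
noncomputable def t130 : Tr := .c 3 r509 (.c 4 r510 (.c 6 r511 .e))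
noncomputable def v28 : Tr := .l 0x186146
noncomputable def q388 : Tr := .c 0 v28 .e
noncomputable def r512 : Tr := .c 1 q353 (.c 2 q221 (.c 7 q388 .e))
noncomputable def r513 : Tr := .c 1 q353 (.c 2 q221 (.c 4 q347 (.c 5 q348 .e)))
noncomputable def r514 : Tr := .c 0 q44 (.c 2 q221 (.c 3 q289 (.c 4 q347 (.c 5 q348 .e))))
noncomputable def t131 : Tr := .c 3 r512 (.c 6 r513 (.c 7 r514 (.c 8 r483 .e)))
noncomputable def r515 : Tr := .c 4 q347 (.c 5 q348 (.c 7 q349 .e))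
noncomputable def r516 : Tr := .c 3 q289 (.c 4 q347 (.c 5 q348 (.c 6 q352 .e)))
noncomputable def t132 : Tr := .c 0 r515 (.c 1 r516 (.c 6 r513 (.c 7 r514 (.c 8 r483 .e))))
noncomputable def r517 : Tr := .c 4 q354 (.c 5 q355 (.c 7 q356 .e))
noncomputable def r518 : Tr := .c 3 q293 (.c 4 q354 (.c 5 q355 (.c 6 q296 .e)))
noncomputable def r519 : Tr := .c 3 q297 (.c 5 q355 (.c 6 q298 (.c 7 q356 .e)))
noncomputable def r520 : Tr := .c 1 q359 (.c 2 q251 (.c 4 q354 (.c 5 q355 .e)))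
noncomputable def r521 : Tr := .c 0 q95 (.c 2 q251 (.c 3 q293 (.c 4 q354 (.c 5 q355 .e))))
noncomputable def t133 : Tr := .c 0 r517 (.c 1 r518 (.c 2 r519 (.c 6 r520 (.c 7 r521 (.c 8 r489 .e)))))
noncomputable def r522 : Tr := .c 4 q368 (.c 5 q369 (.c 7 q370 .e))
noncomputable def r523 : Tr := .c 3 q311 (.c 5 q369 (.c 6 q311 (.c 7 q370 .e)))
noncomputable def r524 : Tr := .c 1 q207 (.c 2 q102 (.c 7 q370 .e))
noncomputable def r525 : Tr := .c 0 q106 (.c 1 q207 (.c 6 q311 (.c 7 q370 .e)))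
noncomputable def r526 : Tr := .c 1 q207 (.c 2 q102 (.c 4 q368 (.c 5 q369 .e)))
noncomputable def t134 : Tr := .c 0 r522 (.c 2 r523 (.c 3 r524 (.c 4 r525 (.c 6 r526 .e))))
noncomputable def r527 : Tr := .c 3 q308 (.c 4 q368 (.c 5 q369 (.c 6 q308 .e)))
noncomputable def r528 : Tr := .c 0 q102 (.c 2 q102 (.c 3 q308 (.c 4 q368 (.c 5 q369 .e))))
noncomputable def t135 : Tr := .c 0 r522 (.c 1 r527 (.c 2 r523 (.c 3 r524 (.c 4 r525 (.c 6 r526 (.c 7 r528 .e))))))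
noncomputable def q389 : Tr := .c 6 v21 (.c 9 v8 .e)
noncomputable def q390 : Tr := .c 0 v7 (.c 9 v8 .e)
noncomputable def r529 : Tr := .c 0 q11 (.c 1 q389 (.c 6 q336 (.c 7 q390 .e)))
noncomputable def r530 : Tr := .c 0 q79 (.c 2 q261 (.c 3 q278 (.c 4 q373 (.c 5 q348 .e))))
noncomputable def t136 : Tr := .c 4 r529 (.c 7 r530 (.c 8 r504 .e))
noncomputable def r531 : Tr := .c 3 q278 (.c 4 q373 (.c 5 q348 (.c 6 q374 .e)))
noncomputable def r532 : Tr := .c 3 q375 (.c 5 q376 (.c 6 q311 (.c 7 q377 .e)))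
noncomputable def t137 : Tr := .c 1 r531 (.c 2 r532 (.c 7 r530 (.c 8 r504 .e)))
noncomputable def q391 : Tr := .c 6 v15 (.c 9 v15 .e)
noncomputable def r533 : Tr := .c 0 q346 (.c 1 q391 (.c 8 q378 (.c 9 q379 .e)))
noncomputable def t138 : Tr := .c 4 r533 (.c 7 r503 (.c 8 r530 .e))
noncomputable def r534 : Tr := .c 1 q353 (.c 2 q221 (.c 8 q350 (.c 9 q351 .e)))
noncomputable def t139 : Tr := .c 3 r534 (.c 6 r481 (.c 7 r482 (.c 8 r514 .e)))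
noncomputable def r535 : Tr := .c 3 q278 (.c 4 q373 (.c 5 q348 (.c 9 q351 .e)))
noncomputable def r536 : Tr := .c 3 q375 (.c 5 q376 (.c 8 q378 (.c 9 q379 .e)))
noncomputable def t140 : Tr := .c 1 r535 (.c 2 r536 (.c 7 r503 (.c 8 r530 .e)))
noncomputable def r537 : Tr := .c 4 q347 (.c 5 q348 (.c 8 q350 (.c 9 q351 .e)))
noncomputable def r538 : Tr := .c 3 q289 (.c 4 q347 (.c 5 q348 (.c 9 q351 .e)))
noncomputable def t141 : Tr := .c 0 r537 (.c 1 r538 (.c 6 r481 (.c 7 r482 (.c 8 r514 .e))))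
noncomputable def r539 : Tr := .c 4 q354 (.c 5 q355 (.c 8 q357 (.c 9 q358 .e)))
noncomputable def r540 : Tr := .c 3 q293 (.c 4 q354 (.c 5 q355 (.c 9 q358 .e)))
noncomputable def r541 : Tr := .c 3 q297 (.c 5 q355 (.c 8 q357 (.c 9 q358 .e)))
noncomputable def t142 : Tr := .c 0 r539 (.c 1 r540 (.c 2 r541 (.c 6 r487 (.c 7 r488 (.c 8 r521 .e)))))
noncomputable def r542 : Tr := .c 3 q300 (.c 4 q380 (.c 5 q381 (.c 9 q351 .e)))
noncomputable def r543 : Tr := .c 3 q365 (.c 5 q361 (.c 8 q378 (.c 9 q379 .e)))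
noncomputable def r544 : Tr := .c 0 q305 (.c 1 q383 (.c 8 q378 (.c 9 q379 .e)))
noncomputable def r545 : Tr := .c 0 q61 (.c 2 q244 (.c 3 q300 (.c 4 q380 (.c 5 q381 .e))))
noncomputable def t143 : Tr := .c 1 r542 (.c 2 r543 (.c 4 r544 (.c 8 r545 .e)))
noncomputable def r546 : Tr := .c 0 q79 (.c 3 q278 (.c 5 q348 (.c 9 q351 .e)))
noncomputable def r547 : Tr := .c 0 q79 (.c 3 q278 (.c 5 q348 .e))
noncomputable def t144 : Tr := .c 4 r533 (.c 7 r546 (.c 8 r547 .e))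
noncomputable def r548 : Tr := .c 1 q391 (.c 8 q378 (.c 9 q379 .e))
noncomputable def r549 : Tr := .c 1 q391 (.c 5 q376 (.c 8 q378 (.c 9 q379 .e)))
noncomputable def t145 : Tr := .c 3 r548 (.c 4 r533 (.c 6 r549 .e))
noncomputable def r550 : Tr := .c 1 q353 (.c 8 q350 (.c 9 q351 .e))
noncomputable def r551 : Tr := .c 1 q353 (.c 5 q348 (.c 8 q350 (.c 9 q351 .e)))
noncomputable def r552 : Tr := .c 0 q44 (.c 3 q289 (.c 5 q348 (.c 9 q351 .e)))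
noncomputable def r553 : Tr := .c 0 q44 (.c 3 q289 (.c 5 q348 .e))
noncomputable def t146 : Tr := .c 3 r550 (.c 6 r551 (.c 7 r552 (.c 8 r553 .e)))
noncomputable def r554 : Tr := .c 3 q278 (.c 5 q348 (.c 9 q351 .e))
noncomputable def t147 : Tr := .c 1 r554 (.c 2 r536 (.c 7 r546 (.c 8 r547 .e)))
noncomputable def r555 : Tr := .c 5 q348 (.c 8 q350 (.c 9 q351 .e))
noncomputable def r556 : Tr := .c 3 q289 (.c 5 q348 (.c 9 q351 .e))
noncomputable def t148 : Tr := .c 0 r555 (.c 1 r556 (.c 6 r551 (.c 7 r552 (.c 8 r553 .e))))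
noncomputable def r557 : Tr := .c 3 q300 (.c 5 q381 (.c 9 q351 .e))
noncomputable def r558 : Tr := .c 0 q61 (.c 3 q300 (.c 5 q381 .e))
noncomputable def t149 : Tr := .c 1 r557 (.c 2 r543 (.c 4 r544 (.c 8 r558 .e)))
noncomputable def r559 : Tr := .c 5 q361 (.c 8 q378 (.c 9 q379 .e))
noncomputable def r560 : Tr := .c 1 q383 (.c 8 q378 (.c 9 q379 .e))
noncomputable def t150 : Tr := .c 0 r559 (.c 2 r543 (.c 3 r560 (.c 4 r544 .e)))
noncomputable def q392 : Tr := .c 0 v9 (.c 1 v9 (.c 2 v9 (.c 6 v9 (.c 7 v9 (.c 8 v9 .e)))))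
noncomputable def q393 : Tr := .c 0 v16 (.c 2 v16 .e)
noncomputable def q394 : Tr := .c 0 v25 (.c 2 v25 (.c 6 v25 .e))
noncomputable def q395 : Tr := .c 0 v25 (.c 1 v25 (.c 2 v25 (.c 6 v25 (.c 7 v25 .e))))
noncomputable def r561 : Tr := .c 4 q348 (.c 5 q392 (.c 7 q393 (.c 8 q394 (.c 9 q395 .e))))
noncomputable def q396 : Tr := .c 1 v20 (.c 2 v16 (.c 8 v20 .e))
noncomputable def r562 : Tr := .c 3 q279 (.c 4 q348 (.c 5 q392 (.c 6 q396 (.c 9 q395 .e))))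
noncomputable def r563 : Tr := .c 1 q149 (.c 2 q222 (.c 4 q348 (.c 5 q392 (.c 8 q394 (.c 9 q395 .e)))))
noncomputable def r564 : Tr := .c 0 q80 (.c 2 q222 (.c 3 q279 (.c 4 q348 (.c 5 q392 (.c 9 q395 .e)))))
noncomputable def r565 : Tr := .c 0 q80 (.c 2 q222 (.c 3 q279 (.c 4 q348 (.c 5 q392 (.c 6 q396 .e)))))
noncomputable def r566 : Tr := .c 0 q80 (.c 1 q204 (.c 2 q222 (.c 3 q279 (.c 4 q348 (.c 6 q396 (.c 7 q393 .e))))))
noncomputable def t151 : Tr := .c 0 r561 (.c 1 r562 (.c 6 r563 (.c 7 r564 (.c 8 r565 (.c 9 r566 .e)))))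
noncomputable def q397 : Tr := .c 0 v9 (.c 1 v9 (.c 6 v9 (.c 7 v9 (.c 8 v9 .e))))
noncomputable def q398 : Tr := .c 0 v25 (.c 1 v25 (.c 6 v25 (.c 7 v25 (.c 8 v25 .e))))
noncomputable def q399 : Tr := .c 0 v2 (.c 6 v2 .e)
noncomputable def q400 : Tr := .c 0 v2 (.c 1 v2 (.c 6 v2 (.c 7 v2 .e)))
noncomputable def r567 : Tr := .c 4 q397 (.c 5 q398 (.c 7 q371 (.c 8 q399 (.c 9 q400 .e))))
noncomputable def q401 : Tr := .c 1 v9 (.c 7 v9 (.c 8 v9 .e))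
noncomputable def q402 : Tr := .c 1 v9 (.c 8 v9 .e)
noncomputable def r568 : Tr := .c 3 q401 (.c 4 q397 (.c 5 q398 (.c 6 q402 (.c 9 q400 .e))))
noncomputable def q403 : Tr := .c 6 v9 (.c 7 v9 (.c 8 v9 .e))
noncomputable def r569 : Tr := .c 1 q194 (.c 2 q403 (.c 4 q397 (.c 5 q398 (.c 8 q399 (.c 9 q400 .e)))))
noncomputable def q404 : Tr := .c 7 v9 (.c 8 v9 .e)
noncomputable def r570 : Tr := .c 0 q404 (.c 2 q403 (.c 3 q401 (.c 4 q397 (.c 5 q398 (.c 9 q400 .e)))))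
noncomputable def r571 : Tr := .c 0 q404 (.c 2 q403 (.c 3 q401 (.c 4 q397 (.c 5 q398 (.c 6 q402 .e)))))
noncomputable def t152 : Tr := .c 0 r567 (.c 1 r568 (.c 6 r569 (.c 7 r570 (.c 8 r571 .e))))
noncomputable def q405 : Tr := .c 0 v5 (.c 1 v5 (.c 6 v5 (.c 7 v5 .e)))
noncomputable def q406 : Tr := .c 0 v2 (.c 1 v2 (.c 2 v2 (.c 6 v2 (.c 7 v2 .e))))
noncomputable def q407 : Tr := .c 0 v4 (.c 2 v4 .e)
noncomputable def q408 : Tr := .c 0 v4 (.c 2 v4 (.c 6 v4 .e))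
noncomputable def q409 : Tr := .c 0 v4 (.c 1 v4 (.c 2 v4 (.c 6 v4 (.c 7 v4 .e))))
noncomputable def r572 : Tr := .c 4 q405 (.c 5 q406 (.c 7 q407 (.c 8 q408 (.c 9 q409 .e))))
noncomputable def q410 : Tr := .c 6 v25 (.c 7 v25 .e)
noncomputable def r573 : Tr := .c 1 q136 (.c 2 q410 (.c 7 q407 (.c 8 q408 (.c 9 q409 .e))))
noncomputable def q411 : Tr := .c 6 v8 (.c 7 v8 .e)
noncomputable def q412 : Tr := .c 0 v2 (.c 2 v2 .e)
noncomputable def q413 : Tr := .c 0 v2 (.c 2 v2 (.c 6 v2 .e))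
noncomputable def r574 : Tr := .c 0 q334 (.c 1 q194 (.c 2 q411 (.c 6 q328 (.c 7 q412 (.c 8 q413 .e)))))
noncomputable def q414 : Tr := .c 6 v5 (.c 7 v5 .e)
noncomputable def q415 : Tr := .c 1 v5 (.c 2 v25 (.c 7 v5 .e))
noncomputable def q416 : Tr := .c 1 v5 (.c 2 v25 .e)
noncomputable def q417 : Tr := .c 0 v25 (.c 2 v25 .e)
noncomputable def r575 : Tr := .c 0 q331 (.c 1 q149 (.c 2 q414 (.c 3 q415 (.c 4 q405 (.c 6 q416 (.c 7 q417 .e))))))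
noncomputable def t153 : Tr := .c 0 r572 (.c 3 r573 (.c 5 r574 (.c 9 r575 .e)))
noncomputable def q418 : Tr := .c 0 v25 (.c 1 v25 (.c 8 v25 .e))
noncomputable def q419 : Tr := .c 0 v2 (.c 1 v2 (.c 2 v2 (.c 8 v2 .e)))
noncomputable def q420 : Tr := .c 0 v4 (.c 1 v4 (.c 2 v4 .e))
noncomputable def r576 : Tr := .c 4 q418 (.c 5 q419 (.c 7 q407 (.c 8 q407 (.c 9 q420 .e))))
noncomputable def q421 : Tr := .c 8 v25 .e
noncomputable def r577 : Tr := .c 2 q421 (.c 7 q407 (.c 8 q407 (.c 9 q420 .e)))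
noncomputable def q422 : Tr := .c 8 v8 .e
noncomputable def q423 : Tr := .c 1 v8 (.c 2 v2 (.c 8 v8 .e))
noncomputable def r578 : Tr := .c 0 q422 (.c 2 q422 (.c 6 q423 (.c 7 q412 (.c 8 q412 .e))))
noncomputable def r579 : Tr := .c 2 q421 (.c 4 q418 (.c 5 q419 (.c 8 q407 (.c 9 q420 .e))))
noncomputable def t154 : Tr := .c 0 r576 (.c 3 r577 (.c 5 r578 (.c 6 r579 .e)))
noncomputable def q424 : Tr := .c 0 v2 (.c 1 v2 (.c 8 v2 .e))
noncomputable def q425 : Tr := .c 0 v4 .e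
noncomputable def q426 : Tr := .c 0 v4 (.c 1 v4 .e)
noncomputable def r580 : Tr := .c 4 q418 (.c 5 q424 (.c 7 q425 (.c 8 q425 (.c 9 q426 .e))))
noncomputable def q427 : Tr := .c 1 v25 (.c 8 v25 .e)
noncomputable def r581 : Tr := .c 3 q427 (.c 4 q418 (.c 5 q424 (.c 6 q427 (.c 9 q426 .e))))
noncomputable def r582 : Tr := .c 2 q421 (.c 7 q425 (.c 8 q425 (.c 9 q426 .e)))
noncomputable def r583 : Tr := .c 2 q421 (.c 4 q418 (.c 5 q424 (.c 8 q425 (.c 9 q426 .e))))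
noncomputable def r584 : Tr := .c 0 q421 (.c 2 q421 (.c 3 q427 (.c 4 q418 (.c 5 q424 (.c 9 q426 .e)))))
noncomputable def t155 : Tr := .c 0 r580 (.c 1 r581 (.c 3 r582 (.c 6 r583 (.c 7 r584 .e))))
noncomputable def t156 : Tr := .c 1 r562 (.c 7 r564 (.c 8 r565 (.c 9 r566 .e)))
noncomputable def q428 : Tr := .c 0 v9 (.c 1 v9 (.c 2 v9 (.c 6 v9 (.c 7 v9 .e))))
noncomputable def q429 : Tr := .c 1 v20 (.c 2 v16 .e)
noncomputable def r585 : Tr := .c 3 q301 (.c 4 q381 (.c 5 q428 (.c 6 q429 (.c 9 q395 .e))))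
noncomputable def v29 : Tr := .l 0x185146
noncomputable def q430 : Tr := .c 7 v29 .e
noncomputable def q431 : Tr := .c 6 v29 (.c 7 v29 .e)
noncomputable def q432 : Tr := .c 1 v29 (.c 2 v23 .e)
noncomputable def q433 : Tr := .c 0 v23 (.c 2 v23 .e)
noncomputable def q434 : Tr := .c 0 v23 (.c 2 v23 (.c 6 v23 .e))
noncomputable def r586 : Tr := .c 0 q430 (.c 1 q179 (.c 2 q431 (.c 6 q432 (.c 7 q433 (.c 8 q434 .e)))))
noncomputable def r587 : Tr := .c 0 q120 (.c 2 q273 (.c 3 q301 (.c 4 q381 (.c 5 q428 (.c 6 q429 .e)))))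
noncomputable def r588 : Tr := .c 0 q120 (.c 1 q204 (.c 2 q273 (.c 3 q301 (.c 4 q381 (.c 6 q429 (.c 7 q393 .e))))))
noncomputable def t157 : Tr := .c 1 r585 (.c 5 r586 (.c 8 r587 (.c 9 r588 .e)))
noncomputable def q435 : Tr := .c 1 v5 (.c 2 v25 (.c 7 v5 (.c 8 v5 .e)))
noncomputable def q436 : Tr := .c 0 v5 (.c 1 v5 (.c 6 v5 (.c 7 v5 (.c 8 v5 .e))))
noncomputable def q437 : Tr := .c 1 v5 (.c 2 v25 (.c 8 v5 .e))
noncomputable def r589 : Tr := .c 3 q435 (.c 4 q436 (.c 6 q437 .e))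
noncomputable def q438 : Tr := .c 7 v5 (.c 8 v5 .e)
noncomputable def q439 : Tr := .c 6 v5 (.c 7 v5 (.c 8 v5 .e))
noncomputable def r590 : Tr := .c 0 q438 (.c 2 q439 (.c 3 q435 (.c 4 q436 .e)))
noncomputable def r591 : Tr := .c 0 q438 (.c 2 q439 (.c 3 q435 (.c 4 q436 (.c 6 q437 .e))))
noncomputable def r592 : Tr := .c 0 q438 (.c 1 q149 (.c 2 q439 (.c 3 q435 (.c 4 q436 (.c 6 q437 (.c 7 q417 .e))))))
noncomputable def t158 : Tr := .c 1 r589 (.c 7 r590 (.c 8 r591 (.c 9 r592 .e)))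
noncomputable def r593 : Tr := .c 4 q397 (.c 7 q371 (.c 8 q399 .e))
noncomputable def r594 : Tr := .c 3 q401 (.c 4 q397 (.c 6 q402 .e))
noncomputable def r595 : Tr := .c 1 q194 (.c 2 q403 (.c 4 q397 (.c 8 q399 .e)))
noncomputable def r596 : Tr := .c 0 q404 (.c 2 q403 (.c 3 q401 (.c 4 q397 .e)))
noncomputable def r597 : Tr := .c 0 q404 (.c 2 q403 (.c 3 q401 (.c 4 q397 (.c 6 q402 .e))))
noncomputable def t159 : Tr := .c 0 r593 (.c 1 r594 (.c 6 r595 (.c 7 r596 (.c 8 r597 .e))))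
noncomputable def r598 : Tr := .c 3 q415 (.c 4 q405 (.c 6 q416 .e))
noncomputable def r599 : Tr := .c 0 q331 (.c 2 q414 (.c 3 q415 (.c 4 q405 (.c 6 q416 .e))))
noncomputable def t160 : Tr := .c 1 r598 (.c 5 r574 (.c 8 r599 (.c 9 r575 .e)))
noncomputable def r600 : Tr := .c 4 q405 (.c 7 q407 (.c 8 q408 .e))
noncomputable def r601 : Tr := .c 1 q136 (.c 2 q410 (.c 7 q407 (.c 8 q408 .e)))
noncomputable def t161 : Tr := .c 0 r600 (.c 3 r601 (.c 5 r574 (.c 9 r575 .e)))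
noncomputable def r602 : Tr := .c 4 q418 (.c 7 q407 (.c 8 q407 .e))
noncomputable def r603 : Tr := .c 2 q421 (.c 7 q407 (.c 8 q407 .e))
noncomputable def r604 : Tr := .c 2 q421 (.c 4 q418 (.c 8 q407 .e))
noncomputable def t162 : Tr := .c 0 r602 (.c 3 r603 (.c 5 r578 (.c 6 r604 .e)))
noncomputable def r605 : Tr := .c 4 q418 (.c 7 q425 (.c 8 q425 .e))
noncomputable def r606 : Tr := .c 3 q427 (.c 4 q418 (.c 6 q427 .e))
noncomputable def r607 : Tr := .c 2 q421 (.c 7 q425 (.c 8 q425 .e))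
noncomputable def r608 : Tr := .c 2 q421 (.c 4 q418 (.c 8 q425 .e))
noncomputable def r609 : Tr := .c 0 q421 (.c 2 q421 (.c 3 q427 (.c 4 q418 .e)))
noncomputable def t163 : Tr := .c 0 r605 (.c 1 r606 (.c 3 r607 (.c 6 r608 (.c 7 r609 .e))))
noncomputable def q440 : Tr := .c 6 v25 (.c 7 v25 (.c 8 v25 .e))
noncomputable def r610 : Tr := .c 1 q136 (.c 2 q440 (.c 7 q407 .e))
noncomputable def q441 : Tr := .c 7 v8 (.c 8 v8 .e)
noncomputable def q442 : Tr := .c 6 v8 (.c 7 v8 (.c 8 v8 .e))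
noncomputable def r611 : Tr := .c 0 q441 (.c 1 q194 (.c 2 q442 (.c 6 q423 (.c 7 q412 .e))))
noncomputable def q443 : Tr := .c 0 v2 (.c 1 v2 (.c 2 v2 (.c 6 v2 (.c 7 v2 (.c 8 v2 .e)))))
noncomputable def r612 : Tr := .c 1 q136 (.c 2 q440 (.c 4 q398 (.c 5 q443 .e)))
noncomputable def t164 : Tr := .c 3 r610 (.c 5 r611 (.c 6 r612 (.c 9 r592 .e)))
noncomputable def r613 : Tr := .c 1 q149 (.c 2 q222 (.c 7 q417 .e))
noncomputable def q444 : Tr := .c 7 v29 (.c 8 v29 .e)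
noncomputable def q445 : Tr := .c 6 v29 (.c 7 v29 (.c 8 v29 .e))
noncomputable def q446 : Tr := .c 1 v29 (.c 2 v23 (.c 8 v29 .e))
noncomputable def r614 : Tr := .c 0 q444 (.c 1 q179 (.c 2 q445 (.c 6 q446 (.c 7 q433 .e))))
noncomputable def r615 : Tr := .c 1 q149 (.c 2 q222 (.c 4 q348 (.c 5 q392 .e)))
noncomputable def r616 : Tr := .c 0 q80 (.c 2 q222 (.c 3 q279 (.c 4 q348 (.c 5 q392 .e))))
noncomputable def t165 : Tr := .c 3 r613 (.c 5 r614 (.c 6 r615 (.c 7 r616 (.c 8 r565 (.c 9 r566 .e)))))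
noncomputable def r617 : Tr := .c 4 q348 (.c 5 q392 (.c 7 q393 .e))
noncomputable def r618 : Tr := .c 3 q279 (.c 4 q348 (.c 5 q392 (.c 6 q396 .e)))
noncomputable def t166 : Tr := .c 0 r617 (.c 1 r618 (.c 6 r615 (.c 7 r616 (.c 8 r565 (.c 9 r566 .e)))))
noncomputable def r619 : Tr := .c 4 q397 (.c 5 q398 (.c 7 q371 .e))
noncomputable def r620 : Tr := .c 3 q401 (.c 4 q397 (.c 5 q398 (.c 6 q402 .e)))
noncomputable def r621 : Tr := .c 1 q194 (.c 2 q403 (.c 4 q397 (.c 5 q398 .e)))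
noncomputable def r622 : Tr := .c 0 q404 (.c 2 q403 (.c 3 q401 (.c 4 q397 (.c 5 q398 .e))))
noncomputable def t167 : Tr := .c 0 r619 (.c 1 r620 (.c 6 r621 (.c 7 r622 (.c 8 r571 .e))))
noncomputable def r623 : Tr := .c 4 q418 (.c 5 q419 (.c 7 q407 .e))
noncomputable def r624 : Tr := .c 2 q421 (.c 7 q407 .e)
noncomputable def r625 : Tr := .c 0 q422 (.c 2 q422 (.c 6 q423 (.c 7 q412 .e)))
noncomputable def r626 : Tr := .c 2 q421 (.c 4 q418 (.c 5 q419 .e))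
noncomputable def t168 : Tr := .c 0 r623 (.c 3 r624 (.c 5 r625 (.c 6 r626 .e)))
noncomputable def r627 : Tr := .c 4 q418 (.c 5 q424 (.c 7 q425 .e))
noncomputable def r628 : Tr := .c 3 q427 (.c 4 q418 (.c 5 q424 (.c 6 q427 .e)))
noncomputable def r629 : Tr := .c 2 q421 (.c 7 q425 .e)
noncomputable def r630 : Tr := .c 2 q421 (.c 4 q418 (.c 5 q424 .e))
noncomputable def r631 : Tr := .c 0 q421 (.c 2 q421 (.c 3 q427 (.c 4 q418 (.c 5 q424 .e))))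
noncomputable def t169 : Tr := .c 0 r627 (.c 1 r628 (.c 3 r629 (.c 6 r630 (.c 7 r631 .e))))
noncomputable def t170 : Tr := .c 5 r614 (.c 7 r616 (.c 8 r565 (.c 9 r566 .e)))
noncomputable def t171 : Tr := .c 1 r618 (.c 7 r616 (.c 8 r565 (.c 9 r566 .e)))
noncomputable def q447 : Tr := .c 7 v29 (.c 8 v18 .e)
noncomputable def q448 : Tr := .c 6 v29 (.c 7 v29 (.c 8 v18 .e))
noncomputable def r632 : Tr := .c 0 q447 (.c 1 q179 (.c 2 q448 (.c 8 q434 .e)))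
noncomputable def r633 : Tr := .c 0 q80 (.c 1 q204 (.c 2 q222 (.c 3 q279 (.c 4 q348 .e))))
noncomputable def t172 : Tr := .c 5 r632 (.c 7 r564 (.c 8 r616 (.c 9 r633 .e)))
noncomputable def r634 : Tr := .c 1 q149 (.c 2 q222 (.c 8 q394 (.c 9 q395 .e)))
noncomputable def t173 : Tr := .c 3 r634 (.c 5 r632 (.c 6 r563 (.c 7 r564 (.c 8 r616 (.c 9 r633 .e)))))
noncomputable def r635 : Tr := .c 3 q279 (.c 4 q348 (.c 5 q392 (.c 9 q395 .e)))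
noncomputable def t174 : Tr := .c 1 r635 (.c 7 r564 (.c 8 r616 (.c 9 r633 .e)))
noncomputable def r636 : Tr := .c 4 q348 (.c 5 q392 (.c 8 q394 (.c 9 q395 .e)))
noncomputable def t175 : Tr := .c 0 r636 (.c 1 r635 (.c 6 r563 (.c 7 r564 (.c 8 r616 (.c 9 r633 .e)))))
noncomputable def r637 : Tr := .c 4 q397 (.c 5 q398 (.c 8 q399 (.c 9 q400 .e)))
noncomputable def r638 : Tr := .c 3 q401 (.c 4 q397 (.c 5 q398 (.c 9 q400 .e)))
noncomputable def t176 : Tr := .c 0 r637 (.c 1 r638 (.c 6 r569 (.c 7 r570 (.c 8 r622 .e))))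
noncomputable def r639 : Tr := .c 3 q301 (.c 4 q381 (.c 5 q428 (.c 9 q395 .e)))
noncomputable def r640 : Tr := .c 0 q430 (.c 1 q179 (.c 2 q431 (.c 8 q434 .e)))
noncomputable def r641 : Tr := .c 0 q120 (.c 2 q273 (.c 3 q301 (.c 4 q381 (.c 5 q428 .e))))
noncomputable def r642 : Tr := .c 0 q120 (.c 1 q204 (.c 2 q273 (.c 3 q301 (.c 4 q381 .e))))
noncomputable def t177 : Tr := .c 1 r639 (.c 5 r640 (.c 8 r641 (.c 9 r642 .e)))
noncomputable def q449 : Tr := .c 1 v18 (.c 2 v23 (.c 4 v23 (.c 5 v12 (.c 8 v18 (.c 9 v18 .e)))))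
noncomputable def q450 : Tr := .c 1 v21 (.c 2 v23 (.c 4 v23 .e))
noncomputable def r643 : Tr := .c 3 q280 (.c 4 q374 (.c 5 q396 (.c 6 q449 (.c 9 q450 .e))))
noncomputable def q451 : Tr := .c 1 v12 (.c 2 v19 (.c 8 v12 .e))
noncomputable def q452 : Tr := .c 1 v15 (.c 2 v14 (.c 4 v14 (.c 5 v13 (.c 8 v15 (.c 9 v15 .e)))))
noncomputable def q453 : Tr := .c 2 v14 (.c 4 v14 (.c 5 v13 (.c 9 v15 .e)))
noncomputable def q454 : Tr := .c 2 v14 (.c 4 v14 (.c 5 v13 .e))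
noncomputable def q455 : Tr := .c 1 v15 (.c 2 v14 (.c 4 v14 .e))
noncomputable def r644 : Tr := .c 3 q284 (.c 5 q451 (.c 6 q452 (.c 7 q453 (.c 8 q454 (.c 9 q455 .e)))))
noncomputable def q456 : Tr := .c 4 v23 (.c 5 v17 (.c 8 v18 (.c 9 v18 .e)))
noncomputable def r645 : Tr := .c 0 q456 (.c 2 q262 (.c 3 q280 (.c 4 q374 (.c 5 q396 (.c 9 q450 .e)))))
noncomputable def t178 : Tr := .c 1 r643 (.c 2 r644 (.c 7 r645 .e))
noncomputable def q457 : Tr := .c 2 v23 (.c 4 v23 .e)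
noncomputable def r646 : Tr := .c 4 q352 (.c 5 q396 (.c 7 q457 (.c 8 q457 (.c 9 q450 .e))))
noncomputable def q458 : Tr := .c 1 v18 (.c 2 v23 (.c 4 v23 (.c 8 v18 .e)))
noncomputable def r647 : Tr := .c 3 q292 (.c 4 q352 (.c 5 q396 (.c 6 q458 (.c 9 q450 .e))))
noncomputable def r648 : Tr := .c 1 q116 (.c 2 q223 (.c 4 q352 (.c 5 q396 (.c 8 q457 (.c 9 q450 .e)))))
noncomputable def q459 : Tr := .c 4 v23 (.c 8 v18 .e)
noncomputable def r649 : Tr := .c 0 q459 (.c 2 q223 (.c 3 q292 (.c 4 q352 (.c 5 q396 (.c 9 q450 .e)))))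
noncomputable def t179 : Tr := .c 0 r646 (.c 1 r647 (.c 6 r648 (.c 7 r649 .e)))
noncomputable def q460 : Tr := .c 1 v21 (.c 8 v21 .e)
noncomputable def q461 : Tr := .c 1 v22 .e
noncomputable def r650 : Tr := .c 4 q296 (.c 5 q460 (.c 7 q97 (.c 8 q118 (.c 9 q461 .e))))
noncomputable def q462 : Tr := .c 1 v20 (.c 5 v18 (.c 8 v20 (.c 9 v20 .e)))
noncomputable def r651 : Tr := .c 3 q296 (.c 4 q296 (.c 5 q460 (.c 6 q462 (.c 9 q461 .e))))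
noncomputable def q463 : Tr := .c 1 v12 (.c 5 v15 (.c 8 v12 (.c 9 v12 .e)))
noncomputable def r652 : Tr := .c 3 q298 (.c 5 q460 (.c 6 q463 (.c 7 q97 (.c 8 q118 (.c 9 q461 .e)))))
noncomputable def r653 : Tr := .c 1 q97 (.c 2 q98 (.c 4 q296 (.c 5 q460 (.c 8 q118 (.c 9 q461 .e)))))
noncomputable def r654 : Tr := .c 0 q98 (.c 2 q98 (.c 3 q296 (.c 4 q296 (.c 5 q460 (.c 9 q461 .e)))))
noncomputable def t180 : Tr := .c 0 r650 (.c 1 r651 (.c 2 r652 (.c 6 r653 (.c 7 r654 .e))))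
noncomputable def q464 : Tr := .c 1 v18 (.c 2 v23 (.c 4 v23 (.c 5 v12 .e)))
noncomputable def r655 : Tr := .c 3 q302 (.c 4 q382 (.c 5 q429 (.c 6 q464 (.c 9 q450 .e))))
noncomputable def q465 : Tr := .c 1 v12 (.c 2 v19 .e)
noncomputable def q466 : Tr := .c 1 v15 (.c 2 v14 (.c 4 v14 (.c 5 v13 .e)))
noncomputable def r656 : Tr := .c 3 q304 (.c 5 q465 (.c 6 q466 (.c 7 q454 (.c 8 q454 (.c 9 q455 .e)))))
noncomputable def r657 : Tr := .c 0 q41 (.c 1 q41 (.c 6 q466 (.c 7 q454 (.c 8 q454 (.c 9 q455 .e)))))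
noncomputable def q467 : Tr := .c 1 v24 (.c 2 v19 (.c 4 v19 (.c 5 v15 .e)))
noncomputable def q468 : Tr := .c 2 v19 (.c 4 v19 (.c 5 v15 .e))
noncomputable def r658 : Tr := .c 0 q62 (.c 1 q62 (.c 2 q118 (.c 6 q467 (.c 7 q468 (.c 8 q468 .e)))))
noncomputable def t181 : Tr := .c 1 r655 (.c 2 r656 (.c 4 r657 (.c 5 r658 .e)))
noncomputable def q469 : Tr := .c 5 v6 (.c 9 v15 .e)
noncomputable def q470 : Tr := .c 5 v6 .e
noncomputable def r659 : Tr := .c 4 q308 (.c 5 q309 (.c 7 q469 (.c 8 q470 (.c 9 q310 .e))))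
noncomputable def q471 : Tr := .c 1 v21 (.c 5 v5 (.c 8 v21 (.c 9 v21 .e)))
noncomputable def r660 : Tr := .c 3 q308 (.c 4 q308 (.c 5 q309 (.c 6 q471 (.c 9 q310 .e))))
noncomputable def q472 : Tr := .c 1 v15 (.c 5 v6 (.c 8 v15 (.c 9 v15 .e)))
noncomputable def r661 : Tr := .c 3 q311 (.c 5 q309 (.c 6 q472 (.c 7 q469 (.c 8 q470 (.c 9 q310 .e)))))
noncomputable def q473 : Tr := .c 5 v5 (.c 8 v21 (.c 9 v21 .e))
noncomputable def r662 : Tr := .c 1 q469 (.c 2 q473 (.c 7 q469 (.c 8 q470 (.c 9 q310 .e))))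
noncomputable def q474 : Tr := .c 5 v6 (.c 8 v15 (.c 9 v15 .e))
noncomputable def r663 : Tr := .c 0 q474 (.c 1 q469 (.c 6 q472 (.c 7 q469 (.c 8 q470 (.c 9 q310 .e)))))
noncomputable def r664 : Tr := .c 1 q469 (.c 2 q473 (.c 4 q308 (.c 5 q309 (.c 8 q470 (.c 9 q310 .e)))))
noncomputable def r665 : Tr := .c 0 q473 (.c 2 q473 (.c 3 q308 (.c 4 q308 (.c 5 q309 (.c 9 q310 .e)))))
noncomputable def t182 : Tr := .c 0 r659 (.c 1 r660 (.c 2 r661 (.c 3 r662 (.c 4 r663 (.c 6 r664 (.c 7 r665 .e))))))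
noncomputable def q475 : Tr := .c 1 v8 (.c 2 v2 (.c 4 v2 (.c 5 v6 (.c 8 v8 (.c 9 v8 .e)))))
noncomputable def r666 : Tr := .c 3 q314 (.c 4 q336 (.c 6 q475 .e))
noncomputable def q476 : Tr := .c 1 v3 (.c 2 v0 (.c 4 v0 (.c 5 v1 (.c 8 v3 (.c 9 v3 .e)))))
noncomputable def q477 : Tr := .c 2 v0 (.c 4 v0 (.c 5 v1 (.c 9 v3 .e)))
noncomputable def q478 : Tr := .c 2 v0 (.c 4 v0 (.c 5 v1 .e))
noncomputable def r667 : Tr := .c 3 q316 (.c 6 q476 (.c 7 q477 (.c 8 q478 .e)))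
noncomputable def q479 : Tr := .c 4 v2 (.c 5 v5 (.c 8 v8 (.c 9 v8 .e)))
noncomputable def q480 : Tr := .c 5 v5 (.c 8 v8 (.c 9 v8 .e))
noncomputable def r668 : Tr := .c 0 q479 (.c 2 q480 (.c 3 q314 (.c 4 q336 .e)))
noncomputable def t183 : Tr := .c 1 r666 (.c 2 r667 (.c 7 r668 .e))
noncomputable def q481 : Tr := .c 5 v3 .e
noncomputable def r669 : Tr := .c 4 q322 (.c 7 q199 (.c 8 q481 .e))
noncomputable def q482 : Tr := .c 1 v5 (.c 5 v8 (.c 8 v5 (.c 9 v5 .e)))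
noncomputable def r670 : Tr := .c 3 q322 (.c 4 q322 (.c 6 q482 .e))
noncomputable def q483 : Tr := .c 1 v6 (.c 5 v3 (.c 8 v6 (.c 9 v6 .e)))
noncomputable def r671 : Tr := .c 3 q324 (.c 6 q483 (.c 7 q199 (.c 8 q481 .e)))
noncomputable def q484 : Tr := .c 5 v8 (.c 8 v5 (.c 9 v5 .e))
noncomputable def r672 : Tr := .c 1 q199 (.c 2 q484 (.c 4 q322 (.c 8 q481 .e)))
noncomputable def r673 : Tr := .c 0 q484 (.c 2 q484 (.c 3 q322 (.c 4 q322 .e)))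
noncomputable def t184 : Tr := .c 0 r669 (.c 1 r670 (.c 2 r671 (.c 6 r672 (.c 7 r673 .e))))
noncomputable def q485 : Tr := .c 1 v8 .e
noncomputable def q486 : Tr := .c 1 v8 (.c 2 v2 (.c 4 v2 (.c 5 v6 .e)))
noncomputable def r674 : Tr := .c 3 q328 (.c 4 q485 (.c 6 q486 .e))
noncomputable def q487 : Tr := .c 1 v3 (.c 2 v0 (.c 4 v0 (.c 5 v1 .e)))
noncomputable def r675 : Tr := .c 3 q330 (.c 6 q487 (.c 7 q478 (.c 8 q478 .e)))
noncomputable def r676 : Tr := .c 0 q3 (.c 1 q3 (.c 6 q487 (.c 7 q478 (.c 8 q478 .e))))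
noncomputable def q488 : Tr := .c 1 v6 (.c 2 v4 (.c 4 v4 (.c 5 v3 .e)))
noncomputable def q489 : Tr := .c 2 v4 (.c 4 v4 (.c 5 v3 .e))
noncomputable def r677 : Tr := .c 0 q8 (.c 1 q8 (.c 2 q481 (.c 6 q488 (.c 7 q489 (.c 8 q489 .e)))))
noncomputable def t185 : Tr := .c 1 r674 (.c 2 r675 (.c 4 r676 (.c 5 r677 .e)))
noncomputable def r678 : Tr := .c 4 q485 (.c 7 q478 (.c 8 q478 .e))
noncomputable def r679 : Tr := .c 1 q3 (.c 2 q470 (.c 7 q478 (.c 8 q478 .e)))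
noncomputable def t186 : Tr := .c 0 r678 (.c 2 r675 (.c 3 r679 (.c 4 r676 (.c 5 r677 .e))))
noncomputable def r680 : Tr := .c 4 q336 (.c 7 q477 (.c 8 q478 .e))
noncomputable def r681 : Tr := .c 1 q1 (.c 2 q28 (.c 7 q477 (.c 8 q478 .e)))
noncomputable def r682 : Tr := .c 0 q2 (.c 1 q1 (.c 6 q476 (.c 7 q477 (.c 8 q478 .e))))
noncomputable def q490 : Tr := .c 1 v6 (.c 2 v4 (.c 4 v4 (.c 5 v3 (.c 8 v6 (.c 9 v6 .e)))))
noncomputable def q491 : Tr := .c 2 v4 (.c 4 v4 (.c 5 v3 (.c 9 v6 .e)))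
noncomputable def r683 : Tr := .c 0 q7 (.c 1 q5 (.c 2 q29 (.c 6 q490 (.c 7 q491 (.c 8 q489 .e)))))
noncomputable def r684 : Tr := .c 1 q1 (.c 2 q28 (.c 4 q336 (.c 8 q478 .e)))
noncomputable def t187 : Tr := .c 0 r680 (.c 2 r667 (.c 3 r681 (.c 4 r682 (.c 5 r683 (.c 6 r684 .e)))))
noncomputable def r685 : Tr := .c 4 q336 (.c 7 q30 (.c 8 q31 .e))
noncomputable def q492 : Tr := .c 1 v8 (.c 5 v6 (.c 8 v8 (.c 9 v8 .e)))
noncomputable def r686 : Tr := .c 3 q336 (.c 4 q336 (.c 6 q492 .e))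
noncomputable def q493 : Tr := .c 1 v3 (.c 5 v1 (.c 8 v3 (.c 9 v3 .e)))
noncomputable def r687 : Tr := .c 3 q340 (.c 6 q493 (.c 7 q30 (.c 8 q31 .e)))
noncomputable def r688 : Tr := .c 0 q32 (.c 1 q30 (.c 6 q493 (.c 7 q30 (.c 8 q31 .e))))
noncomputable def r689 : Tr := .c 1 q30 (.c 2 q28 (.c 4 q336 (.c 8 q31 .e)))
noncomputable def r690 : Tr := .c 0 q28 (.c 2 q28 (.c 3 q336 (.c 4 q336 .e)))
noncomputable def t188 : Tr := .c 0 r685 (.c 1 r686 (.c 2 r687 (.c 3 r24 (.c 4 r688 (.c 6 r689 (.c 7 r690 .e))))))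
noncomputable def t189 : Tr := .c 4 r682 (.c 5 r683 (.c 7 r668 .e))
noncomputable def t190 : Tr := .c 3 r681 (.c 4 r682 (.c 5 r683 (.c 6 r684 .e)))
noncomputable def q494 : Tr := .c 1 v13 (.c 2 v10 (.c 4 v10 (.c 5 v11 (.c 8 v13 (.c 9 v13 .e)))))
noncomputable def q495 : Tr := .c 2 v10 (.c 4 v10 (.c 5 v11 (.c 9 v13 .e)))
noncomputable def q496 : Tr := .c 2 v10 (.c 4 v10 (.c 5 v11 .e))
noncomputable def q497 : Tr := .c 1 v19 (.c 2 v10 (.c 4 v10 .e))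
noncomputable def r691 : Tr := .c 0 q35 (.c 1 q34 (.c 6 q494 (.c 7 q495 (.c 8 q496 (.c 9 q497 .e)))))
noncomputable def r692 : Tr := .c 0 q40 (.c 1 q39 (.c 6 q452 (.c 7 q453 (.c 8 q454 .e))))
noncomputable def q498 : Tr := .c 1 v16 (.c 2 v19 (.c 4 v19 .e))
noncomputable def r693 : Tr := .c 0 q76 (.c 3 q341 (.c 5 q292 (.c 9 q498 .e)))
noncomputable def t191 : Tr := .c 4 r691 (.c 5 r692 (.c 7 r693 .e))
noncomputable def r694 : Tr := .c 1 q34 (.c 7 q495 (.c 8 q496 (.c 9 q497 .e)))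
noncomputable def q499 : Tr := .c 1 v15 (.c 2 v14 (.c 8 v15 .e))
noncomputable def r695 : Tr := .c 1 q34 (.c 5 q499 (.c 8 q496 (.c 9 q497 .e)))
noncomputable def t192 : Tr := .c 3 r694 (.c 4 r691 (.c 5 r692 (.c 6 r695 .e)))
noncomputable def q500 : Tr := .c 2 v19 (.c 4 v19 .e)
noncomputable def r696 : Tr := .c 1 q51 (.c 7 q500 (.c 8 q500 (.c 9 q498 .e)))
noncomputable def q501 : Tr := .c 1 v15 (.c 2 v14 (.c 4 v14 (.c 8 v15 .e)))
noncomputable def q502 : Tr := .c 2 v14 (.c 4 v14 .e)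
noncomputable def r697 : Tr := .c 0 q54 (.c 1 q53 (.c 6 q501 (.c 7 q502 (.c 8 q502 .e))))
noncomputable def r698 : Tr := .c 1 q51 (.c 5 q292 (.c 8 q500 (.c 9 q498 .e)))
noncomputable def r699 : Tr := .c 0 q86 (.c 3 q344 (.c 5 q292 (.c 9 q498 .e)))
noncomputable def t193 : Tr := .c 3 r696 (.c 5 r697 (.c 6 r698 (.c 7 r699 .e)))
noncomputable def q503 : Tr := .c 1 v12 (.c 2 v19 (.c 4 v19 (.c 5 v15 .e)))
noncomputable def r700 : Tr := .c 3 q465 (.c 5 q302 (.c 6 q503 (.c 9 q498 .e)))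
noncomputable def q504 : Tr := .c 1 v13 (.c 2 v10 .e)
noncomputable def q505 : Tr := .c 1 v13 (.c 2 v10 (.c 4 v10 (.c 5 v11 .e)))
noncomputable def r701 : Tr := .c 3 q504 (.c 5 q304 (.c 6 q505 (.c 7 q496 (.c 8 q496 (.c 9 q497 .e)))))
noncomputable def r702 : Tr := .c 0 q36 (.c 1 q36 (.c 6 q505 (.c 7 q496 (.c 8 q496 (.c 9 q497 .e)))))
noncomputable def r703 : Tr := .c 0 q41 (.c 1 q41 (.c 6 q466 (.c 7 q454 (.c 8 q454 .e))))
noncomputable def t194 : Tr := .c 1 r700 (.c 2 r701 (.c 4 r702 (.c 5 r703 .e)))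
noncomputable def r704 : Tr := .c 5 q304 (.c 7 q496 (.c 8 q496 (.c 9 q497 .e)))
noncomputable def r705 : Tr := .c 1 q36 (.c 7 q496 (.c 8 q496 (.c 9 q497 .e)))
noncomputable def t195 : Tr := .c 0 r704 (.c 2 r701 (.c 3 r705 (.c 4 r702 (.c 5 r703 .e))))
noncomputable def r706 : Tr := .c 5 q499 (.c 7 q495 (.c 8 q496 (.c 9 q497 .e)))
noncomputable def q506 : Tr := .c 1 v13 (.c 2 v10 (.c 8 v13 (.c 9 v13 .e)))
noncomputable def r707 : Tr := .c 3 q506 (.c 5 q499 (.c 6 q494 (.c 7 q495 (.c 8 q496 (.c 9 q497 .e)))))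
noncomputable def t196 : Tr := .c 0 r706 (.c 2 r707 (.c 3 r694 (.c 4 r691 (.c 5 r692 (.c 6 r695 .e)))))
noncomputable def r708 : Tr := .c 0 q40 (.c 1 q39 (.c 8 q454 (.c 9 q455 .e)))
noncomputable def r709 : Tr := .c 0 q48 (.c 1 q49 (.c 2 q100 (.c 8 q468 .e)))
noncomputable def t197 : Tr := .c 4 r708 (.c 5 r709 (.c 7 r645 .e))
noncomputable def r710 : Tr := .c 1 q116 (.c 2 q223 (.c 8 q457 (.c 9 q450 .e)))
noncomputable def r711 : Tr := .c 0 q59 (.c 1 q51 (.c 2 q243 (.c 8 q500 .e)))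
noncomputable def t198 : Tr := .c 3 r710 (.c 5 r711 (.c 6 r648 (.c 7 r649 .e)))
noncomputable def r712 : Tr := .c 3 q280 (.c 4 q374 (.c 5 q396 (.c 9 q450 .e)))
noncomputable def r713 : Tr := .c 3 q284 (.c 5 q451 (.c 8 q454 (.c 9 q455 .e)))
noncomputable def t199 : Tr := .c 1 r712 (.c 2 r713 (.c 7 r645 .e))
noncomputable def r714 : Tr := .c 4 q352 (.c 5 q396 (.c 8 q457 (.c 9 q450 .e)))
noncomputable def r715 : Tr := .c 3 q292 (.c 4 q352 (.c 5 q396 (.c 9 q450 .e)))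
noncomputable def t200 : Tr := .c 0 r714 (.c 1 r715 (.c 6 r648 (.c 7 r649 .e)))
noncomputable def r716 : Tr := .c 4 q296 (.c 5 q460 (.c 8 q118 (.c 9 q461 .e)))
noncomputable def r717 : Tr := .c 3 q296 (.c 4 q296 (.c 5 q460 (.c 9 q461 .e)))
noncomputable def r718 : Tr := .c 3 q298 (.c 5 q460 (.c 8 q118 (.c 9 q461 .e)))
noncomputable def t201 : Tr := .c 0 r716 (.c 1 r717 (.c 2 r718 (.c 6 r653 (.c 7 r654 .e))))
noncomputable def r719 : Tr := .c 3 q302 (.c 4 q382 (.c 5 q429 (.c 9 q450 .e)))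
noncomputable def r720 : Tr := .c 3 q304 (.c 5 q465 (.c 8 q454 (.c 9 q455 .e)))
noncomputable def r721 : Tr := .c 0 q41 (.c 1 q41 (.c 8 q454 (.c 9 q455 .e)))
noncomputable def r722 : Tr := .c 0 q62 (.c 1 q62 (.c 2 q118 (.c 8 q468 .e)))
noncomputable def t202 : Tr := .c 1 r719 (.c 2 r720 (.c 4 r721 (.c 5 r722 .e)))
noncomputable def r723 : Tr := .c 0 q48 (.c 1 q49 (.c 8 q468 .e))
noncomputable def r724 : Tr := .c 0 q456 (.c 3 q280 (.c 5 q396 (.c 9 q450 .e)))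
noncomputable def t203 : Tr := .c 4 r708 (.c 5 r723 (.c 7 r724 .e))
noncomputable def r725 : Tr := .c 1 q39 (.c 8 q454 (.c 9 q455 .e))
noncomputable def r726 : Tr := .c 1 q39 (.c 5 q451 (.c 8 q454 (.c 9 q455 .e)))
noncomputable def t204 : Tr := .c 3 r725 (.c 4 r708 (.c 5 r723 (.c 6 r726 .e)))
noncomputable def r727 : Tr := .c 1 q116 (.c 8 q457 (.c 9 q450 .e))
noncomputable def r728 : Tr := .c 0 q59 (.c 1 q51 (.c 8 q500 .e))
noncomputable def r729 : Tr := .c 1 q116 (.c 5 q396 (.c 8 q457 (.c 9 q450 .e)))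
noncomputable def r730 : Tr := .c 0 q459 (.c 3 q292 (.c 5 q396 (.c 9 q450 .e)))
noncomputable def t205 : Tr := .c 3 r727 (.c 5 r728 (.c 6 r729 (.c 7 r730 .e)))
noncomputable def r731 : Tr := .c 3 q280 (.c 5 q396 (.c 9 q450 .e))
noncomputable def t206 : Tr := .c 1 r731 (.c 2 r713 (.c 7 r724 .e))
noncomputable def r732 : Tr := .c 5 q396 (.c 8 q457 (.c 9 q450 .e))
noncomputable def r733 : Tr := .c 3 q292 (.c 5 q396 (.c 9 q450 .e))
noncomputable def t207 : Tr := .c 0 r732 (.c 1 r733 (.c 6 r729 (.c 7 r730 .e)))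
noncomputable def r734 : Tr := .c 3 q302 (.c 5 q429 (.c 9 q450 .e))
noncomputable def r735 : Tr := .c 0 q62 (.c 1 q62 (.c 8 q468 .e))
noncomputable def t208 : Tr := .c 1 r734 (.c 2 r720 (.c 4 r721 (.c 5 r735 .e)))
noncomputable def r736 : Tr := .c 5 q465 (.c 8 q454 (.c 9 q455 .e))
noncomputable def r737 : Tr := .c 1 q41 (.c 8 q454 (.c 9 q455 .e))
noncomputable def t209 : Tr := .c 0 r736 (.c 2 r720 (.c 3 r737 (.c 4 r721 (.c 5 r735 .e))))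
noncomputable def q507 : Tr := .c 0 v23 (.c 2 v23 (.c 3 v23 (.c 4 v23 .e)))
noncomputable def r738 : Tr := .c 4 q349 (.c 5 q393 (.c 7 q507 (.c 8 q507 (.c 9 q507 .e))))
noncomputable def r739 : Tr := .c 3 q290 (.c 4 q349 (.c 5 q393 (.c 6 q457 (.c 9 q507 .e))))
noncomputable def q508 : Tr := .c 3 v27 .e
noncomputable def r740 : Tr := .c 1 q151 (.c 2 q508 (.c 4 q349 (.c 5 q393 (.c 8 q507 (.c 9 q507 .e)))))
noncomputable def r741 : Tr := .c 0 q94 (.c 2 q508 (.c 3 q290 (.c 4 q349 (.c 5 q393 (.c 9 q507 .e)))))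
noncomputable def t210 : Tr := .c 0 r738 (.c 1 r739 (.c 6 r740 (.c 7 r741 .e)))
noncomputable def q509 : Tr := .c 0 v5 (.c 9 v5 .e)
noncomputable def q510 : Tr := .c 0 v4 (.c 3 v4 (.c 5 v3 (.c 9 v6 .e)))
noncomputable def q511 : Tr := .c 0 v4 (.c 3 v4 (.c 5 v3 .e))
noncomputable def q512 : Tr := .c 0 v4 (.c 3 v4 .e)
noncomputable def r742 : Tr := .c 4 q509 (.c 5 q371 (.c 7 q510 (.c 8 q511 (.c 9 q512 .e))))
noncomputable def r743 : Tr := .c 3 q196 (.c 4 q509 (.c 5 q371 (.c 6 q197 (.c 9 q512 .e))))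
noncomputable def r744 : Tr := .c 3 q198 (.c 5 q371 (.c 6 q199 (.c 7 q510 (.c 8 q511 (.c 9 q512 .e)))))
noncomputable def q513 : Tr := .c 3 v25 (.c 5 v8 (.c 9 v5 .e))
noncomputable def r745 : Tr := .c 1 q195 (.c 2 q513 (.c 4 q509 (.c 5 q371 (.c 8 q511 (.c 9 q512 .e)))))
noncomputable def r746 : Tr := .c 0 q197 (.c 2 q513 (.c 3 q196 (.c 4 q509 (.c 5 q371 (.c 9 q512 .e)))))
noncomputable def t211 : Tr := .c 0 r742 (.c 1 r743 (.c 2 r744 (.c 6 r745 (.c 7 r746 .e))))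
noncomputable def q514 : Tr := .c 0 v8 .e
noncomputable def q515 : Tr := .c 0 v0 (.c 2 v0 (.c 3 v0 (.c 4 v0 (.c 5 v1 .e))))
noncomputable def q516 : Tr := .c 0 v0 (.c 2 v0 (.c 3 v0 (.c 4 v0 .e)))
noncomputable def r747 : Tr := .c 4 q514 (.c 5 q407 (.c 7 q515 (.c 8 q515 (.c 9 q516 .e))))
noncomputable def r748 : Tr := .c 3 q318 (.c 5 q407 (.c 6 q478 (.c 7 q515 (.c 8 q515 (.c 9 q516 .e)))))
noncomputable def q517 : Tr := .c 3 v2 (.c 5 v6 .e)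
noncomputable def r749 : Tr := .c 1 q152 (.c 2 q517 (.c 7 q515 (.c 8 q515 (.c 9 q516 .e))))
noncomputable def r750 : Tr := .c 0 q3 (.c 1 q152 (.c 6 q478 (.c 7 q515 (.c 8 q515 (.c 9 q516 .e)))))
noncomputable def q518 : Tr := .c 3 v6 (.c 5 v3 .e)
noncomputable def q519 : Tr := .c 0 v4 (.c 2 v4 (.c 3 v4 (.c 4 v4 (.c 5 v3 .e))))
noncomputable def r751 : Tr := .c 0 q8 (.c 1 q155 (.c 2 q518 (.c 6 q489 (.c 7 q519 (.c 8 q519 .e)))))
noncomputable def t212 : Tr := .c 0 r747 (.c 2 r748 (.c 3 r749 (.c 4 r750 (.c 5 r751 .e))))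
noncomputable def q520 : Tr := .c 0 v8 (.c 9 v8 .e)
noncomputable def q521 : Tr := .c 0 v0 (.c 2 v0 (.c 3 v0 (.c 4 v0 (.c 5 v1 (.c 9 v3 .e)))))
noncomputable def r752 : Tr := .c 4 q520 (.c 5 q407 (.c 7 q521 (.c 8 q515 (.c 9 q516 .e))))
noncomputable def r753 : Tr := .c 3 q317 (.c 5 q407 (.c 6 q477 (.c 7 q521 (.c 8 q515 (.c 9 q516 .e)))))
noncomputable def r754 : Tr := .c 1 q128 (.c 2 q162 (.c 7 q521 (.c 8 q515 (.c 9 q516 .e))))
noncomputable def r755 : Tr := .c 0 q1 (.c 1 q128 (.c 6 q477 (.c 7 q521 (.c 8 q515 (.c 9 q516 .e)))))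
noncomputable def q522 : Tr := .c 0 v4 (.c 2 v4 (.c 3 v4 (.c 4 v4 (.c 5 v3 (.c 9 v6 .e)))))
noncomputable def r756 : Tr := .c 0 q5 (.c 1 q133 (.c 2 q163 (.c 6 q491 (.c 7 q522 (.c 8 q519 .e)))))
noncomputable def r757 : Tr := .c 1 q128 (.c 2 q162 (.c 4 q520 (.c 5 q407 (.c 8 q515 (.c 9 q516 .e)))))
noncomputable def t213 : Tr := .c 0 r752 (.c 2 r753 (.c 3 r754 (.c 4 r755 (.c 5 r756 (.c 6 r757 .e)))))
noncomputable def q523 : Tr := .c 0 v0 (.c 3 v0 (.c 5 v1 (.c 9 v3 .e)))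
noncomputable def q524 : Tr := .c 0 v0 (.c 3 v0 (.c 5 v1 .e))
noncomputable def q525 : Tr := .c 0 v0 (.c 3 v0 .e)
noncomputable def r758 : Tr := .c 4 q520 (.c 5 q425 (.c 7 q523 (.c 8 q524 (.c 9 q525 .e))))
noncomputable def r759 : Tr := .c 3 q139 (.c 4 q520 (.c 5 q425 (.c 6 q167 (.c 9 q525 .e))))
noncomputable def r760 : Tr := .c 3 q161 (.c 5 q425 (.c 6 q30 (.c 7 q523 (.c 8 q524 (.c 9 q525 .e)))))
noncomputable def r761 : Tr := .c 1 q164 (.c 2 q162 (.c 7 q523 (.c 8 q524 (.c 9 q525 .e))))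
noncomputable def r762 : Tr := .c 0 q30 (.c 1 q164 (.c 6 q30 (.c 7 q523 (.c 8 q524 (.c 9 q525 .e)))))
noncomputable def r763 : Tr := .c 1 q164 (.c 2 q162 (.c 4 q520 (.c 5 q425 (.c 8 q524 (.c 9 q525 .e)))))
noncomputable def r764 : Tr := .c 0 q167 (.c 2 q162 (.c 3 q139 (.c 4 q520 (.c 5 q425 (.c 9 q525 .e)))))
noncomputable def t214 : Tr := .c 0 r758 (.c 1 r759 (.c 2 r760 (.c 3 r761 (.c 4 r762 (.c 6 r763 (.c 7 r764 .e))))))
noncomputable def q526 : Tr := .c 2 v2 (.c 4 v2 (.c 5 v6 (.c 9 v8 .e)))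
noncomputable def r765 : Tr := .c 3 q320 (.c 4 q520 (.c 6 q526 .e))
noncomputable def r766 : Tr := .c 3 q317 (.c 6 q477 (.c 7 q521 (.c 8 q515 .e)))
noncomputable def q527 : Tr := .c 3 v9 (.c 5 v5 (.c 9 v8 .e))
noncomputable def r767 : Tr := .c 0 q168 (.c 2 q527 (.c 3 q320 (.c 4 q520 .e)))
noncomputable def t215 : Tr := .c 1 r765 (.c 2 r766 (.c 7 r767 .e))
noncomputable def r768 : Tr := .c 4 q509 (.c 7 q510 (.c 8 q511 .e))
noncomputable def r769 : Tr := .c 3 q196 (.c 4 q509 (.c 6 q197 .e))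
noncomputable def r770 : Tr := .c 3 q198 (.c 6 q199 (.c 7 q510 (.c 8 q511 .e)))
noncomputable def r771 : Tr := .c 1 q195 (.c 2 q513 (.c 4 q509 (.c 8 q511 .e)))
noncomputable def r772 : Tr := .c 0 q197 (.c 2 q513 (.c 3 q196 (.c 4 q509 .e)))
noncomputable def t216 : Tr := .c 0 r768 (.c 1 r769 (.c 2 r770 (.c 6 r771 (.c 7 r772 .e))))
noncomputable def q528 : Tr := .c 2 v2 (.c 4 v2 (.c 5 v6 .e))
noncomputable def r773 : Tr := .c 3 q335 (.c 4 q514 (.c 6 q528 .e))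
noncomputable def r774 : Tr := .c 3 q318 (.c 6 q478 (.c 7 q515 (.c 8 q515 .e)))
noncomputable def r775 : Tr := .c 0 q3 (.c 1 q152 (.c 6 q478 (.c 7 q515 (.c 8 q515 .e))))
noncomputable def t217 : Tr := .c 1 r773 (.c 2 r774 (.c 4 r775 (.c 5 r751 .e)))
noncomputable def r776 : Tr := .c 4 q514 (.c 7 q515 (.c 8 q515 .e))
noncomputable def r777 : Tr := .c 1 q152 (.c 2 q517 (.c 7 q515 (.c 8 q515 .e)))
noncomputable def t218 : Tr := .c 0 r776 (.c 2 r774 (.c 3 r777 (.c 4 r775 (.c 5 r751 .e))))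
noncomputable def r778 : Tr := .c 4 q520 (.c 7 q521 (.c 8 q515 .e))
noncomputable def r779 : Tr := .c 1 q128 (.c 2 q162 (.c 7 q521 (.c 8 q515 .e)))
noncomputable def r780 : Tr := .c 0 q1 (.c 1 q128 (.c 6 q477 (.c 7 q521 (.c 8 q515 .e))))
noncomputable def r781 : Tr := .c 1 q128 (.c 2 q162 (.c 4 q520 (.c 8 q515 .e)))
noncomputable def t219 : Tr := .c 0 r778 (.c 2 r766 (.c 3 r779 (.c 4 r780 (.c 5 r756 (.c 6 r781 .e)))))
noncomputable def r782 : Tr := .c 4 q520 (.c 7 q523 (.c 8 q524 .e))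
noncomputable def r783 : Tr := .c 3 q139 (.c 4 q520 (.c 6 q167 .e))
noncomputable def r784 : Tr := .c 3 q161 (.c 6 q30 (.c 7 q523 (.c 8 q524 .e)))
noncomputable def r785 : Tr := .c 1 q164 (.c 2 q162 (.c 7 q523 (.c 8 q524 .e)))
noncomputable def r786 : Tr := .c 0 q30 (.c 1 q164 (.c 6 q30 (.c 7 q523 (.c 8 q524 .e))))
noncomputable def r787 : Tr := .c 1 q164 (.c 2 q162 (.c 4 q520 (.c 8 q524 .e)))
noncomputable def r788 : Tr := .c 0 q167 (.c 2 q162 (.c 3 q139 (.c 4 q520 .e)))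
noncomputable def t220 : Tr := .c 0 r782 (.c 1 r783 (.c 2 r784 (.c 3 r785 (.c 4 r786 (.c 6 r787 (.c 7 r788 .e))))))
noncomputable def t221 : Tr := .c 3 r754 (.c 4 r755 (.c 5 r756 (.c 6 r757 .e)))
noncomputable def q529 : Tr := .c 3 v9 .e
noncomputable def q530 : Tr := .c 0 v2 (.c 2 v2 (.c 3 v2 (.c 4 v2 .e)))
noncomputable def r789 : Tr := .c 1 q144 (.c 2 q529 (.c 7 q530 (.c 8 q530 (.c 9 q530 .e))))
noncomputable def q531 : Tr := .c 3 v24 .e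
noncomputable def q532 : Tr := .c 0 v19 (.c 2 v19 (.c 3 v19 (.c 4 v19 .e)))
noncomputable def r790 : Tr := .c 0 q51 (.c 1 q147 (.c 2 q531 (.c 6 q500 (.c 7 q532 (.c 8 q532 .e)))))
noncomputable def r791 : Tr := .c 1 q144 (.c 2 q529 (.c 4 q388 (.c 5 q417 (.c 8 q530 (.c 9 q530 .e)))))
noncomputable def r792 : Tr := .c 0 q84 (.c 2 q529 (.c 3 q343 (.c 4 q388 (.c 5 q417 (.c 9 q530 .e)))))
noncomputable def t222 : Tr := .c 3 r789 (.c 5 r790 (.c 6 r791 (.c 7 r792 .e)))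
noncomputable def r793 : Tr := .c 0 q168 (.c 2 q527 (.c 3 q320 (.c 4 q390 .e)))
noncomputable def t223 : Tr := .c 4 r780 (.c 5 r756 (.c 7 r793 .e))
noncomputable def t224 : Tr := .c 3 r779 (.c 4 r780 (.c 5 r756 (.c 6 r781 .e)))
noncomputable def q533 : Tr := .c 0 v10 (.c 2 v10 (.c 3 v10 (.c 4 v10 (.c 5 v11 (.c 9 v13 .e)))))
noncomputable def q534 : Tr := .c 0 v10 (.c 2 v10 (.c 3 v10 (.c 4 v10 (.c 5 v11 .e))))
noncomputable def q535 : Tr := .c 0 v10 (.c 2 v10 (.c 3 v10 (.c 4 v10 .e)))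
noncomputable def r794 : Tr := .c 0 q34 (.c 1 q172 (.c 6 q495 (.c 7 q533 (.c 8 q534 (.c 9 q535 .e)))))
noncomputable def q536 : Tr := .c 0 v14 (.c 2 v14 (.c 3 v14 (.c 4 v14 (.c 5 v13 (.c 9 v15 .e)))))
noncomputable def q537 : Tr := .c 0 v14 (.c 2 v14 (.c 3 v14 (.c 4 v14 (.c 5 v13 .e))))
noncomputable def r795 : Tr := .c 0 q39 (.c 1 q176 (.c 6 q453 (.c 7 q536 (.c 8 q537 .e))))
noncomputable def r796 : Tr := .c 0 q74 (.c 3 q342 (.c 5 q433 (.c 9 q532 .e)))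
noncomputable def t225 : Tr := .c 4 r794 (.c 5 r795 (.c 7 r796 .e))
noncomputable def r797 : Tr := .c 1 q172 (.c 7 q533 (.c 8 q534 (.c 9 q535 .e)))
noncomputable def q538 : Tr := .c 0 v14 (.c 2 v14 .e)
noncomputable def r798 : Tr := .c 1 q172 (.c 5 q538 (.c 8 q534 (.c 9 q535 .e)))
noncomputable def t226 : Tr := .c 3 r797 (.c 4 r794 (.c 5 r795 (.c 6 r798 .e)))
noncomputable def r799 : Tr := .c 1 q147 (.c 7 q532 (.c 8 q532 (.c 9 q532 .e)))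
noncomputable def q539 : Tr := .c 0 v14 (.c 2 v14 (.c 3 v14 (.c 4 v14 .e)))
noncomputable def r800 : Tr := .c 0 q53 (.c 1 q185 (.c 6 q502 (.c 7 q539 (.c 8 q539 .e))))
noncomputable def r801 : Tr := .c 1 q147 (.c 5 q433 (.c 8 q532 (.c 9 q532 .e)))
noncomputable def r802 : Tr := .c 0 q85 (.c 3 q345 (.c 5 q433 (.c 9 q532 .e)))
noncomputable def t227 : Tr := .c 3 r799 (.c 5 r800 (.c 6 r801 (.c 7 r802 .e)))
noncomputable def r803 : Tr := .c 3 q307 (.c 5 q433 (.c 6 q468 (.c 9 q532 .e)))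
noncomputable def q540 : Tr := .c 2 v10 .e
noncomputable def r804 : Tr := .c 3 q540 (.c 5 q538 (.c 6 q496 (.c 7 q534 (.c 8 q534 (.c 9 q535 .e)))))
noncomputable def r805 : Tr := .c 0 q36 (.c 1 q186 (.c 6 q496 (.c 7 q534 (.c 8 q534 (.c 9 q535 .e)))))
noncomputable def r806 : Tr := .c 0 q41 (.c 1 q187 (.c 6 q454 (.c 7 q537 (.c 8 q537 .e))))
noncomputable def t228 : Tr := .c 1 r803 (.c 2 r804 (.c 4 r805 (.c 5 r806 .e)))
noncomputable def r807 : Tr := .c 5 q538 (.c 7 q534 (.c 8 q534 (.c 9 q535 .e)))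
noncomputable def r808 : Tr := .c 1 q186 (.c 7 q534 (.c 8 q534 (.c 9 q535 .e)))
noncomputable def t229 : Tr := .c 0 r807 (.c 2 r804 (.c 3 r808 (.c 4 r805 (.c 5 r806 .e))))
noncomputable def r809 : Tr := .c 5 q538 (.c 7 q533 (.c 8 q534 (.c 9 q535 .e)))
noncomputable def q541 : Tr := .c 2 v10 (.c 9 v13 .e)
noncomputable def r810 : Tr := .c 3 q541 (.c 5 q538 (.c 6 q495 (.c 7 q533 (.c 8 q534 (.c 9 q535 .e)))))
noncomputable def t230 : Tr := .c 0 r809 (.c 2 r810 (.c 3 r797 (.c 4 r794 (.c 5 r795 (.c 6 r798 .e)))))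
noncomputable def r811 : Tr := .c 0 q39 (.c 1 q176 (.c 8 q537 (.c 9 q539 .e)))
noncomputable def q542 : Tr := .c 0 v19 (.c 2 v19 (.c 3 v19 (.c 4 v19 (.c 5 v15 .e))))
noncomputable def r812 : Tr := .c 0 q49 (.c 1 q182 (.c 8 q542 .e))
noncomputable def r813 : Tr := .c 0 q202 (.c 3 q288 (.c 5 q393 (.c 9 q507 .e)))
noncomputable def t231 : Tr := .c 4 r811 (.c 5 r812 (.c 7 r813 .e))
noncomputable def r814 : Tr := .c 1 q176 (.c 8 q537 (.c 9 q539 .e))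
noncomputable def q543 : Tr := .c 0 v19 (.c 2 v19 .e)
noncomputable def r815 : Tr := .c 1 q176 (.c 5 q543 (.c 8 q537 (.c 9 q539 .e)))
noncomputable def t232 : Tr := .c 3 r814 (.c 4 r811 (.c 5 r812 (.c 6 r815 .e)))
noncomputable def r816 : Tr := .c 1 q151 (.c 8 q507 (.c 9 q507 .e))
noncomputable def r817 : Tr := .c 0 q51 (.c 1 q147 (.c 8 q532 .e))
noncomputable def r818 : Tr := .c 1 q151 (.c 5 q393 (.c 8 q507 (.c 9 q507 .e)))
noncomputable def r819 : Tr := .c 0 q116 (.c 3 q290 (.c 5 q393 (.c 9 q507 .e)))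
noncomputable def t233 : Tr := .c 3 r816 (.c 5 r817 (.c 6 r818 (.c 7 r819 .e)))
noncomputable def r820 : Tr := .c 3 q288 (.c 5 q393 (.c 9 q507 .e))
noncomputable def r821 : Tr := .c 3 q285 (.c 5 q543 (.c 8 q537 (.c 9 q539 .e)))
noncomputable def t234 : Tr := .c 1 r820 (.c 2 r821 (.c 7 r813 .e))
noncomputable def r822 : Tr := .c 5 q393 (.c 8 q507 (.c 9 q507 .e))
noncomputable def r823 : Tr := .c 3 q290 (.c 5 q393 (.c 9 q507 .e))
noncomputable def t235 : Tr := .c 0 r822 (.c 1 r823 (.c 6 r818 (.c 7 r819 .e)))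
noncomputable def r824 : Tr := .c 3 q286 (.c 5 q543 (.c 8 q537 (.c 9 q539 .e)))
noncomputable def r825 : Tr := .c 0 q41 (.c 1 q187 (.c 8 q537 (.c 9 q539 .e)))
noncomputable def r826 : Tr := .c 0 q62 (.c 1 q189 (.c 8 q542 .e))
noncomputable def t236 : Tr := .c 1 r823 (.c 2 r824 (.c 4 r825 (.c 5 r826 .e)))
noncomputable def r827 : Tr := .c 5 q543 (.c 8 q537 (.c 9 q539 .e))
noncomputable def r828 : Tr := .c 1 q187 (.c 8 q537 (.c 9 q539 .e))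
noncomputable def t237 : Tr := .c 0 r827 (.c 2 r824 (.c 3 r828 (.c 4 r825 (.c 5 r826 .e))))
noncomputable def q544 : Tr := .c 0 v9 (.c 6 v9 .e)
noncomputable def q545 : Tr := .c 0 v9 (.c 2 v9 (.c 3 v9 (.c 4 v9 .e)))
noncomputable def q546 : Tr := .c 0 v2 (.c 2 v2 (.c 3 v2 (.c 4 v2 (.c 6 v2 .e))))
noncomputable def r829 : Tr := .c 4 q544 (.c 5 q394 (.c 7 q545 (.c 8 q546 (.c 9 q546 .e))))
noncomputable def r830 : Tr := .c 3 q290 (.c 4 q544 (.c 5 q394 (.c 6 q457 (.c 9 q546 .e))))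
noncomputable def r831 : Tr := .c 0 q116 (.c 2 q143 (.c 3 q290 (.c 4 q544 (.c 5 q394 (.c 6 q457 .e)))))
noncomputable def r832 : Tr := .c 0 q116 (.c 1 q150 (.c 2 q143 (.c 3 q290 (.c 4 q544 (.c 6 q457 (.c 7 q507 .e))))))
noncomputable def t238 : Tr := .c 0 r829 (.c 1 r830 (.c 8 r831 (.c 9 r832 .e)))
noncomputable def q547 : Tr := .c 0 v25 (.c 6 v25 .e)
noncomputable def q548 : Tr := .c 0 v4 (.c 3 v4 (.c 5 v3 (.c 6 v4 .e)))
noncomputable def q549 : Tr := .c 0 v4 (.c 3 v4 (.c 6 v4 .e))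
noncomputable def r833 : Tr := .c 4 q547 (.c 5 q399 (.c 7 q511 (.c 8 q548 (.c 9 q549 .e))))
noncomputable def q550 : Tr := .c 5 v8 .e
noncomputable def r834 : Tr := .c 4 q547 (.c 5 q399 (.c 6 q550 (.c 9 q549 .e)))
noncomputable def r835 : Tr := .c 5 q399 (.c 6 q481 (.c 7 q511 (.c 8 q548 (.c 9 q549 .e))))
noncomputable def q551 : Tr := .c 3 v25 (.c 5 v8 (.c 6 v25 .e))
noncomputable def r836 : Tr := .c 0 q550 (.c 2 q551 (.c 4 q547 (.c 5 q399 (.c 6 q550 .e))))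
noncomputable def t239 : Tr := .c 0 r833 (.c 1 r834 (.c 2 r835 (.c 8 r836 .e)))
noncomputable def q552 : Tr := .c 0 v0 (.c 2 v0 (.c 3 v0 (.c 4 v0 (.c 5 v1 (.c 6 v0 .e)))))
noncomputable def q553 : Tr := .c 0 v0 (.c 2 v0 (.c 3 v0 (.c 4 v0 (.c 6 v0 .e))))
noncomputable def r837 : Tr := .c 4 q544 (.c 5 q408 (.c 7 q515 (.c 8 q552 (.c 9 q553 .e))))
noncomputable def r838 : Tr := .c 3 q318 (.c 5 q408 (.c 6 q478 (.c 7 q515 (.c 8 q552 (.c 9 q553 .e)))))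
noncomputable def r839 : Tr := .c 1 q129 (.c 2 q153 (.c 7 q515 (.c 8 q552 (.c 9 q553 .e))))
noncomputable def r840 : Tr := .c 0 q3 (.c 1 q129 (.c 6 q478 (.c 7 q515 (.c 8 q552 (.c 9 q553 .e)))))
noncomputable def q554 : Tr := .c 0 v4 (.c 2 v4 (.c 3 v4 (.c 4 v4 (.c 5 v3 (.c 6 v4 .e)))))
noncomputable def r841 : Tr := .c 0 q8 (.c 1 q134 (.c 2 q154 (.c 6 q489 (.c 7 q519 (.c 8 q554 .e)))))
noncomputable def q555 : Tr := .c 0 v8 (.c 6 v8 .e)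
noncomputable def q556 : Tr := .c 0 v2 (.c 2 v2 (.c 3 v2 (.c 4 v2 (.c 5 v6 .e))))
noncomputable def r842 : Tr := .c 0 q18 (.c 1 q156 (.c 2 q157 (.c 3 q335 (.c 4 q555 (.c 6 q528 (.c 7 q556 .e))))))
noncomputable def t240 : Tr := .c 0 r837 (.c 2 r838 (.c 3 r839 (.c 4 r840 (.c 5 r841 (.c 9 r842 .e)))))
noncomputable def r843 : Tr := .c 4 q371 (.c 5 q407 (.c 7 q515 (.c 8 q515 (.c 9 q516 .e))))
noncomputable def t241 : Tr := .c 0 r843 (.c 2 r748 (.c 3 r749 (.c 4 r750 (.c 5 r751 .e))))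
noncomputable def r844 : Tr := .c 4 q371 (.c 5 q425 (.c 7 q524 (.c 8 q524 (.c 9 q525 .e))))
noncomputable def r845 : Tr := .c 4 q371 (.c 5 q425 (.c 6 q470 (.c 9 q525 .e)))
noncomputable def r846 : Tr := .c 5 q425 (.c 6 q31 (.c 7 q524 (.c 8 q524 (.c 9 q525 .e))))
noncomputable def r847 : Tr := .c 1 q165 (.c 2 q517 (.c 7 q524 (.c 8 q524 (.c 9 q525 .e))))
noncomputable def r848 : Tr := .c 0 q31 (.c 1 q165 (.c 6 q31 (.c 7 q524 (.c 8 q524 (.c 9 q525 .e)))))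
noncomputable def t242 : Tr := .c 0 r844 (.c 1 r845 (.c 2 r846 (.c 3 r847 (.c 4 r848 .e))))
noncomputable def r849 : Tr := .c 3 q335 (.c 4 q555 (.c 6 q528 .e))
noncomputable def r850 : Tr := .c 3 q318 (.c 6 q478 (.c 7 q515 (.c 8 q552 .e)))
noncomputable def r851 : Tr := .c 0 q18 (.c 2 q157 (.c 3 q335 (.c 4 q555 (.c 6 q528 .e))))
noncomputable def t243 : Tr := .c 1 r849 (.c 2 r850 (.c 8 r851 (.c 9 r842 .e)))
noncomputable def r852 : Tr := .c 4 q547 (.c 7 q511 (.c 8 q548 .e))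
noncomputable def r853 : Tr := .c 4 q547 (.c 6 q550 .e)
noncomputable def r854 : Tr := .c 6 q481 (.c 7 q511 (.c 8 q548 .e))
noncomputable def r855 : Tr := .c 0 q550 (.c 2 q551 (.c 4 q547 (.c 6 q550 .e)))
noncomputable def t244 : Tr := .c 0 r852 (.c 1 r853 (.c 2 r854 (.c 8 r855 .e)))
noncomputable def r856 : Tr := .c 0 q3 (.c 1 q129 (.c 6 q478 (.c 7 q515 (.c 8 q552 .e))))
noncomputable def t245 : Tr := .c 1 r849 (.c 2 r850 (.c 4 r856 (.c 5 r841 (.c 8 r851 (.c 9 r842 .e)))))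
noncomputable def r857 : Tr := .c 4 q544 (.c 7 q515 (.c 8 q552 .e))
noncomputable def r858 : Tr := .c 1 q129 (.c 2 q153 (.c 7 q515 (.c 8 q552 .e)))
noncomputable def t246 : Tr := .c 0 r857 (.c 2 r850 (.c 3 r858 (.c 4 r856 (.c 5 r841 (.c 9 r842 .e)))))
noncomputable def r859 : Tr := .c 4 q371 (.c 7 q515 (.c 8 q515 .e))
noncomputable def t247 : Tr := .c 0 r859 (.c 2 r774 (.c 3 r777 (.c 4 r775 (.c 5 r751 .e))))
noncomputable def r860 : Tr := .c 4 q371 (.c 7 q524 (.c 8 q524 .e))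
noncomputable def r861 : Tr := .c 4 q371 (.c 6 q470 .e)
noncomputable def r862 : Tr := .c 6 q31 (.c 7 q524 (.c 8 q524 .e))
noncomputable def r863 : Tr := .c 1 q165 (.c 2 q517 (.c 7 q524 (.c 8 q524 .e)))
noncomputable def r864 : Tr := .c 0 q31 (.c 1 q165 (.c 6 q31 (.c 7 q524 (.c 8 q524 .e))))
noncomputable def t248 : Tr := .c 0 r860 (.c 1 r861 (.c 2 r862 (.c 3 r863 (.c 4 r864 .e))))
noncomputable def t249 : Tr := .c 3 r839 (.c 4 r840 (.c 5 r841 (.c 9 r842 .e)))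
noncomputable def r865 : Tr := .c 1 q142 (.c 2 q143 (.c 7 q530 (.c 8 q546 (.c 9 q546 .e))))
noncomputable def q557 : Tr := .c 0 v19 (.c 2 v19 (.c 3 v19 (.c 4 v19 (.c 6 v19 .e))))
noncomputable def r866 : Tr := .c 0 q51 (.c 1 q145 (.c 2 q146 (.c 6 q500 (.c 7 q532 (.c 8 q557 .e)))))
noncomputable def t250 : Tr := .c 3 r865 (.c 5 r866 (.c 8 r831 (.c 9 r832 .e)))
noncomputable def t251 : Tr := .c 4 r856 (.c 5 r841 (.c 8 r851 (.c 9 r842 .e)))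
noncomputable def t252 : Tr := .c 3 r858 (.c 4 r856 (.c 5 r841 (.c 9 r842 .e)))
noncomputable def q558 : Tr := .c 0 v10 (.c 2 v10 (.c 3 v10 (.c 4 v10 (.c 5 v11 (.c 6 v10 .e)))))
noncomputable def q559 : Tr := .c 0 v10 (.c 2 v10 (.c 3 v10 (.c 4 v10 (.c 6 v10 .e))))
noncomputable def r867 : Tr := .c 0 q36 (.c 1 q173 (.c 6 q496 (.c 7 q534 (.c 8 q558 (.c 9 q559 .e)))))
noncomputable def q560 : Tr := .c 0 v14 (.c 2 v14 (.c 3 v14 (.c 4 v14 (.c 5 v13 (.c 6 v14 .e)))))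
noncomputable def r868 : Tr := .c 0 q41 (.c 1 q177 (.c 6 q454 (.c 7 q537 (.c 8 q560 .e))))
noncomputable def r869 : Tr := .c 0 q62 (.c 3 q307 (.c 5 q434 (.c 6 q468 .e)))
noncomputable def r870 : Tr := .c 0 q62 (.c 1 q188 (.c 3 q307 (.c 6 q468 (.c 7 q542 .e))))
noncomputable def t253 : Tr := .c 4 r867 (.c 5 r868 (.c 8 r869 (.c 9 r870 .e)))
noncomputable def r871 : Tr := .c 1 q173 (.c 7 q534 (.c 8 q558 (.c 9 q559 .e)))
noncomputable def t254 : Tr := .c 3 r871 (.c 4 r867 (.c 5 r868 (.c 9 r870 .e)))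
noncomputable def r872 : Tr := .c 1 q145 (.c 7 q532 (.c 8 q557 (.c 9 q557 .e)))
noncomputable def q561 : Tr := .c 0 v14 (.c 2 v14 (.c 3 v14 (.c 4 v14 (.c 6 v14 .e))))
noncomputable def r873 : Tr := .c 0 q53 (.c 1 q184 (.c 6 q502 (.c 7 q539 (.c 8 q561 .e))))
noncomputable def r874 : Tr := .c 0 q51 (.c 3 q307 (.c 5 q434 (.c 6 q500 .e)))
noncomputable def r875 : Tr := .c 0 q51 (.c 1 q145 (.c 3 q307 (.c 6 q500 (.c 7 q532 .e))))
noncomputable def t255 : Tr := .c 3 r872 (.c 5 r873 (.c 8 r874 (.c 9 r875 .e)))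
noncomputable def r876 : Tr := .c 3 q307 (.c 5 q434 (.c 6 q468 (.c 9 q557 .e)))
noncomputable def q562 : Tr := .c 0 v14 (.c 2 v14 (.c 6 v14 .e))
noncomputable def r877 : Tr := .c 3 q540 (.c 5 q562 (.c 6 q496 (.c 7 q534 (.c 8 q558 (.c 9 q559 .e)))))
noncomputable def t256 : Tr := .c 1 r876 (.c 2 r877 (.c 4 r867 (.c 5 r868 (.c 8 r869 (.c 9 r870 .e)))))
noncomputable def r878 : Tr := .c 5 q562 (.c 7 q534 (.c 8 q558 (.c 9 q559 .e)))
noncomputable def t257 : Tr := .c 0 r878 (.c 2 r877 (.c 3 r871 (.c 4 r867 (.c 5 r868 (.c 9 r870 .e)))))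
noncomputable def r879 : Tr := .c 1 q129 (.c 2 q153 (.c 7 q515 .e))
noncomputable def r880 : Tr := .c 0 q3 (.c 1 q129 (.c 6 q478 (.c 7 q515 .e)))
noncomputable def r881 : Tr := .c 0 q8 (.c 1 q134 (.c 2 q154 (.c 6 q489 (.c 7 q519 .e))))
noncomputable def t258 : Tr := .c 3 r879 (.c 4 r880 (.c 5 r881 (.c 9 r842 .e)))
noncomputable def r882 : Tr := .c 1 q142 (.c 2 q143 (.c 7 q530 .e))
noncomputable def r883 : Tr := .c 0 q51 (.c 1 q145 (.c 2 q146 (.c 6 q500 (.c 7 q532 .e))))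
noncomputable def t259 : Tr := .c 3 r882 (.c 5 r883 (.c 8 r831 (.c 9 r832 .e)))
noncomputable def r884 : Tr := .c 4 q544 (.c 5 q394 (.c 7 q545 .e))
noncomputable def r885 : Tr := .c 3 q290 (.c 4 q544 (.c 5 q394 (.c 6 q457 .e)))
noncomputable def t260 : Tr := .c 0 r884 (.c 1 r885 (.c 8 r831 (.c 9 r832 .e)))
noncomputable def r886 : Tr := .c 4 q547 (.c 5 q399 (.c 7 q511 .e))
noncomputable def r887 : Tr := .c 4 q547 (.c 5 q399 (.c 6 q550 .e))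
noncomputable def r888 : Tr := .c 5 q399 (.c 6 q481 (.c 7 q511 .e))
noncomputable def t261 : Tr := .c 0 r886 (.c 1 r887 (.c 2 r888 (.c 8 r836 .e)))
noncomputable def r889 : Tr := .c 4 q371 (.c 5 q407 (.c 7 q515 .e))
noncomputable def r890 : Tr := .c 3 q318 (.c 5 q407 (.c 6 q478 (.c 7 q515 .e)))
noncomputable def r891 : Tr := .c 1 q152 (.c 2 q517 (.c 7 q515 .e))
noncomputable def r892 : Tr := .c 0 q3 (.c 1 q152 (.c 6 q478 (.c 7 q515 .e)))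
noncomputable def r893 : Tr := .c 0 q8 (.c 1 q155 (.c 2 q518 (.c 6 q489 (.c 7 q519 .e))))
noncomputable def t262 : Tr := .c 0 r889 (.c 2 r890 (.c 3 r891 (.c 4 r892 (.c 5 r893 .e))))
noncomputable def r894 : Tr := .c 4 q371 (.c 5 q425 (.c 7 q524 .e))
noncomputable def r895 : Tr := .c 4 q371 (.c 5 q425 (.c 6 q470 .e))
noncomputable def r896 : Tr := .c 5 q425 (.c 6 q31 (.c 7 q524 .e))
noncomputable def r897 : Tr := .c 1 q165 (.c 2 q517 (.c 7 q524 .e))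
noncomputable def r898 : Tr := .c 0 q31 (.c 1 q165 (.c 6 q31 (.c 7 q524 .e)))
noncomputable def t263 : Tr := .c 0 r894 (.c 1 r895 (.c 2 r896 (.c 3 r897 (.c 4 r898 .e))))
noncomputable def q563 : Tr := .c 0 v9 (.c 1 v9 (.c 6 v9 (.c 7 v9 .e)))
noncomputable def q564 : Tr := .c 0 v2 (.c 1 v2 (.c 2 v2 (.c 3 v2 (.c 4 v2 (.c 6 v2 (.c 7 v2 .e))))))
noncomputable def r899 : Tr := .c 4 q563 (.c 5 q395 (.c 7 q545 (.c 8 q546 (.c 9 q564 .e))))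
noncomputable def q565 : Tr := .c 1 v9 (.c 2 v23 (.c 7 v9 .e))
noncomputable def q566 : Tr := .c 1 v9 (.c 2 v23 (.c 4 v23 .e))
noncomputable def r900 : Tr := .c 3 q565 (.c 4 q563 (.c 5 q395 (.c 6 q566 (.c 9 q564 .e))))
noncomputable def q567 : Tr := .c 4 v23 (.c 7 v9 .e)
noncomputable def q568 : Tr := .c 3 v9 (.c 6 v9 (.c 7 v9 .e))
noncomputable def r901 : Tr := .c 0 q567 (.c 2 q568 (.c 3 q565 (.c 4 q563 (.c 5 q395 (.c 6 q566 .e)))))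
noncomputable def r902 : Tr := .c 0 q567 (.c 1 q150 (.c 2 q568 (.c 3 q565 (.c 4 q563 (.c 6 q566 (.c 7 q507 .e))))))
noncomputable def t264 : Tr := .c 0 r899 (.c 1 r900 (.c 8 r901 (.c 9 r902 .e)))
noncomputable def q569 : Tr := .c 0 v25 (.c 1 v25 (.c 6 v25 (.c 7 v25 .e)))
noncomputable def q570 : Tr := .c 0 v4 (.c 1 v4 (.c 3 v4 (.c 6 v4 (.c 7 v4 .e))))
noncomputable def r903 : Tr := .c 4 q569 (.c 5 q400 (.c 7 q512 (.c 8 q549 (.c 9 q570 .e))))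
noncomputable def q571 : Tr := .c 1 v25 (.c 7 v25 .e)
noncomputable def q572 : Tr := .c 1 v25 .e
noncomputable def r904 : Tr := .c 3 q571 (.c 4 q569 (.c 5 q400 (.c 6 q572 (.c 9 q570 .e))))
noncomputable def q573 : Tr := .c 7 v25 .e
noncomputable def q574 : Tr := .c 3 v25 (.c 6 v25 (.c 7 v25 .e))
noncomputable def r905 : Tr := .c 0 q573 (.c 2 q574 (.c 3 q571 (.c 4 q569 (.c 5 q400 (.c 6 q572 .e)))))
noncomputable def t265 : Tr := .c 0 r903 (.c 1 r904 (.c 8 r905 .e))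
noncomputable def q575 : Tr := .c 0 v0 (.c 1 v0 (.c 2 v0 (.c 3 v0 (.c 4 v0 (.c 6 v0 (.c 7 v0 .e))))))
noncomputable def r906 : Tr := .c 4 q563 (.c 5 q409 (.c 7 q516 (.c 8 q553 (.c 9 q575 .e))))
noncomputable def q576 : Tr := .c 3 v2 (.c 6 v2 (.c 7 v2 .e))
noncomputable def r907 : Tr := .c 1 q130 (.c 2 q576 (.c 7 q516 (.c 8 q553 (.c 9 q575 .e))))
noncomputable def q577 : Tr := .c 4 v4 (.c 7 v6 .e)
noncomputable def q578 : Tr := .c 3 v4 (.c 4 v4 (.c 6 v4 .e))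
noncomputable def q579 : Tr := .c 3 v6 (.c 6 v6 (.c 7 v6 .e))
noncomputable def q580 : Tr := .c 1 v25 (.c 2 v4 (.c 4 v4 .e))
noncomputable def q581 : Tr := .c 0 v4 (.c 2 v4 (.c 3 v4 (.c 4 v4 .e)))
noncomputable def q582 : Tr := .c 0 v4 (.c 2 v4 (.c 3 v4 (.c 4 v4 (.c 6 v4 .e))))
noncomputable def r908 : Tr := .c 0 q577 (.c 1 q578 (.c 2 q579 (.c 6 q580 (.c 7 q581 (.c 8 q582 .e)))))
noncomputable def q583 : Tr := .c 4 v2 (.c 7 v8 .e)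
noncomputable def q584 : Tr := .c 3 v8 (.c 6 v8 (.c 7 v8 .e))
noncomputable def q585 : Tr := .c 0 v8 (.c 1 v8 (.c 6 v8 (.c 7 v8 .e)))
noncomputable def q586 : Tr := .c 1 v8 (.c 2 v2 (.c 4 v2 .e))
noncomputable def r909 : Tr := .c 0 q583 (.c 1 q142 (.c 2 q584 (.c 3 q326 (.c 4 q585 (.c 6 q586 (.c 7 q530 .e))))))
noncomputable def t266 : Tr := .c 0 r906 (.c 3 r907 (.c 5 r908 (.c 9 r909 .e)))
noncomputable def q587 : Tr := .c 0 v0 (.c 1 v0 (.c 2 v0 (.c 3 v0 (.c 4 v0 .e))))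
noncomputable def r910 : Tr := .c 4 q372 (.c 5 q420 (.c 7 q516 (.c 8 q516 (.c 9 q587 .e))))
noncomputable def q588 : Tr := .c 3 v2 .e
noncomputable def r911 : Tr := .c 1 q160 (.c 2 q588 (.c 7 q516 (.c 8 q516 (.c 9 q587 .e))))
noncomputable def q589 : Tr := .c 4 v4 .e
noncomputable def q590 : Tr := .c 3 v4 (.c 4 v4 .e)
noncomputable def q591 : Tr := .c 3 v6 .e
noncomputable def r912 : Tr := .c 0 q589 (.c 1 q590 (.c 2 q591 (.c 6 q580 (.c 7 q581 (.c 8 q581 .e)))))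
noncomputable def t267 : Tr := .c 0 r910 (.c 3 r911 (.c 5 r912 .e))
noncomputable def q592 : Tr := .c 0 v0 (.c 1 v0 (.c 3 v0 .e))
noncomputable def r913 : Tr := .c 4 q372 (.c 5 q426 (.c 7 q525 (.c 8 q525 (.c 9 q592 .e))))
noncomputable def r914 : Tr := .c 3 q310 (.c 4 q372 (.c 5 q426 (.c 6 q310 (.c 9 q592 .e))))
noncomputable def r915 : Tr := .c 1 q166 (.c 2 q588 (.c 7 q525 (.c 8 q525 (.c 9 q592 .e))))
noncomputable def t268 : Tr := .c 0 r913 (.c 1 r914 (.c 3 r915 .e))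
noncomputable def t269 : Tr := .c 1 r900 (.c 8 r901 (.c 9 r902 .e))
noncomputable def q593 : Tr := .c 4 v25 (.c 7 v5 .e)
noncomputable def q594 : Tr := .c 3 v25 (.c 4 v25 (.c 6 v25 .e))
noncomputable def q595 : Tr := .c 3 v5 (.c 6 v5 (.c 7 v5 .e))
noncomputable def v30 : Tr := .l 0x186185
noncomputable def q596 : Tr := .c 1 v30 (.c 2 v25 (.c 4 v25 .e))
noncomputable def q597 : Tr := .c 0 v25 (.c 2 v25 (.c 3 v25 (.c 4 v25 .e)))
noncomputable def q598 : Tr := .c 0 v25 (.c 2 v25 (.c 3 v25 (.c 4 v25 (.c 6 v25 .e))))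
noncomputable def r916 : Tr := .c 0 q593 (.c 1 q594 (.c 2 q595 (.c 6 q596 (.c 7 q597 (.c 8 q598 .e)))))
noncomputable def t270 : Tr := .c 1 r900 (.c 5 r916 (.c 8 r901 (.c 9 r902 .e)))
noncomputable def r917 : Tr := .c 3 q326 (.c 4 q585 (.c 6 q586 .e))
noncomputable def r918 : Tr := .c 0 q583 (.c 2 q584 (.c 3 q326 (.c 4 q585 (.c 6 q586 .e))))
noncomputable def t271 : Tr := .c 1 r917 (.c 8 r918 (.c 9 r909 .e))
noncomputable def r919 : Tr := .c 4 q569 (.c 7 q512 (.c 8 q549 .e))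
noncomputable def r920 : Tr := .c 3 q571 (.c 4 q569 (.c 6 q572 .e))
noncomputable def r921 : Tr := .c 0 q573 (.c 2 q574 (.c 3 q571 (.c 4 q569 (.c 6 q572 .e))))
noncomputable def t272 : Tr := .c 0 r919 (.c 1 r920 (.c 8 r921 .e))
noncomputable def t273 : Tr := .c 1 r917 (.c 5 r908 (.c 8 r918 (.c 9 r909 .e)))
noncomputable def r922 : Tr := .c 4 q563 (.c 7 q516 (.c 8 q553 .e))
noncomputable def r923 : Tr := .c 1 q130 (.c 2 q576 (.c 7 q516 (.c 8 q553 .e)))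
noncomputable def t274 : Tr := .c 0 r922 (.c 3 r923 (.c 5 r908 (.c 9 r909 .e)))
noncomputable def r924 : Tr := .c 4 q372 (.c 7 q516 (.c 8 q516 .e))
noncomputable def r925 : Tr := .c 1 q160 (.c 2 q588 (.c 7 q516 (.c 8 q516 .e)))
noncomputable def t275 : Tr := .c 0 r924 (.c 3 r925 (.c 5 r912 .e))
noncomputable def r926 : Tr := .c 4 q372 (.c 7 q525 (.c 8 q525 .e))
noncomputable def r927 : Tr := .c 3 q310 (.c 4 q372 (.c 6 q310 .e))
noncomputable def r928 : Tr := .c 1 q166 (.c 2 q588 (.c 7 q525 (.c 8 q525 .e)))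
noncomputable def t276 : Tr := .c 0 r926 (.c 1 r927 (.c 3 r928 .e))
noncomputable def t277 : Tr := .c 3 r907 (.c 5 r908 (.c 9 r909 .e))
noncomputable def r929 : Tr := .c 1 q142 (.c 2 q568 (.c 7 q530 (.c 8 q546 (.c 9 q564 .e))))
noncomputable def q599 : Tr := .c 4 v19 (.c 7 v24 .e)
noncomputable def q600 : Tr := .c 3 v24 (.c 6 v24 (.c 7 v24 .e))
noncomputable def r930 : Tr := .c 0 q599 (.c 1 q145 (.c 2 q600 (.c 6 q498 (.c 7 q532 (.c 8 q557 .e)))))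
noncomputable def t278 : Tr := .c 3 r929 (.c 5 r930 (.c 8 r901 (.c 9 r902 .e)))
noncomputable def t279 : Tr := .c 5 r908 (.c 8 r918 (.c 9 r909 .e))
noncomputable def t280 : Tr := .c 3 r923 (.c 5 r908 (.c 9 r909 .e))
noncomputable def r931 : Tr := .c 1 q130 (.c 2 q576 (.c 7 q516 .e))
noncomputable def r932 : Tr := .c 0 q577 (.c 1 q578 (.c 2 q579 (.c 6 q580 (.c 7 q581 .e))))
noncomputable def t281 : Tr := .c 3 r931 (.c 5 r932 (.c 9 r909 .e))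
noncomputable def r933 : Tr := .c 1 q142 (.c 2 q568 (.c 7 q530 .e))
noncomputable def r934 : Tr := .c 0 q599 (.c 1 q145 (.c 2 q600 (.c 6 q498 (.c 7 q532 .e))))
noncomputable def t282 : Tr := .c 3 r933 (.c 5 r934 (.c 8 r901 (.c 9 r902 .e)))
noncomputable def r935 : Tr := .c 4 q563 (.c 5 q395 (.c 7 q545 .e))
noncomputable def r936 : Tr := .c 3 q565 (.c 4 q563 (.c 5 q395 (.c 6 q566 .e)))
noncomputable def t283 : Tr := .c 0 r935 (.c 1 r936 (.c 8 r901 (.c 9 r902 .e)))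
noncomputable def r937 : Tr := .c 4 q569 (.c 5 q400 (.c 7 q512 .e))
noncomputable def r938 : Tr := .c 3 q571 (.c 4 q569 (.c 5 q400 (.c 6 q572 .e)))
noncomputable def t284 : Tr := .c 0 r937 (.c 1 r938 (.c 8 r905 .e))
noncomputable def r939 : Tr := .c 4 q372 (.c 5 q420 (.c 7 q516 .e))
noncomputable def r940 : Tr := .c 1 q160 (.c 2 q588 (.c 7 q516 .e))
noncomputable def r941 : Tr := .c 0 q589 (.c 1 q590 (.c 2 q591 (.c 6 q580 (.c 7 q581 .e))))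
noncomputable def t285 : Tr := .c 0 r939 (.c 3 r940 (.c 5 r941 .e))
noncomputable def r942 : Tr := .c 4 q372 (.c 5 q426 (.c 7 q525 .e))
noncomputable def r943 : Tr := .c 3 q310 (.c 4 q372 (.c 5 q426 (.c 6 q310 .e)))
noncomputable def r944 : Tr := .c 1 q166 (.c 2 q588 (.c 7 q525 .e))
noncomputable def t286 : Tr := .c 0 r942 (.c 1 r943 (.c 3 r944 .e))
noncomputable def t287 : Tr := .c 5 r934 (.c 8 r901 (.c 9 r902 .e))
noncomputable def t288 : Tr := .c 1 r936 (.c 8 r901 (.c 9 r902 .e))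

/-- the diagram -/
noncomputable def T : Tr := (.c 0 (.c 4 (.c 0 t0 (.c 1 t1 (.c 6 t2 (.c 7 t3 (.c 8 t4 (.c 9 t5 .e)))))) (.c 5 (.c 0 t6 (.c 1
t7 (.c 2 t8 (.c 6 t9 (.c 7 t10 (.c 8 t11 .e)))))) (.c 7 (.c 0 t12 (.c 2 t13 (.c 3 t14 (.c 4 t15
(.c 5 t16 (.c 9 t17 .e)))))) (.c 8 (.c 0 t18 (.c 2 t19 (.c 3 t20 (.c 4 t21 (.c 5 t22 (.c 6 t23
.e)))))) (.c 9 (.c 0 t24 (.c 1 t25 (.c 2 t26 (.c 3 t27 (.c 4 t28 (.c 6 t29 (.c 7 t30 .e)))))))
.e))))) (.c 1 (.c 3 (.c 1 t31 (.c 2 t32 (.c 7 t33 (.c 8 t34 (.c 9 t35 .e))))) (.c 4 (.c 0 t36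
(.c 1 t37 (.c 6 t38 (.c 7 t39 (.c 8 t40 (.c 9 t41 .e)))))) (.c 5 (.c 0 t42 (.c 1 t43 (.c 2 t44
(.c 6 t45 (.c 7 t46 (.c 8 t47 .e)))))) (.c 6 (.c 1 t48 (.c 2 t49 (.c 4 t50 (.c 5 t51 (.c 8 t52
(.c 9 t53 .e)))))) (.c 9 (.c 0 t54 (.c 1 t55 (.c 2 t56 (.c 3 t57 (.c 4 t58 (.c 6 t59 (.c 7 t60
.e))))))) .e))))) (.c 2 (.c 3 (.c 1 t61 (.c 2 t62 (.c 7 t63 (.c 8 t64 (.c 9 t65 .e))))) (.c 5
(.c 0 t66 (.c 1 t67 (.c 2 t68 (.c 6 t69 (.c 7 t70 (.c 8 t71 .e)))))) (.c 6 (.c 1 t72 (.c 2 t73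
(.c 4 t74 (.c 5 t75 (.c 8 t76 (.c 9 t77 .e)))))) (.c 7 (.c 0 t78 (.c 2 t73 (.c 3 t79 (.c 4 t74
(.c 5 t75 (.c 9 t77 .e)))))) (.c 8 (.c 0 t80 (.c 2 t81 (.c 3 t82 (.c 4 t83 (.c 5 t84 (.c 6 t85
.e)))))) (.c 9 (.c 0 t86 (.c 1 t87 (.c 2 t88 (.c 3 t89 (.c 4 t90 (.c 6 t91 (.c 7 t92 .e)))))))
.e)))))) (.c 3 (.c 1 (.c 3 t93 (.c 4 t94 (.c 5 t95 (.c 6 t96 (.c 9 t97 .e))))) (.c 2 (.c 3 t98
(.c 5 t99 (.c 6 t100 (.c 7 t101 (.c 8 t102 (.c 9 t103 .e)))))) (.c 7 (.c 0 t104 (.c 2 t105 (.c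
3 t106 (.c 4 t107 (.c 5 t108 (.c 9 t109 .e)))))) (.c 8 (.c 0 t110 (.c 2 t111 (.c 3 t112 (.c 4
t113 (.c 5 t114 (.c 6 t115 .e)))))) (.c 9 (.c 0 t116 (.c 1 t117 (.c 2 t118 (.c 3 t119 (.c 4
t120 (.c 6 t121 (.c 7 t122 .e))))))) .e))))) (.c 4 (.c 0 (.c 4 t123 (.c 5 t124 (.c 7 t125 (.c 8
t126 (.c 9 t127 .e))))) (.c 1 (.c 3 t128 (.c 4 t123 (.c 5 t124 (.c 6 t129 (.c 9 t127 .e)))))
(.c 6 (.c 1 t130 (.c 2 t131 (.c 4 t132 (.c 5 t133 (.c 8 t134 (.c 9 t135 .e)))))) (.c 7 (.c 0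
t136 (.c 2 t131 (.c 3 t137 (.c 4 t132 (.c 5 t133 (.c 9 t135 .e)))))) (.c 8 (.c 0 t138 (.c 2
t139 (.c 3 t140 (.c 4 t141 (.c 5 t142 (.c 6 t143 .e)))))) (.c 9 (.c 0 t144 (.c 1 t145 (.c 2
t146 (.c 3 t147 (.c 4 t148 (.c 6 t149 (.c 7 t150 .e))))))) .e)))))) (.c 5 (.c 0 (.c 4 t151 (.c
5 t152 (.c 7 t153 (.c 8 t154 (.c 9 t155 .e))))) (.c 1 (.c 3 t156 (.c 4 t151 (.c 5 t152 (.c 6
t157 (.c 9 t155 .e))))) (.c 2 (.c 3 t158 (.c 5 t159 (.c 6 t160 (.c 7 t161 (.c 8 t162 (.c 9 t163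
.e)))))) (.c 6 (.c 1 t164 (.c 2 t165 (.c 4 t166 (.c 5 t167 (.c 8 t168 (.c 9 t169 .e)))))) (.c 7
(.c 0 t170 (.c 2 t165 (.c 3 t171 (.c 4 t166 (.c 5 t167 (.c 9 t169 .e)))))) (.c 8 (.c 0 t172 (.c
2 t173 (.c 3 t174 (.c 4 t175 (.c 5 t176 (.c 6 t177 .e)))))) .e)))))) (.c 6 (.c 1 (.c 3 t178 (.c
4 t179 (.c 5 t180 (.c 6 t181 (.c 9 t182 .e))))) (.c 2 (.c 3 t183 (.c 5 t184 (.c 6 t185 (.c 7
t186 (.c 8 t187 (.c 9 t188 .e)))))) (.c 4 (.c 0 t189 (.c 1 t190 (.c 6 t185 (.c 7 t186 (.c 8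
t187 (.c 9 t188 .e)))))) (.c 5 (.c 0 t191 (.c 1 t192 (.c 2 t193 (.c 6 t194 (.c 7 t195 (.c 8
t196 .e)))))) (.c 8 (.c 0 t197 (.c 2 t198 (.c 3 t199 (.c 4 t200 (.c 5 t201 (.c 6 t202 .e))))))
(.c 9 (.c 0 t203 (.c 1 t204 (.c 2 t205 (.c 3 t206 (.c 4 t207 (.c 6 t208 (.c 7 t209 .e)))))))
.e)))))) (.c 7 (.c 0 (.c 4 t210 (.c 5 t211 (.c 7 t212 (.c 8 t213 (.c 9 t214 .e))))) (.c 2 (.c 3
t215 (.c 5 t216 (.c 6 t217 (.c 7 t218 (.c 8 t219 (.c 9 t220 .e)))))) (.c 3 (.c 1 t221 (.c 2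
t222 (.c 7 t212 (.c 8 t213 (.c 9 t214 .e))))) (.c 4 (.c 0 t223 (.c 1 t224 (.c 6 t217 (.c 7 t218
(.c 8 t219 (.c 9 t220 .e)))))) (.c 5 (.c 0 t225 (.c 1 t226 (.c 2 t227 (.c 6 t228 (.c 7 t229 (.c
8 t230 .e)))))) (.c 9 (.c 0 t231 (.c 1 t232 (.c 2 t233 (.c 3 t234 (.c 4 t235 (.c 6 t236 (.c 7
t237 .e))))))) .e)))))) (.c 8 (.c 0 (.c 4 t238 (.c 5 t239 (.c 7 t240 (.c 8 t241 (.c 9 t242
.e))))) (.c 2 (.c 3 t243 (.c 5 t244 (.c 6 t245 (.c 7 t246 (.c 8 t247 (.c 9 t248 .e)))))) (.c 3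
(.c 1 t249 (.c 2 t250 (.c 7 t240 (.c 8 t241 (.c 9 t242 .e))))) (.c 4 (.c 0 t251 (.c 1 t252 (.c
6 t245 (.c 7 t246 (.c 8 t247 (.c 9 t248 .e)))))) (.c 5 (.c 0 t253 (.c 1 t254 (.c 2 t255 (.c 6
t256 (.c 7 t257 (.c 8 t229 .e)))))) (.c 6 (.c 1 t258 (.c 2 t259 (.c 4 t260 (.c 5 t261 (.c 8
t262 (.c 9 t263 .e)))))) .e)))))) (.c 9 (.c 0 (.c 4 t264 (.c 5 t265 (.c 7 t266 (.c 8 t267 (.c 9
t268 .e))))) (.c 1 (.c 3 t269 (.c 4 t264 (.c 5 t265 (.c 6 t270 (.c 9 t268 .e))))) (.c 2 (.c 3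
t271 (.c 5 t272 (.c 6 t273 (.c 7 t274 (.c 8 t275 (.c 9 t276 .e)))))) (.c 3 (.c 1 t277 (.c 2
t278 (.c 7 t266 (.c 8 t267 (.c 9 t268 .e))))) (.c 4 (.c 0 t279 (.c 1 t280 (.c 6 t273 (.c 7 t274
(.c 8 t275 (.c 9 t276 .e)))))) (.c 6 (.c 1 t281 (.c 2 t282 (.c 4 t283 (.c 5 t284 (.c 8 t285 (.c
9 t286 .e)))))) (.c 7 (.c 0 t287 (.c 2 t282 (.c 3 t288 (.c 4 t283 (.c 5 t284 (.c 9 t286
.e)))))) .e))))))) .e))))))))))

theorem chk : chk [0, 1, 0, 0, 0, 0, 2, 1] 4 6 0 2 T = true := by decide +kernel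

end Vale.Agent.P032.Words.Trie.BetaN6
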