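import Vale.Agent.P032.Words.H151.Beta

/-!
# BETA pair, special end near: Af+Qf+Pf ≥ 3

Decision diagram of 1 potentials.
-/

namespace Vale.Agent.P032.Words.Trie.BetaN7

noncomputable def v0 : Tr := .l 0
noncomputable def v1 : Tr := .l 1
noncomputable def q0 : Tr := .c 4 v0 (.c 5 v0 (.c 7 v1 (.c 8 v1 (.c 9 v0 .e))))
noncomputable def q1 : Tr := .c 4 v0 (.c 5 v0 (.c 9 v0 .e))
noncomputable def q2 : Tr := .c 4 v0 (.c 5 v0 (.c 8 v1 (.c 9 v0 .e)))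
noncomputable def q3 : Tr := .c 4 v0 (.c 5 v0 .e)
noncomputable def r0 : Tr := .c 0 q0 (.c 1 q1 (.c 6 q2 (.c 7 q1 (.c 8 q3 .e))))
noncomputable def v2 : Tr := .l 2
noncomputable def q4 : Tr := .c 4 v0 (.c 5 v0 (.c 7 v2 (.c 8 v1 (.c 9 v0 .e))))
noncomputable def q5 : Tr := .c 5 v0 (.c 7 v2 (.c 8 v1 (.c 9 v0 .e)))
noncomputable def r1 : Tr := .c 0 q4 (.c 1 q1 (.c 2 q5 (.c 6 q2 (.c 7 q1 (.c 8 q3 .e)))))
noncomputable def v3 : Tr := .l 3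
noncomputable def q6 : Tr := .c 4 v1 (.c 5 v2 (.c 7 v3 (.c 8 v3 (.c 9 v2 .e))))
noncomputable def q7 : Tr := .c 5 v2 (.c 7 v3 (.c 8 v3 (.c 9 v2 .e)))
noncomputable def q8 : Tr := .c 7 v3 (.c 8 v3 (.c 9 v2 .e))
noncomputable def r2 : Tr := .c 0 q6 (.c 2 q7 (.c 3 q8 (.c 4 q8 .e)))
noncomputable def q9 : Tr := .c 4 v1 (.c 5 v1 (.c 7 v3 (.c 8 v2 (.c 9 v1 .e))))
noncomputable def q10 : Tr := .c 5 v1 (.c 7 v3 (.c 8 v2 (.c 9 v1 .e)))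
noncomputable def q11 : Tr := .c 7 v3 (.c 8 v2 (.c 9 v1 .e))
noncomputable def q12 : Tr := .c 4 v1 (.c 5 v1 (.c 8 v2 (.c 9 v1 .e)))
noncomputable def r3 : Tr := .c 0 q9 (.c 2 q10 (.c 3 q11 (.c 4 q11 (.c 6 q12 .e))))
noncomputable def q13 : Tr := .c 7 v2 (.c 8 v1 (.c 9 v0 .e))
noncomputable def r4 : Tr := .c 0 q4 (.c 1 q1 (.c 2 q5 (.c 3 q13 (.c 4 q13 (.c 6 q2 (.c 7 q1 .e))))))
noncomputable def t0 : Tr := .c 4 r0 (.c 5 r1 (.c 7 r2 (.c 8 r3 (.c 9 r4 .e))))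
noncomputable def r5 : Tr := .c 1 q1 (.c 2 q5 (.c 7 q1 (.c 8 q3 .e)))
noncomputable def r6 : Tr := .c 1 q1 (.c 2 q10 (.c 4 q11 (.c 8 q3 .e)))
noncomputable def t1 : Tr := .c 3 r5 (.c 4 r0 (.c 5 r1 (.c 6 r6 (.c 9 r4 .e))))
noncomputable def q14 : Tr := .c 7 v3 .e
noncomputable def q15 : Tr := .c 4 v1 (.c 5 v1 .e)
noncomputable def r7 : Tr := .c 3 q14 (.c 4 q14 (.c 6 q15 .e))
noncomputable def q16 : Tr := .c 7 v2 .e
noncomputable def r8 : Tr := .c 3 q16 (.c 6 q3 (.c 7 q3 (.c 8 q3 .e)))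
noncomputable def q17 : Tr := .c 4 v0 (.c 5 v0 (.c 7 v1 .e))
noncomputable def r9 : Tr := .c 0 q17 (.c 1 q3 (.c 6 q3 (.c 7 q3 (.c 8 q3 .e))))
noncomputable def q18 : Tr := .c 4 v0 (.c 5 v0 (.c 7 v2 .e))
noncomputable def q19 : Tr := .c 5 v0 (.c 7 v2 .e)
noncomputable def r10 : Tr := .c 0 q18 (.c 1 q3 (.c 2 q19 (.c 6 q3 (.c 7 q3 (.c 8 q3 .e)))))
noncomputable def q20 : Tr := .c 4 v1 (.c 5 v1 (.c 7 v3 .e))
noncomputable def q21 : Tr := .c 5 v1 (.c 7 v3 .e)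
noncomputable def r11 : Tr := .c 0 q20 (.c 2 q21 (.c 3 q14 (.c 4 q14 (.c 6 q15 .e))))
noncomputable def r12 : Tr := .c 0 q18 (.c 1 q3 (.c 2 q19 (.c 3 q16 (.c 4 q16 (.c 6 q3 (.c 7 q3 .e))))))
noncomputable def t2 : Tr := .c 1 r7 (.c 2 r8 (.c 4 r9 (.c 5 r10 (.c 8 r11 (.c 9 r12 .e)))))
noncomputable def r13 : Tr := .c 4 q14 (.c 7 q3 (.c 8 q3 .e))
noncomputable def r14 : Tr := .c 1 q3 (.c 2 q19 (.c 7 q3 (.c 8 q3 .e)))
noncomputable def t3 : Tr := .c 0 r13 (.c 2 r8 (.c 3 r14 (.c 4 r9 (.c 5 r10 (.c 9 r12 .e)))))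
noncomputable def q22 : Tr := .c 8 v2 (.c 9 v1 .e)
noncomputable def r15 : Tr := .c 4 q22 (.c 7 q1 (.c 8 q3 .e))
noncomputable def r16 : Tr := .c 3 q22 (.c 6 q2 (.c 7 q1 (.c 8 q3 .e)))
noncomputable def q23 : Tr := .c 5 v0 (.c 8 v1 (.c 9 v0 .e))
noncomputable def r17 : Tr := .c 1 q1 (.c 2 q23 (.c 7 q1 (.c 8 q3 .e)))
noncomputable def r18 : Tr := .c 0 q2 (.c 1 q1 (.c 6 q2 (.c 7 q1 (.c 8 q3 .e))))
noncomputable def r19 : Tr := .c 0 q2 (.c 1 q1 (.c 2 q23 (.c 6 q2 (.c 7 q1 (.c 8 q3 .e)))))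
noncomputable def q24 : Tr := .c 5 v1 (.c 8 v2 (.c 9 v1 .e))
noncomputable def r20 : Tr := .c 1 q1 (.c 2 q24 (.c 4 q22 (.c 8 q3 .e)))
noncomputable def t4 : Tr := .c 0 r15 (.c 2 r16 (.c 3 r17 (.c 4 r18 (.c 5 r19 (.c 6 r20 .e)))))
noncomputable def q25 : Tr := .c 8 v3 (.c 9 v2 .e)
noncomputable def q26 : Tr := .c 5 v1 (.c 9 v1 .e)
noncomputable def q27 : Tr := .c 5 v1 .e
noncomputable def r21 : Tr := .c 4 q25 (.c 7 q26 (.c 8 q27 .e))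
noncomputable def q28 : Tr := .c 5 v2 (.c 8 v3 (.c 9 v2 .e))
noncomputable def r22 : Tr := .c 3 q25 (.c 4 q25 (.c 6 q28 .e))
noncomputable def r23 : Tr := .c 3 q25 (.c 6 q24 (.c 7 q26 (.c 8 q27 .e)))
noncomputable def r24 : Tr := .c 1 q26 (.c 2 q24 (.c 7 q26 (.c 8 q27 .e)))
noncomputable def r25 : Tr := .c 0 q24 (.c 1 q26 (.c 6 q24 (.c 7 q26 (.c 8 q27 .e))))
noncomputable def r26 : Tr := .c 1 q26 (.c 2 q28 (.c 4 q25 (.c 8 q27 .e)))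
noncomputable def r27 : Tr := .c 0 q28 (.c 2 q28 (.c 3 q25 (.c 4 q25 .e)))
noncomputable def t5 : Tr := .c 0 r21 (.c 1 r22 (.c 2 r23 (.c 3 r24 (.c 4 r25 (.c 6 r26 (.c 7 r27 .e))))))
noncomputable def q29 : Tr := .c 4 v1 (.c 7 v2 .e)
noncomputable def r28 : Tr := .c 0 q4 (.c 1 q1 (.c 6 q2 (.c 7 q1 (.c 8 q3 (.c 9 q29 .e)))))
noncomputable def q30 : Tr := .c 4 v2 (.c 5 v1 (.c 7 v2 (.c 8 v2 (.c 9 v1 .e))))
noncomputable def q31 : Tr := .c 7 v2 (.c 8 v2 (.c 9 v1 .e))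
noncomputable def q32 : Tr := .c 7 v2 (.c 8 v2 .e)
noncomputable def q33 : Tr := .c 4 v2 (.c 7 v2 .e)
noncomputable def r29 : Tr := .c 0 q30 (.c 3 q31 (.c 5 q32 (.c 9 q33 .e)))
noncomputable def q34 : Tr := .c 4 v1 (.c 5 v1 (.c 7 v2 (.c 8 v2 (.c 9 v1 .e))))
noncomputable def r30 : Tr := .c 0 q34 (.c 3 q31 (.c 5 q32 (.c 6 q12 .e)))
noncomputable def q35 : Tr := .c 7 v1 (.c 8 v1 (.c 9 v0 .e))
noncomputable def r31 : Tr := .c 0 q0 (.c 1 q1 (.c 3 q35 (.c 6 q2 (.c 7 q1 .e))))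
noncomputable def t6 : Tr := .c 4 r28 (.c 5 r0 (.c 7 r29 (.c 8 r30 (.c 9 r31 .e))))
noncomputable def r32 : Tr := .c 1 q1 (.c 7 q1 (.c 8 q3 (.c 9 q29 .e)))
noncomputable def r33 : Tr := .c 1 q1 (.c 5 q32 (.c 8 q3 (.c 9 q29 .e)))
noncomputable def t7 : Tr := .c 3 r32 (.c 4 r28 (.c 5 r0 (.c 6 r33 (.c 9 r31 .e))))
noncomputable def q36 : Tr := .c 4 v0 .e
noncomputable def r34 : Tr := .c 1 q36 (.c 7 q36 (.c 8 q36 (.c 9 q29 .e)))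
noncomputable def q37 : Tr := .c 4 v0 (.c 7 v1 (.c 8 v1 .e))
noncomputable def q38 : Tr := .c 4 v0 (.c 8 v1 .e)
noncomputable def r35 : Tr := .c 0 q37 (.c 1 q36 (.c 6 q38 (.c 7 q36 (.c 8 q36 .e))))
noncomputable def q39 : Tr := .c 4 v1 .e
noncomputable def r36 : Tr := .c 1 q39 (.c 5 q32 (.c 8 q39 (.c 9 q33 .e)))
noncomputable def q40 : Tr := .c 4 v2 (.c 7 v2 (.c 8 v2 .e))
noncomputable def r37 : Tr := .c 0 q40 (.c 3 q32 (.c 5 q32 (.c 9 q33 .e)))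
noncomputable def q41 : Tr := .c 4 v1 (.c 7 v2 (.c 8 v2 .e))
noncomputable def q42 : Tr := .c 4 v1 (.c 8 v2 .e)
noncomputable def r38 : Tr := .c 0 q41 (.c 3 q32 (.c 5 q32 (.c 6 q42 .e)))
noncomputable def q43 : Tr := .c 7 v1 (.c 8 v1 .e)
noncomputable def r39 : Tr := .c 0 q37 (.c 1 q36 (.c 3 q43 (.c 6 q38 (.c 7 q36 .e))))
noncomputable def t8 : Tr := .c 3 r34 (.c 5 r35 (.c 6 r36 (.c 7 r37 (.c 8 r38 (.c 9 r39 .e)))))
noncomputable def r40 : Tr := .c 3 q16 (.c 5 q16 (.c 6 q15 (.c 9 q33 .e)))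
noncomputable def r41 : Tr := .c 3 q16 (.c 5 q16 (.c 6 q3 (.c 7 q3 (.c 8 q3 (.c 9 q29 .e)))))
noncomputable def r42 : Tr := .c 0 q18 (.c 1 q3 (.c 6 q3 (.c 7 q3 (.c 8 q3 (.c 9 q29 .e)))))
noncomputable def q44 : Tr := .c 4 v1 (.c 5 v1 (.c 7 v2 .e))
noncomputable def r43 : Tr := .c 0 q44 (.c 3 q16 (.c 5 q16 (.c 6 q15 .e)))
noncomputable def q45 : Tr := .c 7 v1 .e
noncomputable def r44 : Tr := .c 0 q17 (.c 1 q3 (.c 3 q45 (.c 6 q3 (.c 7 q3 .e))))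
noncomputable def t9 : Tr := .c 1 r40 (.c 2 r41 (.c 4 r42 (.c 5 r9 (.c 8 r43 (.c 9 r44 .e)))))
noncomputable def r45 : Tr := .c 5 q16 (.c 7 q3 (.c 8 q3 (.c 9 q29 .e)))
noncomputable def r46 : Tr := .c 1 q3 (.c 7 q3 (.c 8 q3 (.c 9 q29 .e)))
noncomputable def t10 : Tr := .c 0 r45 (.c 2 r41 (.c 3 r46 (.c 4 r42 (.c 5 r9 (.c 9 r44 .e)))))
noncomputable def q46 : Tr := .c 8 v2 .e
noncomputable def r47 : Tr := .c 5 q46 (.c 7 q1 (.c 8 q3 (.c 9 q39 .e)))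
noncomputable def r48 : Tr := .c 3 q22 (.c 5 q46 (.c 6 q2 (.c 7 q1 (.c 8 q3 (.c 9 q39 .e)))))
noncomputable def r49 : Tr := .c 1 q1 (.c 7 q1 (.c 8 q3 (.c 9 q39 .e)))
noncomputable def r50 : Tr := .c 0 q2 (.c 1 q1 (.c 6 q2 (.c 7 q1 (.c 8 q3 (.c 9 q39 .e)))))
noncomputable def r51 : Tr := .c 1 q1 (.c 5 q46 (.c 8 q3 (.c 9 q39 .e)))
noncomputable def t11 : Tr := .c 0 r47 (.c 2 r48 (.c 3 r49 (.c 4 r50 (.c 5 r18 (.c 6 r51 .e)))))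
noncomputable def q47 : Tr := .c 4 v1 (.c 5 v2 (.c 9 v2 .e))
noncomputable def q48 : Tr := .c 4 v1 (.c 5 v2 (.c 8 v3 (.c 9 v2 .e)))
noncomputable def r52 : Tr := .c 0 q6 (.c 1 q47 (.c 6 q48 (.c 7 q47 .e)))
noncomputable def q49 : Tr := .c 4 v2 (.c 5 v1 (.c 9 v1 .e))
noncomputable def q50 : Tr := .c 5 v1 (.c 7 v2 (.c 8 v2 (.c 9 v1 .e)))
noncomputable def q51 : Tr := .c 4 v2 (.c 5 v1 (.c 8 v2 (.c 9 v1 .e)))
noncomputable def r53 : Tr := .c 0 q30 (.c 1 q49 (.c 2 q50 (.c 6 q51 (.c 7 q49 .e))))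
noncomputable def q52 : Tr := .c 4 v3 (.c 5 v2 (.c 7 v3 (.c 8 v3 (.c 9 v2 .e))))
noncomputable def q53 : Tr := .c 7 v3 (.c 8 v3 .e)
noncomputable def r54 : Tr := .c 0 q52 (.c 2 q7 (.c 3 q8 (.c 4 q8 (.c 5 q53 .e))))
noncomputable def q54 : Tr := .c 4 v3 (.c 5 v2 (.c 8 v3 (.c 9 v2 .e)))
noncomputable def r55 : Tr := .c 0 q52 (.c 2 q7 (.c 3 q8 (.c 4 q8 (.c 5 q53 (.c 6 q54 .e)))))
noncomputable def r56 : Tr := .c 0 q30 (.c 1 q49 (.c 2 q50 (.c 3 q31 (.c 4 q31 (.c 6 q51 (.c 7 q49 .e))))))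
noncomputable def t12 : Tr := .c 4 r52 (.c 5 r53 (.c 7 r54 (.c 8 r55 (.c 9 r56 .e))))
noncomputable def q55 : Tr := .c 4 v2 .e
noncomputable def r57 : Tr := .c 1 q55 (.c 2 q32 (.c 7 q55 .e))
noncomputable def q56 : Tr := .c 4 v2 (.c 8 v2 .e)
noncomputable def r58 : Tr := .c 0 q40 (.c 1 q55 (.c 2 q32 (.c 6 q56 (.c 7 q55 .e))))
noncomputable def q57 : Tr := .c 4 v3 .e
noncomputable def r59 : Tr := .c 1 q57 (.c 2 q53 (.c 4 q53 (.c 5 q53 .e)))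
noncomputable def q58 : Tr := .c 4 v3 (.c 7 v3 (.c 8 v3 .e))
noncomputable def r60 : Tr := .c 0 q58 (.c 2 q53 (.c 3 q53 (.c 4 q53 (.c 5 q53 .e))))
noncomputable def q59 : Tr := .c 4 v3 (.c 8 v3 .e)
noncomputable def r61 : Tr := .c 0 q58 (.c 2 q53 (.c 3 q53 (.c 4 q53 (.c 5 q53 (.c 6 q59 .e)))))
noncomputable def r62 : Tr := .c 0 q40 (.c 1 q55 (.c 2 q32 (.c 3 q32 (.c 4 q32 (.c 6 q56 (.c 7 q55 .e))))))
noncomputable def t13 : Tr := .c 3 r57 (.c 5 r58 (.c 6 r59 (.c 7 r60 (.c 8 r61 (.c 9 r62 .e)))))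
noncomputable def r63 : Tr := .c 3 q8 (.c 4 q8 (.c 5 q53 (.c 6 q54 .e)))
noncomputable def q60 : Tr := .c 7 v3 (.c 8 v3 (.c 9 v3 .e))
noncomputable def q61 : Tr := .c 4 v2 (.c 5 v2 (.c 8 v3 (.c 9 v2 .e)))
noncomputable def q62 : Tr := .c 4 v2 (.c 5 v2 (.c 9 v2 .e))
noncomputable def r64 : Tr := .c 3 q60 (.c 5 q53 (.c 6 q61 (.c 7 q62 .e)))
noncomputable def t14 : Tr := .c 1 r63 (.c 2 r64 (.c 7 r54 (.c 8 r55 (.c 9 r56 .e))))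
noncomputable def r65 : Tr := .c 4 q53 (.c 5 q53 (.c 7 q57 .e))
noncomputable def r66 : Tr := .c 3 q53 (.c 4 q53 (.c 5 q53 (.c 6 q59 .e)))
noncomputable def t15 : Tr := .c 0 r65 (.c 1 r66 (.c 6 r59 (.c 7 r60 (.c 8 r61 (.c 9 r62 .e)))))
noncomputable def q63 : Tr := .c 5 v2 (.c 9 v2 .e)
noncomputable def r67 : Tr := .c 4 q8 (.c 5 q53 (.c 7 q63 .e))
noncomputable def r68 : Tr := .c 3 q8 (.c 4 q8 (.c 5 q53 (.c 6 q28 .e)))
noncomputable def r69 : Tr := .c 3 q60 (.c 5 q53 (.c 6 q28 (.c 7 q63 .e)))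
noncomputable def r70 : Tr := .c 1 q63 (.c 2 q7 (.c 4 q8 (.c 5 q53 .e)))
noncomputable def r71 : Tr := .c 0 q7 (.c 2 q7 (.c 3 q8 (.c 4 q8 (.c 5 q53 .e))))
noncomputable def r72 : Tr := .c 0 q7 (.c 2 q7 (.c 3 q8 (.c 4 q8 (.c 5 q53 (.c 6 q28 .e)))))
noncomputable def t16 : Tr := .c 0 r67 (.c 1 r68 (.c 2 r69 (.c 6 r70 (.c 7 r71 (.c 8 r72 .e)))))
noncomputable def q64 : Tr := .c 8 v3 .e
noncomputable def r73 : Tr := .c 4 q25 (.c 5 q64 (.c 7 q63 .e))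
noncomputable def r74 : Tr := .c 3 q25 (.c 4 q25 (.c 5 q64 (.c 6 q28 .e)))
noncomputable def q65 : Tr := .c 8 v3 (.c 9 v3 .e)
noncomputable def r75 : Tr := .c 3 q65 (.c 5 q64 (.c 6 q28 (.c 7 q63 .e)))
noncomputable def r76 : Tr := .c 1 q63 (.c 2 q28 (.c 7 q63 .e))
noncomputable def r77 : Tr := .c 0 q28 (.c 1 q63 (.c 6 q28 (.c 7 q63 .e)))
noncomputable def r78 : Tr := .c 1 q63 (.c 2 q28 (.c 4 q25 (.c 5 q64 .e)))
noncomputable def r79 : Tr := .c 0 q28 (.c 2 q28 (.c 3 q25 (.c 4 q25 (.c 5 q64 .e))))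
noncomputable def t17 : Tr := .c 0 r73 (.c 1 r74 (.c 2 r75 (.c 3 r76 (.c 4 r77 (.c 6 r78 (.c 7 r79 .e))))))
noncomputable def q66 : Tr := .c 4 v1 (.c 5 v1 (.c 9 v1 .e))
noncomputable def q67 : Tr := .c 4 v2 (.c 7 v3 .e)
noncomputable def r80 : Tr := .c 0 q9 (.c 1 q66 (.c 8 q15 (.c 9 q67 .e)))
noncomputable def r81 : Tr := .c 0 q34 (.c 1 q66 (.c 2 q50 (.c 8 q15 .e)))
noncomputable def q68 : Tr := .c 4 v3 (.c 7 v3 .e)
noncomputable def r82 : Tr := .c 0 q52 (.c 2 q7 (.c 3 q8 (.c 4 q8 (.c 5 q53 (.c 9 q68 .e)))))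
noncomputable def q69 : Tr := .c 4 v2 (.c 5 v2 (.c 7 v3 (.c 8 v3 (.c 9 v2 .e))))
noncomputable def r83 : Tr := .c 0 q69 (.c 2 q7 (.c 3 q8 (.c 4 q8 (.c 5 q53 .e))))
noncomputable def r84 : Tr := .c 0 q34 (.c 1 q66 (.c 2 q50 (.c 3 q31 (.c 4 q31 .e))))
noncomputable def t18 : Tr := .c 4 r80 (.c 5 r81 (.c 7 r82 (.c 8 r83 (.c 9 r84 .e))))
noncomputable def r85 : Tr := .c 1 q39 (.c 2 q32 (.c 8 q39 (.c 9 q67 .e)))
noncomputable def r86 : Tr := .c 0 q41 (.c 1 q39 (.c 2 q32 (.c 8 q39 .e)))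
noncomputable def r87 : Tr := .c 1 q55 (.c 2 q53 (.c 4 q53 (.c 5 q53 (.c 8 q55 (.c 9 q68 .e)))))
noncomputable def r88 : Tr := .c 0 q58 (.c 2 q53 (.c 3 q53 (.c 4 q53 (.c 5 q53 (.c 9 q68 .e)))))
noncomputable def q70 : Tr := .c 4 v2 (.c 7 v3 (.c 8 v3 .e))
noncomputable def r89 : Tr := .c 0 q70 (.c 2 q53 (.c 3 q53 (.c 4 q53 (.c 5 q53 .e))))
noncomputable def r90 : Tr := .c 0 q41 (.c 1 q39 (.c 2 q32 (.c 3 q32 (.c 4 q32 .e))))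
noncomputable def t19 : Tr := .c 3 r85 (.c 5 r86 (.c 6 r87 (.c 7 r88 (.c 8 r89 (.c 9 r90 .e)))))
noncomputable def r91 : Tr := .c 3 q8 (.c 4 q8 (.c 5 q53 (.c 9 q68 .e)))
noncomputable def q71 : Tr := .c 4 v2 (.c 5 v2 .e)
noncomputable def r92 : Tr := .c 3 q60 (.c 5 q53 (.c 8 q71 (.c 9 q68 .e)))
noncomputable def t20 : Tr := .c 1 r91 (.c 2 r92 (.c 7 r82 (.c 8 r83 (.c 9 r84 .e))))
noncomputable def r93 : Tr := .c 4 q53 (.c 5 q53 (.c 8 q55 (.c 9 q68 .e)))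
noncomputable def r94 : Tr := .c 3 q53 (.c 4 q53 (.c 5 q53 (.c 9 q68 .e)))
noncomputable def t21 : Tr := .c 0 r93 (.c 1 r94 (.c 6 r87 (.c 7 r88 (.c 8 r89 (.c 9 r90 .e)))))
noncomputable def q72 : Tr := .c 5 v2 .e
noncomputable def r95 : Tr := .c 4 q8 (.c 5 q53 (.c 8 q72 (.c 9 q14 .e)))
noncomputable def r96 : Tr := .c 3 q8 (.c 4 q8 (.c 5 q53 (.c 9 q14 .e)))
noncomputable def r97 : Tr := .c 3 q60 (.c 5 q53 (.c 8 q72 (.c 9 q14 .e)))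
noncomputable def r98 : Tr := .c 1 q63 (.c 2 q7 (.c 4 q8 (.c 5 q53 (.c 8 q72 (.c 9 q14 .e)))))
noncomputable def r99 : Tr := .c 0 q7 (.c 2 q7 (.c 3 q8 (.c 4 q8 (.c 5 q53 (.c 9 q14 .e)))))
noncomputable def t22 : Tr := .c 0 r95 (.c 1 r96 (.c 2 r97 (.c 6 r98 (.c 7 r99 (.c 8 r71 .e)))))
noncomputable def r100 : Tr := .c 3 q14 (.c 4 q14 (.c 5 q14 (.c 9 q68 .e)))
noncomputable def r101 : Tr := .c 3 q14 (.c 5 q14 (.c 8 q15 (.c 9 q67 .e)))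
noncomputable def r102 : Tr := .c 0 q20 (.c 1 q15 (.c 8 q15 (.c 9 q67 .e)))
noncomputable def q73 : Tr := .c 5 v1 (.c 7 v2 .e)
noncomputable def r103 : Tr := .c 0 q44 (.c 1 q15 (.c 2 q73 (.c 8 q15 .e)))
noncomputable def q74 : Tr := .c 4 v2 (.c 5 v2 (.c 7 v3 .e))
noncomputable def q75 : Tr := .c 5 v2 (.c 7 v3 .e)
noncomputable def r104 : Tr := .c 0 q74 (.c 2 q75 (.c 3 q14 (.c 4 q14 (.c 5 q14 .e))))
noncomputable def r105 : Tr := .c 0 q44 (.c 1 q15 (.c 2 q73 (.c 3 q16 (.c 4 q16 .e))))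
noncomputable def t23 : Tr := .c 1 r100 (.c 2 r101 (.c 4 r102 (.c 5 r103 (.c 8 r104 (.c 9 r105 .e)))))
noncomputable def r106 : Tr := .c 0 q4 (.c 1 q1 (.c 8 q3 (.c 9 q29 .e)))
noncomputable def r107 : Tr := .c 0 q0 (.c 1 q1 (.c 8 q3 .e))
noncomputable def r108 : Tr := .c 0 q34 (.c 3 q31 (.c 5 q32 .e))
noncomputable def r109 : Tr := .c 0 q0 (.c 1 q1 (.c 3 q35 .e))
noncomputable def t24 : Tr := .c 4 r106 (.c 5 r107 (.c 7 r29 (.c 8 r108 (.c 9 r109 .e))))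
noncomputable def r110 : Tr := .c 1 q1 (.c 8 q3 (.c 9 q29 .e))
noncomputable def t25 : Tr := .c 3 r110 (.c 4 r106 (.c 5 r107 (.c 6 r33 (.c 9 r109 .e))))
noncomputable def r111 : Tr := .c 1 q36 (.c 8 q36 (.c 9 q29 .e))
noncomputable def r112 : Tr := .c 0 q37 (.c 1 q36 (.c 8 q36 .e))
noncomputable def r113 : Tr := .c 0 q41 (.c 3 q32 (.c 5 q32 .e))
noncomputable def r114 : Tr := .c 0 q37 (.c 1 q36 (.c 3 q43 .e))
noncomputable def t26 : Tr := .c 3 r111 (.c 5 r112 (.c 6 r36 (.c 7 r37 (.c 8 r113 (.c 9 r114 .e)))))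
noncomputable def r115 : Tr := .c 3 q31 (.c 5 q32 (.c 9 q33 .e))
noncomputable def r116 : Tr := .c 3 q8 (.c 5 q53 (.c 8 q15 (.c 9 q67 .e)))
noncomputable def t27 : Tr := .c 1 r115 (.c 2 r116 (.c 7 r29 (.c 8 r108 (.c 9 r109 .e))))
noncomputable def r117 : Tr := .c 5 q32 (.c 8 q39 (.c 9 q33 .e))
noncomputable def r118 : Tr := .c 3 q32 (.c 5 q32 (.c 9 q33 .e))
noncomputable def t28 : Tr := .c 0 r117 (.c 1 r118 (.c 6 r36 (.c 7 r37 (.c 8 r113 (.c 9 r114 .e)))))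
noncomputable def r119 : Tr := .c 3 q16 (.c 5 q16 (.c 9 q33 .e))
noncomputable def r120 : Tr := .c 3 q16 (.c 5 q16 (.c 8 q3 (.c 9 q29 .e)))
noncomputable def r121 : Tr := .c 0 q18 (.c 1 q3 (.c 8 q3 (.c 9 q29 .e)))
noncomputable def r122 : Tr := .c 0 q17 (.c 1 q3 (.c 8 q3 .e))
noncomputable def r123 : Tr := .c 0 q44 (.c 3 q16 (.c 5 q16 .e))
noncomputable def r124 : Tr := .c 0 q17 (.c 1 q3 (.c 3 q45 .e))
noncomputable def t29 : Tr := .c 1 r119 (.c 2 r120 (.c 4 r121 (.c 5 r122 (.c 8 r123 (.c 9 r124 .e)))))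
noncomputable def r125 : Tr := .c 5 q16 (.c 8 q3 (.c 9 q29 .e))
noncomputable def r126 : Tr := .c 1 q3 (.c 8 q3 (.c 9 q29 .e))
noncomputable def t30 : Tr := .c 0 r125 (.c 2 r120 (.c 3 r126 (.c 4 r121 (.c 5 r122 (.c 9 r124 .e)))))
noncomputable def q76 : Tr := .c 3 v0 (.c 4 v0 (.c 5 v0 (.c 6 v0 (.c 9 v0 .e))))
noncomputable def q77 : Tr := .c 3 v0 (.c 5 v0 (.c 6 v1 (.c 9 v0 .e)))
noncomputable def q78 : Tr := .c 3 v0 (.c 4 v0 (.c 5 v0 (.c 9 v0 .e)))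
noncomputable def q79 : Tr := .c 3 v0 (.c 4 v0 (.c 5 v0 (.c 6 v0 .e)))
noncomputable def q80 : Tr := .c 3 v1 (.c 4 v1 (.c 6 v1 .e))
noncomputable def r127 : Tr := .c 1 q76 (.c 2 q77 (.c 7 q78 (.c 8 q79 (.c 9 q80 .e))))
noncomputable def r128 : Tr := .c 0 q1 (.c 1 q76 (.c 6 q1 (.c 7 q78 (.c 8 q79 (.c 9 q80 .e)))))
noncomputable def r129 : Tr := .c 0 q1 (.c 1 q76 (.c 2 q77 (.c 6 q1 (.c 7 q78 (.c 8 q79 .e)))))
noncomputable def q81 : Tr := .c 3 v0 (.c 4 v0 (.c 5 v0 (.c 6 v1 (.c 9 v0 .e))))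
noncomputable def q82 : Tr := .c 3 v1 (.c 5 v1 (.c 6 v2 (.c 9 v1 .e)))
noncomputable def q83 : Tr := .c 6 v2 (.c 9 v1 .e)
noncomputable def q84 : Tr := .c 6 v2 .e
noncomputable def q85 : Tr := .c 3 v0 (.c 4 v0 (.c 5 v0 (.c 6 v1 .e)))
noncomputable def q86 : Tr := .c 3 v1 (.c 4 v1 (.c 6 v2 .e))
noncomputable def r130 : Tr := .c 1 q81 (.c 2 q82 (.c 4 q83 (.c 5 q84 (.c 8 q85 (.c 9 q86 .e)))))
noncomputable def q87 : Tr := .c 9 v0 .e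
noncomputable def q88 : Tr := .c 6 v1 (.c 9 v0 .e)
noncomputable def r131 : Tr := .c 0 q1 (.c 1 q76 (.c 2 q77 (.c 3 q87 (.c 4 q88 (.c 6 q1 (.c 7 q78 .e))))))
noncomputable def t31 : Tr := .c 3 r127 (.c 4 r128 (.c 5 r129 (.c 6 r130 (.c 9 r131 .e))))
noncomputable def q89 : Tr := .c 3 v0 (.c 4 v0 (.c 6 v0 .e))
noncomputable def q90 : Tr := .c 3 v1 (.c 6 v1 .e)
noncomputable def q91 : Tr := .c 3 v0 (.c 4 v0 .e)
noncomputable def r132 : Tr := .c 1 q89 (.c 2 q90 (.c 7 q91 (.c 8 q89 (.c 9 q80 .e))))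
noncomputable def r133 : Tr := .c 0 q36 (.c 1 q89 (.c 2 q90 (.c 6 q36 (.c 7 q91 (.c 8 q89 .e)))))
noncomputable def q92 : Tr := .c 3 v2 (.c 6 v2 .e)
noncomputable def q93 : Tr := .c 3 v2 (.c 4 v2 (.c 6 v2 .e))
noncomputable def r134 : Tr := .c 1 q80 (.c 2 q92 (.c 4 q84 (.c 5 q84 (.c 8 q80 (.c 9 q93 .e)))))
noncomputable def r135 : Tr := .c 0 q55 (.c 2 q92 (.c 4 q84 (.c 5 q84 (.c 9 q93 .e))))
noncomputable def r136 : Tr := .c 0 q39 (.c 2 q92 (.c 4 q84 (.c 5 q84 (.c 6 q39 .e))))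
noncomputable def q94 : Tr := .c 6 v1 .e
noncomputable def r137 : Tr := .c 0 q36 (.c 1 q89 (.c 2 q90 (.c 4 q94 (.c 6 q36 (.c 7 q91 .e)))))
noncomputable def t32 : Tr := .c 3 r132 (.c 5 r133 (.c 6 r134 (.c 7 r135 (.c 8 r136 (.c 9 r137 .e)))))
noncomputable def q95 : Tr := .c 6 v3 .e
noncomputable def q96 : Tr := .c 3 v0 (.c 4 v0 (.c 5 v0 .e))
noncomputable def r138 : Tr := .c 4 q95 (.c 5 q94 (.c 7 q96 (.c 8 q79 (.c 9 q80 .e))))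
noncomputable def r139 : Tr := .c 5 q94 (.c 6 q3 (.c 7 q96 (.c 8 q79 (.c 9 q80 .e))))
noncomputable def q97 : Tr := .c 3 v0 (.c 5 v0 (.c 6 v1 .e))
noncomputable def r140 : Tr := .c 1 q79 (.c 2 q97 (.c 7 q96 (.c 8 q79 (.c 9 q80 .e))))
noncomputable def r141 : Tr := .c 0 q3 (.c 1 q79 (.c 6 q3 (.c 7 q96 (.c 8 q79 (.c 9 q80 .e)))))
noncomputable def r142 : Tr := .c 0 q3 (.c 1 q79 (.c 2 q97 (.c 6 q3 (.c 7 q96 (.c 8 q79 .e)))))
noncomputable def r143 : Tr := .c 0 q3 (.c 1 q79 (.c 2 q97 (.c 4 q94 (.c 6 q3 (.c 7 q96 .e)))))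
noncomputable def t33 : Tr := .c 0 r138 (.c 2 r139 (.c 3 r140 (.c 4 r141 (.c 5 r142 (.c 9 r143 .e)))))
noncomputable def q98 : Tr := .c 9 v1 .e
noncomputable def q99 : Tr := .c 3 v1 (.c 4 v1 .e)
noncomputable def r144 : Tr := .c 4 q98 (.c 7 q78 (.c 8 q96 (.c 9 q99 .e)))
noncomputable def r145 : Tr := .c 3 q98 (.c 6 q1 (.c 7 q78 (.c 8 q96 (.c 9 q99 .e))))
noncomputable def q100 : Tr := .c 3 v0 (.c 5 v0 (.c 9 v0 .e))
noncomputable def r146 : Tr := .c 1 q78 (.c 2 q100 (.c 7 q78 (.c 8 q96 (.c 9 q99 .e))))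
noncomputable def r147 : Tr := .c 0 q1 (.c 1 q78 (.c 6 q1 (.c 7 q78 (.c 8 q96 (.c 9 q99 .e)))))
noncomputable def r148 : Tr := .c 0 q1 (.c 1 q78 (.c 2 q100 (.c 6 q1 (.c 7 q78 (.c 8 q96 .e)))))
noncomputable def q101 : Tr := .c 3 v1 (.c 5 v1 (.c 9 v1 .e))
noncomputable def r149 : Tr := .c 1 q78 (.c 2 q101 (.c 4 q98 (.c 8 q96 (.c 9 q99 .e))))
noncomputable def t34 : Tr := .c 0 r144 (.c 2 r145 (.c 3 r146 (.c 4 r147 (.c 5 r148 (.c 6 r149 .e)))))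
noncomputable def q102 : Tr := .c 9 v2 .e
noncomputable def q103 : Tr := .c 3 v1 (.c 5 v1 .e)
noncomputable def q104 : Tr := .c 3 v2 .e
noncomputable def r150 : Tr := .c 4 q102 (.c 7 q101 (.c 8 q103 (.c 9 q104 .e)))
noncomputable def r151 : Tr := .c 3 q102 (.c 4 q102 (.c 6 q63 (.c 9 q104 .e)))
noncomputable def r152 : Tr := .c 3 q102 (.c 6 q26 (.c 7 q101 (.c 8 q103 (.c 9 q104 .e))))
noncomputable def r153 : Tr := .c 1 q101 (.c 2 q101 (.c 7 q101 (.c 8 q103 (.c 9 q104 .e))))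
noncomputable def r154 : Tr := .c 0 q26 (.c 1 q101 (.c 6 q26 (.c 7 q101 (.c 8 q103 (.c 9 q104 .e)))))
noncomputable def q105 : Tr := .c 3 v2 (.c 5 v2 (.c 9 v2 .e))
noncomputable def r155 : Tr := .c 1 q101 (.c 2 q105 (.c 4 q102 (.c 8 q103 (.c 9 q104 .e))))
noncomputable def r156 : Tr := .c 0 q63 (.c 2 q105 (.c 3 q102 (.c 4 q102 (.c 9 q104 .e))))
noncomputable def t35 : Tr := .c 0 r150 (.c 1 r151 (.c 2 r152 (.c 3 r153 (.c 4 r154 (.c 6 r155 (.c 7 r156 .e))))))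
noncomputable def r157 : Tr := .c 0 q1 (.c 1 q76 (.c 6 q1 (.c 7 q78 (.c 8 q79 .e))))
noncomputable def q106 : Tr := .c 3 v2 (.c 5 v2 (.c 6 v3 (.c 9 v2 .e)))
noncomputable def q107 : Tr := .c 6 v3 (.c 9 v2 .e)
noncomputable def r158 : Tr := .c 0 q47 (.c 2 q106 (.c 3 q102 (.c 4 q107 .e)))
noncomputable def r159 : Tr := .c 0 q66 (.c 2 q82 (.c 3 q98 (.c 4 q83 (.c 6 q66 .e))))
noncomputable def t36 : Tr := .c 4 r157 (.c 5 r129 (.c 7 r158 (.c 8 r159 (.c 9 r131 .e))))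
noncomputable def r160 : Tr := .c 1 q76 (.c 2 q77 (.c 7 q78 (.c 8 q79 .e)))
noncomputable def r161 : Tr := .c 1 q81 (.c 2 q82 (.c 4 q83 (.c 8 q85 .e)))
noncomputable def t37 : Tr := .c 3 r160 (.c 4 r157 (.c 5 r129 (.c 6 r161 (.c 9 r131 .e))))
noncomputable def r162 : Tr := .c 4 q84 (.c 6 q15 .e)
noncomputable def r163 : Tr := .c 6 q3 (.c 7 q96 (.c 8 q79 .e))
noncomputable def r164 : Tr := .c 0 q3 (.c 1 q79 (.c 6 q3 (.c 7 q96 (.c 8 q79 .e))))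
noncomputable def q108 : Tr := .c 3 v1 (.c 5 v1 (.c 6 v2 .e))
noncomputable def r165 : Tr := .c 0 q15 (.c 2 q108 (.c 4 q84 (.c 6 q15 .e)))
noncomputable def t38 : Tr := .c 1 r162 (.c 2 r163 (.c 4 r164 (.c 5 r142 (.c 8 r165 (.c 9 r143 .e)))))
noncomputable def r166 : Tr := .c 4 q95 (.c 7 q96 (.c 8 q79 .e))
noncomputable def r167 : Tr := .c 1 q79 (.c 2 q97 (.c 7 q96 (.c 8 q79 .e)))
noncomputable def t39 : Tr := .c 0 r166 (.c 2 r163 (.c 3 r167 (.c 4 r164 (.c 5 r142 (.c 9 r143 .e)))))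
noncomputable def r168 : Tr := .c 4 q98 (.c 7 q78 (.c 8 q96 .e))
noncomputable def r169 : Tr := .c 3 q98 (.c 6 q1 (.c 7 q78 (.c 8 q96 .e)))
noncomputable def r170 : Tr := .c 1 q78 (.c 2 q100 (.c 7 q78 (.c 8 q96 .e)))
noncomputable def r171 : Tr := .c 0 q1 (.c 1 q78 (.c 6 q1 (.c 7 q78 (.c 8 q96 .e))))
noncomputable def r172 : Tr := .c 1 q78 (.c 2 q101 (.c 4 q98 (.c 8 q96 .e)))
noncomputable def t40 : Tr := .c 0 r168 (.c 2 r169 (.c 3 r170 (.c 4 r171 (.c 5 r148 (.c 6 r172 .e)))))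
noncomputable def r173 : Tr := .c 4 q102 (.c 7 q101 (.c 8 q103 .e))
noncomputable def r174 : Tr := .c 3 q102 (.c 4 q102 (.c 6 q63 .e))
noncomputable def r175 : Tr := .c 3 q102 (.c 6 q26 (.c 7 q101 (.c 8 q103 .e)))
noncomputable def r176 : Tr := .c 1 q101 (.c 2 q101 (.c 7 q101 (.c 8 q103 .e)))
noncomputable def r177 : Tr := .c 0 q26 (.c 1 q101 (.c 6 q26 (.c 7 q101 (.c 8 q103 .e))))
noncomputable def r178 : Tr := .c 1 q101 (.c 2 q105 (.c 4 q102 (.c 8 q103 .e)))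
noncomputable def r179 : Tr := .c 0 q63 (.c 2 q105 (.c 3 q102 (.c 4 q102 .e)))
noncomputable def t41 : Tr := .c 0 r173 (.c 1 r174 (.c 2 r175 (.c 3 r176 (.c 4 r177 (.c 6 r178 (.c 7 r179 .e))))))
noncomputable def r180 : Tr := .c 0 q49 (.c 3 q98 (.c 5 q84 (.c 9 q93 .e)))
noncomputable def r181 : Tr := .c 0 q66 (.c 3 q98 (.c 5 q84 (.c 6 q66 .e)))
noncomputable def r182 : Tr := .c 0 q1 (.c 1 q76 (.c 3 q87 (.c 6 q1 (.c 7 q78 .e))))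
noncomputable def t42 : Tr := .c 4 r128 (.c 5 r157 (.c 7 r180 (.c 8 r181 (.c 9 r182 .e))))
noncomputable def r183 : Tr := .c 1 q76 (.c 7 q78 (.c 8 q79 (.c 9 q80 .e)))
noncomputable def r184 : Tr := .c 1 q81 (.c 5 q84 (.c 8 q85 (.c 9 q86 .e)))
noncomputable def t43 : Tr := .c 3 r183 (.c 4 r128 (.c 5 r157 (.c 6 r184 (.c 9 r182 .e))))
noncomputable def r185 : Tr := .c 1 q89 (.c 7 q91 (.c 8 q89 (.c 9 q80 .e)))
noncomputable def r186 : Tr := .c 0 q36 (.c 1 q89 (.c 6 q36 (.c 7 q91 (.c 8 q89 .e))))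
noncomputable def r187 : Tr := .c 1 q80 (.c 5 q84 (.c 8 q80 (.c 9 q93 .e)))
noncomputable def r188 : Tr := .c 0 q55 (.c 5 q84 (.c 9 q93 .e))
noncomputable def r189 : Tr := .c 0 q39 (.c 5 q84 (.c 6 q39 .e))
noncomputable def r190 : Tr := .c 0 q36 (.c 1 q89 (.c 6 q36 (.c 7 q91 .e)))
noncomputable def t44 : Tr := .c 3 r185 (.c 5 r186 (.c 6 r187 (.c 7 r188 (.c 8 r189 (.c 9 r190 .e)))))
noncomputable def r191 : Tr := .c 5 q84 (.c 6 q15 (.c 9 q93 .e))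
noncomputable def r192 : Tr := .c 0 q15 (.c 5 q84 (.c 6 q15 .e))
noncomputable def r193 : Tr := .c 0 q3 (.c 1 q79 (.c 6 q3 (.c 7 q96 .e)))
noncomputable def t45 : Tr := .c 1 r191 (.c 2 r139 (.c 4 r141 (.c 5 r164 (.c 8 r192 (.c 9 r193 .e)))))
noncomputable def r194 : Tr := .c 5 q94 (.c 7 q96 (.c 8 q79 (.c 9 q80 .e)))
noncomputable def r195 : Tr := .c 1 q79 (.c 7 q96 (.c 8 q79 (.c 9 q80 .e)))
noncomputable def t46 : Tr := .c 0 r194 (.c 2 r139 (.c 3 r195 (.c 4 r141 (.c 5 r164 (.c 9 r193 .e)))))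
noncomputable def r196 : Tr := .c 7 q78 (.c 8 q96 (.c 9 q99 .e))
noncomputable def r197 : Tr := .c 1 q78 (.c 7 q78 (.c 8 q96 (.c 9 q99 .e)))
noncomputable def r198 : Tr := .c 1 q78 (.c 8 q96 (.c 9 q99 .e))
noncomputable def t47 : Tr := .c 0 r196 (.c 2 r145 (.c 3 r197 (.c 4 r147 (.c 5 r171 (.c 6 r198 .e)))))
noncomputable def r199 : Tr := .c 1 q81 (.c 2 q77 (.c 7 q78 .e))
noncomputable def r200 : Tr := .c 0 q1 (.c 1 q81 (.c 6 q1 (.c 7 q78 .e)))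
noncomputable def r201 : Tr := .c 0 q1 (.c 1 q81 (.c 2 q77 (.c 6 q1 (.c 7 q78 .e))))
noncomputable def q109 : Tr := .c 3 v1 (.c 4 v1 (.c 5 v1 (.c 6 v2 (.c 9 v1 .e))))
noncomputable def r202 : Tr := .c 1 q109 (.c 2 q82 (.c 4 q83 (.c 5 q84 .e)))
noncomputable def r203 : Tr := .c 0 q1 (.c 1 q81 (.c 2 q77 (.c 3 q87 (.c 4 q88 (.c 6 q1 (.c 7 q78 .e))))))
noncomputable def t48 : Tr := .c 3 r199 (.c 4 r200 (.c 5 r201 (.c 6 r202 (.c 9 r203 .e))))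
noncomputable def q110 : Tr := .c 3 v1 (.c 6 v2 .e)
noncomputable def r204 : Tr := .c 1 q80 (.c 2 q110 (.c 7 q99 .e))
noncomputable def r205 : Tr := .c 0 q39 (.c 1 q80 (.c 2 q110 (.c 6 q39 (.c 7 q99 .e))))
noncomputable def q111 : Tr := .c 3 v2 (.c 6 v3 .e)
noncomputable def r206 : Tr := .c 1 q93 (.c 2 q111 (.c 4 q95 (.c 5 q95 .e)))
noncomputable def r207 : Tr := .c 0 q57 (.c 2 q111 (.c 4 q95 (.c 5 q95 .e)))
noncomputable def r208 : Tr := .c 0 q55 (.c 2 q111 (.c 4 q95 (.c 5 q95 (.c 6 q55 .e))))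
noncomputable def r209 : Tr := .c 0 q39 (.c 1 q80 (.c 2 q110 (.c 4 q84 (.c 6 q39 (.c 7 q99 .e)))))
noncomputable def t49 : Tr := .c 3 r204 (.c 5 r205 (.c 6 r206 (.c 7 r207 (.c 8 r208 (.c 9 r209 .e)))))
noncomputable def q112 : Tr := .c 3 v3 (.c 4 v3 .e)
noncomputable def r210 : Tr := .c 4 q95 (.c 5 q95 (.c 7 q112 .e))
noncomputable def r211 : Tr := .c 4 q95 (.c 5 q95 (.c 6 q55 .e))
noncomputable def t50 : Tr := .c 0 r210 (.c 1 r211 (.c 6 r206 (.c 7 r207 (.c 8 r208 (.c 9 r209 .e)))))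
noncomputable def r212 : Tr := .c 4 q107 (.c 5 q84 (.c 7 q101 .e))
noncomputable def r213 : Tr := .c 3 q102 (.c 4 q107 (.c 5 q84 (.c 6 q63 .e)))
noncomputable def r214 : Tr := .c 3 q102 (.c 5 q84 (.c 6 q26 (.c 7 q101 .e)))
noncomputable def q113 : Tr := .c 3 v2 (.c 5 v2 (.c 6 v2 (.c 9 v2 .e)))
noncomputable def r215 : Tr := .c 1 q113 (.c 2 q106 (.c 4 q107 (.c 5 q84 .e)))
noncomputable def r216 : Tr := .c 0 q63 (.c 2 q106 (.c 3 q102 (.c 4 q107 (.c 5 q84 .e))))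
noncomputable def r217 : Tr := .c 0 q63 (.c 2 q106 (.c 3 q102 (.c 4 q107 (.c 5 q84 (.c 6 q63 .e)))))
noncomputable def t51 : Tr := .c 0 r212 (.c 1 r213 (.c 2 r214 (.c 6 r215 (.c 7 r216 (.c 8 r217 .e)))))
noncomputable def r218 : Tr := .c 4 q98 (.c 7 q78 .e)
noncomputable def r219 : Tr := .c 3 q98 (.c 6 q1 (.c 7 q78 .e))
noncomputable def r220 : Tr := .c 1 q78 (.c 2 q100 (.c 7 q78 .e))
noncomputable def r221 : Tr := .c 0 q1 (.c 1 q78 (.c 6 q1 (.c 7 q78 .e)))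
noncomputable def r222 : Tr := .c 0 q1 (.c 1 q78 (.c 2 q100 (.c 6 q1 (.c 7 q78 .e))))
noncomputable def q114 : Tr := .c 3 v1 (.c 4 v1 (.c 5 v1 (.c 9 v1 .e)))
noncomputable def r223 : Tr := .c 1 q114 (.c 2 q101 (.c 4 q98 .e))
noncomputable def t52 : Tr := .c 0 r218 (.c 2 r219 (.c 3 r220 (.c 4 r221 (.c 5 r222 (.c 6 r223 .e)))))
noncomputable def r224 : Tr := .c 4 q102 (.c 7 q101 .e)
noncomputable def r225 : Tr := .c 3 q102 (.c 6 q26 (.c 7 q101 .e))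
noncomputable def r226 : Tr := .c 1 q101 (.c 2 q101 (.c 7 q101 .e))
noncomputable def r227 : Tr := .c 0 q26 (.c 1 q101 (.c 6 q26 (.c 7 q101 .e)))
noncomputable def r228 : Tr := .c 1 q105 (.c 2 q105 (.c 4 q102 .e))
noncomputable def t53 : Tr := .c 0 r224 (.c 1 r174 (.c 2 r225 (.c 3 r226 (.c 4 r227 (.c 6 r228 (.c 7 r179 .e))))))
noncomputable def r229 : Tr := .c 0 q1 (.c 1 q76 (.c 8 q79 (.c 9 q80 .e)))
noncomputable def r230 : Tr := .c 0 q1 (.c 1 q76 (.c 8 q79 .e))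
noncomputable def r231 : Tr := .c 0 q66 (.c 3 q98 (.c 5 q84 .e))
noncomputable def r232 : Tr := .c 0 q1 (.c 1 q76 (.c 3 q87 .e))
noncomputable def t54 : Tr := .c 4 r229 (.c 5 r230 (.c 7 r180 (.c 8 r231 (.c 9 r232 .e))))
noncomputable def r233 : Tr := .c 1 q76 (.c 8 q79 (.c 9 q80 .e))
noncomputable def t55 : Tr := .c 3 r233 (.c 4 r229 (.c 5 r230 (.c 6 r184 (.c 9 r232 .e))))
noncomputable def r234 : Tr := .c 1 q89 (.c 8 q89 (.c 9 q80 .e))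
noncomputable def r235 : Tr := .c 0 q36 (.c 1 q89 (.c 8 q89 .e))
noncomputable def r236 : Tr := .c 0 q39 (.c 5 q84 .e)
noncomputable def r237 : Tr := .c 0 q36 (.c 1 q89 .e)
noncomputable def t56 : Tr := .c 3 r234 (.c 5 r235 (.c 6 r187 (.c 7 r188 (.c 8 r236 (.c 9 r237 .e)))))
noncomputable def r238 : Tr := .c 3 q98 (.c 5 q84 (.c 9 q93 .e))
noncomputable def q115 : Tr := .c 3 v1 (.c 4 v1 (.c 5 v1 (.c 6 v1 .e)))
noncomputable def r239 : Tr := .c 3 q102 (.c 5 q84 (.c 8 q115 (.c 9 q93 .e)))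
noncomputable def t57 : Tr := .c 1 r238 (.c 2 r239 (.c 7 r180 (.c 8 r231 (.c 9 r232 .e))))
noncomputable def r240 : Tr := .c 5 q84 (.c 8 q80 (.c 9 q93 .e))
noncomputable def r241 : Tr := .c 5 q84 (.c 9 q93 .e)
noncomputable def t58 : Tr := .c 0 r240 (.c 1 r241 (.c 6 r187 (.c 7 r188 (.c 8 r236 (.c 9 r237 .e)))))
noncomputable def r242 : Tr := .c 5 q94 (.c 8 q79 (.c 9 q80 .e))
noncomputable def r243 : Tr := .c 0 q3 (.c 1 q79 (.c 8 q79 (.c 9 q80 .e)))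
noncomputable def r244 : Tr := .c 0 q3 (.c 1 q79 (.c 8 q79 .e))
noncomputable def r245 : Tr := .c 0 q15 (.c 5 q84 .e)
noncomputable def r246 : Tr := .c 0 q3 (.c 1 q79 .e)
noncomputable def t59 : Tr := .c 1 r241 (.c 2 r242 (.c 4 r243 (.c 5 r244 (.c 8 r245 (.c 9 r246 .e)))))
noncomputable def r247 : Tr := .c 1 q79 (.c 8 q79 (.c 9 q80 .e))
noncomputable def t60 : Tr := .c 0 r242 (.c 2 r242 (.c 3 r247 (.c 4 r243 (.c 5 r244 (.c 9 r246 .e)))))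
noncomputable def q116 : Tr := .c 3 v1 (.c 5 v1 (.c 6 v2 (.c 7 v2 (.c 8 v2 (.c 9 v1 .e)))))
noncomputable def q117 : Tr := .c 3 v1 (.c 6 v2 (.c 7 v2 .e))
noncomputable def r248 : Tr := .c 1 q77 (.c 2 q116 (.c 7 q100 (.c 8 q97 (.c 9 q117 .e))))
noncomputable def r249 : Tr := .c 0 q5 (.c 1 q77 (.c 6 q23 (.c 7 q100 (.c 8 q97 (.c 9 q117 .e)))))
noncomputable def q118 : Tr := .c 6 v2 (.c 7 v2 (.c 8 v2 (.c 9 v1 .e)))
noncomputable def q119 : Tr := .c 6 v2 (.c 7 v2 (.c 8 v2 .e))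
noncomputable def r250 : Tr := .c 1 q77 (.c 2 q116 (.c 4 q118 (.c 5 q119 (.c 8 q97 (.c 9 q117 .e)))))
noncomputable def t61 : Tr := .c 3 r248 (.c 4 r249 (.c 6 r250 .e))
noncomputable def q120 : Tr := .c 3 v2 (.c 6 v2 (.c 7 v2 (.c 8 v2 .e)))
noncomputable def q121 : Tr := .c 3 v1 .e
noncomputable def q122 : Tr := .c 3 v2 (.c 6 v2 (.c 7 v2 .e))
noncomputable def r251 : Tr := .c 1 q90 (.c 2 q120 (.c 7 q121 (.c 8 q90 (.c 9 q122 .e))))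
noncomputable def r252 : Tr := .c 1 q110 (.c 2 q120 (.c 4 q119 (.c 5 q119 (.c 8 q110 (.c 9 q122 .e)))))
noncomputable def r253 : Tr := .c 0 q32 (.c 2 q120 (.c 3 q32 (.c 4 q119 (.c 5 q119 (.c 9 q122 .e)))))
noncomputable def r254 : Tr := .c 0 q32 (.c 2 q120 (.c 3 q32 (.c 4 q119 (.c 5 q119 (.c 6 q46 .e)))))
noncomputable def t62 : Tr := .c 3 r251 (.c 6 r252 (.c 7 r253 (.c 8 r254 .e)))
noncomputable def q123 : Tr := .c 6 v3 (.c 7 v3 .e)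
noncomputable def q124 : Tr := .c 6 v2 (.c 7 v2 .e)
noncomputable def q125 : Tr := .c 3 v0 (.c 5 v0 .e)
noncomputable def r255 : Tr := .c 4 q123 (.c 5 q124 (.c 7 q125 (.c 8 q97 (.c 9 q117 .e))))
noncomputable def q126 : Tr := .c 5 v0 .e
noncomputable def r256 : Tr := .c 3 q16 (.c 5 q124 (.c 6 q126 (.c 7 q125 (.c 8 q97 (.c 9 q117 .e)))))
noncomputable def q127 : Tr := .c 3 v1 (.c 5 v1 (.c 6 v2 (.c 7 v2 .e)))
noncomputable def r257 : Tr := .c 1 q97 (.c 2 q127 (.c 7 q125 (.c 8 q97 (.c 9 q117 .e))))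
noncomputable def r258 : Tr := .c 0 q19 (.c 1 q97 (.c 6 q126 (.c 7 q125 (.c 8 q97 (.c 9 q117 .e)))))
noncomputable def t63 : Tr := .c 0 r255 (.c 2 r256 (.c 3 r257 (.c 4 r258 .e)))
noncomputable def r259 : Tr := .c 4 q22 (.c 5 q46 (.c 7 q100 (.c 8 q125 (.c 9 q121 .e))))
noncomputable def r260 : Tr := .c 3 q22 (.c 5 q46 (.c 6 q23 (.c 7 q100 (.c 8 q125 (.c 9 q121 .e)))))
noncomputable def q128 : Tr := .c 3 v1 (.c 5 v1 (.c 8 v2 (.c 9 v1 .e)))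
noncomputable def r261 : Tr := .c 1 q100 (.c 2 q128 (.c 7 q100 (.c 8 q125 (.c 9 q121 .e))))
noncomputable def r262 : Tr := .c 0 q23 (.c 1 q100 (.c 6 q23 (.c 7 q100 (.c 8 q125 (.c 9 q121 .e)))))
noncomputable def r263 : Tr := .c 1 q100 (.c 2 q128 (.c 4 q22 (.c 5 q46 (.c 8 q125 (.c 9 q121 .e)))))
noncomputable def t64 : Tr := .c 0 r259 (.c 2 r260 (.c 3 r261 (.c 4 r262 (.c 6 r263 .e))))
noncomputable def r264 : Tr := .c 4 q25 (.c 5 q64 (.c 7 q101 (.c 8 q103 (.c 9 q104 .e))))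
noncomputable def r265 : Tr := .c 3 q25 (.c 4 q25 (.c 5 q64 (.c 6 q28 (.c 9 q104 .e))))
noncomputable def r266 : Tr := .c 3 q25 (.c 5 q64 (.c 6 q24 (.c 7 q101 (.c 8 q103 (.c 9 q104 .e)))))
noncomputable def q129 : Tr := .c 3 v2 (.c 5 v2 (.c 8 v3 (.c 9 v2 .e)))
noncomputable def r267 : Tr := .c 1 q101 (.c 2 q129 (.c 7 q101 (.c 8 q103 (.c 9 q104 .e))))
noncomputable def r268 : Tr := .c 0 q24 (.c 1 q101 (.c 6 q24 (.c 7 q101 (.c 8 q103 (.c 9 q104 .e)))))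
noncomputable def r269 : Tr := .c 1 q101 (.c 2 q129 (.c 4 q25 (.c 5 q64 (.c 8 q103 (.c 9 q104 .e)))))
noncomputable def r270 : Tr := .c 0 q28 (.c 2 q129 (.c 3 q25 (.c 4 q25 (.c 5 q64 (.c 9 q104 .e)))))
noncomputable def t65 : Tr := .c 0 r264 (.c 1 r265 (.c 2 r266 (.c 3 r267 (.c 4 r268 (.c 6 r269 (.c 7 r270 .e))))))
noncomputable def r271 : Tr := .c 0 q50 (.c 3 q31 (.c 5 q119 (.c 9 q122 .e)))
noncomputable def r272 : Tr := .c 0 q50 (.c 3 q31 (.c 5 q119 (.c 6 q24 .e)))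
noncomputable def t66 : Tr := .c 4 r249 (.c 7 r271 (.c 8 r272 .e))
noncomputable def r273 : Tr := .c 1 q77 (.c 7 q100 (.c 8 q97 (.c 9 q117 .e)))
noncomputable def r274 : Tr := .c 1 q77 (.c 5 q119 (.c 8 q97 (.c 9 q117 .e)))
noncomputable def t67 : Tr := .c 3 r273 (.c 4 r249 (.c 6 r274 .e))
noncomputable def r275 : Tr := .c 1 q90 (.c 7 q121 (.c 8 q90 (.c 9 q122 .e)))
noncomputable def r276 : Tr := .c 1 q110 (.c 5 q119 (.c 8 q110 (.c 9 q122 .e)))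
noncomputable def r277 : Tr := .c 0 q32 (.c 3 q32 (.c 5 q119 (.c 9 q122 .e)))
noncomputable def r278 : Tr := .c 0 q32 (.c 3 q32 (.c 5 q119 (.c 6 q46 .e)))
noncomputable def t68 : Tr := .c 3 r275 (.c 6 r276 (.c 7 r277 (.c 8 r278 .e)))
noncomputable def r279 : Tr := .c 3 q16 (.c 5 q124 (.c 6 q27 (.c 9 q122 .e)))
noncomputable def r280 : Tr := .c 0 q73 (.c 3 q16 (.c 5 q124 (.c 6 q27 .e)))
noncomputable def t69 : Tr := .c 1 r279 (.c 2 r256 (.c 4 r258 (.c 8 r280 .e)))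
noncomputable def r281 : Tr := .c 5 q124 (.c 7 q125 (.c 8 q97 (.c 9 q117 .e)))
noncomputable def r282 : Tr := .c 1 q97 (.c 7 q125 (.c 8 q97 (.c 9 q117 .e)))
noncomputable def t70 : Tr := .c 0 r281 (.c 2 r256 (.c 3 r282 (.c 4 r258 .e)))
noncomputable def r283 : Tr := .c 5 q46 (.c 7 q100 (.c 8 q125 (.c 9 q121 .e)))
noncomputable def r284 : Tr := .c 1 q100 (.c 7 q100 (.c 8 q125 (.c 9 q121 .e)))
noncomputable def r285 : Tr := .c 1 q100 (.c 5 q46 (.c 8 q125 (.c 9 q121 .e)))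
noncomputable def t71 : Tr := .c 0 r283 (.c 2 r260 (.c 3 r284 (.c 4 r262 (.c 6 r285 .e))))
noncomputable def r286 : Tr := .c 1 q82 (.c 2 q116 (.c 7 q101 .e))
noncomputable def r287 : Tr := .c 0 q10 (.c 1 q82 (.c 6 q24 (.c 7 q101 .e)))
noncomputable def q130 : Tr := .c 3 v2 (.c 5 v2 (.c 6 v3 (.c 7 v3 (.c 8 v3 (.c 9 v2 .e)))))
noncomputable def q131 : Tr := .c 6 v3 (.c 7 v3 (.c 8 v3 (.c 9 v2 .e)))
noncomputable def q132 : Tr := .c 6 v3 (.c 7 v3 (.c 8 v3 .e))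
noncomputable def r288 : Tr := .c 1 q82 (.c 2 q130 (.c 4 q131 (.c 5 q132 .e)))
noncomputable def t72 : Tr := .c 3 r286 (.c 4 r287 (.c 6 r288 .e))
noncomputable def r289 : Tr := .c 1 q92 (.c 2 q120 (.c 7 q104 .e))
noncomputable def q133 : Tr := .c 3 v2 (.c 6 v3 (.c 7 v3 (.c 8 v3 .e)))
noncomputable def r290 : Tr := .c 1 q111 (.c 2 q133 (.c 4 q132 (.c 5 q132 .e)))
noncomputable def r291 : Tr := .c 0 q53 (.c 2 q133 (.c 3 q53 (.c 4 q132 (.c 5 q132 .e))))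
noncomputable def r292 : Tr := .c 0 q53 (.c 2 q133 (.c 3 q53 (.c 4 q132 (.c 5 q132 (.c 6 q64 .e)))))
noncomputable def t73 : Tr := .c 3 r289 (.c 6 r290 (.c 7 r291 (.c 8 r292 .e)))
noncomputable def q134 : Tr := .c 3 v3 .e
noncomputable def r293 : Tr := .c 4 q132 (.c 5 q132 (.c 7 q134 .e))
noncomputable def r294 : Tr := .c 3 q53 (.c 4 q132 (.c 5 q132 (.c 6 q64 .e)))
noncomputable def t74 : Tr := .c 0 r293 (.c 1 r294 (.c 6 r290 (.c 7 r291 (.c 8 r292 .e))))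
noncomputable def r295 : Tr := .c 4 q131 (.c 5 q132 (.c 7 q105 .e))
noncomputable def r296 : Tr := .c 3 q8 (.c 4 q131 (.c 5 q132 (.c 6 q28 .e)))
noncomputable def r297 : Tr := .c 3 q60 (.c 5 q132 (.c 6 q28 (.c 7 q105 .e)))
noncomputable def r298 : Tr := .c 1 q106 (.c 2 q130 (.c 4 q131 (.c 5 q132 .e)))
noncomputable def r299 : Tr := .c 0 q7 (.c 2 q130 (.c 3 q8 (.c 4 q131 (.c 5 q132 .e))))
noncomputable def r300 : Tr := .c 0 q7 (.c 2 q130 (.c 3 q8 (.c 4 q131 (.c 5 q132 (.c 6 q28 .e)))))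
noncomputable def t75 : Tr := .c 0 r295 (.c 1 r296 (.c 2 r297 (.c 6 r298 (.c 7 r299 (.c 8 r300 .e)))))
noncomputable def r301 : Tr := .c 4 q25 (.c 5 q64 (.c 7 q101 .e))
noncomputable def r302 : Tr := .c 3 q25 (.c 5 q64 (.c 6 q24 (.c 7 q101 .e)))
noncomputable def r303 : Tr := .c 1 q101 (.c 2 q128 (.c 7 q101 .e))
noncomputable def r304 : Tr := .c 0 q24 (.c 1 q101 (.c 6 q24 (.c 7 q101 .e)))
noncomputable def r305 : Tr := .c 1 q101 (.c 2 q129 (.c 4 q25 (.c 5 q64 .e)))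
noncomputable def t76 : Tr := .c 0 r301 (.c 2 r302 (.c 3 r303 (.c 4 r304 (.c 6 r305 .e))))
noncomputable def r306 : Tr := .c 4 q25 (.c 5 q64 (.c 7 q105 .e))
noncomputable def r307 : Tr := .c 3 q65 (.c 5 q64 (.c 6 q28 (.c 7 q105 .e)))
noncomputable def r308 : Tr := .c 1 q105 (.c 2 q129 (.c 7 q105 .e))
noncomputable def r309 : Tr := .c 0 q28 (.c 1 q105 (.c 6 q28 (.c 7 q105 .e)))
noncomputable def r310 : Tr := .c 1 q105 (.c 2 q129 (.c 4 q25 (.c 5 q64 .e)))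
noncomputable def r311 : Tr := .c 0 q28 (.c 2 q129 (.c 3 q25 (.c 4 q25 (.c 5 q64 .e))))
noncomputable def t77 : Tr := .c 0 r306 (.c 1 r74 (.c 2 r307 (.c 3 r308 (.c 4 r309 (.c 6 r310 (.c 7 r311 .e))))))
noncomputable def r312 : Tr := .c 0 q7 (.c 1 q106 (.c 6 q28 (.c 7 q105 .e)))
noncomputable def t78 : Tr := .c 4 r312 (.c 7 r299 (.c 8 r300 .e))
noncomputable def t79 : Tr := .c 1 r296 (.c 2 r297 (.c 7 r299 (.c 8 r300 .e)))
noncomputable def q135 : Tr := .c 3 v2 (.c 6 v3 (.c 7 v3 .e))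
noncomputable def r313 : Tr := .c 0 q10 (.c 1 q82 (.c 8 q108 (.c 9 q135 .e)))
noncomputable def q136 : Tr := .c 3 v3 (.c 6 v3 (.c 7 v3 .e))
noncomputable def r314 : Tr := .c 0 q7 (.c 2 q130 (.c 3 q8 (.c 4 q131 (.c 5 q132 (.c 9 q136 .e)))))
noncomputable def t80 : Tr := .c 4 r313 (.c 7 r314 (.c 8 r299 .e))
noncomputable def r315 : Tr := .c 1 q92 (.c 2 q120 (.c 8 q92 (.c 9 q136 .e)))
noncomputable def r316 : Tr := .c 1 q111 (.c 2 q133 (.c 4 q132 (.c 5 q132 (.c 8 q111 (.c 9 q136 .e)))))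
noncomputable def r317 : Tr := .c 0 q53 (.c 2 q133 (.c 3 q53 (.c 4 q132 (.c 5 q132 (.c 9 q136 .e)))))
noncomputable def t81 : Tr := .c 3 r315 (.c 6 r316 (.c 7 r317 (.c 8 r291 .e)))
noncomputable def r318 : Tr := .c 3 q8 (.c 4 q131 (.c 5 q132 (.c 9 q136 .e)))
noncomputable def q137 : Tr := .c 3 v2 (.c 5 v2 (.c 6 v3 .e))
noncomputable def r319 : Tr := .c 3 q60 (.c 5 q132 (.c 8 q137 (.c 9 q136 .e)))
noncomputable def t82 : Tr := .c 1 r318 (.c 2 r319 (.c 7 r314 (.c 8 r299 .e)))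
noncomputable def r320 : Tr := .c 4 q132 (.c 5 q132 (.c 8 q111 (.c 9 q136 .e)))
noncomputable def r321 : Tr := .c 3 q53 (.c 4 q132 (.c 5 q132 (.c 9 q136 .e)))
noncomputable def t83 : Tr := .c 0 r320 (.c 1 r321 (.c 6 r316 (.c 7 r317 (.c 8 r291 .e))))
noncomputable def r322 : Tr := .c 4 q131 (.c 5 q132 (.c 8 q137 (.c 9 q136 .e)))
noncomputable def r323 : Tr := .c 1 q106 (.c 2 q130 (.c 4 q131 (.c 5 q132 (.c 8 q137 (.c 9 q136 .e)))))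
noncomputable def t84 : Tr := .c 0 r322 (.c 1 r318 (.c 2 r319 (.c 6 r323 (.c 7 r314 (.c 8 r299 .e)))))
noncomputable def r324 : Tr := .c 3 q14 (.c 4 q123 (.c 5 q123 (.c 9 q136 .e)))
noncomputable def r325 : Tr := .c 3 q14 (.c 5 q123 (.c 8 q108 (.c 9 q135 .e)))
noncomputable def r326 : Tr := .c 0 q21 (.c 1 q108 (.c 8 q108 (.c 9 q135 .e)))
noncomputable def q138 : Tr := .c 3 v2 (.c 5 v2 (.c 6 v3 (.c 7 v3 .e)))
noncomputable def r327 : Tr := .c 0 q75 (.c 2 q138 (.c 3 q14 (.c 4 q123 (.c 5 q123 .e))))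
noncomputable def t85 : Tr := .c 1 r324 (.c 2 r325 (.c 4 r326 (.c 8 r327 .e)))
noncomputable def r328 : Tr := .c 0 q5 (.c 1 q77 (.c 8 q97 (.c 9 q117 .e)))
noncomputable def r329 : Tr := .c 0 q50 (.c 3 q31 (.c 5 q119 .e))
noncomputable def t86 : Tr := .c 4 r328 (.c 7 r271 (.c 8 r329 .e))
noncomputable def r330 : Tr := .c 1 q77 (.c 8 q97 (.c 9 q117 .e))
noncomputable def t87 : Tr := .c 3 r330 (.c 4 r328 (.c 6 r274 .e))
noncomputable def r331 : Tr := .c 1 q90 (.c 8 q90 (.c 9 q122 .e))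
noncomputable def r332 : Tr := .c 0 q32 (.c 3 q32 (.c 5 q119 .e))
noncomputable def t88 : Tr := .c 3 r331 (.c 6 r276 (.c 7 r277 (.c 8 r332 .e)))
noncomputable def r333 : Tr := .c 3 q31 (.c 5 q119 (.c 9 q122 .e))
noncomputable def r334 : Tr := .c 3 q8 (.c 5 q132 (.c 8 q108 (.c 9 q135 .e)))
noncomputable def t89 : Tr := .c 1 r333 (.c 2 r334 (.c 7 r271 (.c 8 r329 .e)))
noncomputable def r335 : Tr := .c 5 q119 (.c 8 q110 (.c 9 q122 .e))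
noncomputable def r336 : Tr := .c 3 q32 (.c 5 q119 (.c 9 q122 .e))
noncomputable def t90 : Tr := .c 0 r335 (.c 1 r336 (.c 6 r276 (.c 7 r277 (.c 8 r332 .e))))
noncomputable def r337 : Tr := .c 3 q16 (.c 5 q124 (.c 9 q122 .e))
noncomputable def r338 : Tr := .c 3 q16 (.c 5 q124 (.c 8 q97 (.c 9 q117 .e)))
noncomputable def r339 : Tr := .c 0 q19 (.c 1 q97 (.c 8 q97 (.c 9 q117 .e)))
noncomputable def r340 : Tr := .c 0 q73 (.c 3 q16 (.c 5 q124 .e))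
noncomputable def t91 : Tr := .c 1 r337 (.c 2 r338 (.c 4 r339 (.c 8 r340 .e)))
noncomputable def r341 : Tr := .c 5 q124 (.c 8 q97 (.c 9 q117 .e))
noncomputable def r342 : Tr := .c 1 q97 (.c 8 q97 (.c 9 q117 .e))
noncomputable def t92 : Tr := .c 0 r341 (.c 2 r338 (.c 3 r342 (.c 4 r339 .e)))
noncomputable def q139 : Tr := .c 1 v3 (.c 2 v3 (.c 7 v3 (.c 8 v3 (.c 9 v2 .e))))
noncomputable def q140 : Tr := .c 1 v3 (.c 7 v3 (.c 8 v3 (.c 9 v2 .e)))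
noncomputable def q141 : Tr := .c 1 v3 (.c 2 v3 (.c 7 v3 (.c 8 v3 .e)))
noncomputable def q142 : Tr := .c 1 v3 (.c 2 v3 (.c 8 v3 (.c 9 v2 .e)))
noncomputable def q143 : Tr := .c 1 v3 (.c 2 v3 (.c 7 v3 .e))
noncomputable def r343 : Tr := .c 3 q139 (.c 4 q140 (.c 5 q141 (.c 6 q142 (.c 9 q143 .e))))
noncomputable def q144 : Tr := .c 1 v3 (.c 2 v3 (.c 7 v3 (.c 8 v3 (.c 9 v3 .e))))
noncomputable def q145 : Tr := .c 2 v3 (.c 9 v2 .e)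
noncomputable def q146 : Tr := .c 2 v3 .e
noncomputable def r344 : Tr := .c 3 q144 (.c 5 q141 (.c 6 q142 (.c 7 q145 (.c 8 q146 (.c 9 q143 .e)))))
noncomputable def r345 : Tr := .c 0 q8 (.c 2 q8 (.c 3 q139 (.c 4 q140 (.c 5 q141 (.c 9 q143 .e)))))
noncomputable def r346 : Tr := .c 0 q8 (.c 2 q8 (.c 3 q139 (.c 4 q140 (.c 5 q141 (.c 6 q142 .e)))))
noncomputable def q147 : Tr := .c 1 v2 (.c 2 v3 (.c 7 v2 (.c 8 v2 (.c 9 v1 .e))))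
noncomputable def q148 : Tr := .c 1 v2 (.c 7 v2 (.c 8 v2 (.c 9 v1 .e)))
noncomputable def q149 : Tr := .c 1 v2 (.c 2 v2 (.c 8 v2 (.c 9 v1 .e)))
noncomputable def q150 : Tr := .c 2 v2 (.c 9 v1 .e)
noncomputable def r347 : Tr := .c 0 q31 (.c 1 q98 (.c 2 q31 (.c 3 q147 (.c 4 q148 (.c 6 q149 (.c 7 q150 .e))))))
noncomputable def t93 : Tr := .c 1 r343 (.c 2 r344 (.c 7 r345 (.c 8 r346 (.c 9 r347 .e))))
noncomputable def q151 : Tr := .c 1 v3 (.c 7 v3 (.c 8 v3 .e))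
noncomputable def r348 : Tr := .c 4 q151 (.c 5 q141 (.c 7 q146 (.c 8 q146 (.c 9 q143 .e))))
noncomputable def q152 : Tr := .c 1 v3 (.c 2 v3 (.c 8 v3 .e))
noncomputable def r349 : Tr := .c 3 q141 (.c 4 q151 (.c 5 q141 (.c 6 q152 (.c 9 q143 .e))))
noncomputable def r350 : Tr := .c 2 q53 (.c 4 q151 (.c 5 q141 (.c 8 q146 (.c 9 q143 .e))))
noncomputable def r351 : Tr := .c 0 q53 (.c 2 q53 (.c 3 q141 (.c 4 q151 (.c 5 q141 (.c 9 q143 .e)))))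
noncomputable def r352 : Tr := .c 0 q53 (.c 2 q53 (.c 3 q141 (.c 4 q151 (.c 5 q141 (.c 6 q152 .e)))))
noncomputable def q153 : Tr := .c 1 v2 (.c 2 v3 (.c 7 v2 (.c 8 v2 .e)))
noncomputable def q154 : Tr := .c 1 v2 (.c 7 v2 (.c 8 v2 .e))
noncomputable def q155 : Tr := .c 1 v2 (.c 2 v2 (.c 8 v2 .e))
noncomputable def q156 : Tr := .c 2 v2 .e
noncomputable def r353 : Tr := .c 0 q32 (.c 2 q32 (.c 3 q153 (.c 4 q154 (.c 6 q155 (.c 7 q156 .e)))))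
noncomputable def t94 : Tr := .c 0 r348 (.c 1 r349 (.c 6 r350 (.c 7 r351 (.c 8 r352 (.c 9 r353 .e)))))
noncomputable def q157 : Tr := .c 1 v3 (.c 7 v3 .e)
noncomputable def r354 : Tr := .c 4 q140 (.c 5 q151 (.c 7 q102 (.c 9 q157 .e)))
noncomputable def q158 : Tr := .c 1 v3 (.c 8 v3 (.c 9 v2 .e))
noncomputable def r355 : Tr := .c 3 q140 (.c 4 q140 (.c 5 q151 (.c 6 q158 (.c 9 q157 .e))))
noncomputable def q159 : Tr := .c 1 v3 (.c 7 v3 (.c 8 v3 (.c 9 v3 .e)))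
noncomputable def r356 : Tr := .c 3 q159 (.c 5 q151 (.c 6 q158 (.c 7 q102 (.c 9 q157 .e))))
noncomputable def r357 : Tr := .c 1 q102 (.c 2 q8 (.c 4 q140 (.c 5 q151 (.c 9 q157 .e))))
noncomputable def r358 : Tr := .c 0 q8 (.c 2 q8 (.c 3 q140 (.c 4 q140 (.c 5 q151 (.c 9 q157 .e)))))
noncomputable def r359 : Tr := .c 0 q8 (.c 2 q8 (.c 3 q140 (.c 4 q140 (.c 5 q151 (.c 6 q158 .e)))))
noncomputable def t95 : Tr := .c 0 r354 (.c 1 r355 (.c 2 r356 (.c 6 r357 (.c 7 r358 (.c 8 r359 .e)))))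
noncomputable def q160 : Tr := .c 1 v3 (.c 2 v3 .e)
noncomputable def r360 : Tr := .c 3 q143 (.c 4 q157 (.c 5 q143 (.c 6 q160 (.c 9 q143 .e))))
noncomputable def q161 : Tr := .c 1 v3 (.c 2 v2 .e)
noncomputable def r361 : Tr := .c 3 q143 (.c 5 q143 (.c 6 q161 (.c 7 q156 (.c 8 q156 (.c 9 q143 .e)))))
noncomputable def r362 : Tr := .c 0 q14 (.c 6 q161 (.c 7 q156 (.c 8 q156 (.c 9 q143 .e))))
noncomputable def r363 : Tr := .c 0 q16 (.c 2 q16 (.c 6 q161 (.c 7 q156 (.c 8 q156 .e))))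
noncomputable def r364 : Tr := .c 0 q14 (.c 2 q14 (.c 3 q143 (.c 4 q157 (.c 5 q143 (.c 6 q160 .e)))))
noncomputable def q162 : Tr := .c 1 v2 (.c 2 v3 (.c 7 v2 .e))
noncomputable def q163 : Tr := .c 1 v2 (.c 7 v2 .e)
noncomputable def r365 : Tr := .c 0 q16 (.c 2 q16 (.c 3 q162 (.c 4 q163 (.c 6 q161 (.c 7 q156 .e)))))
noncomputable def t96 : Tr := .c 1 r360 (.c 2 r361 (.c 4 r362 (.c 5 r363 (.c 8 r364 (.c 9 r365 .e)))))
noncomputable def q164 : Tr := .c 1 v3 (.c 8 v3 .e)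
noncomputable def q165 : Tr := .c 1 v3 .e
noncomputable def r366 : Tr := .c 4 q158 (.c 5 q164 (.c 7 q102 (.c 9 q165 .e)))
noncomputable def r367 : Tr := .c 3 q158 (.c 4 q158 (.c 5 q164 (.c 6 q158 (.c 9 q165 .e))))
noncomputable def q166 : Tr := .c 1 v3 (.c 8 v3 (.c 9 v3 .e))
noncomputable def r368 : Tr := .c 3 q166 (.c 5 q164 (.c 6 q158 (.c 7 q102 (.c 9 q165 .e))))
noncomputable def r369 : Tr := .c 1 q102 (.c 2 q25 (.c 7 q102 (.c 9 q165 .e)))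
noncomputable def r370 : Tr := .c 0 q25 (.c 1 q102 (.c 6 q158 (.c 7 q102 (.c 9 q165 .e))))
noncomputable def r371 : Tr := .c 1 q102 (.c 2 q25 (.c 4 q158 (.c 5 q164 (.c 9 q165 .e))))
noncomputable def r372 : Tr := .c 0 q25 (.c 2 q25 (.c 3 q158 (.c 4 q158 (.c 5 q164 (.c 9 q165 .e)))))
noncomputable def t97 : Tr := .c 0 r366 (.c 1 r367 (.c 2 r368 (.c 3 r369 (.c 4 r370 (.c 6 r371 (.c 7 r372 .e))))))
noncomputable def q167 : Tr := .c 1 v3 (.c 2 v3 (.c 8 v3 (.c 9 v3 .e)))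
noncomputable def r373 : Tr := .c 3 q144 (.c 4 q159 (.c 6 q167 .e))
noncomputable def q168 : Tr := .c 1 v3 (.c 2 v2 (.c 7 v3 (.c 8 v3 (.c 9 v3 .e))))
noncomputable def q169 : Tr := .c 1 v3 (.c 2 v2 (.c 8 v3 (.c 9 v2 .e)))
noncomputable def q170 : Tr := .c 2 v2 (.c 9 v2 .e)
noncomputable def r374 : Tr := .c 3 q168 (.c 6 q169 (.c 7 q170 (.c 8 q156 .e)))
noncomputable def r375 : Tr := .c 0 q60 (.c 2 q60 (.c 3 q144 (.c 4 q159 .e)))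
noncomputable def r376 : Tr := .c 0 q60 (.c 2 q60 (.c 3 q144 (.c 4 q159 (.c 6 q167 .e))))
noncomputable def r377 : Tr := .c 0 q8 (.c 1 q102 (.c 2 q8 (.c 3 q139 (.c 4 q140 (.c 6 q169 (.c 7 q170 .e))))))
noncomputable def t98 : Tr := .c 1 r373 (.c 2 r374 (.c 7 r375 (.c 8 r376 (.c 9 r377 .e))))
noncomputable def r378 : Tr := .c 4 q159 (.c 7 q102 .e)
noncomputable def r379 : Tr := .c 3 q159 (.c 4 q159 (.c 6 q166 .e))
noncomputable def r380 : Tr := .c 3 q159 (.c 6 q158 (.c 7 q102 .e))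
noncomputable def r381 : Tr := .c 1 q102 (.c 2 q60 (.c 4 q159 .e))
noncomputable def r382 : Tr := .c 0 q60 (.c 2 q60 (.c 3 q159 (.c 4 q159 .e)))
noncomputable def r383 : Tr := .c 0 q60 (.c 2 q60 (.c 3 q159 (.c 4 q159 (.c 6 q166 .e))))
noncomputable def t99 : Tr := .c 0 r378 (.c 1 r379 (.c 2 r380 (.c 6 r381 (.c 7 r382 (.c 8 r383 .e)))))
noncomputable def r384 : Tr := .c 3 q143 (.c 4 q157 (.c 6 q161 .e))
noncomputable def q171 : Tr := .c 1 v3 (.c 2 v2 (.c 7 v3 .e))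
noncomputable def q172 : Tr := .c 1 v2 (.c 2 v1 .e)
noncomputable def q173 : Tr := .c 2 v1 .e
noncomputable def r385 : Tr := .c 3 q171 (.c 6 q172 (.c 7 q173 (.c 8 q173 .e)))
noncomputable def r386 : Tr := .c 0 q16 (.c 6 q172 (.c 7 q173 (.c 8 q173 .e)))
noncomputable def r387 : Tr := .c 0 q16 (.c 2 q16 (.c 6 q172 (.c 7 q173 (.c 8 q173 .e))))
noncomputable def r388 : Tr := .c 0 q14 (.c 2 q14 (.c 3 q143 (.c 4 q157 (.c 6 q161 .e))))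
noncomputable def q174 : Tr := .c 1 v2 (.c 2 v2 (.c 7 v2 .e))
noncomputable def r389 : Tr := .c 0 q16 (.c 2 q16 (.c 3 q174 (.c 4 q163 (.c 6 q172 (.c 7 q173 .e)))))
noncomputable def t100 : Tr := .c 1 r384 (.c 2 r385 (.c 4 r386 (.c 5 r387 (.c 8 r388 (.c 9 r389 .e)))))
noncomputable def r390 : Tr := .c 4 q157 (.c 7 q173 (.c 8 q173 .e))
noncomputable def r391 : Tr := .c 2 q16 (.c 7 q173 (.c 8 q173 .e))
noncomputable def t101 : Tr := .c 0 r390 (.c 2 r385 (.c 3 r391 (.c 4 r386 (.c 5 r387 (.c 9 r389 .e)))))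
noncomputable def q175 : Tr := .c 2 v1 (.c 9 v1 .e)
noncomputable def r392 : Tr := .c 4 q158 (.c 7 q175 (.c 8 q173 .e))
noncomputable def q176 : Tr := .c 1 v2 (.c 2 v1 (.c 8 v2 (.c 9 v1 .e)))
noncomputable def r393 : Tr := .c 3 q169 (.c 6 q176 (.c 7 q175 (.c 8 q173 .e)))
noncomputable def r394 : Tr := .c 1 q98 (.c 2 q22 (.c 7 q175 (.c 8 q173 .e)))
noncomputable def r395 : Tr := .c 0 q22 (.c 1 q98 (.c 6 q176 (.c 7 q175 (.c 8 q173 .e))))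
noncomputable def r396 : Tr := .c 0 q22 (.c 1 q98 (.c 2 q22 (.c 6 q176 (.c 7 q175 (.c 8 q173 .e)))))
noncomputable def r397 : Tr := .c 1 q98 (.c 2 q25 (.c 4 q158 (.c 8 q173 .e)))
noncomputable def t102 : Tr := .c 0 r392 (.c 2 r393 (.c 3 r394 (.c 4 r395 (.c 5 r396 (.c 6 r397 .e)))))
noncomputable def r398 : Tr := .c 4 q166 (.c 7 q102 .e)
noncomputable def r399 : Tr := .c 3 q166 (.c 4 q166 (.c 6 q166 .e))
noncomputable def r400 : Tr := .c 3 q166 (.c 6 q158 (.c 7 q102 .e))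
noncomputable def r401 : Tr := .c 1 q102 (.c 2 q25 (.c 7 q102 .e))
noncomputable def r402 : Tr := .c 0 q25 (.c 1 q102 (.c 6 q158 (.c 7 q102 .e)))
noncomputable def r403 : Tr := .c 1 q102 (.c 2 q65 (.c 4 q166 .e))
noncomputable def r404 : Tr := .c 0 q65 (.c 2 q65 (.c 3 q166 (.c 4 q166 .e)))
noncomputable def t103 : Tr := .c 0 r398 (.c 1 r399 (.c 2 r400 (.c 3 r401 (.c 4 r402 (.c 6 r403 (.c 7 r404 .e))))))
noncomputable def r405 : Tr := .c 0 q8 (.c 1 q102 (.c 6 q169 (.c 7 q170 .e)))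
noncomputable def r406 : Tr := .c 0 q31 (.c 1 q98 (.c 2 q31 (.c 6 q149 (.c 7 q150 .e))))
noncomputable def r407 : Tr := .c 0 q8 (.c 2 q8 (.c 3 q139 (.c 4 q140 (.c 5 q141 .e))))
noncomputable def t104 : Tr := .c 4 r405 (.c 5 r406 (.c 7 r407 (.c 8 r346 (.c 9 r347 .e))))
noncomputable def r408 : Tr := .c 2 q32 (.c 7 q156 .e)
noncomputable def r409 : Tr := .c 0 q32 (.c 2 q32 (.c 6 q155 (.c 7 q156 .e)))
noncomputable def r410 : Tr := .c 2 q53 (.c 4 q151 (.c 5 q141 .e))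
noncomputable def r411 : Tr := .c 0 q53 (.c 2 q53 (.c 3 q141 (.c 4 q151 (.c 5 q141 .e))))
noncomputable def t105 : Tr := .c 3 r408 (.c 5 r409 (.c 6 r410 (.c 7 r411 (.c 8 r352 (.c 9 r353 .e)))))
noncomputable def r412 : Tr := .c 3 q139 (.c 4 q140 (.c 5 q141 (.c 6 q142 .e)))
noncomputable def r413 : Tr := .c 3 q144 (.c 5 q141 (.c 6 q142 (.c 7 q145 .e)))
noncomputable def t106 : Tr := .c 1 r412 (.c 2 r413 (.c 7 r407 (.c 8 r346 (.c 9 r347 .e))))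
noncomputable def r414 : Tr := .c 4 q151 (.c 5 q141 (.c 7 q146 .e))
noncomputable def r415 : Tr := .c 3 q141 (.c 4 q151 (.c 5 q141 (.c 6 q152 .e)))
noncomputable def t107 : Tr := .c 0 r414 (.c 1 r415 (.c 6 r410 (.c 7 r411 (.c 8 r352 (.c 9 r353 .e)))))
noncomputable def r416 : Tr := .c 4 q140 (.c 5 q151 (.c 7 q102 .e))
noncomputable def r417 : Tr := .c 3 q140 (.c 4 q140 (.c 5 q151 (.c 6 q158 .e)))
noncomputable def r418 : Tr := .c 3 q159 (.c 5 q151 (.c 6 q158 (.c 7 q102 .e)))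
noncomputable def r419 : Tr := .c 1 q102 (.c 2 q8 (.c 4 q140 (.c 5 q151 .e)))
noncomputable def r420 : Tr := .c 0 q8 (.c 2 q8 (.c 3 q140 (.c 4 q140 (.c 5 q151 .e))))
noncomputable def t108 : Tr := .c 0 r416 (.c 1 r417 (.c 2 r418 (.c 6 r419 (.c 7 r420 (.c 8 r359 .e)))))
noncomputable def r421 : Tr := .c 4 q158 (.c 5 q164 (.c 7 q102 .e))
noncomputable def r422 : Tr := .c 3 q158 (.c 4 q158 (.c 5 q164 (.c 6 q158 .e)))
noncomputable def r423 : Tr := .c 3 q166 (.c 5 q164 (.c 6 q158 (.c 7 q102 .e)))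
noncomputable def r424 : Tr := .c 1 q102 (.c 2 q25 (.c 4 q158 (.c 5 q164 .e)))
noncomputable def r425 : Tr := .c 0 q25 (.c 2 q25 (.c 3 q158 (.c 4 q158 (.c 5 q164 .e))))
noncomputable def t109 : Tr := .c 0 r421 (.c 1 r422 (.c 2 r423 (.c 3 r401 (.c 4 r402 (.c 6 r424 (.c 7 r425 .e))))))
noncomputable def r426 : Tr := .c 0 q11 (.c 1 q98 (.c 8 q156 (.c 9 q143 .e)))
noncomputable def r427 : Tr := .c 0 q31 (.c 1 q98 (.c 2 q31 (.c 8 q156 .e)))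
noncomputable def r428 : Tr := .c 0 q31 (.c 1 q98 (.c 2 q31 (.c 3 q147 (.c 4 q148 .e))))
noncomputable def t110 : Tr := .c 4 r426 (.c 5 r427 (.c 7 r345 (.c 8 r407 (.c 9 r428 .e))))
noncomputable def r429 : Tr := .c 2 q32 (.c 8 q156 (.c 9 q143 .e))
noncomputable def r430 : Tr := .c 0 q32 (.c 2 q32 (.c 8 q156 .e))
noncomputable def r431 : Tr := .c 0 q32 (.c 2 q32 (.c 3 q153 (.c 4 q154 .e)))
noncomputable def t111 : Tr := .c 3 r429 (.c 5 r430 (.c 6 r350 (.c 7 r351 (.c 8 r411 (.c 9 r431 .e)))))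
noncomputable def r432 : Tr := .c 3 q139 (.c 4 q140 (.c 5 q141 (.c 9 q143 .e)))
noncomputable def r433 : Tr := .c 3 q144 (.c 5 q141 (.c 8 q146 (.c 9 q143 .e)))
noncomputable def t112 : Tr := .c 1 r432 (.c 2 r433 (.c 7 r345 (.c 8 r407 (.c 9 r428 .e))))
noncomputable def r434 : Tr := .c 4 q151 (.c 5 q141 (.c 8 q146 (.c 9 q143 .e)))
noncomputable def r435 : Tr := .c 3 q141 (.c 4 q151 (.c 5 q141 (.c 9 q143 .e)))
noncomputable def t113 : Tr := .c 0 r434 (.c 1 r435 (.c 6 r350 (.c 7 r351 (.c 8 r411 (.c 9 r431 .e)))))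
noncomputable def r436 : Tr := .c 4 q140 (.c 5 q151 (.c 9 q157 .e))
noncomputable def r437 : Tr := .c 3 q140 (.c 4 q140 (.c 5 q151 (.c 9 q157 .e)))
noncomputable def r438 : Tr := .c 3 q159 (.c 5 q151 (.c 9 q157 .e))
noncomputable def t114 : Tr := .c 0 r436 (.c 1 r437 (.c 2 r438 (.c 6 r357 (.c 7 r358 (.c 8 r420 .e)))))
noncomputable def r439 : Tr := .c 3 q143 (.c 4 q157 (.c 5 q143 (.c 9 q143 .e)))
noncomputable def r440 : Tr := .c 3 q143 (.c 5 q143 (.c 8 q156 (.c 9 q143 .e)))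
noncomputable def r441 : Tr := .c 0 q14 (.c 8 q156 (.c 9 q143 .e))
noncomputable def r442 : Tr := .c 0 q16 (.c 2 q16 (.c 8 q156 .e))
noncomputable def r443 : Tr := .c 0 q14 (.c 2 q14 (.c 3 q143 (.c 4 q157 (.c 5 q143 .e))))
noncomputable def r444 : Tr := .c 0 q16 (.c 2 q16 (.c 3 q162 (.c 4 q163 .e)))
noncomputable def t115 : Tr := .c 1 r439 (.c 2 r440 (.c 4 r441 (.c 5 r442 (.c 8 r443 (.c 9 r444 .e)))))
noncomputable def r445 : Tr := .c 0 q13 (.c 1 q87 (.c 8 q173 (.c 9 q174 .e)))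
noncomputable def r446 : Tr := .c 0 q35 (.c 1 q87 (.c 8 q173 .e))
noncomputable def r447 : Tr := .c 0 q31 (.c 3 q147 (.c 5 q153 (.c 9 q162 .e)))
noncomputable def r448 : Tr := .c 0 q31 (.c 3 q147 (.c 5 q153 .e))
noncomputable def q177 : Tr := .c 1 v1 (.c 2 v2 (.c 7 v1 (.c 8 v1 (.c 9 v0 .e))))
noncomputable def r449 : Tr := .c 0 q35 (.c 1 q87 (.c 3 q177 .e))
noncomputable def t116 : Tr := .c 4 r445 (.c 5 r446 (.c 7 r447 (.c 8 r448 (.c 9 r449 .e))))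
noncomputable def r450 : Tr := .c 1 q87 (.c 8 q173 (.c 9 q174 .e))
noncomputable def q178 : Tr := .c 1 v2 (.c 2 v2 (.c 7 v2 (.c 8 v2 .e)))
noncomputable def r451 : Tr := .c 1 q87 (.c 5 q178 (.c 8 q173 (.c 9 q174 .e)))
noncomputable def t117 : Tr := .c 3 r450 (.c 4 r445 (.c 5 r446 (.c 6 r451 (.c 9 r449 .e))))
noncomputable def r452 : Tr := .c 8 q173 (.c 9 q174 .e)
noncomputable def r453 : Tr := .c 0 q43 (.c 8 q173 .e)
noncomputable def r454 : Tr := .c 5 q153 (.c 8 q156 (.c 9 q162 .e))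
noncomputable def r455 : Tr := .c 0 q32 (.c 3 q153 (.c 5 q153 (.c 9 q162 .e)))
noncomputable def r456 : Tr := .c 0 q32 (.c 3 q153 (.c 5 q153 .e))
noncomputable def q179 : Tr := .c 1 v1 (.c 2 v2 (.c 7 v1 (.c 8 v1 .e)))
noncomputable def r457 : Tr := .c 0 q43 (.c 3 q179 .e)
noncomputable def t118 : Tr := .c 3 r452 (.c 5 r453 (.c 6 r454 (.c 7 r455 (.c 8 r456 (.c 9 r457 .e)))))
noncomputable def r458 : Tr := .c 3 q147 (.c 5 q153 (.c 9 q162 .e))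
noncomputable def r459 : Tr := .c 3 q139 (.c 5 q141 (.c 8 q156 (.c 9 q143 .e)))
noncomputable def t119 : Tr := .c 1 r458 (.c 2 r459 (.c 7 r447 (.c 8 r448 (.c 9 r449 .e))))
noncomputable def r460 : Tr := .c 3 q153 (.c 5 q153 (.c 9 q162 .e))
noncomputable def t120 : Tr := .c 0 r454 (.c 1 r460 (.c 6 r454 (.c 7 r455 (.c 8 r456 (.c 9 r457 .e)))))
noncomputable def r461 : Tr := .c 3 q162 (.c 5 q162 (.c 9 q162 .e))
noncomputable def r462 : Tr := .c 3 q174 (.c 5 q174 (.c 8 q173 (.c 9 q174 .e)))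
noncomputable def r463 : Tr := .c 0 q16 (.c 8 q173 (.c 9 q174 .e))
noncomputable def r464 : Tr := .c 0 q45 (.c 8 q173 .e)
noncomputable def r465 : Tr := .c 0 q16 (.c 3 q162 (.c 5 q162 .e))
noncomputable def q180 : Tr := .c 1 v1 (.c 2 v2 (.c 7 v1 .e))
noncomputable def r466 : Tr := .c 0 q45 (.c 3 q180 .e)
noncomputable def t121 : Tr := .c 1 r461 (.c 2 r462 (.c 4 r463 (.c 5 r464 (.c 8 r465 (.c 9 r466 .e)))))
noncomputable def r467 : Tr := .c 5 q174 (.c 8 q173 (.c 9 q174 .e))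
noncomputable def t122 : Tr := .c 0 r467 (.c 2 r462 (.c 3 r452 (.c 4 r463 (.c 5 r464 (.c 9 r466 .e)))))
noncomputable def q181 : Tr := .c 0 v3 (.c 1 v3 (.c 6 v3 (.c 7 v3 (.c 8 v3 .e))))
noncomputable def q182 : Tr := .c 0 v3 .e
noncomputable def q183 : Tr := .c 0 v3 (.c 6 v3 .e)
noncomputable def q184 : Tr := .c 0 v3 (.c 1 v3 (.c 6 v3 (.c 7 v3 .e)))
noncomputable def r468 : Tr := .c 4 q181 (.c 5 q181 (.c 7 q182 (.c 8 q183 (.c 9 q184 .e))))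
noncomputable def r469 : Tr := .c 3 q151 (.c 4 q181 (.c 5 q181 (.c 6 q164 (.c 9 q184 .e))))
noncomputable def r470 : Tr := .c 1 q95 (.c 2 q132 (.c 4 q181 (.c 5 q181 (.c 8 q183 (.c 9 q184 .e)))))
noncomputable def r471 : Tr := .c 0 q53 (.c 2 q132 (.c 3 q151 (.c 4 q181 (.c 5 q181 (.c 9 q184 .e)))))
noncomputable def r472 : Tr := .c 0 q53 (.c 2 q132 (.c 3 q151 (.c 4 q181 (.c 5 q181 (.c 6 q164 .e)))))
noncomputable def t123 : Tr := .c 0 r468 (.c 1 r469 (.c 6 r470 (.c 7 r471 (.c 8 r472 .e))))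
noncomputable def q185 : Tr := .c 0 v3 (.c 1 v3 (.c 6 v3 (.c 7 v3 (.c 8 v3 (.c 9 v2 .e)))))
noncomputable def q186 : Tr := .c 0 v3 (.c 9 v2 .e)
noncomputable def r473 : Tr := .c 4 q185 (.c 5 q181 (.c 7 q186 (.c 8 q183 (.c 9 q184 .e))))
noncomputable def r474 : Tr := .c 3 q140 (.c 4 q185 (.c 5 q181 (.c 6 q158 (.c 9 q184 .e))))
noncomputable def r475 : Tr := .c 3 q159 (.c 5 q181 (.c 6 q158 (.c 7 q186 (.c 8 q183 (.c 9 q184 .e)))))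
noncomputable def r476 : Tr := .c 1 q107 (.c 2 q131 (.c 4 q185 (.c 5 q181 (.c 8 q183 (.c 9 q184 .e)))))
noncomputable def r477 : Tr := .c 0 q8 (.c 2 q131 (.c 3 q140 (.c 4 q185 (.c 5 q181 (.c 9 q184 .e)))))
noncomputable def r478 : Tr := .c 0 q8 (.c 2 q131 (.c 3 q140 (.c 4 q185 (.c 5 q181 (.c 6 q158 .e)))))
noncomputable def t124 : Tr := .c 0 r473 (.c 1 r474 (.c 2 r475 (.c 6 r476 (.c 7 r477 (.c 8 r478 .e)))))
noncomputable def q187 : Tr := .c 0 v1 .e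
noncomputable def r479 : Tr := .c 4 q184 (.c 5 q184 (.c 7 q187 (.c 8 q183 (.c 9 q184 .e))))
noncomputable def q188 : Tr := .c 1 v2 .e
noncomputable def r480 : Tr := .c 3 q157 (.c 5 q184 (.c 6 q188 (.c 7 q187 (.c 8 q183 (.c 9 q184 .e)))))
noncomputable def r481 : Tr := .c 1 q95 (.c 2 q123 (.c 7 q187 (.c 8 q183 (.c 9 q184 .e))))
noncomputable def r482 : Tr := .c 0 q14 (.c 1 q95 (.c 6 q188 (.c 7 q187 (.c 8 q183 (.c 9 q184 .e)))))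
noncomputable def t125 : Tr := .c 0 r479 (.c 2 r480 (.c 3 r481 (.c 4 r482 .e)))
noncomputable def q189 : Tr := .c 0 v3 (.c 1 v3 (.c 8 v3 (.c 9 v2 .e)))
noncomputable def q190 : Tr := .c 0 v3 (.c 1 v3 (.c 8 v3 .e))
noncomputable def q191 : Tr := .c 0 v3 (.c 9 v1 .e)
noncomputable def q192 : Tr := .c 0 v3 (.c 1 v3 .e)
noncomputable def r483 : Tr := .c 4 q189 (.c 5 q190 (.c 7 q191 (.c 8 q182 (.c 9 q192 .e))))
noncomputable def q193 : Tr := .c 1 v2 (.c 8 v2 (.c 9 v1 .e))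
noncomputable def r484 : Tr := .c 3 q158 (.c 5 q190 (.c 6 q193 (.c 7 q191 (.c 8 q182 (.c 9 q192 .e)))))
noncomputable def r485 : Tr := .c 1 q98 (.c 2 q22 (.c 7 q191 (.c 8 q182 (.c 9 q192 .e))))
noncomputable def r486 : Tr := .c 0 q22 (.c 1 q98 (.c 6 q193 (.c 7 q191 (.c 8 q182 (.c 9 q192 .e)))))
noncomputable def r487 : Tr := .c 1 q98 (.c 2 q25 (.c 4 q189 (.c 5 q190 (.c 8 q182 (.c 9 q192 .e)))))
noncomputable def t126 : Tr := .c 0 r483 (.c 2 r484 (.c 3 r485 (.c 4 r486 (.c 6 r487 .e))))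
noncomputable def r488 : Tr := .c 4 q189 (.c 5 q190 (.c 7 q186 (.c 8 q182 (.c 9 q192 .e))))
noncomputable def r489 : Tr := .c 3 q158 (.c 4 q189 (.c 5 q190 (.c 6 q158 (.c 9 q192 .e))))
noncomputable def r490 : Tr := .c 3 q166 (.c 5 q190 (.c 6 q158 (.c 7 q186 (.c 8 q182 (.c 9 q192 .e)))))
noncomputable def r491 : Tr := .c 1 q102 (.c 2 q25 (.c 7 q186 (.c 8 q182 (.c 9 q192 .e))))
noncomputable def r492 : Tr := .c 0 q25 (.c 1 q102 (.c 6 q158 (.c 7 q186 (.c 8 q182 (.c 9 q192 .e)))))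
noncomputable def r493 : Tr := .c 1 q102 (.c 2 q25 (.c 4 q189 (.c 5 q190 (.c 8 q182 (.c 9 q192 .e)))))
noncomputable def r494 : Tr := .c 0 q25 (.c 2 q25 (.c 3 q158 (.c 4 q189 (.c 5 q190 (.c 9 q192 .e)))))
noncomputable def t127 : Tr := .c 0 r488 (.c 1 r489 (.c 2 r490 (.c 3 r491 (.c 4 r492 (.c 6 r493 (.c 7 r494 .e))))))
noncomputable def t128 : Tr := .c 1 r474 (.c 2 r475 (.c 7 r477 (.c 8 r478 .e)))
noncomputable def r495 : Tr := .c 3 q157 (.c 4 q184 (.c 5 q184 (.c 6 q165 (.c 9 q184 .e))))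
noncomputable def q194 : Tr := .c 0 v2 .e
noncomputable def q195 : Tr := .c 0 v2 (.c 6 v2 .e)
noncomputable def r496 : Tr := .c 3 q157 (.c 5 q184 (.c 6 q165 (.c 7 q194 (.c 8 q195 (.c 9 q184 .e)))))
noncomputable def r497 : Tr := .c 0 q14 (.c 1 q84 (.c 6 q165 (.c 7 q194 (.c 8 q195 (.c 9 q184 .e)))))
noncomputable def r498 : Tr := .c 0 q14 (.c 2 q123 (.c 3 q157 (.c 4 q184 (.c 5 q184 (.c 6 q165 .e)))))
noncomputable def t129 : Tr := .c 1 r495 (.c 2 r496 (.c 4 r497 (.c 8 r498 .e)))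
noncomputable def r499 : Tr := .c 1 q83 (.c 2 q118 (.c 7 q191 .e))
noncomputable def r500 : Tr := .c 0 q11 (.c 1 q83 (.c 6 q193 (.c 7 q191 .e)))
noncomputable def r501 : Tr := .c 1 q83 (.c 2 q131 (.c 4 q185 (.c 5 q181 .e)))
noncomputable def t130 : Tr := .c 3 r499 (.c 4 r500 (.c 6 r501 .e))
noncomputable def r502 : Tr := .c 1 q84 (.c 2 q119 (.c 7 q182 .e))
noncomputable def r503 : Tr := .c 1 q95 (.c 2 q132 (.c 4 q181 (.c 5 q181 .e)))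
noncomputable def r504 : Tr := .c 0 q53 (.c 2 q132 (.c 3 q151 (.c 4 q181 (.c 5 q181 .e))))
noncomputable def t131 : Tr := .c 3 r502 (.c 6 r503 (.c 7 r504 (.c 8 r472 .e)))
noncomputable def r505 : Tr := .c 4 q181 (.c 5 q181 (.c 7 q182 .e))
noncomputable def r506 : Tr := .c 3 q151 (.c 4 q181 (.c 5 q181 (.c 6 q164 .e)))
noncomputable def t132 : Tr := .c 0 r505 (.c 1 r506 (.c 6 r503 (.c 7 r504 (.c 8 r472 .e))))
noncomputable def r507 : Tr := .c 4 q185 (.c 5 q181 (.c 7 q186 .e))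
noncomputable def r508 : Tr := .c 3 q140 (.c 4 q185 (.c 5 q181 (.c 6 q158 .e)))
noncomputable def r509 : Tr := .c 3 q159 (.c 5 q181 (.c 6 q158 (.c 7 q186 .e)))
noncomputable def r510 : Tr := .c 1 q107 (.c 2 q131 (.c 4 q185 (.c 5 q181 .e)))
noncomputable def r511 : Tr := .c 0 q8 (.c 2 q131 (.c 3 q140 (.c 4 q185 (.c 5 q181 .e))))
noncomputable def t133 : Tr := .c 0 r507 (.c 1 r508 (.c 2 r509 (.c 6 r510 (.c 7 r511 (.c 8 r478 .e)))))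
noncomputable def r512 : Tr := .c 4 q189 (.c 5 q190 (.c 7 q191 .e))
noncomputable def r513 : Tr := .c 3 q158 (.c 5 q190 (.c 6 q193 (.c 7 q191 .e)))
noncomputable def r514 : Tr := .c 1 q98 (.c 2 q22 (.c 7 q191 .e))
noncomputable def r515 : Tr := .c 0 q22 (.c 1 q98 (.c 6 q193 (.c 7 q191 .e)))
noncomputable def r516 : Tr := .c 1 q98 (.c 2 q25 (.c 4 q189 (.c 5 q190 .e)))
noncomputable def t134 : Tr := .c 0 r512 (.c 2 r513 (.c 3 r514 (.c 4 r515 (.c 6 r516 .e))))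
noncomputable def r517 : Tr := .c 4 q189 (.c 5 q190 (.c 7 q186 .e))
noncomputable def r518 : Tr := .c 3 q158 (.c 4 q189 (.c 5 q190 (.c 6 q158 .e)))
noncomputable def r519 : Tr := .c 3 q166 (.c 5 q190 (.c 6 q158 (.c 7 q186 .e)))
noncomputable def r520 : Tr := .c 1 q102 (.c 2 q25 (.c 7 q186 .e))
noncomputable def r521 : Tr := .c 0 q25 (.c 1 q102 (.c 6 q158 (.c 7 q186 .e)))
noncomputable def r522 : Tr := .c 1 q102 (.c 2 q25 (.c 4 q189 (.c 5 q190 .e)))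
noncomputable def r523 : Tr := .c 0 q25 (.c 2 q25 (.c 3 q158 (.c 4 q189 (.c 5 q190 .e))))
noncomputable def t135 : Tr := .c 0 r517 (.c 1 r518 (.c 2 r519 (.c 3 r520 (.c 4 r521 (.c 6 r522 (.c 7 r523 .e))))))
noncomputable def r524 : Tr := .c 0 q8 (.c 1 q107 (.c 6 q158 (.c 7 q186 .e)))
noncomputable def t136 : Tr := .c 4 r524 (.c 7 r511 (.c 8 r478 .e))
noncomputable def t137 : Tr := .c 1 r508 (.c 2 r509 (.c 7 r511 (.c 8 r478 .e)))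
noncomputable def r525 : Tr := .c 0 q11 (.c 1 q83 (.c 8 q195 (.c 9 q184 .e)))
noncomputable def t138 : Tr := .c 4 r525 (.c 7 r477 (.c 8 r511 .e))
noncomputable def r526 : Tr := .c 1 q84 (.c 2 q119 (.c 8 q195 (.c 9 q184 .e)))
noncomputable def t139 : Tr := .c 3 r526 (.c 6 r470 (.c 7 r471 (.c 8 r504 .e)))
noncomputable def r527 : Tr := .c 3 q140 (.c 4 q185 (.c 5 q181 (.c 9 q184 .e)))
noncomputable def r528 : Tr := .c 3 q159 (.c 5 q181 (.c 8 q183 (.c 9 q184 .e)))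
noncomputable def t140 : Tr := .c 1 r527 (.c 2 r528 (.c 7 r477 (.c 8 r511 .e)))
noncomputable def r529 : Tr := .c 4 q181 (.c 5 q181 (.c 8 q183 (.c 9 q184 .e)))
noncomputable def r530 : Tr := .c 3 q151 (.c 4 q181 (.c 5 q181 (.c 9 q184 .e)))
noncomputable def t141 : Tr := .c 0 r529 (.c 1 r530 (.c 6 r470 (.c 7 r471 (.c 8 r504 .e))))
noncomputable def r531 : Tr := .c 4 q185 (.c 5 q181 (.c 8 q183 (.c 9 q184 .e)))
noncomputable def t142 : Tr := .c 0 r531 (.c 1 r527 (.c 2 r528 (.c 6 r476 (.c 7 r477 (.c 8 r511 .e)))))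
noncomputable def r532 : Tr := .c 3 q157 (.c 4 q184 (.c 5 q184 (.c 9 q184 .e)))
noncomputable def r533 : Tr := .c 3 q157 (.c 5 q184 (.c 8 q195 (.c 9 q184 .e)))
noncomputable def r534 : Tr := .c 0 q14 (.c 1 q84 (.c 8 q195 (.c 9 q184 .e)))
noncomputable def r535 : Tr := .c 0 q14 (.c 2 q123 (.c 3 q157 (.c 4 q184 (.c 5 q184 .e))))
noncomputable def t143 : Tr := .c 1 r532 (.c 2 r533 (.c 4 r534 (.c 8 r535 .e)))
noncomputable def q196 : Tr := .c 0 v1 (.c 6 v1 .e)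
noncomputable def q197 : Tr := .c 0 v2 (.c 1 v2 (.c 6 v2 (.c 7 v2 .e)))
noncomputable def r536 : Tr := .c 0 q13 (.c 1 q88 (.c 8 q196 (.c 9 q197 .e)))
noncomputable def q198 : Tr := .c 0 v2 (.c 1 v2 (.c 6 v2 (.c 7 v2 (.c 8 v2 .e))))
noncomputable def r537 : Tr := .c 0 q31 (.c 3 q148 (.c 5 q198 (.c 9 q197 .e)))
noncomputable def r538 : Tr := .c 0 q31 (.c 3 q148 (.c 5 q198 .e))
noncomputable def t144 : Tr := .c 4 r536 (.c 7 r537 (.c 8 r538 .e))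
noncomputable def r539 : Tr := .c 1 q88 (.c 8 q196 (.c 9 q197 .e))
noncomputable def r540 : Tr := .c 1 q88 (.c 5 q198 (.c 8 q196 (.c 9 q197 .e)))
noncomputable def t145 : Tr := .c 3 r539 (.c 4 r536 (.c 6 r540 .e))
noncomputable def r541 : Tr := .c 1 q94 (.c 8 q196 (.c 9 q197 .e))
noncomputable def r542 : Tr := .c 1 q84 (.c 5 q198 (.c 8 q195 (.c 9 q197 .e)))
noncomputable def r543 : Tr := .c 0 q32 (.c 3 q154 (.c 5 q198 (.c 9 q197 .e)))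
noncomputable def r544 : Tr := .c 0 q32 (.c 3 q154 (.c 5 q198 .e))
noncomputable def t146 : Tr := .c 3 r541 (.c 6 r542 (.c 7 r543 (.c 8 r544 .e)))
noncomputable def r545 : Tr := .c 3 q148 (.c 5 q198 (.c 9 q197 .e))
noncomputable def r546 : Tr := .c 3 q140 (.c 5 q181 (.c 8 q195 (.c 9 q184 .e)))
noncomputable def t147 : Tr := .c 1 r545 (.c 2 r546 (.c 7 r537 (.c 8 r538 .e)))
noncomputable def r547 : Tr := .c 5 q198 (.c 8 q195 (.c 9 q197 .e))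
noncomputable def r548 : Tr := .c 3 q154 (.c 5 q198 (.c 9 q197 .e))
noncomputable def t148 : Tr := .c 0 r547 (.c 1 r548 (.c 6 r542 (.c 7 r543 (.c 8 r544 .e))))
noncomputable def r549 : Tr := .c 3 q163 (.c 5 q197 (.c 9 q197 .e))
noncomputable def r550 : Tr := .c 3 q163 (.c 5 q197 (.c 8 q196 (.c 9 q197 .e)))
noncomputable def r551 : Tr := .c 0 q16 (.c 1 q94 (.c 8 q196 (.c 9 q197 .e)))
noncomputable def r552 : Tr := .c 0 q16 (.c 3 q163 (.c 5 q197 .e))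
noncomputable def t149 : Tr := .c 1 r549 (.c 2 r550 (.c 4 r551 (.c 8 r552 .e)))
noncomputable def r553 : Tr := .c 5 q197 (.c 8 q196 (.c 9 q197 .e))
noncomputable def t150 : Tr := .c 0 r553 (.c 2 r550 (.c 3 r541 (.c 4 r551 .e)))
noncomputable def q199 : Tr := .c 0 v3 (.c 1 v3 (.c 2 v3 (.c 6 v3 (.c 7 v3 (.c 8 v3 .e)))))
noncomputable def q200 : Tr := .c 0 v3 (.c 2 v3 .e)
noncomputable def q201 : Tr := .c 0 v3 (.c 2 v3 (.c 6 v3 .e))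
noncomputable def q202 : Tr := .c 0 v3 (.c 1 v3 (.c 2 v3 (.c 6 v3 (.c 7 v3 .e))))
noncomputable def r554 : Tr := .c 4 q181 (.c 5 q199 (.c 7 q200 (.c 8 q201 (.c 9 q202 .e))))
noncomputable def r555 : Tr := .c 3 q141 (.c 4 q181 (.c 5 q199 (.c 6 q152 (.c 9 q202 .e))))
noncomputable def r556 : Tr := .c 1 q95 (.c 2 q132 (.c 4 q181 (.c 5 q199 (.c 8 q201 (.c 9 q202 .e)))))
noncomputable def r557 : Tr := .c 0 q53 (.c 2 q132 (.c 3 q141 (.c 4 q181 (.c 5 q199 (.c 9 q202 .e)))))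
noncomputable def r558 : Tr := .c 0 q53 (.c 2 q132 (.c 3 q141 (.c 4 q181 (.c 5 q199 (.c 6 q152 .e)))))
noncomputable def q203 : Tr := .c 0 v2 (.c 2 v2 .e)
noncomputable def r559 : Tr := .c 0 q32 (.c 1 q84 (.c 2 q119 (.c 3 q153 (.c 4 q198 (.c 6 q155 (.c 7 q203 .e))))))
noncomputable def t151 : Tr := .c 0 r554 (.c 1 r555 (.c 6 r556 (.c 7 r557 (.c 8 r558 (.c 9 r559 .e)))))
noncomputable def r560 : Tr := .c 4 q181 (.c 5 q181 (.c 7 q194 (.c 8 q195 (.c 9 q184 .e))))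
noncomputable def r561 : Tr := .c 1 q84 (.c 2 q132 (.c 4 q181 (.c 5 q181 (.c 8 q195 (.c 9 q184 .e)))))
noncomputable def t152 : Tr := .c 0 r560 (.c 1 r469 (.c 6 r561 (.c 7 r471 (.c 8 r472 .e))))
noncomputable def q204 : Tr := .c 0 v2 (.c 1 v2 (.c 2 v2 (.c 6 v2 (.c 7 v2 .e))))
noncomputable def q205 : Tr := .c 0 v1 (.c 2 v1 .e)
noncomputable def q206 : Tr := .c 0 v1 (.c 2 v1 (.c 6 v1 .e))
noncomputable def r562 : Tr := .c 4 q184 (.c 5 q204 (.c 7 q205 (.c 8 q206 (.c 9 q204 .e))))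
noncomputable def r563 : Tr := .c 1 q94 (.c 2 q124 (.c 7 q205 (.c 8 q206 (.c 9 q204 .e))))
noncomputable def r564 : Tr := .c 0 q16 (.c 1 q94 (.c 2 q124 (.c 6 q172 (.c 7 q205 (.c 8 q206 .e)))))
noncomputable def r565 : Tr := .c 0 q16 (.c 1 q94 (.c 2 q124 (.c 3 q174 (.c 4 q197 (.c 6 q172 (.c 7 q205 .e))))))
noncomputable def t153 : Tr := .c 0 r562 (.c 3 r563 (.c 5 r564 (.c 9 r565 .e)))
noncomputable def q207 : Tr := .c 0 v2 (.c 1 v2 (.c 2 v2 (.c 8 v2 .e)))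
noncomputable def q208 : Tr := .c 0 v2 (.c 1 v2 (.c 2 v2 .e))
noncomputable def r566 : Tr := .c 4 q190 (.c 5 q207 (.c 7 q205 (.c 8 q205 (.c 9 q208 .e))))
noncomputable def r567 : Tr := .c 2 q46 (.c 7 q205 (.c 8 q205 (.c 9 q208 .e)))
noncomputable def q209 : Tr := .c 1 v2 (.c 2 v1 (.c 8 v2 .e))
noncomputable def r568 : Tr := .c 0 q46 (.c 2 q46 (.c 6 q209 (.c 7 q205 (.c 8 q205 .e))))
noncomputable def r569 : Tr := .c 2 q64 (.c 4 q190 (.c 5 q207 (.c 8 q205 (.c 9 q208 .e))))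
noncomputable def t154 : Tr := .c 0 r566 (.c 3 r567 (.c 5 r568 (.c 6 r569 .e)))
noncomputable def r570 : Tr := .c 4 q190 (.c 5 q190 (.c 7 q194 (.c 8 q194 (.c 9 q192 .e))))
noncomputable def r571 : Tr := .c 3 q164 (.c 4 q190 (.c 5 q190 (.c 6 q164 (.c 9 q192 .e))))
noncomputable def r572 : Tr := .c 2 q64 (.c 7 q194 (.c 8 q194 (.c 9 q192 .e)))
noncomputable def r573 : Tr := .c 2 q64 (.c 4 q190 (.c 5 q190 (.c 8 q194 (.c 9 q192 .e))))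
noncomputable def r574 : Tr := .c 0 q64 (.c 2 q64 (.c 3 q164 (.c 4 q190 (.c 5 q190 (.c 9 q192 .e)))))
noncomputable def t155 : Tr := .c 0 r570 (.c 1 r571 (.c 3 r572 (.c 6 r573 (.c 7 r574 .e))))
noncomputable def t156 : Tr := .c 1 r555 (.c 7 r557 (.c 8 r558 (.c 9 r559 .e)))
noncomputable def r575 : Tr := .c 3 q143 (.c 4 q184 (.c 5 q202 (.c 6 q160 (.c 9 q202 .e))))
noncomputable def q210 : Tr := .c 0 v2 (.c 2 v2 (.c 6 v2 .e))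
noncomputable def r576 : Tr := .c 0 q16 (.c 1 q84 (.c 2 q124 (.c 6 q161 (.c 7 q203 (.c 8 q210 .e)))))
noncomputable def r577 : Tr := .c 0 q14 (.c 2 q123 (.c 3 q143 (.c 4 q184 (.c 5 q202 (.c 6 q160 .e)))))
noncomputable def r578 : Tr := .c 0 q16 (.c 1 q84 (.c 2 q124 (.c 3 q162 (.c 4 q197 (.c 6 q161 (.c 7 q203 .e))))))
noncomputable def t157 : Tr := .c 1 r575 (.c 5 r576 (.c 8 r577 (.c 9 r578 .e)))
noncomputable def r579 : Tr := .c 3 q141 (.c 4 q181 (.c 6 q152 .e))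
noncomputable def r580 : Tr := .c 0 q53 (.c 2 q132 (.c 3 q141 (.c 4 q181 .e)))
noncomputable def r581 : Tr := .c 0 q53 (.c 2 q132 (.c 3 q141 (.c 4 q181 (.c 6 q152 .e))))
noncomputable def q211 : Tr := .c 1 v3 (.c 2 v2 (.c 8 v3 .e))
noncomputable def r582 : Tr := .c 0 q53 (.c 1 q84 (.c 2 q132 (.c 3 q141 (.c 4 q181 (.c 6 q211 (.c 7 q203 .e))))))
noncomputable def t158 : Tr := .c 1 r579 (.c 7 r580 (.c 8 r581 (.c 9 r582 .e)))
noncomputable def r583 : Tr := .c 4 q181 (.c 7 q194 (.c 8 q195 .e))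
noncomputable def r584 : Tr := .c 3 q151 (.c 4 q181 (.c 6 q164 .e))
noncomputable def r585 : Tr := .c 1 q84 (.c 2 q132 (.c 4 q181 (.c 8 q195 .e)))
noncomputable def r586 : Tr := .c 0 q53 (.c 2 q132 (.c 3 q151 (.c 4 q181 .e)))
noncomputable def r587 : Tr := .c 0 q53 (.c 2 q132 (.c 3 q151 (.c 4 q181 (.c 6 q164 .e))))
noncomputable def t159 : Tr := .c 0 r583 (.c 1 r584 (.c 6 r585 (.c 7 r586 (.c 8 r587 .e))))
noncomputable def r588 : Tr := .c 3 q143 (.c 4 q184 (.c 6 q161 .e))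
noncomputable def r589 : Tr := .c 0 q14 (.c 2 q123 (.c 3 q143 (.c 4 q184 (.c 6 q161 .e))))
noncomputable def t160 : Tr := .c 1 r588 (.c 5 r564 (.c 8 r589 (.c 9 r565 .e)))
noncomputable def r590 : Tr := .c 4 q184 (.c 7 q205 (.c 8 q206 .e))
noncomputable def r591 : Tr := .c 1 q94 (.c 2 q124 (.c 7 q205 (.c 8 q206 .e)))
noncomputable def t161 : Tr := .c 0 r590 (.c 3 r591 (.c 5 r564 (.c 9 r565 .e)))
noncomputable def r592 : Tr := .c 4 q190 (.c 7 q205 (.c 8 q205 .e))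
noncomputable def r593 : Tr := .c 2 q46 (.c 7 q205 (.c 8 q205 .e))
noncomputable def r594 : Tr := .c 2 q64 (.c 4 q190 (.c 8 q205 .e))
noncomputable def t162 : Tr := .c 0 r592 (.c 3 r593 (.c 5 r568 (.c 6 r594 .e)))
noncomputable def r595 : Tr := .c 4 q190 (.c 7 q194 (.c 8 q194 .e))
noncomputable def r596 : Tr := .c 3 q164 (.c 4 q190 (.c 6 q164 .e))
noncomputable def r597 : Tr := .c 2 q64 (.c 7 q194 (.c 8 q194 .e))
noncomputable def r598 : Tr := .c 2 q64 (.c 4 q190 (.c 8 q194 .e))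
noncomputable def r599 : Tr := .c 0 q64 (.c 2 q64 (.c 3 q164 (.c 4 q190 .e)))
noncomputable def t163 : Tr := .c 0 r595 (.c 1 r596 (.c 3 r597 (.c 6 r598 (.c 7 r599 .e))))
noncomputable def r600 : Tr := .c 1 q84 (.c 2 q119 (.c 7 q205 .e))
noncomputable def r601 : Tr := .c 0 q32 (.c 1 q84 (.c 2 q119 (.c 6 q209 (.c 7 q205 .e))))
noncomputable def q212 : Tr := .c 0 v2 (.c 1 v2 (.c 2 v2 (.c 6 v2 (.c 7 v2 (.c 8 v2 .e)))))
noncomputable def r602 : Tr := .c 1 q84 (.c 2 q132 (.c 4 q181 (.c 5 q212 .e)))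
noncomputable def r603 : Tr := .c 0 q32 (.c 1 q84 (.c 2 q119 (.c 3 q178 (.c 4 q198 (.c 6 q209 (.c 7 q205 .e))))))
noncomputable def t164 : Tr := .c 3 r600 (.c 5 r601 (.c 6 r602 (.c 9 r603 .e)))
noncomputable def r604 : Tr := .c 1 q84 (.c 2 q119 (.c 7 q203 .e))
noncomputable def r605 : Tr := .c 0 q32 (.c 1 q84 (.c 2 q119 (.c 6 q155 (.c 7 q203 .e))))
noncomputable def r606 : Tr := .c 1 q95 (.c 2 q132 (.c 4 q181 (.c 5 q199 .e)))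
noncomputable def r607 : Tr := .c 0 q53 (.c 2 q132 (.c 3 q141 (.c 4 q181 (.c 5 q199 .e))))
noncomputable def t165 : Tr := .c 3 r604 (.c 5 r605 (.c 6 r606 (.c 7 r607 (.c 8 r558 (.c 9 r559 .e)))))
noncomputable def r608 : Tr := .c 4 q181 (.c 5 q199 (.c 7 q200 .e))
noncomputable def r609 : Tr := .c 3 q141 (.c 4 q181 (.c 5 q199 (.c 6 q152 .e)))
noncomputable def t166 : Tr := .c 0 r608 (.c 1 r609 (.c 6 r606 (.c 7 r607 (.c 8 r558 (.c 9 r559 .e)))))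
noncomputable def r610 : Tr := .c 4 q181 (.c 5 q181 (.c 7 q194 .e))
noncomputable def r611 : Tr := .c 1 q84 (.c 2 q132 (.c 4 q181 (.c 5 q181 .e)))
noncomputable def t167 : Tr := .c 0 r610 (.c 1 r506 (.c 6 r611 (.c 7 r504 (.c 8 r472 .e))))
noncomputable def r612 : Tr := .c 4 q190 (.c 5 q207 (.c 7 q205 .e))
noncomputable def r613 : Tr := .c 2 q46 (.c 7 q205 .e)
noncomputable def r614 : Tr := .c 0 q46 (.c 2 q46 (.c 6 q209 (.c 7 q205 .e)))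
noncomputable def r615 : Tr := .c 2 q64 (.c 4 q190 (.c 5 q207 .e))
noncomputable def t168 : Tr := .c 0 r612 (.c 3 r613 (.c 5 r614 (.c 6 r615 .e)))
noncomputable def r616 : Tr := .c 4 q190 (.c 5 q190 (.c 7 q194 .e))
noncomputable def r617 : Tr := .c 3 q164 (.c 4 q190 (.c 5 q190 (.c 6 q164 .e)))
noncomputable def r618 : Tr := .c 2 q64 (.c 7 q194 .e)
noncomputable def r619 : Tr := .c 2 q64 (.c 4 q190 (.c 5 q190 .e))
noncomputable def r620 : Tr := .c 0 q64 (.c 2 q64 (.c 3 q164 (.c 4 q190 (.c 5 q190 .e))))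
noncomputable def t169 : Tr := .c 0 r616 (.c 1 r617 (.c 3 r618 (.c 6 r619 (.c 7 r620 .e))))
noncomputable def t170 : Tr := .c 5 r605 (.c 7 r607 (.c 8 r558 (.c 9 r559 .e)))
noncomputable def t171 : Tr := .c 1 r609 (.c 7 r607 (.c 8 r558 (.c 9 r559 .e)))
noncomputable def r621 : Tr := .c 0 q32 (.c 1 q84 (.c 2 q119 (.c 8 q210 .e)))
noncomputable def r622 : Tr := .c 0 q32 (.c 1 q84 (.c 2 q119 (.c 3 q153 (.c 4 q198 .e))))
noncomputable def t172 : Tr := .c 5 r621 (.c 7 r557 (.c 8 r607 (.c 9 r622 .e)))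
noncomputable def r623 : Tr := .c 1 q84 (.c 2 q119 (.c 8 q210 (.c 9 q202 .e)))
noncomputable def t173 : Tr := .c 3 r623 (.c 5 r621 (.c 6 r556 (.c 7 r557 (.c 8 r607 (.c 9 r622 .e)))))
noncomputable def r624 : Tr := .c 3 q141 (.c 4 q181 (.c 5 q199 (.c 9 q202 .e)))
noncomputable def t174 : Tr := .c 1 r624 (.c 7 r557 (.c 8 r607 (.c 9 r622 .e)))
noncomputable def r625 : Tr := .c 4 q181 (.c 5 q199 (.c 8 q201 (.c 9 q202 .e)))
noncomputable def t175 : Tr := .c 0 r625 (.c 1 r624 (.c 6 r556 (.c 7 r557 (.c 8 r607 (.c 9 r622 .e)))))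
noncomputable def r626 : Tr := .c 4 q181 (.c 5 q181 (.c 8 q195 (.c 9 q184 .e)))
noncomputable def t176 : Tr := .c 0 r626 (.c 1 r530 (.c 6 r561 (.c 7 r471 (.c 8 r504 .e))))
noncomputable def r627 : Tr := .c 3 q143 (.c 4 q184 (.c 5 q202 (.c 9 q202 .e)))
noncomputable def r628 : Tr := .c 0 q16 (.c 1 q84 (.c 2 q124 (.c 8 q210 .e)))
noncomputable def r629 : Tr := .c 0 q14 (.c 2 q123 (.c 3 q143 (.c 4 q184 (.c 5 q202 .e))))
noncomputable def r630 : Tr := .c 0 q16 (.c 1 q84 (.c 2 q124 (.c 3 q162 (.c 4 q197 .e))))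
noncomputable def t177 : Tr := .c 1 r627 (.c 5 r628 (.c 8 r629 (.c 9 r630 .e)))
noncomputable def q213 : Tr := .c 1 v3 (.c 2 v3 (.c 4 v3 (.c 5 v3 (.c 8 v3 (.c 9 v3 .e)))))
noncomputable def q214 : Tr := .c 1 v3 (.c 2 v3 (.c 4 v3 .e))
noncomputable def r631 : Tr := .c 3 q142 (.c 4 q158 (.c 5 q152 (.c 6 q213 (.c 9 q214 .e))))
noncomputable def q215 : Tr := .c 1 v3 (.c 2 v2 (.c 4 v2 (.c 5 v2 (.c 8 v3 (.c 9 v2 .e)))))
noncomputable def q216 : Tr := .c 2 v2 (.c 4 v2 (.c 5 v2 (.c 9 v2 .e)))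
noncomputable def q217 : Tr := .c 2 v2 (.c 4 v2 (.c 5 v2 .e))
noncomputable def r632 : Tr := .c 3 q167 (.c 5 q152 (.c 6 q215 (.c 7 q216 (.c 8 q217 (.c 9 q214 .e)))))
noncomputable def r633 : Tr := .c 0 q54 (.c 2 q28 (.c 3 q142 (.c 4 q158 (.c 5 q152 (.c 9 q214 .e)))))
noncomputable def t178 : Tr := .c 1 r631 (.c 2 r632 (.c 7 r633 .e))
noncomputable def q218 : Tr := .c 2 v2 (.c 4 v2 .e)
noncomputable def r634 : Tr := .c 4 q164 (.c 5 q152 (.c 7 q218 (.c 8 q218 (.c 9 q214 .e))))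
noncomputable def q219 : Tr := .c 1 v3 (.c 2 v3 (.c 4 v3 (.c 8 v3 .e)))
noncomputable def r635 : Tr := .c 3 q152 (.c 4 q164 (.c 5 q152 (.c 6 q219 (.c 9 q214 .e))))
noncomputable def r636 : Tr := .c 1 q55 (.c 2 q64 (.c 4 q164 (.c 5 q152 (.c 8 q218 (.c 9 q214 .e)))))
noncomputable def r637 : Tr := .c 0 q59 (.c 2 q64 (.c 3 q152 (.c 4 q164 (.c 5 q152 (.c 9 q214 .e)))))
noncomputable def t179 : Tr := .c 0 r634 (.c 1 r635 (.c 6 r636 (.c 7 r637 .e)))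
noncomputable def r638 : Tr := .c 4 q158 (.c 5 q164 (.c 7 q63 (.c 8 q72 (.c 9 q165 .e))))
noncomputable def q220 : Tr := .c 1 v3 (.c 5 v3 (.c 8 v3 (.c 9 v3 .e)))
noncomputable def r639 : Tr := .c 3 q158 (.c 4 q158 (.c 5 q164 (.c 6 q220 (.c 9 q165 .e))))
noncomputable def q221 : Tr := .c 1 v3 (.c 5 v2 (.c 8 v3 (.c 9 v2 .e)))
noncomputable def r640 : Tr := .c 3 q166 (.c 5 q164 (.c 6 q221 (.c 7 q63 (.c 8 q72 (.c 9 q165 .e)))))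
noncomputable def r641 : Tr := .c 1 q63 (.c 2 q28 (.c 4 q158 (.c 5 q164 (.c 8 q72 (.c 9 q165 .e)))))
noncomputable def r642 : Tr := .c 0 q28 (.c 2 q28 (.c 3 q158 (.c 4 q158 (.c 5 q164 (.c 9 q165 .e)))))
noncomputable def t180 : Tr := .c 0 r638 (.c 1 r639 (.c 2 r640 (.c 6 r641 (.c 7 r642 .e))))
noncomputable def q222 : Tr := .c 1 v2 (.c 2 v2 (.c 4 v2 (.c 5 v2 .e)))
noncomputable def r643 : Tr := .c 3 q160 (.c 4 q165 (.c 5 q160 (.c 6 q222 (.c 9 q214 .e))))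
noncomputable def q223 : Tr := .c 1 v2 (.c 2 v1 (.c 4 v1 (.c 5 v1 .e)))
noncomputable def q224 : Tr := .c 2 v1 (.c 4 v1 (.c 5 v1 .e))
noncomputable def q225 : Tr := .c 1 v3 (.c 2 v2 (.c 4 v2 .e))
noncomputable def r644 : Tr := .c 3 q161 (.c 5 q161 (.c 6 q223 (.c 7 q224 (.c 8 q224 (.c 9 q225 .e)))))
noncomputable def r645 : Tr := .c 0 q15 (.c 1 q15 (.c 6 q223 (.c 7 q224 (.c 8 q224 (.c 9 q225 .e)))))
noncomputable def r646 : Tr := .c 0 q15 (.c 1 q15 (.c 2 q27 (.c 6 q223 (.c 7 q224 (.c 8 q224 .e)))))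
noncomputable def t181 : Tr := .c 1 r643 (.c 2 r644 (.c 4 r645 (.c 5 r646 .e)))
noncomputable def r647 : Tr := .c 1 q63 (.c 2 q28 (.c 7 q63 (.c 8 q72 (.c 9 q165 .e))))
noncomputable def r648 : Tr := .c 0 q28 (.c 1 q63 (.c 6 q221 (.c 7 q63 (.c 8 q72 (.c 9 q165 .e)))))
noncomputable def t182 : Tr := .c 0 r638 (.c 1 r639 (.c 2 r640 (.c 3 r647 (.c 4 r648 (.c 6 r641 (.c 7 r642 .e))))))
noncomputable def r649 : Tr := .c 3 q142 (.c 4 q158 (.c 6 q215 .e))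
noncomputable def q226 : Tr := .c 1 v2 (.c 2 v1 (.c 4 v1 (.c 5 v1 (.c 8 v2 (.c 9 v1 .e)))))
noncomputable def q227 : Tr := .c 2 v1 (.c 4 v1 (.c 5 v1 (.c 9 v1 .e)))
noncomputable def r650 : Tr := .c 3 q169 (.c 6 q226 (.c 7 q227 (.c 8 q224 .e)))
noncomputable def r651 : Tr := .c 0 q61 (.c 2 q28 (.c 3 q142 (.c 4 q158 .e)))
noncomputable def t183 : Tr := .c 1 r649 (.c 2 r650 (.c 7 r651 .e))
noncomputable def r652 : Tr := .c 4 q158 (.c 7 q26 (.c 8 q27 .e))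
noncomputable def r653 : Tr := .c 3 q158 (.c 4 q158 (.c 6 q221 .e))
noncomputable def q228 : Tr := .c 1 v2 (.c 5 v1 (.c 8 v2 (.c 9 v1 .e)))
noncomputable def r654 : Tr := .c 3 q158 (.c 6 q228 (.c 7 q26 (.c 8 q27 .e)))
noncomputable def r655 : Tr := .c 1 q26 (.c 2 q28 (.c 4 q158 (.c 8 q27 .e)))
noncomputable def r656 : Tr := .c 0 q28 (.c 2 q28 (.c 3 q158 (.c 4 q158 .e)))
noncomputable def t184 : Tr := .c 0 r652 (.c 1 r653 (.c 2 r654 (.c 6 r655 (.c 7 r656 .e))))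
noncomputable def r657 : Tr := .c 3 q161 (.c 4 q165 (.c 6 q223 .e))
noncomputable def q229 : Tr := .c 1 v1 (.c 2 v0 (.c 4 v0 (.c 5 v0 .e)))
noncomputable def q230 : Tr := .c 2 v0 (.c 4 v0 (.c 5 v0 .e))
noncomputable def r658 : Tr := .c 3 q172 (.c 6 q229 (.c 7 q230 (.c 8 q230 .e)))
noncomputable def r659 : Tr := .c 0 q3 (.c 1 q3 (.c 6 q229 (.c 7 q230 (.c 8 q230 .e))))
noncomputable def r660 : Tr := .c 0 q3 (.c 1 q3 (.c 2 q126 (.c 6 q229 (.c 7 q230 (.c 8 q230 .e)))))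
noncomputable def t185 : Tr := .c 1 r657 (.c 2 r658 (.c 4 r659 (.c 5 r660 .e)))
noncomputable def r661 : Tr := .c 4 q188 (.c 7 q230 (.c 8 q230 .e))
noncomputable def r662 : Tr := .c 1 q3 (.c 2 q126 (.c 7 q230 (.c 8 q230 .e)))
noncomputable def t186 : Tr := .c 0 r661 (.c 2 r658 (.c 3 r662 (.c 4 r659 (.c 5 r660 .e))))
noncomputable def q231 : Tr := .c 2 v0 (.c 4 v0 (.c 5 v0 (.c 9 v0 .e)))
noncomputable def r663 : Tr := .c 4 q193 (.c 7 q231 (.c 8 q230 .e))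
noncomputable def q232 : Tr := .c 1 v1 (.c 2 v0 (.c 4 v0 (.c 5 v0 (.c 8 v1 (.c 9 v0 .e)))))
noncomputable def r664 : Tr := .c 3 q176 (.c 6 q232 (.c 7 q231 (.c 8 q230 .e)))
noncomputable def r665 : Tr := .c 1 q1 (.c 2 q23 (.c 7 q231 (.c 8 q230 .e)))
noncomputable def r666 : Tr := .c 0 q2 (.c 1 q1 (.c 6 q232 (.c 7 q231 (.c 8 q230 .e))))
noncomputable def r667 : Tr := .c 0 q2 (.c 1 q1 (.c 2 q23 (.c 6 q232 (.c 7 q231 (.c 8 q230 .e)))))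
noncomputable def r668 : Tr := .c 1 q1 (.c 2 q24 (.c 4 q193 (.c 8 q230 .e)))
noncomputable def t187 : Tr := .c 0 r663 (.c 2 r664 (.c 3 r665 (.c 4 r666 (.c 5 r667 (.c 6 r668 .e)))))
noncomputable def r669 : Tr := .c 0 q24 (.c 1 q26 (.c 6 q228 (.c 7 q26 (.c 8 q27 .e))))
noncomputable def t188 : Tr := .c 0 r652 (.c 1 r653 (.c 2 r654 (.c 3 r24 (.c 4 r669 (.c 6 r655 (.c 7 r656 .e))))))
noncomputable def r670 : Tr := .c 0 q48 (.c 2 q28 (.c 3 q169 (.c 4 q158 .e)))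
noncomputable def t189 : Tr := .c 4 r666 (.c 5 r667 (.c 7 r670 .e))
noncomputable def t190 : Tr := .c 3 r665 (.c 4 r666 (.c 5 r667 (.c 6 r668 .e)))
noncomputable def q233 : Tr := .c 1 v2 (.c 2 v1 (.c 4 v1 .e))
noncomputable def r671 : Tr := .c 0 q2 (.c 1 q1 (.c 6 q232 (.c 7 q231 (.c 8 q230 (.c 9 q233 .e)))))
noncomputable def q234 : Tr := .c 1 v2 (.c 2 v2 (.c 4 v2 .e))
noncomputable def r672 : Tr := .c 0 q51 (.c 3 q149 (.c 5 q155 (.c 9 q234 .e)))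
noncomputable def t191 : Tr := .c 4 r671 (.c 5 r666 (.c 7 r672 .e))
noncomputable def r673 : Tr := .c 1 q1 (.c 7 q231 (.c 8 q230 (.c 9 q233 .e)))
noncomputable def r674 : Tr := .c 1 q1 (.c 5 q209 (.c 8 q230 (.c 9 q233 .e)))
noncomputable def t192 : Tr := .c 3 r673 (.c 4 r671 (.c 5 r666 (.c 6 r674 .e)))
noncomputable def q235 : Tr := .c 2 v0 (.c 4 v0 .e)
noncomputable def r675 : Tr := .c 1 q36 (.c 7 q235 (.c 8 q235 (.c 9 q233 .e)))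
noncomputable def q236 : Tr := .c 1 v1 (.c 2 v0 (.c 4 v0 (.c 8 v1 .e)))
noncomputable def r676 : Tr := .c 0 q38 (.c 1 q36 (.c 6 q236 (.c 7 q235 (.c 8 q235 .e))))
noncomputable def q237 : Tr := .c 2 v1 (.c 4 v1 .e)
noncomputable def r677 : Tr := .c 1 q39 (.c 5 q155 (.c 8 q237 (.c 9 q234 .e)))
noncomputable def r678 : Tr := .c 0 q56 (.c 3 q155 (.c 5 q155 (.c 9 q234 .e)))
noncomputable def t193 : Tr := .c 3 r675 (.c 5 r676 (.c 6 r677 (.c 7 r678 .e)))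
noncomputable def r679 : Tr := .c 3 q161 (.c 5 q161 (.c 6 q223 (.c 9 q225 .e)))
noncomputable def r680 : Tr := .c 3 q172 (.c 5 q172 (.c 6 q229 (.c 7 q230 (.c 8 q230 (.c 9 q233 .e)))))
noncomputable def r681 : Tr := .c 0 q3 (.c 1 q3 (.c 6 q229 (.c 7 q230 (.c 8 q230 (.c 9 q233 .e)))))
noncomputable def t194 : Tr := .c 1 r679 (.c 2 r680 (.c 4 r681 (.c 5 r659 .e)))
noncomputable def r682 : Tr := .c 5 q172 (.c 7 q230 (.c 8 q230 (.c 9 q233 .e)))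
noncomputable def r683 : Tr := .c 1 q3 (.c 7 q230 (.c 8 q230 (.c 9 q233 .e)))
noncomputable def t195 : Tr := .c 0 r682 (.c 2 r680 (.c 3 r683 (.c 4 r681 (.c 5 r659 .e))))
noncomputable def r684 : Tr := .c 5 q209 (.c 7 q231 (.c 8 q230 (.c 9 q233 .e)))
noncomputable def r685 : Tr := .c 3 q176 (.c 5 q209 (.c 6 q232 (.c 7 q231 (.c 8 q230 (.c 9 q233 .e)))))
noncomputable def t196 : Tr := .c 0 r684 (.c 2 r685 (.c 3 r673 (.c 4 r671 (.c 5 r666 (.c 6 r674 .e)))))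
noncomputable def r686 : Tr := .c 0 q12 (.c 1 q66 (.c 8 q224 (.c 9 q225 .e)))
noncomputable def r687 : Tr := .c 0 q12 (.c 1 q66 (.c 2 q24 (.c 8 q224 .e)))
noncomputable def t197 : Tr := .c 4 r686 (.c 5 r687 (.c 7 r633 .e))
noncomputable def r688 : Tr := .c 1 q39 (.c 2 q46 (.c 8 q237 (.c 9 q225 .e)))
noncomputable def r689 : Tr := .c 0 q42 (.c 1 q39 (.c 2 q46 (.c 8 q237 .e)))
noncomputable def t198 : Tr := .c 3 r688 (.c 5 r689 (.c 6 r636 (.c 7 r637 .e)))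
noncomputable def r690 : Tr := .c 3 q142 (.c 4 q158 (.c 5 q152 (.c 9 q214 .e)))
noncomputable def r691 : Tr := .c 3 q167 (.c 5 q152 (.c 8 q217 (.c 9 q214 .e)))
noncomputable def t199 : Tr := .c 1 r690 (.c 2 r691 (.c 7 r633 .e))
noncomputable def r692 : Tr := .c 4 q164 (.c 5 q152 (.c 8 q218 (.c 9 q214 .e)))
noncomputable def r693 : Tr := .c 3 q152 (.c 4 q164 (.c 5 q152 (.c 9 q214 .e)))
noncomputable def t200 : Tr := .c 0 r692 (.c 1 r693 (.c 6 r636 (.c 7 r637 .e)))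
noncomputable def r694 : Tr := .c 4 q158 (.c 5 q164 (.c 8 q72 (.c 9 q165 .e)))
noncomputable def r695 : Tr := .c 3 q158 (.c 4 q158 (.c 5 q164 (.c 9 q165 .e)))
noncomputable def r696 : Tr := .c 3 q166 (.c 5 q164 (.c 8 q72 (.c 9 q165 .e)))
noncomputable def t201 : Tr := .c 0 r694 (.c 1 r695 (.c 2 r696 (.c 6 r641 (.c 7 r642 .e))))
noncomputable def r697 : Tr := .c 3 q160 (.c 4 q165 (.c 5 q160 (.c 9 q214 .e)))
noncomputable def r698 : Tr := .c 3 q161 (.c 5 q161 (.c 8 q224 (.c 9 q225 .e)))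
noncomputable def r699 : Tr := .c 0 q15 (.c 1 q15 (.c 8 q224 (.c 9 q225 .e)))
noncomputable def r700 : Tr := .c 0 q15 (.c 1 q15 (.c 2 q27 (.c 8 q224 .e)))
noncomputable def t202 : Tr := .c 1 r697 (.c 2 r698 (.c 4 r699 (.c 5 r700 .e)))
noncomputable def r701 : Tr := .c 0 q2 (.c 1 q1 (.c 8 q230 (.c 9 q233 .e)))
noncomputable def r702 : Tr := .c 0 q2 (.c 1 q1 (.c 8 q230 .e))
noncomputable def t203 : Tr := .c 4 r701 (.c 5 r702 (.c 7 r672 .e))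
noncomputable def r703 : Tr := .c 1 q1 (.c 8 q230 (.c 9 q233 .e))
noncomputable def t204 : Tr := .c 3 r703 (.c 4 r701 (.c 5 r702 (.c 6 r674 .e)))
noncomputable def r704 : Tr := .c 1 q36 (.c 8 q235 (.c 9 q233 .e))
noncomputable def r705 : Tr := .c 0 q38 (.c 1 q36 (.c 8 q235 .e))
noncomputable def t205 : Tr := .c 3 r704 (.c 5 r705 (.c 6 r677 (.c 7 r678 .e)))
noncomputable def r706 : Tr := .c 3 q149 (.c 5 q155 (.c 9 q234 .e))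
noncomputable def r707 : Tr := .c 3 q169 (.c 5 q211 (.c 8 q224 (.c 9 q225 .e)))
noncomputable def t206 : Tr := .c 1 r706 (.c 2 r707 (.c 7 r672 .e))
noncomputable def r708 : Tr := .c 5 q155 (.c 8 q237 (.c 9 q234 .e))
noncomputable def r709 : Tr := .c 3 q155 (.c 5 q155 (.c 9 q234 .e))
noncomputable def t207 : Tr := .c 0 r708 (.c 1 r709 (.c 6 r677 (.c 7 r678 .e)))
noncomputable def r710 : Tr := .c 3 q161 (.c 5 q161 (.c 9 q225 .e))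
noncomputable def r711 : Tr := .c 3 q172 (.c 5 q172 (.c 8 q230 (.c 9 q233 .e)))
noncomputable def r712 : Tr := .c 0 q3 (.c 1 q3 (.c 8 q230 (.c 9 q233 .e)))
noncomputable def r713 : Tr := .c 0 q3 (.c 1 q3 (.c 8 q230 .e))
noncomputable def t208 : Tr := .c 1 r710 (.c 2 r711 (.c 4 r712 (.c 5 r713 .e)))
noncomputable def r714 : Tr := .c 5 q172 (.c 8 q230 (.c 9 q233 .e))
noncomputable def r715 : Tr := .c 1 q3 (.c 8 q230 (.c 9 q233 .e))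
noncomputable def t209 : Tr := .c 0 r714 (.c 2 r711 (.c 3 r715 (.c 4 r712 (.c 5 r713 .e))))
noncomputable def q238 : Tr := .c 0 v1 (.c 2 v1 (.c 3 v1 (.c 4 v1 .e)))
noncomputable def q239 : Tr := .c 0 v3 (.c 2 v3 (.c 3 v3 (.c 4 v3 .e)))
noncomputable def r716 : Tr := .c 4 q182 (.c 5 q200 (.c 7 q238 (.c 8 q239 (.c 9 q239 .e))))
noncomputable def r717 : Tr := .c 3 q146 (.c 4 q182 (.c 5 q200 (.c 6 q218 (.c 9 q239 .e))))
noncomputable def r718 : Tr := .c 1 q112 (.c 2 q134 (.c 4 q182 (.c 5 q200 (.c 8 q239 (.c 9 q239 .e)))))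
noncomputable def r719 : Tr := .c 0 q57 (.c 2 q134 (.c 3 q146 (.c 4 q182 (.c 5 q200 (.c 9 q239 .e)))))
noncomputable def t210 : Tr := .c 0 r716 (.c 1 r717 (.c 6 r718 (.c 7 r719 .e)))
noncomputable def q240 : Tr := .c 0 v1 (.c 3 v1 (.c 5 v1 (.c 9 v1 .e)))
noncomputable def q241 : Tr := .c 0 v1 (.c 3 v1 (.c 5 v1 .e))
noncomputable def q242 : Tr := .c 0 v2 (.c 3 v2 .e)
noncomputable def r720 : Tr := .c 4 q186 (.c 5 q194 (.c 7 q240 (.c 8 q241 (.c 9 q242 .e))))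
noncomputable def r721 : Tr := .c 3 q102 (.c 4 q186 (.c 5 q194 (.c 6 q63 (.c 9 q242 .e))))
noncomputable def r722 : Tr := .c 3 q102 (.c 5 q194 (.c 6 q26 (.c 7 q240 (.c 8 q241 (.c 9 q242 .e)))))
noncomputable def r723 : Tr := .c 1 q101 (.c 2 q105 (.c 4 q186 (.c 5 q194 (.c 8 q241 (.c 9 q242 .e)))))
noncomputable def r724 : Tr := .c 0 q63 (.c 2 q105 (.c 3 q102 (.c 4 q186 (.c 5 q194 (.c 9 q242 .e)))))
noncomputable def t211 : Tr := .c 0 r720 (.c 1 r721 (.c 2 r722 (.c 6 r723 (.c 7 r724 .e))))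
noncomputable def q243 : Tr := .c 0 v0 (.c 2 v0 (.c 3 v0 (.c 4 v0 (.c 5 v0 .e))))
noncomputable def r725 : Tr := .c 4 q187 (.c 5 q205 (.c 7 q243 (.c 8 q243 (.c 9 q238 .e))))
noncomputable def r726 : Tr := .c 3 q173 (.c 5 q205 (.c 6 q230 (.c 7 q243 (.c 8 q243 (.c 9 q238 .e)))))
noncomputable def r727 : Tr := .c 1 q96 (.c 2 q125 (.c 7 q243 (.c 8 q243 (.c 9 q238 .e))))
noncomputable def r728 : Tr := .c 0 q3 (.c 1 q96 (.c 6 q230 (.c 7 q243 (.c 8 q243 (.c 9 q238 .e)))))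
noncomputable def r729 : Tr := .c 0 q3 (.c 1 q96 (.c 2 q125 (.c 6 q230 (.c 7 q243 (.c 8 q243 .e)))))
noncomputable def t212 : Tr := .c 0 r725 (.c 2 r726 (.c 3 r727 (.c 4 r728 (.c 5 r729 .e))))
noncomputable def q244 : Tr := .c 0 v0 (.c 2 v0 (.c 3 v0 (.c 4 v0 (.c 5 v0 (.c 9 v0 .e)))))
noncomputable def r730 : Tr := .c 4 q191 (.c 5 q205 (.c 7 q244 (.c 8 q243 (.c 9 q238 .e))))
noncomputable def r731 : Tr := .c 3 q175 (.c 5 q205 (.c 6 q231 (.c 7 q244 (.c 8 q243 (.c 9 q238 .e)))))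
noncomputable def r732 : Tr := .c 1 q78 (.c 2 q100 (.c 7 q244 (.c 8 q243 (.c 9 q238 .e))))
noncomputable def r733 : Tr := .c 0 q1 (.c 1 q78 (.c 6 q231 (.c 7 q244 (.c 8 q243 (.c 9 q238 .e)))))
noncomputable def r734 : Tr := .c 0 q1 (.c 1 q78 (.c 2 q100 (.c 6 q231 (.c 7 q244 (.c 8 q243 .e)))))
noncomputable def r735 : Tr := .c 1 q78 (.c 2 q101 (.c 4 q191 (.c 5 q205 (.c 8 q243 (.c 9 q238 .e)))))
noncomputable def t213 : Tr := .c 0 r730 (.c 2 r731 (.c 3 r732 (.c 4 r733 (.c 5 r734 (.c 6 r735 .e)))))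
noncomputable def r736 : Tr := .c 1 q101 (.c 2 q101 (.c 7 q240 (.c 8 q241 (.c 9 q242 .e))))
noncomputable def r737 : Tr := .c 0 q26 (.c 1 q101 (.c 6 q26 (.c 7 q240 (.c 8 q241 (.c 9 q242 .e)))))
noncomputable def t214 : Tr := .c 0 r720 (.c 1 r721 (.c 2 r722 (.c 3 r736 (.c 4 r737 (.c 6 r723 (.c 7 r724 .e))))))
noncomputable def r738 : Tr := .c 3 q145 (.c 4 q186 (.c 6 q216 .e))
noncomputable def q245 : Tr := .c 0 v1 (.c 2 v1 (.c 3 v1 (.c 4 v1 (.c 5 v1 (.c 9 v1 .e)))))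
noncomputable def q246 : Tr := .c 0 v1 (.c 2 v1 (.c 3 v1 (.c 4 v1 (.c 5 v1 .e))))
noncomputable def r739 : Tr := .c 3 q170 (.c 6 q227 (.c 7 q245 (.c 8 q246 .e)))
noncomputable def r740 : Tr := .c 0 q62 (.c 2 q105 (.c 3 q145 (.c 4 q186 .e)))
noncomputable def t215 : Tr := .c 1 r738 (.c 2 r739 (.c 7 r740 .e))
noncomputable def r741 : Tr := .c 4 q186 (.c 7 q240 (.c 8 q241 .e))
noncomputable def r742 : Tr := .c 3 q102 (.c 4 q186 (.c 6 q63 .e))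
noncomputable def r743 : Tr := .c 3 q102 (.c 6 q26 (.c 7 q240 (.c 8 q241 .e)))
noncomputable def r744 : Tr := .c 1 q101 (.c 2 q105 (.c 4 q186 (.c 8 q241 .e)))
noncomputable def r745 : Tr := .c 0 q63 (.c 2 q105 (.c 3 q102 (.c 4 q186 .e)))
noncomputable def t216 : Tr := .c 0 r741 (.c 1 r742 (.c 2 r743 (.c 6 r744 (.c 7 r745 .e))))
noncomputable def r746 : Tr := .c 3 q156 (.c 4 q194 (.c 6 q224 .e))
noncomputable def r747 : Tr := .c 3 q173 (.c 6 q230 (.c 7 q243 (.c 8 q243 .e)))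
noncomputable def r748 : Tr := .c 0 q3 (.c 1 q96 (.c 6 q230 (.c 7 q243 (.c 8 q243 .e))))
noncomputable def t217 : Tr := .c 1 r746 (.c 2 r747 (.c 4 r748 (.c 5 r729 .e)))
noncomputable def r749 : Tr := .c 4 q187 (.c 7 q243 (.c 8 q243 .e))
noncomputable def r750 : Tr := .c 1 q96 (.c 2 q125 (.c 7 q243 (.c 8 q243 .e)))
noncomputable def t218 : Tr := .c 0 r749 (.c 2 r747 (.c 3 r750 (.c 4 r748 (.c 5 r729 .e))))
noncomputable def r751 : Tr := .c 4 q191 (.c 7 q244 (.c 8 q243 .e))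
noncomputable def r752 : Tr := .c 3 q175 (.c 6 q231 (.c 7 q244 (.c 8 q243 .e)))
noncomputable def r753 : Tr := .c 1 q78 (.c 2 q100 (.c 7 q244 (.c 8 q243 .e)))
noncomputable def r754 : Tr := .c 0 q1 (.c 1 q78 (.c 6 q231 (.c 7 q244 (.c 8 q243 .e))))
noncomputable def r755 : Tr := .c 1 q78 (.c 2 q101 (.c 4 q191 (.c 8 q243 .e)))
noncomputable def t219 : Tr := .c 0 r751 (.c 2 r752 (.c 3 r753 (.c 4 r754 (.c 5 r734 (.c 6 r755 .e)))))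
noncomputable def r756 : Tr := .c 1 q101 (.c 2 q101 (.c 7 q240 (.c 8 q241 .e)))
noncomputable def r757 : Tr := .c 0 q26 (.c 1 q101 (.c 6 q26 (.c 7 q240 (.c 8 q241 .e))))
noncomputable def t220 : Tr := .c 0 r741 (.c 1 r742 (.c 2 r743 (.c 3 r756 (.c 4 r757 (.c 6 r744 (.c 7 r745 .e))))))
noncomputable def t221 : Tr := .c 3 r732 (.c 4 r733 (.c 5 r734 (.c 6 r735 .e)))
noncomputable def q247 : Tr := .c 0 v0 (.c 2 v0 (.c 3 v0 (.c 4 v0 .e)))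
noncomputable def r758 : Tr := .c 1 q91 (.c 2 q121 (.c 7 q247 (.c 8 q247 (.c 9 q238 .e))))
noncomputable def r759 : Tr := .c 0 q36 (.c 1 q91 (.c 2 q121 (.c 6 q235 (.c 7 q247 (.c 8 q247 .e)))))
noncomputable def q248 : Tr := .c 0 v2 (.c 2 v2 (.c 3 v2 (.c 4 v2 .e)))
noncomputable def r760 : Tr := .c 1 q99 (.c 2 q104 (.c 4 q182 (.c 5 q203 (.c 8 q238 (.c 9 q248 .e)))))
noncomputable def r761 : Tr := .c 0 q55 (.c 2 q104 (.c 3 q156 (.c 4 q182 (.c 5 q203 (.c 9 q248 .e)))))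
noncomputable def t222 : Tr := .c 3 r758 (.c 5 r759 (.c 6 r760 (.c 7 r761 .e)))
noncomputable def r762 : Tr := .c 0 q47 (.c 2 q105 (.c 3 q170 (.c 4 q186 .e)))
noncomputable def t223 : Tr := .c 4 r754 (.c 5 r734 (.c 7 r762 .e))
noncomputable def t224 : Tr := .c 3 r753 (.c 4 r754 (.c 5 r734 (.c 6 r755 .e)))
noncomputable def r763 : Tr := .c 0 q49 (.c 3 q150 (.c 5 q203 (.c 9 q248 .e)))
noncomputable def t225 : Tr := .c 4 r733 (.c 5 r754 (.c 7 r763 .e))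
noncomputable def r764 : Tr := .c 1 q78 (.c 7 q244 (.c 8 q243 (.c 9 q238 .e)))
noncomputable def r765 : Tr := .c 1 q78 (.c 5 q205 (.c 8 q243 (.c 9 q238 .e)))
noncomputable def t226 : Tr := .c 3 r764 (.c 4 r733 (.c 5 r754 (.c 6 r765 .e)))
noncomputable def r766 : Tr := .c 1 q91 (.c 7 q247 (.c 8 q247 (.c 9 q238 .e)))
noncomputable def r767 : Tr := .c 0 q36 (.c 1 q91 (.c 6 q235 (.c 7 q247 (.c 8 q247 .e))))
noncomputable def r768 : Tr := .c 1 q99 (.c 5 q203 (.c 8 q238 (.c 9 q248 .e)))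
noncomputable def r769 : Tr := .c 0 q55 (.c 3 q156 (.c 5 q203 (.c 9 q248 .e)))
noncomputable def t227 : Tr := .c 3 r766 (.c 5 r767 (.c 6 r768 (.c 7 r769 .e)))
noncomputable def r770 : Tr := .c 3 q156 (.c 5 q203 (.c 6 q224 (.c 9 q248 .e)))
noncomputable def t228 : Tr := .c 1 r770 (.c 2 r726 (.c 4 r728 (.c 5 r748 .e)))
noncomputable def r771 : Tr := .c 5 q205 (.c 7 q243 (.c 8 q243 (.c 9 q238 .e)))
noncomputable def r772 : Tr := .c 1 q96 (.c 7 q243 (.c 8 q243 (.c 9 q238 .e)))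
noncomputable def t229 : Tr := .c 0 r771 (.c 2 r726 (.c 3 r772 (.c 4 r728 (.c 5 r748 .e))))
noncomputable def r773 : Tr := .c 5 q205 (.c 7 q244 (.c 8 q243 (.c 9 q238 .e)))
noncomputable def t230 : Tr := .c 0 r773 (.c 2 r731 (.c 3 r764 (.c 4 r733 (.c 5 r754 (.c 6 r765 .e)))))
noncomputable def r774 : Tr := .c 0 q1 (.c 1 q78 (.c 8 q243 (.c 9 q238 .e)))
noncomputable def r775 : Tr := .c 0 q1 (.c 1 q78 (.c 8 q243 .e))
noncomputable def t231 : Tr := .c 4 r774 (.c 5 r775 (.c 7 r763 .e))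
noncomputable def r776 : Tr := .c 1 q78 (.c 8 q243 (.c 9 q238 .e))
noncomputable def t232 : Tr := .c 3 r776 (.c 4 r774 (.c 5 r775 (.c 6 r765 .e)))
noncomputable def r777 : Tr := .c 1 q91 (.c 8 q247 (.c 9 q238 .e))
noncomputable def r778 : Tr := .c 0 q36 (.c 1 q91 (.c 8 q247 .e))
noncomputable def t233 : Tr := .c 3 r777 (.c 5 r778 (.c 6 r768 (.c 7 r769 .e)))
noncomputable def r779 : Tr := .c 3 q150 (.c 5 q203 (.c 9 q248 .e))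
noncomputable def r780 : Tr := .c 3 q170 (.c 5 q203 (.c 8 q246 (.c 9 q248 .e)))
noncomputable def t234 : Tr := .c 1 r779 (.c 2 r780 (.c 7 r763 .e))
noncomputable def r781 : Tr := .c 5 q203 (.c 8 q238 (.c 9 q248 .e))
noncomputable def r782 : Tr := .c 3 q156 (.c 5 q203 (.c 9 q248 .e))
noncomputable def t235 : Tr := .c 0 r781 (.c 1 r782 (.c 6 r768 (.c 7 r769 .e)))
noncomputable def r783 : Tr := .c 3 q173 (.c 5 q205 (.c 8 q243 (.c 9 q238 .e)))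
noncomputable def r784 : Tr := .c 0 q3 (.c 1 q96 (.c 8 q243 (.c 9 q238 .e)))
noncomputable def r785 : Tr := .c 0 q3 (.c 1 q96 (.c 8 q243 .e))
noncomputable def t236 : Tr := .c 1 r782 (.c 2 r783 (.c 4 r784 (.c 5 r785 .e)))
noncomputable def r786 : Tr := .c 5 q205 (.c 8 q243 (.c 9 q238 .e))
noncomputable def r787 : Tr := .c 1 q96 (.c 8 q243 (.c 9 q238 .e))
noncomputable def t237 : Tr := .c 0 r786 (.c 2 r783 (.c 3 r787 (.c 4 r784 (.c 5 r785 .e))))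
noncomputable def q249 : Tr := .c 0 v3 (.c 2 v3 (.c 3 v3 (.c 4 v3 (.c 6 v3 .e))))
noncomputable def r788 : Tr := .c 4 q183 (.c 5 q201 (.c 7 q239 (.c 8 q249 (.c 9 q249 .e))))
noncomputable def r789 : Tr := .c 3 q146 (.c 4 q183 (.c 5 q201 (.c 6 q218 (.c 9 q249 .e))))
noncomputable def r790 : Tr := .c 0 q55 (.c 2 q111 (.c 3 q146 (.c 4 q183 (.c 5 q201 (.c 6 q218 .e)))))
noncomputable def r791 : Tr := .c 0 q39 (.c 1 q80 (.c 2 q110 (.c 3 q156 (.c 4 q195 (.c 6 q237 (.c 7 q238 .e))))))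
noncomputable def t238 : Tr := .c 0 r788 (.c 1 r789 (.c 8 r790 (.c 9 r791 .e)))
noncomputable def q250 : Tr := .c 0 v1 (.c 3 v1 (.c 5 v1 (.c 6 v1 .e)))
noncomputable def q251 : Tr := .c 0 v2 (.c 3 v2 (.c 6 v2 .e))
noncomputable def r792 : Tr := .c 4 q183 (.c 5 q195 (.c 7 q241 (.c 8 q250 (.c 9 q251 .e))))
noncomputable def r793 : Tr := .c 4 q183 (.c 5 q195 (.c 6 q72 (.c 9 q251 .e)))
noncomputable def r794 : Tr := .c 5 q195 (.c 6 q27 (.c 7 q241 (.c 8 q250 (.c 9 q251 .e))))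
noncomputable def r795 : Tr := .c 0 q72 (.c 2 q137 (.c 4 q183 (.c 5 q195 (.c 6 q72 .e))))
noncomputable def t239 : Tr := .c 0 r792 (.c 1 r793 (.c 2 r794 (.c 8 r795 .e)))
noncomputable def q252 : Tr := .c 0 v0 (.c 2 v0 (.c 3 v0 (.c 4 v0 (.c 5 v0 (.c 6 v0 .e)))))
noncomputable def q253 : Tr := .c 0 v1 (.c 2 v1 (.c 3 v1 (.c 4 v1 (.c 6 v1 .e))))
noncomputable def r796 : Tr := .c 4 q183 (.c 5 q206 (.c 7 q243 (.c 8 q252 (.c 9 q253 .e))))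
noncomputable def r797 : Tr := .c 3 q173 (.c 5 q206 (.c 6 q230 (.c 7 q243 (.c 8 q252 (.c 9 q253 .e)))))
noncomputable def r798 : Tr := .c 1 q79 (.c 2 q97 (.c 7 q243 (.c 8 q252 (.c 9 q253 .e))))
noncomputable def r799 : Tr := .c 0 q3 (.c 1 q79 (.c 6 q230 (.c 7 q243 (.c 8 q252 (.c 9 q253 .e)))))
noncomputable def r800 : Tr := .c 0 q3 (.c 1 q79 (.c 2 q97 (.c 6 q230 (.c 7 q243 (.c 8 q252 .e)))))
noncomputable def r801 : Tr := .c 0 q3 (.c 1 q79 (.c 2 q97 (.c 3 q173 (.c 4 q196 (.c 6 q230 (.c 7 q243 .e))))))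
noncomputable def t240 : Tr := .c 0 r796 (.c 2 r797 (.c 3 r798 (.c 4 r799 (.c 5 r800 (.c 9 r801 .e)))))
noncomputable def r802 : Tr := .c 4 q182 (.c 5 q205 (.c 7 q243 (.c 8 q243 (.c 9 q238 .e))))
noncomputable def t241 : Tr := .c 0 r802 (.c 2 r726 (.c 3 r727 (.c 4 r728 (.c 5 r729 .e))))
noncomputable def r803 : Tr := .c 4 q182 (.c 5 q194 (.c 7 q241 (.c 8 q241 (.c 9 q242 .e))))
noncomputable def r804 : Tr := .c 4 q182 (.c 5 q194 (.c 6 q72 (.c 9 q242 .e)))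
noncomputable def r805 : Tr := .c 5 q194 (.c 6 q27 (.c 7 q241 (.c 8 q241 (.c 9 q242 .e))))
noncomputable def r806 : Tr := .c 1 q103 (.c 2 q103 (.c 7 q241 (.c 8 q241 (.c 9 q242 .e))))
noncomputable def r807 : Tr := .c 0 q27 (.c 1 q103 (.c 6 q27 (.c 7 q241 (.c 8 q241 (.c 9 q242 .e)))))
noncomputable def t242 : Tr := .c 0 r803 (.c 1 r804 (.c 2 r805 (.c 3 r806 (.c 4 r807 .e))))
noncomputable def r808 : Tr := .c 3 q146 (.c 4 q183 (.c 6 q217 .e))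
noncomputable def q254 : Tr := .c 0 v1 (.c 2 v1 (.c 3 v1 (.c 4 v1 (.c 5 v1 (.c 6 v1 .e)))))
noncomputable def r809 : Tr := .c 3 q156 (.c 6 q224 (.c 7 q246 (.c 8 q254 .e)))
noncomputable def r810 : Tr := .c 0 q71 (.c 2 q137 (.c 3 q146 (.c 4 q183 (.c 6 q217 .e))))
noncomputable def r811 : Tr := .c 0 q15 (.c 1 q115 (.c 2 q108 (.c 3 q156 (.c 4 q195 (.c 6 q224 (.c 7 q246 .e))))))
noncomputable def t243 : Tr := .c 1 r808 (.c 2 r809 (.c 8 r810 (.c 9 r811 .e)))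
noncomputable def r812 : Tr := .c 4 q183 (.c 7 q241 (.c 8 q250 .e))
noncomputable def r813 : Tr := .c 4 q183 (.c 6 q72 .e)
noncomputable def r814 : Tr := .c 6 q27 (.c 7 q241 (.c 8 q250 .e))
noncomputable def r815 : Tr := .c 0 q72 (.c 2 q137 (.c 4 q183 (.c 6 q72 .e)))
noncomputable def t244 : Tr := .c 0 r812 (.c 1 r813 (.c 2 r814 (.c 8 r815 .e)))
noncomputable def r816 : Tr := .c 3 q156 (.c 4 q195 (.c 6 q224 .e))
noncomputable def r817 : Tr := .c 3 q173 (.c 6 q230 (.c 7 q243 (.c 8 q252 .e)))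
noncomputable def r818 : Tr := .c 0 q3 (.c 1 q79 (.c 6 q230 (.c 7 q243 (.c 8 q252 .e))))
noncomputable def r819 : Tr := .c 0 q15 (.c 2 q108 (.c 3 q156 (.c 4 q195 (.c 6 q224 .e))))
noncomputable def t245 : Tr := .c 1 r816 (.c 2 r817 (.c 4 r818 (.c 5 r800 (.c 8 r819 (.c 9 r801 .e)))))
noncomputable def r820 : Tr := .c 4 q183 (.c 7 q243 (.c 8 q252 .e))
noncomputable def r821 : Tr := .c 1 q79 (.c 2 q97 (.c 7 q243 (.c 8 q252 .e)))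
noncomputable def t246 : Tr := .c 0 r820 (.c 2 r817 (.c 3 r821 (.c 4 r818 (.c 5 r800 (.c 9 r801 .e)))))
noncomputable def r822 : Tr := .c 4 q182 (.c 7 q243 (.c 8 q243 .e))
noncomputable def t247 : Tr := .c 0 r822 (.c 2 r747 (.c 3 r750 (.c 4 r748 (.c 5 r729 .e))))
noncomputable def r823 : Tr := .c 4 q182 (.c 7 q241 (.c 8 q241 .e))
noncomputable def r824 : Tr := .c 4 q182 (.c 6 q72 .e)
noncomputable def r825 : Tr := .c 6 q27 (.c 7 q241 (.c 8 q241 .e))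
noncomputable def r826 : Tr := .c 1 q103 (.c 2 q103 (.c 7 q241 (.c 8 q241 .e)))
noncomputable def r827 : Tr := .c 0 q27 (.c 1 q103 (.c 6 q27 (.c 7 q241 (.c 8 q241 .e))))
noncomputable def t248 : Tr := .c 0 r823 (.c 1 r824 (.c 2 r825 (.c 3 r826 (.c 4 r827 .e))))
noncomputable def t249 : Tr := .c 3 r798 (.c 4 r799 (.c 5 r800 (.c 9 r801 .e)))
noncomputable def q255 : Tr := .c 0 v0 (.c 2 v0 (.c 3 v0 (.c 4 v0 (.c 6 v0 .e))))
noncomputable def r828 : Tr := .c 1 q89 (.c 2 q90 (.c 7 q247 (.c 8 q255 (.c 9 q253 .e))))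
noncomputable def r829 : Tr := .c 0 q36 (.c 1 q89 (.c 2 q90 (.c 6 q235 (.c 7 q247 (.c 8 q255 .e)))))
noncomputable def r830 : Tr := .c 0 q39 (.c 2 q92 (.c 3 q156 (.c 4 q195 (.c 5 q210 (.c 6 q237 .e)))))
noncomputable def r831 : Tr := .c 0 q36 (.c 1 q89 (.c 2 q90 (.c 3 q173 (.c 4 q196 (.c 6 q235 (.c 7 q247 .e))))))
noncomputable def t250 : Tr := .c 3 r828 (.c 5 r829 (.c 8 r830 (.c 9 r831 .e)))
noncomputable def t251 : Tr := .c 4 r818 (.c 5 r800 (.c 8 r819 (.c 9 r801 .e)))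
noncomputable def t252 : Tr := .c 3 r821 (.c 4 r818 (.c 5 r800 (.c 9 r801 .e)))
noncomputable def r832 : Tr := .c 0 q15 (.c 3 q156 (.c 5 q210 (.c 6 q224 .e)))
noncomputable def r833 : Tr := .c 0 q3 (.c 1 q79 (.c 3 q173 (.c 6 q230 (.c 7 q243 .e))))
noncomputable def t253 : Tr := .c 4 r799 (.c 5 r818 (.c 8 r832 (.c 9 r833 .e)))
noncomputable def r834 : Tr := .c 1 q79 (.c 7 q243 (.c 8 q252 (.c 9 q253 .e)))
noncomputable def t254 : Tr := .c 3 r834 (.c 4 r799 (.c 5 r818 (.c 9 r833 .e)))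
noncomputable def r835 : Tr := .c 1 q89 (.c 7 q247 (.c 8 q255 (.c 9 q253 .e)))
noncomputable def r836 : Tr := .c 0 q36 (.c 1 q89 (.c 6 q235 (.c 7 q247 (.c 8 q255 .e))))
noncomputable def r837 : Tr := .c 0 q39 (.c 3 q156 (.c 5 q210 (.c 6 q237 .e)))
noncomputable def r838 : Tr := .c 0 q36 (.c 1 q89 (.c 3 q173 (.c 6 q235 (.c 7 q247 .e))))
noncomputable def t255 : Tr := .c 3 r835 (.c 5 r836 (.c 8 r837 (.c 9 r838 .e)))
noncomputable def q256 : Tr := .c 0 v2 (.c 2 v2 (.c 3 v2 (.c 4 v2 (.c 6 v2 .e))))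
noncomputable def r839 : Tr := .c 3 q156 (.c 5 q210 (.c 6 q224 (.c 9 q256 .e)))
noncomputable def t256 : Tr := .c 1 r839 (.c 2 r797 (.c 4 r799 (.c 5 r818 (.c 8 r832 (.c 9 r833 .e)))))
noncomputable def r840 : Tr := .c 5 q206 (.c 7 q243 (.c 8 q252 (.c 9 q253 .e)))
noncomputable def t257 : Tr := .c 0 r840 (.c 2 r797 (.c 3 r834 (.c 4 r799 (.c 5 r818 (.c 9 r833 .e)))))
noncomputable def r841 : Tr := .c 1 q85 (.c 2 q97 (.c 7 q243 .e))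
noncomputable def r842 : Tr := .c 0 q3 (.c 1 q85 (.c 6 q230 (.c 7 q243 .e)))
noncomputable def r843 : Tr := .c 0 q3 (.c 1 q85 (.c 2 q97 (.c 6 q230 (.c 7 q243 .e))))
noncomputable def r844 : Tr := .c 0 q3 (.c 1 q85 (.c 2 q97 (.c 3 q173 (.c 4 q196 (.c 6 q230 (.c 7 q243 .e))))))
noncomputable def t258 : Tr := .c 3 r841 (.c 4 r842 (.c 5 r843 (.c 9 r844 .e)))
noncomputable def r845 : Tr := .c 1 q80 (.c 2 q110 (.c 7 q238 .e))
noncomputable def r846 : Tr := .c 0 q39 (.c 1 q80 (.c 2 q110 (.c 6 q237 (.c 7 q238 .e))))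
noncomputable def t259 : Tr := .c 3 r845 (.c 5 r846 (.c 8 r790 (.c 9 r791 .e)))
noncomputable def r847 : Tr := .c 4 q183 (.c 5 q201 (.c 7 q239 .e))
noncomputable def r848 : Tr := .c 3 q146 (.c 4 q183 (.c 5 q201 (.c 6 q218 .e)))
noncomputable def t260 : Tr := .c 0 r847 (.c 1 r848 (.c 8 r790 (.c 9 r791 .e)))
noncomputable def r849 : Tr := .c 4 q183 (.c 5 q195 (.c 7 q241 .e))
noncomputable def r850 : Tr := .c 4 q183 (.c 5 q195 (.c 6 q72 .e))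
noncomputable def r851 : Tr := .c 5 q195 (.c 6 q27 (.c 7 q241 .e))
noncomputable def t261 : Tr := .c 0 r849 (.c 1 r850 (.c 2 r851 (.c 8 r795 .e)))
noncomputable def r852 : Tr := .c 4 q182 (.c 5 q205 (.c 7 q243 .e))
noncomputable def r853 : Tr := .c 3 q173 (.c 5 q205 (.c 6 q230 (.c 7 q243 .e)))
noncomputable def r854 : Tr := .c 1 q96 (.c 2 q125 (.c 7 q243 .e))
noncomputable def r855 : Tr := .c 0 q3 (.c 1 q96 (.c 6 q230 (.c 7 q243 .e)))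
noncomputable def r856 : Tr := .c 0 q3 (.c 1 q96 (.c 2 q125 (.c 6 q230 (.c 7 q243 .e))))
noncomputable def t262 : Tr := .c 0 r852 (.c 2 r853 (.c 3 r854 (.c 4 r855 (.c 5 r856 .e))))
noncomputable def r857 : Tr := .c 4 q182 (.c 5 q194 (.c 7 q241 .e))
noncomputable def r858 : Tr := .c 4 q182 (.c 5 q194 (.c 6 q72 .e))
noncomputable def r859 : Tr := .c 5 q194 (.c 6 q27 (.c 7 q241 .e))
noncomputable def r860 : Tr := .c 1 q103 (.c 2 q103 (.c 7 q241 .e))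
noncomputable def r861 : Tr := .c 0 q27 (.c 1 q103 (.c 6 q27 (.c 7 q241 .e)))
noncomputable def t263 : Tr := .c 0 r857 (.c 1 r858 (.c 2 r859 (.c 3 r860 (.c 4 r861 .e))))
noncomputable def q257 : Tr := .c 0 v3 (.c 1 v3 (.c 2 v3 (.c 3 v3 (.c 4 v3 (.c 6 v3 (.c 7 v3 .e))))))
noncomputable def r862 : Tr := .c 4 q184 (.c 5 q202 (.c 7 q239 (.c 8 q249 (.c 9 q257 .e))))
noncomputable def r863 : Tr := .c 3 q143 (.c 4 q184 (.c 5 q202 (.c 6 q214 (.c 9 q257 .e))))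
noncomputable def r864 : Tr := .c 0 q68 (.c 2 q136 (.c 3 q143 (.c 4 q184 (.c 5 q202 (.c 6 q214 .e)))))
noncomputable def r865 : Tr := .c 0 q33 (.c 1 q93 (.c 2 q122 (.c 3 q162 (.c 4 q197 (.c 6 q234 (.c 7 q248 .e))))))
noncomputable def t264 : Tr := .c 0 r862 (.c 1 r863 (.c 8 r864 (.c 9 r865 .e)))
noncomputable def q258 : Tr := .c 0 v3 (.c 1 v3 (.c 3 v3 (.c 6 v3 (.c 7 v3 .e))))
noncomputable def r866 : Tr := .c 4 q184 (.c 5 q184 (.c 7 q242 (.c 8 q251 (.c 9 q258 .e))))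
noncomputable def r867 : Tr := .c 3 q157 (.c 4 q184 (.c 5 q184 (.c 6 q165 (.c 9 q258 .e))))
noncomputable def r868 : Tr := .c 0 q14 (.c 2 q136 (.c 3 q157 (.c 4 q184 (.c 5 q184 (.c 6 q165 .e)))))
noncomputable def t265 : Tr := .c 0 r866 (.c 1 r867 (.c 8 r868 .e))
noncomputable def q259 : Tr := .c 0 v2 (.c 1 v2 (.c 2 v2 (.c 3 v2 (.c 4 v2 (.c 6 v2 (.c 7 v2 .e))))))
noncomputable def r869 : Tr := .c 4 q184 (.c 5 q204 (.c 7 q238 (.c 8 q253 (.c 9 q259 .e))))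
noncomputable def r870 : Tr := .c 1 q80 (.c 2 q117 (.c 7 q238 (.c 8 q253 (.c 9 q259 .e))))
noncomputable def r871 : Tr := .c 0 q29 (.c 1 q80 (.c 2 q117 (.c 6 q233 (.c 7 q238 (.c 8 q253 .e)))))
noncomputable def r872 : Tr := .c 0 q29 (.c 1 q80 (.c 2 q117 (.c 3 q174 (.c 4 q197 (.c 6 q233 (.c 7 q238 .e))))))
noncomputable def t266 : Tr := .c 0 r869 (.c 3 r870 (.c 5 r871 (.c 9 r872 .e)))
noncomputable def q260 : Tr := .c 0 v2 (.c 1 v2 (.c 2 v2 (.c 3 v2 (.c 4 v2 .e))))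
noncomputable def r873 : Tr := .c 4 q192 (.c 5 q208 (.c 7 q238 (.c 8 q238 (.c 9 q260 .e))))
noncomputable def r874 : Tr := .c 1 q99 (.c 2 q121 (.c 7 q238 (.c 8 q238 (.c 9 q260 .e))))
noncomputable def r875 : Tr := .c 0 q39 (.c 1 q99 (.c 2 q121 (.c 6 q233 (.c 7 q238 (.c 8 q238 .e)))))
noncomputable def t267 : Tr := .c 0 r873 (.c 3 r874 (.c 5 r875 .e))
noncomputable def q261 : Tr := .c 0 v3 (.c 1 v3 (.c 3 v3 .e))
noncomputable def r876 : Tr := .c 4 q192 (.c 5 q192 (.c 7 q242 (.c 8 q242 (.c 9 q261 .e))))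
noncomputable def r877 : Tr := .c 3 q165 (.c 4 q192 (.c 5 q192 (.c 6 q165 (.c 9 q261 .e))))
noncomputable def r878 : Tr := .c 1 q104 (.c 2 q104 (.c 7 q242 (.c 8 q242 (.c 9 q261 .e))))
noncomputable def t268 : Tr := .c 0 r876 (.c 1 r877 (.c 3 r878 .e))
noncomputable def t269 : Tr := .c 1 r863 (.c 8 r864 (.c 9 r865 .e))
noncomputable def r879 : Tr := .c 0 q33 (.c 1 q93 (.c 2 q122 (.c 6 q225 (.c 7 q248 (.c 8 q256 .e)))))
noncomputable def r880 : Tr := .c 0 q33 (.c 1 q93 (.c 2 q122 (.c 3 q162 (.c 4 q197 (.c 6 q225 (.c 7 q248 .e))))))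
noncomputable def t270 : Tr := .c 1 r863 (.c 5 r879 (.c 8 r864 (.c 9 r880 .e)))
noncomputable def r881 : Tr := .c 3 q143 (.c 4 q184 (.c 6 q214 .e))
noncomputable def r882 : Tr := .c 0 q68 (.c 2 q136 (.c 3 q143 (.c 4 q184 (.c 6 q214 .e))))
noncomputable def r883 : Tr := .c 0 q67 (.c 1 q93 (.c 2 q135 (.c 3 q143 (.c 4 q184 (.c 6 q225 (.c 7 q248 .e))))))
noncomputable def t271 : Tr := .c 1 r881 (.c 8 r882 (.c 9 r883 .e))
noncomputable def r884 : Tr := .c 4 q184 (.c 7 q242 (.c 8 q251 .e))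
noncomputable def r885 : Tr := .c 3 q157 (.c 4 q184 (.c 6 q165 .e))
noncomputable def r886 : Tr := .c 0 q14 (.c 2 q136 (.c 3 q157 (.c 4 q184 (.c 6 q165 .e))))
noncomputable def t272 : Tr := .c 0 r884 (.c 1 r885 (.c 8 r886 .e))
noncomputable def r887 : Tr := .c 3 q143 (.c 4 q184 (.c 6 q225 .e))
noncomputable def r888 : Tr := .c 0 q67 (.c 2 q135 (.c 3 q143 (.c 4 q184 (.c 6 q225 .e))))
noncomputable def t273 : Tr := .c 1 r887 (.c 5 r871 (.c 8 r888 (.c 9 r872 .e)))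
noncomputable def r889 : Tr := .c 4 q184 (.c 7 q238 (.c 8 q253 .e))
noncomputable def r890 : Tr := .c 1 q80 (.c 2 q117 (.c 7 q238 (.c 8 q253 .e)))
noncomputable def t274 : Tr := .c 0 r889 (.c 3 r890 (.c 5 r871 (.c 9 r872 .e)))
noncomputable def r891 : Tr := .c 4 q192 (.c 7 q238 (.c 8 q238 .e))
noncomputable def r892 : Tr := .c 1 q99 (.c 2 q121 (.c 7 q238 (.c 8 q238 .e)))
noncomputable def t275 : Tr := .c 0 r891 (.c 3 r892 (.c 5 r875 .e))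
noncomputable def r893 : Tr := .c 4 q192 (.c 7 q242 (.c 8 q242 .e))
noncomputable def r894 : Tr := .c 3 q165 (.c 4 q192 (.c 6 q165 .e))
noncomputable def r895 : Tr := .c 1 q104 (.c 2 q104 (.c 7 q242 (.c 8 q242 .e)))
noncomputable def t276 : Tr := .c 0 r893 (.c 1 r894 (.c 3 r895 .e))
noncomputable def t277 : Tr := .c 3 r870 (.c 5 r871 (.c 9 r872 .e))
noncomputable def r896 : Tr := .c 1 q80 (.c 2 q122 (.c 7 q238 (.c 8 q253 (.c 9 q259 .e))))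
noncomputable def r897 : Tr := .c 0 q29 (.c 1 q80 (.c 2 q122 (.c 6 q233 (.c 7 q238 (.c 8 q253 .e)))))
noncomputable def r898 : Tr := .c 0 q67 (.c 2 q136 (.c 3 q143 (.c 4 q184 (.c 5 q202 (.c 6 q225 .e)))))
noncomputable def r899 : Tr := .c 0 q29 (.c 1 q80 (.c 2 q122 (.c 3 q174 (.c 4 q197 (.c 6 q233 (.c 7 q238 .e))))))
noncomputable def t278 : Tr := .c 3 r896 (.c 5 r897 (.c 8 r898 (.c 9 r899 .e)))
noncomputable def t279 : Tr := .c 5 r871 (.c 8 r888 (.c 9 r872 .e))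
noncomputable def t280 : Tr := .c 3 r890 (.c 5 r871 (.c 9 r872 .e))
noncomputable def r900 : Tr := .c 1 q86 (.c 2 q117 (.c 7 q238 .e))
noncomputable def r901 : Tr := .c 0 q29 (.c 1 q86 (.c 2 q117 (.c 6 q233 (.c 7 q238 .e))))
noncomputable def r902 : Tr := .c 0 q29 (.c 1 q86 (.c 2 q117 (.c 3 q174 (.c 4 q197 (.c 6 q233 (.c 7 q238 .e))))))
noncomputable def t281 : Tr := .c 3 r900 (.c 5 r901 (.c 9 r902 .e))
noncomputable def r903 : Tr := .c 1 q93 (.c 2 q122 (.c 7 q248 .e))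
noncomputable def r904 : Tr := .c 0 q33 (.c 1 q93 (.c 2 q122 (.c 6 q234 (.c 7 q248 .e))))
noncomputable def t282 : Tr := .c 3 r903 (.c 5 r904 (.c 8 r864 (.c 9 r865 .e)))
noncomputable def r905 : Tr := .c 4 q184 (.c 5 q202 (.c 7 q239 .e))
noncomputable def r906 : Tr := .c 3 q143 (.c 4 q184 (.c 5 q202 (.c 6 q214 .e)))
noncomputable def t283 : Tr := .c 0 r905 (.c 1 r906 (.c 8 r864 (.c 9 r865 .e)))
noncomputable def r907 : Tr := .c 4 q184 (.c 5 q184 (.c 7 q242 .e))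
noncomputable def r908 : Tr := .c 3 q157 (.c 4 q184 (.c 5 q184 (.c 6 q165 .e)))
noncomputable def t284 : Tr := .c 0 r907 (.c 1 r908 (.c 8 r868 .e))
noncomputable def r909 : Tr := .c 4 q192 (.c 5 q208 (.c 7 q238 .e))
noncomputable def r910 : Tr := .c 1 q99 (.c 2 q121 (.c 7 q238 .e))
noncomputable def r911 : Tr := .c 0 q39 (.c 1 q99 (.c 2 q121 (.c 6 q233 (.c 7 q238 .e))))
noncomputable def t285 : Tr := .c 0 r909 (.c 3 r910 (.c 5 r911 .e))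
noncomputable def r912 : Tr := .c 4 q192 (.c 5 q192 (.c 7 q242 .e))
noncomputable def r913 : Tr := .c 3 q165 (.c 4 q192 (.c 5 q192 (.c 6 q165 .e)))
noncomputable def r914 : Tr := .c 1 q104 (.c 2 q104 (.c 7 q242 .e))
noncomputable def t286 : Tr := .c 0 r912 (.c 1 r913 (.c 3 r914 .e))
noncomputable def t287 : Tr := .c 5 r904 (.c 8 r864 (.c 9 r865 .e))
noncomputable def t288 : Tr := .c 1 r906 (.c 8 r864 (.c 9 r865 .e))

/-- the diagram -/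
noncomputable def T : Tr := (.c 0 (.c 4 (.c 0 t0 (.c 1 t1 (.c 6 t2 (.c 7 t3 (.c 8 t4 (.c 9 t5 .e)))))) (.c 5 (.c 0 t6 (.c 1
t7 (.c 2 t8 (.c 6 t9 (.c 7 t10 (.c 8 t11 .e)))))) (.c 7 (.c 0 t12 (.c 2 t13 (.c 3 t14 (.c 4 t15
(.c 5 t16 (.c 9 t17 .e)))))) (.c 8 (.c 0 t18 (.c 2 t19 (.c 3 t20 (.c 4 t21 (.c 5 t22 (.c 6 t23
.e)))))) (.c 9 (.c 0 t24 (.c 1 t25 (.c 2 t26 (.c 3 t27 (.c 4 t28 (.c 6 t29 (.c 7 t30 .e)))))))
.e))))) (.c 1 (.c 3 (.c 1 t31 (.c 2 t32 (.c 7 t33 (.c 8 t34 (.c 9 t35 .e))))) (.c 4 (.c 0 t36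
(.c 1 t37 (.c 6 t38 (.c 7 t39 (.c 8 t40 (.c 9 t41 .e)))))) (.c 5 (.c 0 t42 (.c 1 t43 (.c 2 t44
(.c 6 t45 (.c 7 t46 (.c 8 t47 .e)))))) (.c 6 (.c 1 t48 (.c 2 t49 (.c 4 t50 (.c 5 t51 (.c 8 t52
(.c 9 t53 .e)))))) (.c 9 (.c 0 t54 (.c 1 t55 (.c 2 t56 (.c 3 t57 (.c 4 t58 (.c 6 t59 (.c 7 t60
.e))))))) .e))))) (.c 2 (.c 3 (.c 1 t61 (.c 2 t62 (.c 7 t63 (.c 8 t64 (.c 9 t65 .e))))) (.c 5
(.c 0 t66 (.c 1 t67 (.c 2 t68 (.c 6 t69 (.c 7 t70 (.c 8 t71 .e)))))) (.c 6 (.c 1 t72 (.c 2 t73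
(.c 4 t74 (.c 5 t75 (.c 8 t76 (.c 9 t77 .e)))))) (.c 7 (.c 0 t78 (.c 2 t73 (.c 3 t79 (.c 4 t74
(.c 5 t75 (.c 9 t77 .e)))))) (.c 8 (.c 0 t80 (.c 2 t81 (.c 3 t82 (.c 4 t83 (.c 5 t84 (.c 6 t85
.e)))))) (.c 9 (.c 0 t86 (.c 1 t87 (.c 2 t88 (.c 3 t89 (.c 4 t90 (.c 6 t91 (.c 7 t92 .e)))))))
.e)))))) (.c 3 (.c 1 (.c 3 t93 (.c 4 t94 (.c 5 t95 (.c 6 t96 (.c 9 t97 .e))))) (.c 2 (.c 3 t98
(.c 5 t99 (.c 6 t100 (.c 7 t101 (.c 8 t102 (.c 9 t103 .e)))))) (.c 7 (.c 0 t104 (.c 2 t105 (.c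
3 t106 (.c 4 t107 (.c 5 t108 (.c 9 t109 .e)))))) (.c 8 (.c 0 t110 (.c 2 t111 (.c 3 t112 (.c 4
t113 (.c 5 t114 (.c 6 t115 .e)))))) (.c 9 (.c 0 t116 (.c 1 t117 (.c 2 t118 (.c 3 t119 (.c 4
t120 (.c 6 t121 (.c 7 t122 .e))))))) .e))))) (.c 4 (.c 0 (.c 4 t123 (.c 5 t124 (.c 7 t125 (.c 8
t126 (.c 9 t127 .e))))) (.c 1 (.c 3 t128 (.c 4 t123 (.c 5 t124 (.c 6 t129 (.c 9 t127 .e)))))
(.c 6 (.c 1 t130 (.c 2 t131 (.c 4 t132 (.c 5 t133 (.c 8 t134 (.c 9 t135 .e)))))) (.c 7 (.c 0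
t136 (.c 2 t131 (.c 3 t137 (.c 4 t132 (.c 5 t133 (.c 9 t135 .e)))))) (.c 8 (.c 0 t138 (.c 2
t139 (.c 3 t140 (.c 4 t141 (.c 5 t142 (.c 6 t143 .e)))))) (.c 9 (.c 0 t144 (.c 1 t145 (.c 2
t146 (.c 3 t147 (.c 4 t148 (.c 6 t149 (.c 7 t150 .e))))))) .e)))))) (.c 5 (.c 0 (.c 4 t151 (.c
5 t152 (.c 7 t153 (.c 8 t154 (.c 9 t155 .e))))) (.c 1 (.c 3 t156 (.c 4 t151 (.c 5 t152 (.c 6
t157 (.c 9 t155 .e))))) (.c 2 (.c 3 t158 (.c 5 t159 (.c 6 t160 (.c 7 t161 (.c 8 t162 (.c 9 t163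
.e)))))) (.c 6 (.c 1 t164 (.c 2 t165 (.c 4 t166 (.c 5 t167 (.c 8 t168 (.c 9 t169 .e)))))) (.c 7
(.c 0 t170 (.c 2 t165 (.c 3 t171 (.c 4 t166 (.c 5 t167 (.c 9 t169 .e)))))) (.c 8 (.c 0 t172 (.c
2 t173 (.c 3 t174 (.c 4 t175 (.c 5 t176 (.c 6 t177 .e)))))) .e)))))) (.c 6 (.c 1 (.c 3 t178 (.c
4 t179 (.c 5 t180 (.c 6 t181 (.c 9 t182 .e))))) (.c 2 (.c 3 t183 (.c 5 t184 (.c 6 t185 (.c 7
t186 (.c 8 t187 (.c 9 t188 .e)))))) (.c 4 (.c 0 t189 (.c 1 t190 (.c 6 t185 (.c 7 t186 (.c 8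
t187 (.c 9 t188 .e)))))) (.c 5 (.c 0 t191 (.c 1 t192 (.c 2 t193 (.c 6 t194 (.c 7 t195 (.c 8
t196 .e)))))) (.c 8 (.c 0 t197 (.c 2 t198 (.c 3 t199 (.c 4 t200 (.c 5 t201 (.c 6 t202 .e))))))
(.c 9 (.c 0 t203 (.c 1 t204 (.c 2 t205 (.c 3 t206 (.c 4 t207 (.c 6 t208 (.c 7 t209 .e)))))))
.e)))))) (.c 7 (.c 0 (.c 4 t210 (.c 5 t211 (.c 7 t212 (.c 8 t213 (.c 9 t214 .e))))) (.c 2 (.c 3
t215 (.c 5 t216 (.c 6 t217 (.c 7 t218 (.c 8 t219 (.c 9 t220 .e)))))) (.c 3 (.c 1 t221 (.c 2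
t222 (.c 7 t212 (.c 8 t213 (.c 9 t214 .e))))) (.c 4 (.c 0 t223 (.c 1 t224 (.c 6 t217 (.c 7 t218
(.c 8 t219 (.c 9 t220 .e)))))) (.c 5 (.c 0 t225 (.c 1 t226 (.c 2 t227 (.c 6 t228 (.c 7 t229 (.c
8 t230 .e)))))) (.c 9 (.c 0 t231 (.c 1 t232 (.c 2 t233 (.c 3 t234 (.c 4 t235 (.c 6 t236 (.c 7
t237 .e))))))) .e)))))) (.c 8 (.c 0 (.c 4 t238 (.c 5 t239 (.c 7 t240 (.c 8 t241 (.c 9 t242
.e))))) (.c 2 (.c 3 t243 (.c 5 t244 (.c 6 t245 (.c 7 t246 (.c 8 t247 (.c 9 t248 .e)))))) (.c 3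
(.c 1 t249 (.c 2 t250 (.c 7 t240 (.c 8 t241 (.c 9 t242 .e))))) (.c 4 (.c 0 t251 (.c 1 t252 (.c
6 t245 (.c 7 t246 (.c 8 t247 (.c 9 t248 .e)))))) (.c 5 (.c 0 t253 (.c 1 t254 (.c 2 t255 (.c 6
t256 (.c 7 t257 (.c 8 t229 .e)))))) (.c 6 (.c 1 t258 (.c 2 t259 (.c 4 t260 (.c 5 t261 (.c 8
t262 (.c 9 t263 .e)))))) .e)))))) (.c 9 (.c 0 (.c 4 t264 (.c 5 t265 (.c 7 t266 (.c 8 t267 (.c 9
t268 .e))))) (.c 1 (.c 3 t269 (.c 4 t264 (.c 5 t265 (.c 6 t270 (.c 9 t268 .e))))) (.c 2 (.c 3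
t271 (.c 5 t272 (.c 6 t273 (.c 7 t274 (.c 8 t275 (.c 9 t276 .e)))))) (.c 3 (.c 1 t277 (.c 2
t278 (.c 7 t266 (.c 8 t267 (.c 9 t268 .e))))) (.c 4 (.c 0 t279 (.c 1 t280 (.c 6 t273 (.c 7 t274
(.c 8 t275 (.c 9 t276 .e)))))) (.c 6 (.c 1 t281 (.c 2 t282 (.c 4 t283 (.c 5 t284 (.c 8 t285 (.c
9 t286 .e)))))) (.c 7 (.c 0 t287 (.c 2 t282 (.c 3 t288 (.c 4 t283 (.c 5 t284 (.c 9 t286
.e)))))) .e))))))) .e))))))))))

theorem chk : chk [0, 0, 1, 0, 0, 1, 1, 0] 1 3 0 2 T = true := by decide +kernel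

end Vale.Agent.P032.Words.Trie.BetaN7
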