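import Vale.Agent.P032.Words.H151.Pal

/-!
# Hexagons around a centre with six colours
-/

namespace Vale.Agent.P032.Words.Trie

/-! ### 01 02 03 14 24 35 45 -/

namespace B31

/-- the letters (masks) -/
def L : List ℕ := [3, 5, 9, 18, 20, 40, 48]

/-- the palettes (masks) -/
def P : List ℕ := [3, 5, 9, 18, 20, 40, 48, 7, 11, 19, 13, 21, 41, 22, 50, 52, 56]

/-- neighbours, letters -/
def nb : List ℕ := [112, 104, 88, 38, 37, 27, 7]

/-- antipodes, letters -/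
def op : List ℕ := [63, 63, 39, 123, 123, 127, 120]

/-- neighbours, palettes -/
def nbT : List ℕ := [98416, 82024, 57432, 5158, 4389, 10907, 1415, 118880, 125008, 103456, 123464, 86304, 60056,
70948, 7558, 6021, 12163]

/-- antipodes, palettes -/
def opT : List ℕ := [32703, 49087, 73639, 125947, 126715, 120191, 129656, 130975, 130991, 131039, 130999, 131039,
131047, 131035, 131065, 131066, 131068]

/-- the letters of the palettes -/
def PL : List (List ℕ) := [[0], [1], [2], [3], [4], [5], [6], [0, 1], [0, 2], [0, 3], [1, 2], [1, 4], [2, 5], [3, 4], [3,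
6], [4, 6], [5, 6]]

noncomputable def q0 : Tr := .c 4 (.l 0) (.c 5 (.l 1) .e)
noncomputable def q1 : Tr := .c 4 (.l 2) .e
noncomputable def r0 : Tr := .c 0 q0 (.c 5 q1 .e)
noncomputable def q2 : Tr := .c 4 (.l 3) (.c 5 (.l 4) .e)
noncomputable def q3 : Tr := .c 5 (.l 4) .e
noncomputable def r1 : Tr := .c 0 q2 (.c 1 q3 (.c 3 q3 (.c 4 q3 .e)))
noncomputable def t0 : Tr := .c 4 r0 (.c 5 r1 .e)
noncomputable def q4 : Tr := .c 5 (.l 5) .e
noncomputable def r2 : Tr := .c 1 q4 .e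
noncomputable def q5 : Tr := .c 5 (.l 1) .e
noncomputable def r3 : Tr := .c 0 q5 .e
noncomputable def t1 : Tr := .c 3 r2 (.c 4 r3 .e)
noncomputable def q6 : Tr := .c 5 (.l 6) .e
noncomputable def q7 : Tr := .c 4 (.l 7) .e
noncomputable def r4 : Tr := .c 4 q6 (.c 5 q7 .e)
noncomputable def q8 : Tr := .c 5 (.l 8) .e
noncomputable def r5 : Tr := .c 3 q8 (.c 5 q7 .e)
noncomputable def q9 : Tr := .c 5 (.l 5) (.c 6 (.l 5) .e)
noncomputable def r6 : Tr := .c 1 q9 (.c 5 q7 .e)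
noncomputable def q10 : Tr := .c 4 (.l 1) (.c 5 (.l 1) (.c 6 (.l 1) .e))
noncomputable def r7 : Tr := .c 0 q10 (.c 5 q7 .e)
noncomputable def t2 : Tr := .c 0 r4 (.c 1 r5 (.c 3 r6 (.c 4 r7 .e)))
noncomputable def q11 : Tr := .c 4 (.l 2) (.c 5 (.l 4) .e)
noncomputable def r8 : Tr := .c 0 q11 (.c 2 q1 (.c 5 q1 .e))
noncomputable def q12 : Tr := .c 4 (.l 4) (.c 5 (.l 4) .e)
noncomputable def r9 : Tr := .c 0 q12 (.c 1 q3 (.c 3 q3 (.c 4 q3 .e)))
noncomputable def t3 : Tr := .c 4 r8 (.c 5 r9 .e)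
noncomputable def q13 : Tr := .c 4 (.l 9) .e
noncomputable def r10 : Tr := .c 1 q3 (.c 2 q13 (.c 5 q13 .e))
noncomputable def t4 : Tr := .c 3 r10 (.c 5 r9 .e)
noncomputable def q14 : Tr := .c 4 (.l 10) .e
noncomputable def r11 : Tr := .c 3 q3 (.c 5 q14 .e)
noncomputable def r12 : Tr := .c 3 q3 (.c 4 q3 .e)
noncomputable def q15 : Tr := .c 4 (.l 4) (.c 5 (.l 4) (.c 6 (.l 4) .e))
noncomputable def q16 : Tr := .c 5 (.l 4) (.c 6 (.l 4) .e)
noncomputable def r13 : Tr := .c 0 q15 (.c 1 q16 (.c 3 q3 (.c 4 q3 .e)))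
noncomputable def t5 : Tr := .c 1 r11 (.c 2 r12 (.c 5 r13 .e))
noncomputable def q17 : Tr := .c 4 (.l 11) .e
noncomputable def r14 : Tr := .c 4 q3 (.c 5 q17 .e)
noncomputable def t6 : Tr := .c 0 r14 (.c 2 r12 (.c 5 r13 .e))
noncomputable def r15 : Tr := .c 5 q1 .e
noncomputable def t7 : Tr := .c 4 r15 (.c 5 r12 .e)
noncomputable def r16 : Tr := .c 5 q13 .e
noncomputable def t8 : Tr := .c 3 r16 (.c 5 r12 .e)
noncomputable def q18 : Tr := .c 3 (.l 12) (.c 5 (.l 13) .e)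
noncomputable def q19 : Tr := .c 3 (.l 14) .e
noncomputable def r17 : Tr := .c 1 q18 (.c 5 q19 .e)
noncomputable def q20 : Tr := .c 3 (.l 15) (.c 5 (.l 4) .e)
noncomputable def r18 : Tr := .c 0 q3 (.c 1 q20 (.c 3 q3 (.c 4 q3 .e)))
noncomputable def t9 : Tr := .c 3 r17 (.c 5 r18 .e)
noncomputable def q21 : Tr := .c 5 (.l 13) .e
noncomputable def r19 : Tr := .c 1 q21 .e
noncomputable def q22 : Tr := .c 5 (.l 16) .e
noncomputable def r20 : Tr := .c 0 q22 .e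
noncomputable def t10 : Tr := .c 3 r19 (.c 4 r20 .e)
noncomputable def q23 : Tr := .c 5 (.l 17) .e
noncomputable def q24 : Tr := .c 3 (.l 7) .e
noncomputable def r21 : Tr := .c 4 q23 (.c 5 q24 .e)
noncomputable def q25 : Tr := .c 5 (.l 18) .e
noncomputable def r22 : Tr := .c 3 q25 (.c 5 q24 .e)
noncomputable def q26 : Tr := .c 3 (.l 13) (.c 5 (.l 13) (.c 6 (.l 13) .e))
noncomputable def r23 : Tr := .c 1 q26 (.c 5 q24 .e)
noncomputable def q27 : Tr := .c 5 (.l 16) (.c 6 (.l 16) .e)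
noncomputable def r24 : Tr := .c 0 q27 (.c 5 q24 .e)
noncomputable def t11 : Tr := .c 0 r21 (.c 1 r22 (.c 3 r23 (.c 4 r24 .e)))
noncomputable def q28 : Tr := .c 3 (.l 19) .e
noncomputable def r25 : Tr := .c 0 q3 (.c 2 q28 (.c 5 q28 .e))
noncomputable def q29 : Tr := .c 3 (.l 4) (.c 5 (.l 4) .e)
noncomputable def r26 : Tr := .c 0 q3 (.c 1 q29 (.c 3 q3 (.c 4 q3 .e)))
noncomputable def t12 : Tr := .c 4 r25 (.c 5 r26 .e)
noncomputable def q30 : Tr := .c 3 (.l 14) (.c 5 (.l 4) .e)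
noncomputable def r27 : Tr := .c 1 q30 (.c 2 q19 (.c 5 q19 .e))
noncomputable def t13 : Tr := .c 3 r27 (.c 5 r26 .e)
noncomputable def q31 : Tr := .c 3 (.l 20) .e
noncomputable def r28 : Tr := .c 3 q3 (.c 5 q31 .e)
noncomputable def q32 : Tr := .c 3 (.l 4) (.c 5 (.l 4) (.c 6 (.l 4) .e))
noncomputable def r29 : Tr := .c 0 q16 (.c 1 q32 (.c 3 q3 (.c 4 q3 .e)))
noncomputable def t14 : Tr := .c 1 r28 (.c 2 r12 (.c 5 r29 .e))
noncomputable def q33 : Tr := .c 3 (.l 21) .e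
noncomputable def r30 : Tr := .c 4 q3 (.c 5 q33 .e)
noncomputable def t15 : Tr := .c 0 r30 (.c 2 r12 (.c 5 r29 .e))
noncomputable def r31 : Tr := .c 5 q28 .e
noncomputable def t16 : Tr := .c 4 r31 (.c 5 r12 .e)
noncomputable def r32 : Tr := .c 5 q19 .e
noncomputable def t17 : Tr := .c 3 r32 (.c 5 r12 .e)
noncomputable def q34 : Tr := .c 4 (.l 22) .e
noncomputable def q35 : Tr := .c 3 (.l 15) .e
noncomputable def r33 : Tr := .c 0 q34 (.c 1 q35 .e)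
noncomputable def t18 : Tr := .c 5 r33 .e
noncomputable def q36 : Tr := .c 3 (.l 7) (.c 4 (.l 7) .e)
noncomputable def r34 : Tr := .c 5 q36 .e
noncomputable def t19 : Tr := .c 0 r34 (.c 1 r34 .e)
noncomputable def q37 : Tr := .c 4 (.l 3) .e
noncomputable def q38 : Tr := .c 3 (.l 23) .e
noncomputable def r35 : Tr := .c 0 q37 (.c 1 q38 .e)
noncomputable def t20 : Tr := .c 5 r35 .e
noncomputable def q39 : Tr := .c 1 (.l 24) (.c 5 (.l 25) .e)
noncomputable def q40 : Tr := .c 1 (.l 26) .e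
noncomputable def r36 : Tr := .c 3 q39 (.c 5 q40 .e)
noncomputable def q41 : Tr := .c 1 (.l 27) (.c 5 (.l 4) .e)
noncomputable def r37 : Tr := .c 0 q3 (.c 1 q3 (.c 3 q41 (.c 4 q3 .e)))
noncomputable def t21 : Tr := .c 1 r36 (.c 5 r37 .e)
noncomputable def q42 : Tr := .c 2 (.l 28) (.c 5 (.l 28) .e)
noncomputable def q43 : Tr := .c 1 (.l 7) .e
noncomputable def r38 : Tr := .c 4 q42 (.c 5 q43 .e)
noncomputable def q44 : Tr := .c 1 (.l 25) (.c 2 (.l 25) (.c 5 (.l 25) .e))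
noncomputable def r39 : Tr := .c 3 q44 (.c 5 q43 .e)
noncomputable def q45 : Tr := .c 5 (.l 29) .e
noncomputable def r40 : Tr := .c 1 q45 (.c 5 q43 .e)
noncomputable def q46 : Tr := .c 5 (.l 30) .e
noncomputable def r41 : Tr := .c 0 q46 (.c 5 q43 .e)
noncomputable def t22 : Tr := .c 0 r38 (.c 1 r39 (.c 3 r40 (.c 4 r41 .e)))
noncomputable def q47 : Tr := .c 5 (.l 28) .e
noncomputable def r42 : Tr := .c 4 q47 .e
noncomputable def q48 : Tr := .c 5 (.l 25) .e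
noncomputable def r43 : Tr := .c 3 q48 .e
noncomputable def t23 : Tr := .c 0 r42 (.c 1 r43 .e)
noncomputable def r44 : Tr := .c 5 q40 .e
noncomputable def r45 : Tr := .c 0 q3 (.c 1 q3 .e)
noncomputable def t24 : Tr := .c 1 r44 (.c 5 r45 .e)
noncomputable def q49 : Tr := .c 1 (.l 31) .e
noncomputable def r46 : Tr := .c 5 q49 .e
noncomputable def t25 : Tr := .c 0 r46 (.c 5 r45 .e)
noncomputable def q50 : Tr := .c 1 (.l 32) .e
noncomputable def r47 : Tr := .c 0 q3 (.c 5 q50 .e)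
noncomputable def q51 : Tr := .c 1 (.l 4) (.c 2 (.l 4) (.c 5 (.l 4) .e))
noncomputable def q52 : Tr := .c 2 (.l 4) (.c 5 (.l 4) .e)
noncomputable def r48 : Tr := .c 0 q3 (.c 1 q3 (.c 3 q51 (.c 4 q52 .e)))
noncomputable def t26 : Tr := .c 4 r47 (.c 5 r48 (.c 6 r45 .e))
noncomputable def q53 : Tr := .c 1 (.l 33) .e
noncomputable def r49 : Tr := .c 1 q3 (.c 5 q53 .e)
noncomputable def t27 : Tr := .c 3 r49 (.c 5 r48 (.c 6 r45 .e))
noncomputable def q54 : Tr := .c 1 (.l 26) (.c 5 (.l 4) .e)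
noncomputable def r50 : Tr := .c 3 q54 (.c 5 q40 (.c 6 q40 .e))
noncomputable def q55 : Tr := .c 1 (.l 4) (.c 5 (.l 4) .e)
noncomputable def r51 : Tr := .c 0 q3 (.c 1 q3 (.c 3 q55 (.c 4 q3 .e)))
noncomputable def t28 : Tr := .c 1 r50 (.c 5 r51 .e)
noncomputable def r52 : Tr := .c 4 q3 (.c 5 q49 (.c 6 q49 .e))
noncomputable def t29 : Tr := .c 0 r52 (.c 5 r51 .e)
noncomputable def q56 : Tr := .c 0 (.l 34) (.c 5 (.l 35) .e)
noncomputable def q57 : Tr := .c 0 (.l 36) .e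
noncomputable def r53 : Tr := .c 4 q56 (.c 5 q57 .e)
noncomputable def q58 : Tr := .c 0 (.l 37) (.c 5 (.l 4) .e)
noncomputable def r54 : Tr := .c 0 q3 (.c 1 q3 (.c 3 q3 (.c 4 q58 .e)))
noncomputable def t30 : Tr := .c 0 r53 (.c 5 r54 .e)
noncomputable def q59 : Tr := .c 0 (.l 35) (.c 2 (.l 35) (.c 5 (.l 35) .e))
noncomputable def q60 : Tr := .c 0 (.l 7) .e
noncomputable def r55 : Tr := .c 4 q59 (.c 5 q60 .e)
noncomputable def q61 : Tr := .c 2 (.l 38) (.c 5 (.l 38) .e)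
noncomputable def r56 : Tr := .c 3 q61 (.c 5 q60 .e)
noncomputable def q62 : Tr := .c 5 (.l 39) .e
noncomputable def r57 : Tr := .c 1 q62 (.c 5 q60 .e)
noncomputable def q63 : Tr := .c 5 (.l 40) .e
noncomputable def r58 : Tr := .c 0 q63 (.c 5 q60 .e)
noncomputable def t31 : Tr := .c 0 r55 (.c 1 r56 (.c 3 r57 (.c 4 r58 .e)))
noncomputable def q64 : Tr := .c 5 (.l 35) .e
noncomputable def r59 : Tr := .c 4 q64 .e
noncomputable def q65 : Tr := .c 5 (.l 38) .e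
noncomputable def r60 : Tr := .c 3 q65 .e
noncomputable def t32 : Tr := .c 0 r59 (.c 1 r60 .e)
noncomputable def q66 : Tr := .c 0 (.l 41) .e
noncomputable def r61 : Tr := .c 5 q66 .e
noncomputable def t33 : Tr := .c 1 r61 (.c 5 r45 .e)
noncomputable def r62 : Tr := .c 5 q57 .e
noncomputable def t34 : Tr := .c 0 r62 (.c 5 r45 .e)
noncomputable def q67 : Tr := .c 0 (.l 42) .e
noncomputable def r63 : Tr := .c 0 q3 (.c 5 q67 .e)
noncomputable def q68 : Tr := .c 0 (.l 4) (.c 2 (.l 4) (.c 5 (.l 4) .e))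
noncomputable def r64 : Tr := .c 0 q3 (.c 1 q3 (.c 3 q52 (.c 4 q68 .e)))
noncomputable def t35 : Tr := .c 4 r63 (.c 5 r64 (.c 6 r45 .e))
noncomputable def q69 : Tr := .c 0 (.l 43) .e
noncomputable def r65 : Tr := .c 1 q3 (.c 5 q69 .e)
noncomputable def t36 : Tr := .c 3 r65 (.c 5 r64 (.c 6 r45 .e))
noncomputable def r66 : Tr := .c 3 q3 (.c 5 q66 (.c 6 q66 .e))
noncomputable def q70 : Tr := .c 0 (.l 4) (.c 5 (.l 4) .e)
noncomputable def r67 : Tr := .c 0 q3 (.c 1 q3 (.c 3 q3 (.c 4 q70 .e)))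
noncomputable def t37 : Tr := .c 1 r66 (.c 5 r67 .e)
noncomputable def q71 : Tr := .c 0 (.l 36) (.c 5 (.l 4) .e)
noncomputable def r68 : Tr := .c 4 q71 (.c 5 q57 (.c 6 q57 .e))
noncomputable def t38 : Tr := .c 0 r68 (.c 5 r67 .e)
noncomputable def q72 : Tr := .c 0 (.l 37) .e
noncomputable def q73 : Tr := .c 0 (.l 7) (.c 1 (.l 7) (.c 3 (.l 7) (.c 4 (.l 7) .e)))
noncomputable def r69 : Tr := .c 4 q72 (.c 5 q73 .e)
noncomputable def q74 : Tr := .c 1 (.l 44) .e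
noncomputable def r70 : Tr := .c 3 q74 (.c 4 q72 .e)
noncomputable def q75 : Tr := .c 4 (.l 45) .e
noncomputable def q76 : Tr := .c 3 (.l 46) .e
noncomputable def r71 : Tr := .c 0 q75 (.c 1 q76 (.c 3 q74 (.c 4 q72 .e)))
noncomputable def t39 : Tr := .c 0 r69 (.c 2 r70 (.c 5 r71 .e))
noncomputable def r72 : Tr := .c 4 q60 (.c 5 q73 .e)
noncomputable def r73 : Tr := .c 3 q43 (.c 5 q73 .e)
noncomputable def r74 : Tr := .c 1 q24 (.c 2 q36 (.c 5 q73 .e))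
noncomputable def r75 : Tr := .c 0 q7 (.c 2 q36 (.c 5 q73 .e))
noncomputable def t40 : Tr := .c 0 r72 (.c 1 r73 (.c 3 r74 (.c 4 r75 .e)))
noncomputable def q77 : Tr := .c 1 (.l 27) .e
noncomputable def r76 : Tr := .c 3 q77 (.c 5 q73 .e)
noncomputable def q78 : Tr := .c 0 (.l 47) .e
noncomputable def r77 : Tr := .c 3 q77 (.c 4 q78 .e)
noncomputable def q79 : Tr := .c 4 (.l 48) .e
noncomputable def q80 : Tr := .c 3 (.l 49) .e
noncomputable def r78 : Tr := .c 0 q79 (.c 1 q80 (.c 3 q77 (.c 4 q78 .e)))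
noncomputable def t41 : Tr := .c 1 r76 (.c 2 r77 (.c 5 r78 .e))
noncomputable def r79 : Tr := .c 1 q35 (.c 5 q73 .e)
noncomputable def q81 : Tr := .c 1 (.l 50) .e
noncomputable def q82 : Tr := .c 0 (.l 51) .e
noncomputable def r80 : Tr := .c 0 q34 (.c 1 q35 (.c 3 q81 (.c 4 q82 .e)))
noncomputable def t42 : Tr := .c 3 r79 (.c 5 r80 (.c 6 r33 .e))
noncomputable def q83 : Tr := .c 0 (.l 7) (.c 1 (.l 7) .e)
noncomputable def r81 : Tr := .c 5 q83 .e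
noncomputable def t43 : Tr := .c 3 r81 (.c 4 r81 .e)
noncomputable def r82 : Tr := .c 4 q60 (.c 5 q73 (.c 6 q83 .e))
noncomputable def r83 : Tr := .c 3 q43 (.c 5 q73 (.c 6 q83 .e))
noncomputable def r84 : Tr := .c 1 q24 (.c 5 q73 .e)
noncomputable def r85 : Tr := .c 0 q7 (.c 5 q73 .e)
noncomputable def t44 : Tr := .c 0 r82 (.c 1 r83 (.c 3 r84 (.c 4 r85 .e)))
noncomputable def r86 : Tr := .c 0 q37 (.c 5 q73 .e)
noncomputable def q84 : Tr := .c 1 (.l 52) .e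
noncomputable def q85 : Tr := .c 0 (.l 53) .e
noncomputable def r87 : Tr := .c 0 q37 (.c 1 q38 (.c 3 q84 (.c 4 q85 .e)))
noncomputable def t45 : Tr := .c 4 r86 (.c 5 r87 (.c 6 r35 .e))
noncomputable def t46 : Tr := .c 5 r70 .e
noncomputable def t47 : Tr := .c 5 r77 .e

/-- the diagram -/
noncomputable def T : Tr := (.c 0 (.c 4 (.c 0 t0 (.c 2 t1 (.c 5 t2 .e))) (.c 5 (.c 0 t3 (.c 1 t4 (.c 3 t5 (.c 4 t6 .e))))
(.c 6 (.c 0 t7 (.c 1 t8 .e)) .e))) (.c 1 (.c 3 (.c 1 t9 (.c 2 t10 (.c 5 t11 .e))) (.c 5 (.c 0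
t12 (.c 1 t13 (.c 3 t14 (.c 4 t15 .e)))) (.c 6 (.c 0 t16 (.c 1 t17 .e)) .e))) (.c 2 (.c 3 (.c 1
t18 (.c 5 t19 .e)) (.c 4 (.c 0 t20 (.c 5 t19 .e)) .e)) (.c 3 (.c 1 (.c 3 t21 (.c 5 t22 (.c 6
t23 .e))) (.c 2 (.c 3 t24 (.c 4 t25 .e)) (.c 5 (.c 0 t26 (.c 1 t27 (.c 3 t28 (.c 4 t29 .e))))
.e))) (.c 4 (.c 0 (.c 4 t30 (.c 5 t31 (.c 6 t32 .e))) (.c 2 (.c 3 t33 (.c 4 t34 .e)) (.c 5 (.c
0 t35 (.c 1 t36 (.c 3 t37 (.c 4 t38 .e)))) .e))) (.c 5 (.c 0 (.c 4 t39 (.c 5 t40 (.c 6 t19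
.e))) (.c 1 (.c 3 t41 (.c 5 t40 (.c 6 t19 .e))) (.c 3 (.c 1 t42 (.c 2 t43 (.c 5 t44 .e))) (.c 4
(.c 0 t45 (.c 2 t43 (.c 5 t44 .e))) .e)))) (.c 6 (.c 0 (.c 4 t46 (.c 5 t43 .e)) (.c 1 (.c 3 t47
(.c 5 t43 .e)) .e)) .e)))))))

theorem chk : chkP 7 17 nb op nbT opT PL T = true := by decide +kernel

end B31

end Vale.Agent.P032.Words.Trie
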