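import Vale.Agent.P032.Words.H151.Pal

/-!
# Hexagons around a centre with six colours
-/

namespace Vale.Agent.P032.Words.Trie

/-! ### 01 23 45 -/

namespace B1

/-- the letters (masks) -/
def L : List ℕ := [3, 12, 48]

/-- the palettes (masks) -/
def P : List ℕ := [3, 12, 48]

/-- neighbours, letters -/
def nb : List ℕ := [6, 5, 3]

/-- antipodes, letters -/
def op : List ℕ := [7, 7, 7]

/-- neighbours, palettes -/
def nbT : List ℕ := [6, 5, 3]

/-- antipodes, palettes -/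
def opT : List ℕ := [7, 7, 7]

/-- the letters of the palettes -/
def PL : List (List ℕ) := [[0], [1], [2]]

noncomputable def q0 : Tr := .c 1 (.l 0) (.c 2 (.l 1) .e)
noncomputable def q1 : Tr := .c 1 (.l 2) .e
noncomputable def r0 : Tr := .c 0 q0 (.c 2 q1 .e)
noncomputable def q2 : Tr := .c 1 (.l 3) (.c 2 (.l 4) .e)
noncomputable def q3 : Tr := .c 2 (.l 5) .e
noncomputable def r1 : Tr := .c 0 q2 (.c 1 q3 .e)
noncomputable def t0 : Tr := .c 1 r0 (.c 2 r1 .e)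
noncomputable def q4 : Tr := .c 2 (.l 6) .e
noncomputable def q5 : Tr := .c 1 (.l 7) .e
noncomputable def r2 : Tr := .c 1 q4 (.c 2 q5 .e)
noncomputable def q6 : Tr := .c 1 (.l 8) (.c 2 (.l 9) .e)
noncomputable def q7 : Tr := .c 1 (.l 10) .e
noncomputable def r3 : Tr := .c 0 q6 (.c 2 q7 .e)
noncomputable def t1 : Tr := .c 0 r2 (.c 1 r3 .e)
noncomputable def q8 : Tr := .c 1 (.l 11) (.c 2 (.l 12) .e)
noncomputable def q9 : Tr := .c 1 (.l 13) .e
noncomputable def r4 : Tr := .c 0 q8 (.c 2 q9 .e)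
noncomputable def q10 : Tr := .c 1 (.l 14) (.c 2 (.l 15) .e)
noncomputable def q11 : Tr := .c 2 (.l 16) .e
noncomputable def r5 : Tr := .c 0 q10 (.c 1 q11 .e)
noncomputable def t2 : Tr := .c 1 r4 (.c 2 r5 .e)
noncomputable def q12 : Tr := .c 2 (.l 17) .e
noncomputable def q13 : Tr := .c 1 (.l 18) .e
noncomputable def r6 : Tr := .c 1 q12 (.c 2 q13 .e)
noncomputable def q14 : Tr := .c 1 (.l 19) (.c 2 (.l 20) .e)
noncomputable def q15 : Tr := .c 2 (.l 21) .e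
noncomputable def r7 : Tr := .c 0 q14 (.c 1 q15 .e)
noncomputable def t3 : Tr := .c 0 r6 (.c 2 r7 .e)
noncomputable def q16 : Tr := .c 0 (.l 22) (.c 2 (.l 23) .e)
noncomputable def q17 : Tr := .c 0 (.l 24) .e
noncomputable def r8 : Tr := .c 1 q16 (.c 2 q17 .e)
noncomputable def q18 : Tr := .c 2 (.l 25) .e
noncomputable def q19 : Tr := .c 0 (.l 26) (.c 2 (.l 27) .e)
noncomputable def r9 : Tr := .c 0 q18 (.c 1 q19 .e)
noncomputable def t4 : Tr := .c 0 r8 (.c 2 r9 .e)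
noncomputable def q20 : Tr := .c 0 (.l 28) (.c 2 (.l 29) .e)
noncomputable def q21 : Tr := .c 0 (.l 30) .e
noncomputable def r10 : Tr := .c 1 q20 (.c 2 q21 .e)
noncomputable def q22 : Tr := .c 2 (.l 31) .e
noncomputable def q23 : Tr := .c 0 (.l 32) .e
noncomputable def r11 : Tr := .c 0 q22 (.c 2 q23 .e)
noncomputable def t5 : Tr := .c 0 r10 (.c 1 r11 .e)
noncomputable def q24 : Tr := .c 2 (.l 33) .e
noncomputable def q25 : Tr := .c 0 (.l 34) .e
noncomputable def r12 : Tr := .c 0 q24 (.c 2 q25 .e)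
noncomputable def q26 : Tr := .c 2 (.l 35) .e
noncomputable def q27 : Tr := .c 0 (.l 36) (.c 2 (.l 37) .e)
noncomputable def r13 : Tr := .c 0 q26 (.c 1 q27 .e)
noncomputable def t6 : Tr := .c 1 r12 (.c 2 r13 .e)
noncomputable def q28 : Tr := .c 0 (.l 38) (.c 2 (.l 39) .e)
noncomputable def q29 : Tr := .c 0 (.l 40) .e
noncomputable def r14 : Tr := .c 1 q28 (.c 2 q29 .e)
noncomputable def q30 : Tr := .c 2 (.l 41) .e
noncomputable def q31 : Tr := .c 0 (.l 42) (.c 2 (.l 43) .e)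
noncomputable def r15 : Tr := .c 0 q30 (.c 1 q31 .e)
noncomputable def t7 : Tr := .c 0 r14 (.c 2 r15 .e)
noncomputable def q32 : Tr := .c 0 (.l 44) .e
noncomputable def q33 : Tr := .c 0 (.l 45) (.c 1 (.l 46) .e)
noncomputable def r16 : Tr := .c 1 q32 (.c 2 q33 .e)
noncomputable def q34 : Tr := .c 1 (.l 47) .e
noncomputable def q35 : Tr := .c 0 (.l 48) .e
noncomputable def r17 : Tr := .c 0 q34 (.c 1 q35 .e)
noncomputable def t8 : Tr := .c 0 r16 (.c 2 r17 .e)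
noncomputable def q36 : Tr := .c 0 (.l 49) .e
noncomputable def q37 : Tr := .c 0 (.l 50) (.c 1 (.l 51) .e)
noncomputable def r18 : Tr := .c 1 q36 (.c 2 q37 .e)
noncomputable def q38 : Tr := .c 1 (.l 52) .e
noncomputable def q39 : Tr := .c 0 (.l 53) (.c 1 (.l 54) .e)
noncomputable def r19 : Tr := .c 0 q38 (.c 2 q39 .e)
noncomputable def t9 : Tr := .c 0 r18 (.c 1 r19 .e)
noncomputable def q40 : Tr := .c 1 (.l 55) .e
noncomputable def q41 : Tr := .c 0 (.l 56) (.c 1 (.l 57) .e)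
noncomputable def r20 : Tr := .c 0 q40 (.c 2 q41 .e)
noncomputable def q42 : Tr := .c 1 (.l 58) .e
noncomputable def q43 : Tr := .c 0 (.l 59) .e
noncomputable def r21 : Tr := .c 0 q42 (.c 1 q43 .e)
noncomputable def t10 : Tr := .c 1 r20 (.c 2 r21 .e)
noncomputable def q44 : Tr := .c 0 (.l 60) .e
noncomputable def q45 : Tr := .c 0 (.l 61) (.c 1 (.l 62) .e)
noncomputable def r22 : Tr := .c 1 q44 (.c 2 q45 .e)
noncomputable def q46 : Tr := .c 1 (.l 63) .e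
noncomputable def q47 : Tr := .c 0 (.l 64) (.c 1 (.l 65) .e)
noncomputable def r23 : Tr := .c 0 q46 (.c 2 q47 .e)
noncomputable def t11 : Tr := .c 0 r22 (.c 1 r23 .e)

/-- the diagram -/
noncomputable def T : Tr := (.c 0 (.c 1 (.c 0 t0 (.c 2 t1 .e)) (.c 2 (.c 0 t2 (.c 1 t3 .e)) .e)) (.c 1 (.c 0 (.c 1 t4 (.c 2
t5 .e)) (.c 2 (.c 0 t6 (.c 1 t7 .e)) .e)) (.c 2 (.c 0 (.c 1 t8 (.c 2 t9 .e)) (.c 1 (.c 0 t10
(.c 2 t11 .e)) .e)) .e)))

theorem chk : chkP 3 3 nb op nbT opT PL T = true := by decide +kernel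

end B1

/-! ### 01 02 03 14 15 -/

namespace B6

/-- the letters (masks) -/
def L : List ℕ := [3, 5, 9, 18, 34]

/-- the palettes (masks) -/
def P : List ℕ := [3, 5, 9, 18, 34, 7, 11, 19, 35, 13, 50]

/-- neighbours, letters -/
def nb : List ℕ := [0, 24, 24, 6, 6]

/-- antipodes, letters -/
def op : List ℕ := [31, 31, 31, 31, 31]

/-- neighbours, palettes -/
def nbT : List ℕ := [0, 1048, 1048, 518, 518, 1024, 1024, 512, 512, 1432, 614]

/-- antipodes, palettes -/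
def opT : List ℕ := [2047, 1023, 1023, 1535, 1535, 2047, 2047, 2047, 2047, 2023, 2041]

/-- the letters of the palettes -/
def PL : List (List ℕ) := [[0], [1], [2], [3], [4], [0, 1], [0, 2], [0, 3], [0, 4], [1, 2], [3, 4]]

noncomputable def q0 : Tr := .c 3 (.l 0) (.c 4 (.l 0) .e)
noncomputable def r0 : Tr := .c 1 q0 (.c 2 q0 .e)
noncomputable def t0 : Tr := .c 3 r0 (.c 4 r0 .e)
noncomputable def q1 : Tr := .c 1 (.l 1) (.c 2 (.l 1) .e)
noncomputable def r1 : Tr := .c 3 q1 (.c 4 q1 .e)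
noncomputable def t1 : Tr := .c 1 r1 (.c 2 r1 .e)

/-- the diagram -/
noncomputable def T : Tr := (.c 1 (.c 3 (.c 1 t0 (.c 2 t0 .e)) (.c 4 (.c 1 t0 (.c 2 t0 .e)) .e)) (.c 2 (.c 3 (.c 1 t0 (.c 2
t0 .e)) (.c 4 (.c 1 t0 (.c 2 t0 .e)) .e)) (.c 3 (.c 1 (.c 3 t1 (.c 4 t1 .e)) (.c 2 (.c 3 t1 (.c
4 t1 .e)) .e)) (.c 4 (.c 1 (.c 3 t1 (.c 4 t1 .e)) (.c 2 (.c 3 t1 (.c 4 t1 .e)) .e)) .e))))

theorem chk : chkP 5 11 nb op nbT opT PL T = true := by decide +kernel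

end B6

/-! ### 01 02 03 14 45 -/

namespace B8

/-- the letters (masks) -/
def L : List ℕ := [3, 5, 9, 18, 48]

/-- the palettes (masks) -/
def P : List ℕ := [3, 5, 9, 18, 48, 7, 11, 19, 13, 50]

/-- neighbours, letters -/
def nb : List ℕ := [16, 24, 24, 6, 7]

/-- antipodes, letters -/
def op : List ℕ := [15, 15, 15, 31, 24]

/-- neighbours, palettes -/
def nbT : List ℕ := [16, 536, 536, 262, 359, 528, 528, 256, 664, 358]

/-- antipodes, palettes -/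
def opT : List ℕ := [1007, 495, 495, 767, 664, 1007, 1007, 1023, 999, 1017]

/-- the letters of the palettes -/
def PL : List (List ℕ) := [[0], [1], [2], [3], [4], [0, 1], [0, 2], [0, 3], [1, 2], [3, 4]]

noncomputable def q0 : Tr := .c 3 (.l 0) .e
noncomputable def r0 : Tr := .c 1 q0 (.c 2 q0 .e)
noncomputable def t0 : Tr := .c 3 r0 .e
noncomputable def q1 : Tr := .c 1 (.l 1) (.c 2 (.l 1) .e)
noncomputable def r1 : Tr := .c 3 q1 .e
noncomputable def t1 : Tr := .c 1 r1 (.c 2 r1 .e)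

/-- the diagram -/
noncomputable def T : Tr := (.c 1 (.c 3 (.c 1 t0 (.c 2 t0 .e)) .e) (.c 2 (.c 3 (.c 1 t0 (.c 2 t0 .e)) .e) (.c 3 (.c 1 (.c 3
t1 .e) (.c 2 (.c 3 t1 .e) .e)) .e)))

theorem chk : chkP 5 10 nb op nbT opT PL T = true := by decide +kernel

end B8

/-! ### 01 02 13 23 45 -/

namespace B10

/-- the letters (masks) -/
def L : List ℕ := [3, 5, 10, 12, 48]

/-- the palettes (masks) -/
def P : List ℕ := [3, 5, 10, 12, 48, 7, 11, 13, 14]

/-- neighbours, letters -/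
def nb : List ℕ := [24, 20, 18, 17, 15]

/-- antipodes, letters -/
def op : List ℕ := [31, 31, 31, 31, 31]

/-- neighbours, palettes -/
def nbT : List ℕ := [24, 20, 18, 17, 495, 16, 16, 16, 16]

/-- antipodes, palettes -/
def opT : List ℕ := [511, 511, 511, 511, 31, 495, 495, 495, 495]

/-- the letters of the palettes -/
def PL : List (List ℕ) := [[0], [1], [2], [3], [4], [0, 1], [0, 2], [1, 3], [2, 3]]

noncomputable def q0 : Tr := .c 3 (.l 0) (.c 4 (.l 1) .e)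
noncomputable def q1 : Tr := .c 3 (.l 2) .e
noncomputable def r0 : Tr := .c 0 q0 (.c 4 q1 .e)
noncomputable def q2 : Tr := .c 3 (.l 3) (.c 4 (.l 4) .e)
noncomputable def q3 : Tr := .c 4 (.l 4) .e
noncomputable def r1 : Tr := .c 0 q2 (.c 1 q3 (.c 2 q3 (.c 3 q3 .e)))
noncomputable def t0 : Tr := .c 3 r0 (.c 4 r1 .e)
noncomputable def q4 : Tr := .c 4 (.l 5) .e
noncomputable def q5 : Tr := .c 3 (.l 6) .e
noncomputable def r2 : Tr := .c 3 q4 (.c 4 q5 .e)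
noncomputable def q6 : Tr := .c 4 (.l 7) .e
noncomputable def r3 : Tr := .c 2 q6 (.c 4 q5 .e)
noncomputable def q7 : Tr := .c 4 (.l 8) .e
noncomputable def r4 : Tr := .c 1 q7 (.c 4 q5 .e)
noncomputable def q8 : Tr := .c 3 (.l 9) (.c 4 (.l 10) .e)
noncomputable def r5 : Tr := .c 0 q8 (.c 4 q5 .e)
noncomputable def t1 : Tr := .c 0 r2 (.c 1 r3 (.c 2 r4 (.c 3 r5 .e)))
noncomputable def q9 : Tr := .c 3 (.l 11) (.c 4 (.l 12) .e)
noncomputable def q10 : Tr := .c 3 (.l 13) .e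
noncomputable def r6 : Tr := .c 0 q9 (.c 4 q10 .e)
noncomputable def q11 : Tr := .c 3 (.l 14) (.c 4 (.l 15) .e)
noncomputable def q12 : Tr := .c 4 (.l 16) .e
noncomputable def q13 : Tr := .c 4 (.l 17) .e
noncomputable def q14 : Tr := .c 4 (.l 18) .e
noncomputable def r7 : Tr := .c 0 q11 (.c 1 q12 (.c 2 q13 (.c 3 q14 .e)))
noncomputable def t2 : Tr := .c 3 r6 (.c 4 r7 .e)
noncomputable def q15 : Tr := .c 4 (.l 19) .e
noncomputable def q16 : Tr := .c 3 (.l 20) .e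
noncomputable def r8 : Tr := .c 1 q15 (.c 4 q16 .e)
noncomputable def q17 : Tr := .c 3 (.l 14) (.c 4 (.l 21) .e)
noncomputable def q18 : Tr := .c 4 (.l 22) .e
noncomputable def q19 : Tr := .c 4 (.l 23) .e
noncomputable def q20 : Tr := .c 4 (.l 24) .e
noncomputable def r9 : Tr := .c 0 q17 (.c 1 q18 (.c 2 q19 (.c 3 q20 .e)))
noncomputable def t3 : Tr := .c 2 r8 (.c 4 r9 .e)
noncomputable def q21 : Tr := .c 4 (.l 25) .e
noncomputable def q22 : Tr := .c 3 (.l 26) .e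
noncomputable def r10 : Tr := .c 2 q21 (.c 4 q22 .e)
noncomputable def q23 : Tr := .c 3 (.l 14) (.c 4 (.l 27) .e)
noncomputable def q24 : Tr := .c 4 (.l 28) .e
noncomputable def q25 : Tr := .c 4 (.l 29) .e
noncomputable def q26 : Tr := .c 4 (.l 30) .e
noncomputable def r11 : Tr := .c 0 q23 (.c 1 q24 (.c 2 q25 (.c 3 q26 .e)))
noncomputable def t4 : Tr := .c 1 r10 (.c 4 r11 .e)
noncomputable def q27 : Tr := .c 4 (.l 31) .e
noncomputable def q28 : Tr := .c 3 (.l 32) .e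
noncomputable def r12 : Tr := .c 3 q27 (.c 4 q28 .e)
noncomputable def q29 : Tr := .c 3 (.l 14) (.c 4 (.l 33) .e)
noncomputable def q30 : Tr := .c 4 (.l 34) .e
noncomputable def q31 : Tr := .c 4 (.l 35) .e
noncomputable def q32 : Tr := .c 4 (.l 36) .e
noncomputable def r13 : Tr := .c 0 q29 (.c 1 q30 (.c 2 q31 (.c 3 q32 .e)))
noncomputable def t5 : Tr := .c 0 r12 (.c 4 r13 .e)
noncomputable def q33 : Tr := .c 2 (.l 37) (.c 4 (.l 38) .e)
noncomputable def q34 : Tr := .c 2 (.l 39) .e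
noncomputable def r14 : Tr := .c 1 q33 (.c 4 q34 .e)
noncomputable def q35 : Tr := .c 4 (.l 40) .e
noncomputable def q36 : Tr := .c 2 (.l 41) (.c 4 (.l 40) .e)
noncomputable def r15 : Tr := .c 0 q35 (.c 1 q36 (.c 2 q35 (.c 3 q35 .e)))
noncomputable def t6 : Tr := .c 2 r14 (.c 4 r15 .e)
noncomputable def q37 : Tr := .c 4 (.l 42) .e
noncomputable def q38 : Tr := .c 2 (.l 43) .e
noncomputable def r16 : Tr := .c 3 q37 (.c 4 q38 .e)
noncomputable def q39 : Tr := .c 4 (.l 44) .e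
noncomputable def r17 : Tr := .c 2 q39 (.c 4 q38 .e)
noncomputable def q40 : Tr := .c 2 (.l 45) (.c 4 (.l 46) .e)
noncomputable def r18 : Tr := .c 1 q40 (.c 4 q38 .e)
noncomputable def q41 : Tr := .c 4 (.l 47) .e
noncomputable def r19 : Tr := .c 0 q41 (.c 4 q38 .e)
noncomputable def t7 : Tr := .c 0 r16 (.c 1 r17 (.c 2 r18 (.c 3 r19 .e)))
noncomputable def q42 : Tr := .c 4 (.l 12) .e
noncomputable def q43 : Tr := .c 2 (.l 48) .e
noncomputable def r20 : Tr := .c 0 q42 (.c 4 q43 .e)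
noncomputable def q44 : Tr := .c 4 (.l 49) .e
noncomputable def q45 : Tr := .c 2 (.l 50) (.c 4 (.l 51) .e)
noncomputable def q46 : Tr := .c 4 (.l 52) .e
noncomputable def q47 : Tr := .c 4 (.l 53) .e
noncomputable def r21 : Tr := .c 0 q44 (.c 1 q45 (.c 2 q46 (.c 3 q47 .e)))
noncomputable def t8 : Tr := .c 3 r20 (.c 4 r21 .e)
noncomputable def q48 : Tr := .c 2 (.l 54) (.c 4 (.l 19) .e)
noncomputable def q49 : Tr := .c 2 (.l 55) .e
noncomputable def r22 : Tr := .c 1 q48 (.c 4 q49 .e)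
noncomputable def q50 : Tr := .c 4 (.l 56) .e
noncomputable def q51 : Tr := .c 2 (.l 50) (.c 4 (.l 57) .e)
noncomputable def q52 : Tr := .c 4 (.l 58) .e
noncomputable def q53 : Tr := .c 4 (.l 59) .e
noncomputable def r23 : Tr := .c 0 q50 (.c 1 q51 (.c 2 q52 (.c 3 q53 .e)))
noncomputable def t9 : Tr := .c 2 r22 (.c 4 r23 .e)
noncomputable def q54 : Tr := .c 2 (.l 60) .e
noncomputable def r24 : Tr := .c 2 q21 (.c 4 q54 .e)
noncomputable def q55 : Tr := .c 4 (.l 61) .e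
noncomputable def q56 : Tr := .c 2 (.l 50) (.c 4 (.l 62) .e)
noncomputable def q57 : Tr := .c 4 (.l 63) .e
noncomputable def q58 : Tr := .c 4 (.l 64) .e
noncomputable def r25 : Tr := .c 0 q55 (.c 1 q56 (.c 2 q57 (.c 3 q58 .e)))
noncomputable def t10 : Tr := .c 1 r24 (.c 4 r25 .e)
noncomputable def q59 : Tr := .c 2 (.l 65) .e
noncomputable def r26 : Tr := .c 3 q27 (.c 4 q59 .e)
noncomputable def q60 : Tr := .c 4 (.l 66) .e
noncomputable def q61 : Tr := .c 2 (.l 50) (.c 4 (.l 67) .e)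
noncomputable def q62 : Tr := .c 4 (.l 68) .e
noncomputable def q63 : Tr := .c 4 (.l 69) .e
noncomputable def r27 : Tr := .c 0 q60 (.c 1 q61 (.c 2 q62 (.c 3 q63 .e)))
noncomputable def t11 : Tr := .c 0 r26 (.c 4 r27 .e)
noncomputable def q64 : Tr := .c 1 (.l 70) (.c 4 (.l 71) .e)
noncomputable def q65 : Tr := .c 1 (.l 72) .e
noncomputable def r28 : Tr := .c 2 q64 (.c 4 q65 .e)
noncomputable def q66 : Tr := .c 4 (.l 73) .e
noncomputable def q67 : Tr := .c 1 (.l 74) (.c 4 (.l 73) .e)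
noncomputable def r29 : Tr := .c 0 q66 (.c 1 q66 (.c 2 q67 (.c 3 q66 .e)))
noncomputable def t12 : Tr := .c 1 r28 (.c 4 r29 .e)
noncomputable def q68 : Tr := .c 4 (.l 75) .e
noncomputable def q69 : Tr := .c 1 (.l 76) .e
noncomputable def r30 : Tr := .c 3 q68 (.c 4 q69 .e)
noncomputable def q70 : Tr := .c 1 (.l 77) (.c 4 (.l 78) .e)
noncomputable def r31 : Tr := .c 2 q70 (.c 4 q69 .e)
noncomputable def q71 : Tr := .c 4 (.l 79) .e
noncomputable def r32 : Tr := .c 1 q71 (.c 4 q69 .e)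
noncomputable def q72 : Tr := .c 4 (.l 80) .e
noncomputable def r33 : Tr := .c 0 q72 (.c 4 q69 .e)
noncomputable def t13 : Tr := .c 0 r30 (.c 1 r31 (.c 2 r32 (.c 3 r33 .e)))
noncomputable def q73 : Tr := .c 1 (.l 81) .e
noncomputable def r34 : Tr := .c 0 q42 (.c 4 q73 .e)
noncomputable def q74 : Tr := .c 4 (.l 82) .e
noncomputable def q75 : Tr := .c 4 (.l 83) .e
noncomputable def q76 : Tr := .c 1 (.l 84) (.c 4 (.l 85) .e)
noncomputable def q77 : Tr := .c 4 (.l 86) .e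
noncomputable def r35 : Tr := .c 0 q74 (.c 1 q75 (.c 2 q76 (.c 3 q77 .e)))
noncomputable def t14 : Tr := .c 3 r34 (.c 4 r35 .e)
noncomputable def q78 : Tr := .c 1 (.l 87) .e
noncomputable def r36 : Tr := .c 1 q15 (.c 4 q78 .e)
noncomputable def q79 : Tr := .c 4 (.l 88) .e
noncomputable def q80 : Tr := .c 4 (.l 89) .e
noncomputable def q81 : Tr := .c 1 (.l 84) (.c 4 (.l 90) .e)
noncomputable def q82 : Tr := .c 4 (.l 91) .e
noncomputable def r37 : Tr := .c 0 q79 (.c 1 q80 (.c 2 q81 (.c 3 q82 .e)))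
noncomputable def t15 : Tr := .c 2 r36 (.c 4 r37 .e)
noncomputable def q83 : Tr := .c 1 (.l 92) (.c 4 (.l 25) .e)
noncomputable def q84 : Tr := .c 1 (.l 93) .e
noncomputable def r38 : Tr := .c 2 q83 (.c 4 q84 .e)
noncomputable def q85 : Tr := .c 4 (.l 94) .e
noncomputable def q86 : Tr := .c 4 (.l 95) .e
noncomputable def q87 : Tr := .c 1 (.l 84) (.c 4 (.l 96) .e)
noncomputable def q88 : Tr := .c 4 (.l 97) .e
noncomputable def r39 : Tr := .c 0 q85 (.c 1 q86 (.c 2 q87 (.c 3 q88 .e)))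
noncomputable def t16 : Tr := .c 1 r38 (.c 4 r39 .e)
noncomputable def q89 : Tr := .c 1 (.l 98) .e
noncomputable def r40 : Tr := .c 3 q27 (.c 4 q89 .e)
noncomputable def q90 : Tr := .c 4 (.l 99) .e
noncomputable def q91 : Tr := .c 4 (.l 100) .e
noncomputable def q92 : Tr := .c 1 (.l 84) (.c 4 (.l 101) .e)
noncomputable def q93 : Tr := .c 4 (.l 102) .e
noncomputable def r41 : Tr := .c 0 q90 (.c 1 q91 (.c 2 q92 (.c 3 q93 .e)))
noncomputable def t17 : Tr := .c 0 r40 (.c 4 r41 .e)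
noncomputable def q94 : Tr := .c 0 (.l 103) (.c 4 (.l 104) .e)
noncomputable def q95 : Tr := .c 0 (.l 105) .e
noncomputable def r42 : Tr := .c 3 q94 (.c 4 q95 .e)
noncomputable def q96 : Tr := .c 4 (.l 106) .e
noncomputable def q97 : Tr := .c 0 (.l 107) (.c 4 (.l 106) .e)
noncomputable def r43 : Tr := .c 0 q96 (.c 1 q96 (.c 2 q96 (.c 3 q97 .e)))
noncomputable def t18 : Tr := .c 0 r42 (.c 4 r43 .e)
noncomputable def q98 : Tr := .c 0 (.l 108) (.c 4 (.l 109) .e)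
noncomputable def q99 : Tr := .c 0 (.l 110) .e
noncomputable def r44 : Tr := .c 3 q98 (.c 4 q99 .e)
noncomputable def q100 : Tr := .c 4 (.l 111) .e
noncomputable def r45 : Tr := .c 2 q100 (.c 4 q99 .e)
noncomputable def q101 : Tr := .c 4 (.l 112) .e
noncomputable def r46 : Tr := .c 1 q101 (.c 4 q99 .e)
noncomputable def q102 : Tr := .c 4 (.l 113) .e
noncomputable def r47 : Tr := .c 0 q102 (.c 4 q99 .e)
noncomputable def t19 : Tr := .c 0 r44 (.c 1 r45 (.c 2 r46 (.c 3 r47 .e)))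
noncomputable def q103 : Tr := .c 0 (.l 114) .e
noncomputable def r48 : Tr := .c 0 q42 (.c 4 q103 .e)
noncomputable def q104 : Tr := .c 4 (.l 115) .e
noncomputable def q105 : Tr := .c 4 (.l 116) .e
noncomputable def q106 : Tr := .c 4 (.l 117) .e
noncomputable def q107 : Tr := .c 0 (.l 118) (.c 4 (.l 119) .e)
noncomputable def r49 : Tr := .c 0 q104 (.c 1 q105 (.c 2 q106 (.c 3 q107 .e)))
noncomputable def t20 : Tr := .c 3 r48 (.c 4 r49 .e)
noncomputable def q108 : Tr := .c 0 (.l 120) .e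
noncomputable def r50 : Tr := .c 1 q15 (.c 4 q108 .e)
noncomputable def q109 : Tr := .c 4 (.l 121) .e
noncomputable def q110 : Tr := .c 4 (.l 122) .e
noncomputable def q111 : Tr := .c 4 (.l 123) .e
noncomputable def q112 : Tr := .c 0 (.l 118) (.c 4 (.l 124) .e)
noncomputable def r51 : Tr := .c 0 q109 (.c 1 q110 (.c 2 q111 (.c 3 q112 .e)))
noncomputable def t21 : Tr := .c 2 r50 (.c 4 r51 .e)
noncomputable def q113 : Tr := .c 0 (.l 125) .e
noncomputable def r52 : Tr := .c 2 q21 (.c 4 q113 .e)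
noncomputable def q114 : Tr := .c 4 (.l 126) .e
noncomputable def q115 : Tr := .c 4 (.l 127) .e
noncomputable def q116 : Tr := .c 4 (.l 128) .e
noncomputable def q117 : Tr := .c 0 (.l 118) (.c 4 (.l 129) .e)
noncomputable def r53 : Tr := .c 0 q114 (.c 1 q115 (.c 2 q116 (.c 3 q117 .e)))
noncomputable def t22 : Tr := .c 1 r52 (.c 4 r53 .e)
noncomputable def q118 : Tr := .c 0 (.l 130) (.c 4 (.l 31) .e)
noncomputable def q119 : Tr := .c 0 (.l 131) .e
noncomputable def r54 : Tr := .c 3 q118 (.c 4 q119 .e)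
noncomputable def q120 : Tr := .c 4 (.l 132) .e
noncomputable def q121 : Tr := .c 4 (.l 133) .e
noncomputable def q122 : Tr := .c 4 (.l 134) .e
noncomputable def q123 : Tr := .c 0 (.l 118) (.c 4 (.l 135) .e)
noncomputable def r55 : Tr := .c 0 q120 (.c 1 q121 (.c 2 q122 (.c 3 q123 .e)))
noncomputable def t23 : Tr := .c 0 r54 (.c 4 r55 .e)
noncomputable def q124 : Tr := .c 0 (.l 136) .e
noncomputable def q125 : Tr := .c 0 (.l 137) (.c 1 (.l 137) (.c 2 (.l 137) (.c 3 (.l 137) .e)))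
noncomputable def r56 : Tr := .c 3 q124 (.c 4 q125 .e)
noncomputable def q126 : Tr := .c 3 (.l 138) .e
noncomputable def q127 : Tr := .c 2 (.l 139) .e
noncomputable def q128 : Tr := .c 1 (.l 140) .e
noncomputable def q129 : Tr := .c 0 (.l 141) .e
noncomputable def r57 : Tr := .c 0 q126 (.c 1 q127 (.c 2 q128 (.c 3 q129 .e)))
noncomputable def t24 : Tr := .c 0 r56 (.c 4 r57 .e)
noncomputable def q130 : Tr := .c 0 (.l 142) .e
noncomputable def q131 : Tr := .c 0 (.l 143) (.c 1 (.l 144) (.c 2 (.l 145) (.c 3 (.l 146) .e)))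
noncomputable def r58 : Tr := .c 3 q130 (.c 4 q131 .e)
noncomputable def q132 : Tr := .c 1 (.l 147) .e
noncomputable def q133 : Tr := .c 0 (.l 148) (.c 1 (.l 149) (.c 2 (.l 150) (.c 3 (.l 151) .e)))
noncomputable def r59 : Tr := .c 2 q132 (.c 4 q133 .e)
noncomputable def q134 : Tr := .c 2 (.l 152) .e
noncomputable def q135 : Tr := .c 0 (.l 153) (.c 1 (.l 154) (.c 2 (.l 155) (.c 3 (.l 156) .e)))
noncomputable def r60 : Tr := .c 1 q134 (.c 4 q135 .e)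
noncomputable def q136 : Tr := .c 3 (.l 157) .e
noncomputable def q137 : Tr := .c 0 (.l 158) (.c 1 (.l 159) (.c 2 (.l 160) (.c 3 (.l 161) .e)))
noncomputable def r61 : Tr := .c 0 q136 (.c 4 q137 .e)
noncomputable def t25 : Tr := .c 0 r58 (.c 1 r59 (.c 2 r60 (.c 3 r61 .e)))
noncomputable def q138 : Tr := .c 1 (.l 162) .e
noncomputable def q139 : Tr := .c 0 (.l 163) (.c 1 (.l 163) (.c 2 (.l 163) (.c 3 (.l 163) .e)))
noncomputable def r62 : Tr := .c 2 q138 (.c 4 q139 .e)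
noncomputable def q140 : Tr := .c 3 (.l 164) .e
noncomputable def q141 : Tr := .c 2 (.l 165) .e
noncomputable def q142 : Tr := .c 1 (.l 166) .e
noncomputable def q143 : Tr := .c 0 (.l 167) .e
noncomputable def r63 : Tr := .c 0 q140 (.c 1 q141 (.c 2 q142 (.c 3 q143 .e)))
noncomputable def t26 : Tr := .c 1 r62 (.c 4 r63 .e)
noncomputable def q144 : Tr := .c 0 (.l 168) (.c 1 (.l 169) (.c 2 (.l 170) (.c 3 (.l 171) .e)))
noncomputable def r64 : Tr := .c 3 q130 (.c 4 q144 .e)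
noncomputable def q145 : Tr := .c 0 (.l 172) (.c 1 (.l 173) (.c 2 (.l 174) (.c 3 (.l 175) .e)))
noncomputable def r65 : Tr := .c 2 q132 (.c 4 q145 .e)
noncomputable def q146 : Tr := .c 0 (.l 176) (.c 1 (.l 177) (.c 2 (.l 178) (.c 3 (.l 179) .e)))
noncomputable def r66 : Tr := .c 1 q134 (.c 4 q146 .e)
noncomputable def q147 : Tr := .c 0 (.l 180) (.c 1 (.l 181) (.c 2 (.l 182) (.c 3 (.l 183) .e)))
noncomputable def r67 : Tr := .c 0 q136 (.c 4 q147 .e)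
noncomputable def t27 : Tr := .c 0 r64 (.c 1 r65 (.c 2 r66 (.c 3 r67 .e)))
noncomputable def q148 : Tr := .c 2 (.l 184) .e
noncomputable def q149 : Tr := .c 0 (.l 185) (.c 1 (.l 185) (.c 2 (.l 185) (.c 3 (.l 185) .e)))
noncomputable def r68 : Tr := .c 1 q148 (.c 4 q149 .e)
noncomputable def q150 : Tr := .c 3 (.l 186) .e
noncomputable def q151 : Tr := .c 2 (.l 187) .e
noncomputable def q152 : Tr := .c 1 (.l 188) .e
noncomputable def q153 : Tr := .c 0 (.l 189) .e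
noncomputable def r69 : Tr := .c 0 q150 (.c 1 q151 (.c 2 q152 (.c 3 q153 .e)))
noncomputable def t28 : Tr := .c 2 r68 (.c 4 r69 .e)
noncomputable def q154 : Tr := .c 0 (.l 190) (.c 1 (.l 191) (.c 2 (.l 192) (.c 3 (.l 193) .e)))
noncomputable def r70 : Tr := .c 3 q130 (.c 4 q154 .e)
noncomputable def q155 : Tr := .c 0 (.l 194) (.c 1 (.l 195) (.c 2 (.l 196) (.c 3 (.l 197) .e)))
noncomputable def r71 : Tr := .c 2 q132 (.c 4 q155 .e)
noncomputable def q156 : Tr := .c 0 (.l 198) (.c 1 (.l 199) (.c 2 (.l 200) (.c 3 (.l 201) .e)))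
noncomputable def r72 : Tr := .c 1 q134 (.c 4 q156 .e)
noncomputable def q157 : Tr := .c 0 (.l 202) (.c 1 (.l 203) (.c 2 (.l 204) (.c 3 (.l 205) .e)))
noncomputable def r73 : Tr := .c 0 q136 (.c 4 q157 .e)
noncomputable def t29 : Tr := .c 0 r70 (.c 1 r71 (.c 2 r72 (.c 3 r73 .e)))
noncomputable def q158 : Tr := .c 3 (.l 206) .e
noncomputable def q159 : Tr := .c 0 (.l 207) (.c 1 (.l 207) (.c 2 (.l 207) (.c 3 (.l 207) .e)))
noncomputable def r74 : Tr := .c 0 q158 (.c 4 q159 .e)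
noncomputable def q160 : Tr := .c 3 (.l 208) .e
noncomputable def q161 : Tr := .c 2 (.l 209) .e
noncomputable def q162 : Tr := .c 1 (.l 210) .e
noncomputable def q163 : Tr := .c 0 (.l 211) .e
noncomputable def r75 : Tr := .c 0 q160 (.c 1 q161 (.c 2 q162 (.c 3 q163 .e)))
noncomputable def t30 : Tr := .c 3 r74 (.c 4 r75 .e)
noncomputable def q164 : Tr := .c 0 (.l 212) (.c 1 (.l 213) (.c 2 (.l 214) (.c 3 (.l 215) .e)))
noncomputable def r76 : Tr := .c 3 q130 (.c 4 q164 .e)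
noncomputable def q165 : Tr := .c 0 (.l 216) (.c 1 (.l 217) (.c 2 (.l 218) (.c 3 (.l 219) .e)))
noncomputable def r77 : Tr := .c 2 q132 (.c 4 q165 .e)
noncomputable def q166 : Tr := .c 0 (.l 220) (.c 1 (.l 221) (.c 2 (.l 222) (.c 3 (.l 223) .e)))
noncomputable def r78 : Tr := .c 1 q134 (.c 4 q166 .e)
noncomputable def q167 : Tr := .c 0 (.l 224) (.c 1 (.l 225) (.c 2 (.l 226) (.c 3 (.l 227) .e)))
noncomputable def r79 : Tr := .c 0 q136 (.c 4 q167 .e)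
noncomputable def t31 : Tr := .c 0 r76 (.c 1 r77 (.c 2 r78 (.c 3 r79 .e)))

/-- the diagram -/
noncomputable def T : Tr := (.c 0 (.c 3 (.c 0 t0 (.c 4 t1 .e)) (.c 4 (.c 0 t2 (.c 1 t3 (.c 2 t4 (.c 3 t5 .e)))) .e)) (.c 1
(.c 2 (.c 1 t6 (.c 4 t7 .e)) (.c 4 (.c 0 t8 (.c 1 t9 (.c 2 t10 (.c 3 t11 .e)))) .e)) (.c 2 (.c
1 (.c 2 t12 (.c 4 t13 .e)) (.c 4 (.c 0 t14 (.c 1 t15 (.c 2 t16 (.c 3 t17 .e)))) .e)) (.c 3 (.c
0 (.c 3 t18 (.c 4 t19 .e)) (.c 4 (.c 0 t20 (.c 1 t21 (.c 2 t22 (.c 3 t23 .e)))) .e)) (.c 4 (.c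
0 (.c 3 t24 (.c 4 t25 .e)) (.c 1 (.c 2 t26 (.c 4 t27 .e)) (.c 2 (.c 1 t28 (.c 4 t29 .e)) (.c 3
(.c 0 t30 (.c 4 t31 .e)) .e)))) .e)))))

theorem chk : chkP 5 9 nb op nbT opT PL T = true := by decide +kernel

end B10

/-! ### 01 02 03 12 34 45 -/

namespace B16

/-- the letters (masks) -/
def L : List ℕ := [3, 5, 9, 6, 24, 48]

/-- the palettes (masks) -/
def P : List ℕ := [3, 5, 9, 6, 24, 48, 7, 11, 13, 25, 56]

/-- neighbours, letters -/
def nb : List ℕ := [48, 48, 40, 52, 11, 15]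

/-- antipodes, letters -/
def op : List ℕ := [31, 31, 31, 63, 63, 56]

/-- neighbours, palettes -/
def nbT : List ℕ := [1072, 1072, 40, 1588, 75, 463, 1584, 1056, 1056, 72, 459]

/-- antipodes, palettes -/
def opT : List ℕ := [991, 991, 2015, 511, 1983, 1592, 1999, 2015, 2015, 2039, 2036]

/-- the letters of the palettes -/
def PL : List (List ℕ) := [[0], [1], [2], [3], [4], [5], [0, 1, 3], [0, 2], [1, 2], [2, 4], [4, 5]]

noncomputable def q0 : Tr := .c 4 (.l 0) .e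
noncomputable def r0 : Tr := .c 0 q0 (.c 1 q0 (.c 3 q0 .e))
noncomputable def t0 : Tr := .c 4 r0 .e
noncomputable def q1 : Tr := .c 4 (.l 0) (.c 5 (.l 0) .e)
noncomputable def r1 : Tr := .c 3 q1 .e
noncomputable def r2 : Tr := .c 0 q1 (.c 1 q1 (.c 3 q1 .e))
noncomputable def t1 : Tr := .c 2 r1 (.c 4 r2 .e)
noncomputable def r3 : Tr := .c 3 q0 .e
noncomputable def t2 : Tr := .c 4 r3 .e
noncomputable def t3 : Tr := .c 2 r1 (.c 4 r1 .e)
noncomputable def q2 : Tr := .c 3 (.l 1) .e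
noncomputable def r4 : Tr := .c 2 q2 (.c 4 q2 (.c 5 q2 .e))
noncomputable def t4 : Tr := .c 3 r4 .e
noncomputable def r5 : Tr := .c 4 q2 (.c 5 q2 .e)
noncomputable def q3 : Tr := .c 3 (.l 1) (.c 5 (.l 2) .e)
noncomputable def r6 : Tr := .c 2 q3 (.c 4 q2 (.c 5 q2 .e))
noncomputable def t5 : Tr := .c 0 r5 (.c 1 r5 (.c 3 r6 .e))
noncomputable def q4 : Tr := .c 5 (.l 3) .e
noncomputable def r7 : Tr := .c 3 q4 (.c 5 q2 .e)
noncomputable def t6 : Tr := .c 0 r5 (.c 1 r5 (.c 2 r7 (.c 3 r6 .e)))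
noncomputable def q5 : Tr := .c 3 (.l 4) .e
noncomputable def r8 : Tr := .c 4 q5 (.c 5 q5 .e)
noncomputable def t7 : Tr := .c 3 r8 .e
noncomputable def q6 : Tr := .c 5 (.l 0) .e
noncomputable def q7 : Tr := .c 3 (.l 5) .e
noncomputable def r9 : Tr := .c 3 q6 (.c 5 q7 .e)
noncomputable def r10 : Tr := .c 3 q6 .e
noncomputable def t8 : Tr := .c 2 r9 (.c 4 r10 .e)
noncomputable def q8 : Tr := .c 2 (.l 0) (.c 4 (.l 0) (.c 5 (.l 0) .e))
noncomputable def r11 : Tr := .c 3 q8 .e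
noncomputable def r12 : Tr := .c 0 q1 (.c 1 q1 (.c 3 q8 .e))
noncomputable def r13 : Tr := .c 0 q1 (.c 1 q1 (.c 2 q6 (.c 3 q8 .e)))
noncomputable def t9 : Tr := .c 2 r11 (.c 4 r12 (.c 5 r13 .e))
noncomputable def q9 : Tr := .c 4 (.l 6) (.c 5 (.l 6) .e)
noncomputable def r14 : Tr := .c 3 q9 .e
noncomputable def q10 : Tr := .c 5 (.l 7) .e
noncomputable def r15 : Tr := .c 2 q10 .e
noncomputable def t10 : Tr := .c 2 r14 (.c 3 r15 .e)
noncomputable def q11 : Tr := .c 2 (.l 0) (.c 4 (.l 0) .e)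
noncomputable def r16 : Tr := .c 0 q0 (.c 1 q0 (.c 3 q11 .e))
noncomputable def t11 : Tr := .c 4 r16 (.c 5 r16 .e)
noncomputable def q12 : Tr := .c 2 (.l 8) .e
noncomputable def r17 : Tr := .c 3 q8 (.c 5 q12 .e)
noncomputable def t12 : Tr := .c 2 r17 (.c 4 r12 (.c 5 r13 .e))
noncomputable def r18 : Tr := .c 3 q11 .e
noncomputable def t13 : Tr := .c 4 r18 (.c 5 r18 .e)
noncomputable def q13 : Tr := .c 2 (.l 9) .e
noncomputable def r19 : Tr := .c 5 q13 .e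
noncomputable def t14 : Tr := .c 3 r19 (.c 5 r18 .e)
noncomputable def t15 : Tr := .c 2 r17 (.c 4 r11 (.c 5 r11 .e))
noncomputable def q14 : Tr := .c 0 (.l 1) (.c 1 (.l 1) (.c 3 (.l 1) .e))
noncomputable def r20 : Tr := .c 4 q14 .e
noncomputable def r21 : Tr := .c 2 q2 (.c 4 q14 .e)
noncomputable def t16 : Tr := .c 0 r20 (.c 1 r20 (.c 3 r21 .e))
noncomputable def r22 : Tr := .c 4 q2 .e
noncomputable def r23 : Tr := .c 2 q2 (.c 4 q2 .e)
noncomputable def t17 : Tr := .c 0 r22 (.c 1 r22 (.c 3 r23 .e))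
noncomputable def r24 : Tr := .c 2 q2 (.c 4 q14 (.c 5 q14 .e))
noncomputable def q15 : Tr := .c 3 (.l 10) .e
noncomputable def r25 : Tr := .c 2 q15 .e
noncomputable def t18 : Tr := .c 3 r24 (.c 5 r25 .e)
noncomputable def r26 : Tr := .c 4 q14 (.c 5 q14 .e)
noncomputable def t19 : Tr := .c 0 r26 (.c 1 r26 (.c 3 r24 .e))
noncomputable def r27 : Tr := .c 5 q2 .e
noncomputable def t20 : Tr := .c 0 r5 (.c 1 r5 (.c 2 r27 (.c 3 r4 .e)))
noncomputable def t21 : Tr := .c 3 r21 .e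
noncomputable def t22 : Tr := .c 3 r23 .e
noncomputable def q16 : Tr := .c 2 (.l 11) .e
noncomputable def r28 : Tr := .c 3 q16 .e
noncomputable def q17 : Tr := .c 3 (.l 12) .e
noncomputable def r29 : Tr := .c 2 q17 (.c 3 q16 .e)
noncomputable def t23 : Tr := .c 4 r28 (.c 5 r29 .e)
noncomputable def q18 : Tr := .c 0 (.l 1) (.c 1 (.l 1) (.c 2 (.l 1) (.c 3 (.l 1) .e)))
noncomputable def r30 : Tr := .c 2 q2 (.c 4 q14 (.c 5 q18 .e))
noncomputable def q19 : Tr := .c 2 (.l 13) .e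
noncomputable def r31 : Tr := .c 2 q15 (.c 3 q19 .e)
noncomputable def t24 : Tr := .c 3 r30 (.c 5 r31 .e)
noncomputable def t25 : Tr := .c 3 r30 .e

/-- the diagram -/
noncomputable def T : Tr := (.c 0 (.c 4 (.c 0 t0 (.c 1 t0 (.c 3 t1 .e))) (.c 5 (.c 0 t2 (.c 1 t2 (.c 3 t3 .e))) .e)) (.c 1
(.c 4 (.c 0 t0 (.c 1 t0 (.c 3 t1 .e))) (.c 5 (.c 0 t2 (.c 1 t2 (.c 3 t3 .e))) .e)) (.c 2 (.c 3
(.c 2 t4 (.c 4 t5 (.c 5 t6 .e))) (.c 5 (.c 2 t7 (.c 3 t8 .e)) .e)) (.c 3 (.c 2 (.c 3 t9 (.c 5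
t10 .e)) (.c 4 (.c 0 t11 (.c 1 t11 (.c 3 t12 .e))) (.c 5 (.c 0 t13 (.c 1 t13 (.c 2 t14 (.c 3
t15 .e)))) .e))) (.c 4 (.c 0 (.c 4 t16 (.c 5 t17 .e)) (.c 1 (.c 4 t16 (.c 5 t17 .e)) (.c 3 (.c
2 t18 (.c 4 t19 (.c 5 t20 .e))) .e))) (.c 5 (.c 0 (.c 4 t21 (.c 5 t22 .e)) (.c 1 (.c 4 t21 (.c
5 t22 .e)) (.c 2 (.c 3 t23 (.c 5 t22 .e)) (.c 3 (.c 2 t24 (.c 4 t25 (.c 5 t4 .e))) .e))))
.e))))))

theorem chk : chkP 6 11 nb op nbT opT PL T = true := by decide +kernel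

end B16

/-! ### 01 02 03 12 13 24 35 -/

namespace B24

/-- the letters (masks) -/
def L : List ℕ := [3, 5, 9, 6, 10, 20, 40]

/-- the palettes (masks) -/
def P : List ℕ := [3, 5, 9, 6, 10, 20, 40, 7, 11, 13, 21, 41, 14, 22, 42]

/-- neighbours, letters -/
def nb : List ℕ := [96, 80, 40, 68, 34, 85, 43]

/-- antipodes, letters -/
def op : List ℕ := [127, 63, 95, 63, 95, 43, 85]

/-- neighbours, palettes -/
def nbT : List ℕ := [96, 16464, 8232, 2116, 1058, 18773, 9387, 18496, 9248, 24576, 22864, 13480, 3072, 19268, 9890]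

/-- antipodes, palettes -/
def opT : List ℕ := [32767, 16319, 24543, 30655, 31711, 13995, 23381, 32703, 32735, 32767, 32687, 32727, 32767,
32699, 32733]

/-- the letters of the palettes -/
def PL : List (List ℕ) := [[0], [1], [2], [3], [4], [5], [6], [0, 1, 3], [0, 2, 4], [1, 2], [1, 5], [2, 6], [3, 4], [3,
5], [4, 6]]

noncomputable def q0 : Tr := .c 5 (.l 0) (.c 6 (.l 1) .e)
noncomputable def r0 : Tr := .c 0 q0 .e
noncomputable def q1 : Tr := .c 5 (.l 2) (.c 6 (.l 3) .e)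
noncomputable def q2 : Tr := .c 6 (.l 3) .e
noncomputable def r1 : Tr := .c 0 q1 (.c 1 q2 (.c 3 q2 (.c 5 q2 .e)))
noncomputable def t0 : Tr := .c 5 r0 (.c 6 r1 .e)
noncomputable def q3 : Tr := .c 6 (.l 1) .e
noncomputable def r2 : Tr := .c 0 q3 .e
noncomputable def t1 : Tr := .c 5 r2 .e
noncomputable def q4 : Tr := .c 6 (.l 4) .e
noncomputable def r3 : Tr := .c 5 q4 .e
noncomputable def t2 : Tr := .c 0 r3 (.c 5 r2 .e)
noncomputable def q5 : Tr := .c 5 (.l 5) (.c 6 (.l 6) .e)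
noncomputable def q6 : Tr := .c 5 (.l 5) .e
noncomputable def r4 : Tr := .c 0 q5 (.c 2 q6 (.c 4 q6 (.c 6 q6 .e)))
noncomputable def q7 : Tr := .c 5 (.l 7) (.c 6 (.l 8) .e)
noncomputable def r5 : Tr := .c 0 q7 .e
noncomputable def t3 : Tr := .c 5 r4 (.c 6 r5 .e)
noncomputable def q8 : Tr := .c 5 (.l 7) .e
noncomputable def r6 : Tr := .c 0 q8 .e
noncomputable def t4 : Tr := .c 6 r6 .e
noncomputable def q9 : Tr := .c 5 (.l 9) .e
noncomputable def r7 : Tr := .c 6 q9 .e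
noncomputable def t5 : Tr := .c 0 r7 (.c 6 r6 .e)
noncomputable def q10 : Tr := .c 4 (.l 8) .e
noncomputable def r8 : Tr := .c 1 q10 .e
noncomputable def t6 : Tr := .c 4 r8 .e
noncomputable def q11 : Tr := .c 6 (.l 6) .e
noncomputable def r9 : Tr := .c 0 q11 .e
noncomputable def t7 : Tr := .c 5 r9 .e
noncomputable def q12 : Tr := .c 3 (.l 0) .e
noncomputable def r10 : Tr := .c 2 q12 .e
noncomputable def t8 : Tr := .c 3 r10 .e
noncomputable def q13 : Tr := .c 5 (.l 2) .e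
noncomputable def r11 : Tr := .c 0 q13 .e
noncomputable def t9 : Tr := .c 6 r11 .e
noncomputable def q14 : Tr := .c 2 (.l 8) .e
noncomputable def r12 : Tr := .c 3 q14 .e
noncomputable def t10 : Tr := .c 2 r12 .e
noncomputable def q15 : Tr := .c 1 (.l 0) .e
noncomputable def r13 : Tr := .c 4 q15 .e
noncomputable def t11 : Tr := .c 1 r13 .e
noncomputable def q16 : Tr := .c 0 (.l 8) .e
noncomputable def q17 : Tr := .c 0 (.l 10) .e
noncomputable def r14 : Tr := .c 5 q16 (.c 6 q17 .e)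
noncomputable def t12 : Tr := .c 0 r14 .e
noncomputable def q18 : Tr := .c 0 (.l 11) (.c 2 (.l 11) (.c 4 (.l 11) (.c 6 (.l 11) .e)))
noncomputable def q19 : Tr := .c 0 (.l 12) .e
noncomputable def r15 : Tr := .c 5 q18 (.c 6 q19 .e)
noncomputable def r16 : Tr := .c 6 q19 .e
noncomputable def q20 : Tr := .c 6 (.l 13) .e
noncomputable def r17 : Tr := .c 0 q20 (.c 6 q19 .e)
noncomputable def t13 : Tr := .c 0 r15 (.c 1 r16 (.c 3 r16 (.c 5 r17 .e)))
noncomputable def r18 : Tr := .c 6 q17 .e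
noncomputable def t14 : Tr := .c 0 r18 .e
noncomputable def q21 : Tr := .c 0 (.l 14) .e
noncomputable def r19 : Tr := .c 0 q11 (.c 6 q21 .e)
noncomputable def t15 : Tr := .c 5 r19 .e
noncomputable def q22 : Tr := .c 0 (.l 15) .e
noncomputable def q23 : Tr := .c 0 (.l 16) (.c 1 (.l 16) (.c 3 (.l 16) (.c 5 (.l 16) .e)))
noncomputable def r20 : Tr := .c 5 q22 (.c 6 q23 .e)
noncomputable def r21 : Tr := .c 5 q22 .e
noncomputable def q24 : Tr := .c 5 (.l 17) .e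
noncomputable def r22 : Tr := .c 0 q24 (.c 5 q22 .e)
noncomputable def t16 : Tr := .c 0 r20 (.c 2 r21 (.c 4 r21 (.c 6 r22 .e)))
noncomputable def q25 : Tr := .c 0 (.l 18) .e
noncomputable def q26 : Tr := .c 0 (.l 0) .e
noncomputable def r23 : Tr := .c 5 q25 (.c 6 q26 .e)
noncomputable def t17 : Tr := .c 0 r23 .e
noncomputable def r24 : Tr := .c 5 q25 .e
noncomputable def t18 : Tr := .c 0 r24 .e
noncomputable def q27 : Tr := .c 0 (.l 19) .e
noncomputable def r25 : Tr := .c 0 q13 (.c 5 q27 .e)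
noncomputable def t19 : Tr := .c 6 r25 .e

/-- the diagram -/
noncomputable def T : Tr := (.c 0 (.c 5 (.c 0 t0 (.c 2 t1 (.c 4 t1 (.c 6 t2 .e)))) (.c 6 (.c 0 t3 (.c 1 t4 (.c 3 t4 (.c 5
t5 .e)))) .e)) (.c 1 (.c 4 (.c 1 t6 .e) (.c 6 (.c 0 t7 .e) .e)) (.c 2 (.c 3 (.c 2 t8 .e) (.c 5
(.c 0 t9 .e) .e)) (.c 3 (.c 2 (.c 3 t10 .e) (.c 6 (.c 0 t7 .e) .e)) (.c 4 (.c 1 (.c 4 t11 .e)
(.c 5 (.c 0 t9 .e) .e)) (.c 5 (.c 0 (.c 5 t12 (.c 6 t13 .e)) (.c 2 (.c 5 t14 .e) (.c 4 (.c 5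
t14 .e) (.c 6 (.c 0 t15 (.c 5 t14 .e)) .e)))) (.c 6 (.c 0 (.c 5 t16 (.c 6 t17 .e)) (.c 1 (.c 6
t18 .e) (.c 3 (.c 6 t18 .e) (.c 5 (.c 0 t19 (.c 6 t18 .e)) .e)))) .e)))))))

theorem chk : chkP 7 15 nb op nbT opT PL T = true := by decide +kernel

end B24

/-! ### 01 02 03 12 14 34 35 -/

namespace B27

/-- the letters (masks) -/
def L : List ℕ := [3, 5, 9, 6, 18, 24, 40]

/-- the palettes (masks) -/
def P : List ℕ := [3, 5, 9, 6, 18, 24, 40, 7, 11, 19, 13, 25, 41, 22, 26, 56]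

/-- neighbours, letters -/
def nb : List ℕ := [96, 112, 24, 100, 70, 11, 27]

/-- antipodes, letters -/
def op : List ℕ := [63, 127, 119, 27, 63, 119, 102]

/-- neighbours, palettes -/
def nbT : List ℕ := [32864, 49264, 8216, 39012, 5190, 139, 8859, 55392, 40960, 37952, 57872, 8328, 25240, 40260,
5250, 10123]

/-- antipodes, palettes -/
def opT : List ℕ := [32703, 16383, 57335, 26523, 60351, 65399, 56678, 65439, 65535, 65471, 65519, 65527, 65511,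
65467, 65533, 65524]

/-- the letters of the palettes -/
def PL : List (List ℕ) := [[0], [1], [2], [3], [4], [5], [6], [0, 1, 3], [0, 2], [0, 4], [1, 2], [2, 5], [2, 6], [3, 4],
[4, 5], [5, 6]]

noncomputable def q0 : Tr := .c 5 (.l 0) .e
noncomputable def r0 : Tr := .c 0 q0 (.c 1 q0 .e)
noncomputable def t0 : Tr := .c 5 r0 .e
noncomputable def q1 : Tr := .c 5 (.l 0) (.c 6 (.l 0) .e)
noncomputable def r1 : Tr := .c 1 q1 .e
noncomputable def r2 : Tr := .c 0 q1 (.c 1 q1 .e)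
noncomputable def t1 : Tr := .c 4 r1 (.c 5 r2 .e)
noncomputable def r3 : Tr := .c 1 q0 .e
noncomputable def t2 : Tr := .c 5 r3 .e
noncomputable def t3 : Tr := .c 4 r1 (.c 5 r1 .e)
noncomputable def q2 : Tr := .c 4 (.l 0) (.c 5 (.l 0) (.c 6 (.l 0) .e))
noncomputable def q3 : Tr := .c 4 (.l 0) .e
noncomputable def r4 : Tr := .c 1 q2 (.c 2 q3 .e)
noncomputable def r5 : Tr := .c 0 q1 (.c 1 q2 (.c 3 q1 .e))
noncomputable def q4 : Tr := .c 6 (.l 0) .e
noncomputable def r6 : Tr := .c 0 q1 (.c 1 q2 (.c 3 q1 (.c 4 q4 .e)))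
noncomputable def t4 : Tr := .c 4 r4 (.c 5 r5 (.c 6 r6 .e))
noncomputable def r7 : Tr := .c 2 q3 .e
noncomputable def t5 : Tr := .c 3 r7 (.c 4 r4 .e)
noncomputable def q5 : Tr := .c 6 (.l 1) .e
noncomputable def r8 : Tr := .c 4 q5 .e
noncomputable def t6 : Tr := .c 1 r8 (.c 4 r1 .e)
noncomputable def q6 : Tr := .c 4 (.l 0) (.c 5 (.l 0) .e)
noncomputable def r9 : Tr := .c 0 q0 (.c 1 q6 .e)
noncomputable def t7 : Tr := .c 5 r9 (.c 6 r9 .e)
noncomputable def r10 : Tr := .c 1 q2 (.c 2 q3 (.c 6 q3 .e))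
noncomputable def r11 : Tr := .c 0 q1 (.c 1 q2 .e)
noncomputable def r12 : Tr := .c 0 q1 (.c 1 q2 (.c 4 q4 .e))
noncomputable def t8 : Tr := .c 4 r10 (.c 5 r11 (.c 6 r12 .e))
noncomputable def r13 : Tr := .c 1 q3 .e
noncomputable def t9 : Tr := .c 5 r13 (.c 6 r13 .e)
noncomputable def r14 : Tr := .c 1 q6 .e
noncomputable def t10 : Tr := .c 5 r14 (.c 6 r14 .e)
noncomputable def r15 : Tr := .c 1 q2 .e
noncomputable def t11 : Tr := .c 4 r10 (.c 5 r15 (.c 6 r15 .e))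
noncomputable def q7 : Tr := .c 4 (.l 2) .e
noncomputable def r16 : Tr := .c 6 q7 .e
noncomputable def t12 : Tr := .c 1 r16 (.c 6 r14 .e)
noncomputable def t13 : Tr := .c 4 r13 .e
noncomputable def q8 : Tr := .c 3 (.l 0) (.c 4 (.l 0) .e)
noncomputable def r17 : Tr := .c 1 q3 (.c 2 q8 .e)
noncomputable def t14 : Tr := .c 4 r17 (.c 5 r13 (.c 6 r13 .e))
noncomputable def r18 : Tr := .c 1 q3 (.c 2 q3 .e)
noncomputable def t15 : Tr := .c 4 r18 .e
noncomputable def q9 : Tr := .c 2 (.l 3) .e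
noncomputable def r19 : Tr := .c 4 q9 .e
noncomputable def t16 : Tr := .c 1 r19 .e
noncomputable def t17 : Tr := .c 4 r1 .e
noncomputable def q10 : Tr := .c 1 (.l 3) (.c 2 (.l 3) .e)
noncomputable def q11 : Tr := .c 1 (.l 3) .e
noncomputable def r20 : Tr := .c 4 q10 (.c 5 q11 (.c 6 q11 .e))
noncomputable def r21 : Tr := .c 3 q9 (.c 4 q10 .e)
noncomputable def t18 : Tr := .c 1 r20 (.c 2 r21 .e)
noncomputable def r22 : Tr := .c 5 q11 (.c 6 q11 .e)
noncomputable def q12 : Tr := .c 1 (.l 3) (.c 2 (.l 3) (.c 6 (.l 3) .e))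
noncomputable def r23 : Tr := .c 4 q12 (.c 5 q11 (.c 6 q11 .e))
noncomputable def t19 : Tr := .c 0 r22 (.c 1 r23 (.c 3 r22 .e))
noncomputable def q13 : Tr := .c 6 (.l 4) .e
noncomputable def r24 : Tr := .c 1 q13 (.c 6 q11 .e)
noncomputable def t20 : Tr := .c 0 r22 (.c 1 r23 (.c 3 r22 (.c 4 r24 .e)))
noncomputable def r25 : Tr := .c 4 q11 .e
noncomputable def t21 : Tr := .c 2 r25 .e
noncomputable def r26 : Tr := .c 4 q10 .e
noncomputable def t22 : Tr := .c 1 r20 (.c 2 r26 .e)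
noncomputable def q14 : Tr := .c 1 (.l 5) .e
noncomputable def r27 : Tr := .c 1 q4 (.c 6 q14 .e)
noncomputable def r28 : Tr := .c 1 q4 .e
noncomputable def t23 : Tr := .c 4 r27 (.c 5 r28 .e)
noncomputable def t24 : Tr := .c 1 r22 .e
noncomputable def q15 : Tr := .c 0 (.l 3) (.c 1 (.l 3) .e)
noncomputable def r29 : Tr := .c 5 q15 .e
noncomputable def r30 : Tr := .c 4 q11 (.c 5 q15 .e)
noncomputable def t25 : Tr := .c 0 r29 (.c 1 r30 .e)
noncomputable def r31 : Tr := .c 5 q11 .e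
noncomputable def r32 : Tr := .c 4 q11 (.c 5 q11 .e)
noncomputable def t26 : Tr := .c 0 r31 (.c 1 r32 .e)
noncomputable def q16 : Tr := .c 0 (.l 3) (.c 1 (.l 3) (.c 3 (.l 3) .e))
noncomputable def r33 : Tr := .c 4 q11 (.c 5 q16 (.c 6 q16 .e))
noncomputable def t27 : Tr := .c 1 r33 (.c 2 r25 (.c 6 r25 .e))
noncomputable def r34 : Tr := .c 5 q15 (.c 6 q15 .e)
noncomputable def r35 : Tr := .c 4 q11 (.c 5 q15 (.c 6 q15 .e))
noncomputable def t28 : Tr := .c 0 r34 (.c 1 r35 .e)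
noncomputable def r36 : Tr := .c 4 q11 (.c 5 q11 (.c 6 q11 .e))
noncomputable def r37 : Tr := .c 6 q11 .e
noncomputable def t29 : Tr := .c 0 r22 (.c 1 r36 (.c 4 r37 .e))
noncomputable def t30 : Tr := .c 1 r25 .e
noncomputable def t31 : Tr := .c 1 r30 .e
noncomputable def t32 : Tr := .c 1 r32 .e
noncomputable def q17 : Tr := .c 0 (.l 3) (.c 1 (.l 3) (.c 3 (.l 3) (.c 4 (.l 3) .e)))
noncomputable def r38 : Tr := .c 4 q11 (.c 5 q16 (.c 6 q17 .e))
noncomputable def q18 : Tr := .c 4 (.l 6) .e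
noncomputable def r39 : Tr := .c 1 q18 (.c 4 q11 .e)
noncomputable def t33 : Tr := .c 1 r38 (.c 2 r25 (.c 6 r39 .e))
noncomputable def q19 : Tr := .c 0 (.l 3) (.c 1 (.l 3) (.c 4 (.l 3) .e))
noncomputable def r40 : Tr := .c 4 q11 (.c 5 q15 (.c 6 q19 .e))
noncomputable def t34 : Tr := .c 1 r40 .e
noncomputable def t35 : Tr := .c 1 r36 .e
noncomputable def q20 : Tr := .c 1 (.l 7) .e
noncomputable def r41 : Tr := .c 1 q3 (.c 4 q20 .e)
noncomputable def t36 : Tr := .c 5 r13 (.c 6 r41 .e)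

/-- the diagram -/
noncomputable def T : Tr := (.c 0 (.c 5 (.c 0 t0 (.c 1 t1 .e)) (.c 6 (.c 0 t2 (.c 1 t3 .e)) .e)) (.c 1 (.c 4 (.c 1 t4 (.c 2
t5 (.c 6 t6 .e))) (.c 5 (.c 0 t7 (.c 1 t8 (.c 3 t9 .e))) (.c 6 (.c 0 t10 (.c 1 t11 (.c 3 t9 (.c
4 t12 .e)))) .e))) (.c 2 (.c 3 (.c 2 t13 .e) (.c 4 (.c 1 t14 (.c 2 t15 .e)) .e)) (.c 3 (.c 2
(.c 4 t16 .e) (.c 5 (.c 1 t17 .e) (.c 6 (.c 1 t17 .e) .e))) (.c 4 (.c 1 (.c 4 t18 (.c 5 t19 (.c
6 t20 .e))) (.c 2 (.c 3 t21 (.c 4 t22 .e)) (.c 6 (.c 1 t23 (.c 4 t24 .e)) .e))) (.c 5 (.c 0 (.c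
5 t25 (.c 6 t26 .e)) (.c 1 (.c 4 t27 (.c 5 t28 (.c 6 t29 .e))) (.c 3 (.c 5 t30 (.c 6 t30 .e))
.e))) (.c 6 (.c 0 (.c 5 t31 (.c 6 t32 .e)) (.c 1 (.c 4 t33 (.c 5 t34 (.c 6 t35 .e))) (.c 3 (.c
5 t30 (.c 6 t30 .e)) (.c 4 (.c 1 t36 (.c 6 t32 .e)) .e)))) .e)))))))

theorem chk : chkP 7 16 nb op nbT opT PL T = true := by decide +kernel

end B27

end Vale.Agent.P032.Words.Trie
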