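import Vale.Agent.P032.Words.H151.Pal

/-!
# Hexagons around a centre with six colours
-/

namespace Vale.Agent.P032.Words.Trie

/-! ### 01 02 34 35 -/

namespace B4

/-- the letters (masks) -/
def L : List ℕ := [3, 5, 24, 40]

/-- the palettes (masks) -/
def P : List ℕ := [3, 5, 24, 40, 7, 56]

/-- neighbours, letters -/
def nb : List ℕ := [12, 12, 3, 3]

/-- antipodes, letters -/
def op : List ℕ := [15, 15, 15, 15]

/-- neighbours, palettes -/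
def nbT : List ℕ := [44, 44, 19, 19, 44, 19]

/-- antipodes, palettes -/
def opT : List ℕ := [31, 31, 47, 47, 51, 60]

/-- the letters of the palettes -/
def PL : List (List ℕ) := [[0], [1], [2], [3], [0, 1], [2, 3]]

noncomputable def q0 : Tr := .c 2 (.l 0) (.c 3 (.l 0) .e)
noncomputable def r0 : Tr := .c 0 q0 (.c 1 q0 .e)
noncomputable def t0 : Tr := .c 2 r0 (.c 3 r0 .e)
noncomputable def q1 : Tr := .c 0 (.l 1) (.c 1 (.l 1) .e)
noncomputable def r1 : Tr := .c 2 q1 (.c 3 q1 .e)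
noncomputable def t1 : Tr := .c 0 r1 (.c 1 r1 .e)

/-- the diagram -/
noncomputable def T : Tr := (.c 0 (.c 2 (.c 0 t0 (.c 1 t0 .e)) (.c 3 (.c 0 t0 (.c 1 t0 .e)) .e)) (.c 1 (.c 2 (.c 0 t0 (.c 1
t0 .e)) (.c 3 (.c 0 t0 (.c 1 t0 .e)) .e)) (.c 2 (.c 0 (.c 2 t1 (.c 3 t1 .e)) (.c 1 (.c 2 t1 (.c
3 t1 .e)) .e)) (.c 3 (.c 0 (.c 2 t1 (.c 3 t1 .e)) (.c 1 (.c 2 t1 (.c 3 t1 .e)) .e)) .e))))

theorem chk : chkP 4 6 nb op nbT opT PL T = true := by decide +kernel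

end B4

/-! ### 01 02 12 34 35 -/

namespace B9

/-- the letters (masks) -/
def L : List ℕ := [3, 5, 6, 24, 40]

/-- the palettes (masks) -/
def P : List ℕ := [3, 5, 6, 24, 40, 7, 56]

/-- neighbours, letters -/
def nb : List ℕ := [24, 24, 24, 7, 7]

/-- antipodes, letters -/
def op : List ℕ := [31, 31, 31, 31, 31]

/-- neighbours, palettes -/
def nbT : List ℕ := [88, 88, 88, 39, 39, 88, 39]

/-- antipodes, palettes -/
def opT : List ℕ := [63, 63, 63, 95, 95, 103, 120]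

/-- the letters of the palettes -/
def PL : List (List ℕ) := [[0], [1], [2], [3], [4], [0, 1, 2], [3, 4]]

noncomputable def q0 : Tr := .c 3 (.l 0) (.c 4 (.l 0) .e)
noncomputable def r0 : Tr := .c 0 q0 (.c 1 q0 (.c 2 q0 .e))
noncomputable def t0 : Tr := .c 3 r0 (.c 4 r0 .e)
noncomputable def q1 : Tr := .c 0 (.l 1) (.c 1 (.l 1) (.c 2 (.l 1) .e))
noncomputable def r1 : Tr := .c 3 q1 (.c 4 q1 .e)
noncomputable def t1 : Tr := .c 0 r1 (.c 1 r1 (.c 2 r1 .e))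

/-- the diagram -/
noncomputable def T : Tr := (.c 0 (.c 3 (.c 0 t0 (.c 1 t0 (.c 2 t0 .e))) (.c 4 (.c 0 t0 (.c 1 t0 (.c 2 t0 .e))) .e)) (.c 1
(.c 3 (.c 0 t0 (.c 1 t0 (.c 2 t0 .e))) (.c 4 (.c 0 t0 (.c 1 t0 (.c 2 t0 .e))) .e)) (.c 2 (.c 3
(.c 0 t0 (.c 1 t0 (.c 2 t0 .e))) (.c 4 (.c 0 t0 (.c 1 t0 (.c 2 t0 .e))) .e)) (.c 3 (.c 0 (.c 3
t1 (.c 4 t1 .e)) (.c 1 (.c 3 t1 (.c 4 t1 .e)) (.c 2 (.c 3 t1 (.c 4 t1 .e)) .e))) (.c 4 (.c 0
(.c 3 t1 (.c 4 t1 .e)) (.c 1 (.c 3 t1 (.c 4 t1 .e)) (.c 2 (.c 3 t1 (.c 4 t1 .e)) .e))) .e)))))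

theorem chk : chkP 5 7 nb op nbT opT PL T = true := by decide +kernel

end B9

/-! ### 01 02 13 24 35 -/

namespace B11

/-- the letters (masks) -/
def L : List ℕ := [3, 5, 10, 20, 40]

/-- the palettes (masks) -/
def P : List ℕ := [3, 5, 10, 20, 40, 7, 11, 21, 42]

/-- neighbours, letters -/
def nb : List ℕ := [24, 20, 10, 21, 11]

/-- antipodes, letters -/
def op : List ℕ := [31, 31, 31, 31, 31]

/-- neighbours, palettes -/
def nbT : List ℕ := [24, 276, 138, 341, 171, 272, 136, 340, 170]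

/-- antipodes, palettes -/
def opT : List ℕ := [511, 255, 383, 191, 351, 495, 503, 491, 501]

/-- the letters of the palettes -/
def PL : List (List ℕ) := [[0], [1], [2], [3], [4], [0, 1], [0, 2], [1, 3], [2, 4]]

noncomputable def q0 : Tr := .c 3 (.l 0) (.c 4 (.l 1) .e)
noncomputable def q1 : Tr := .c 3 (.l 0) .e
noncomputable def r0 : Tr := .c 0 q0 (.c 2 q1 (.c 4 q1 .e))
noncomputable def q2 : Tr := .c 3 (.l 2) (.c 4 (.l 3) .e)
noncomputable def q3 : Tr := .c 4 (.l 3) .e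
noncomputable def r1 : Tr := .c 0 q2 (.c 1 q3 (.c 3 q3 .e))
noncomputable def t0 : Tr := .c 3 r0 (.c 4 r1 .e)
noncomputable def r2 : Tr := .c 2 q1 (.c 4 q1 .e)
noncomputable def t1 : Tr := .c 1 r2 (.c 3 r0 .e)
noncomputable def q4 : Tr := .c 4 (.l 4) .e
noncomputable def r3 : Tr := .c 3 q4 (.c 4 q1 .e)
noncomputable def t2 : Tr := .c 0 r3 (.c 1 r2 (.c 3 r0 .e))
noncomputable def q5 : Tr := .c 3 (.l 5) (.c 4 (.l 6) .e)
noncomputable def q6 : Tr := .c 3 (.l 5) .e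
noncomputable def r4 : Tr := .c 0 q5 (.c 2 q6 (.c 4 q6 .e))
noncomputable def q7 : Tr := .c 3 (.l 7) (.c 4 (.l 8) .e)
noncomputable def q8 : Tr := .c 4 (.l 8) .e
noncomputable def r5 : Tr := .c 0 q7 (.c 1 q8 (.c 3 q8 .e))
noncomputable def t3 : Tr := .c 3 r4 (.c 4 r5 .e)
noncomputable def r6 : Tr := .c 1 q8 (.c 3 q8 .e)
noncomputable def t4 : Tr := .c 2 r6 (.c 4 r5 .e)
noncomputable def q9 : Tr := .c 3 (.l 9) .e
noncomputable def r7 : Tr := .c 3 q8 (.c 4 q9 .e)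
noncomputable def t5 : Tr := .c 0 r7 (.c 2 r6 (.c 4 r5 .e))
noncomputable def q10 : Tr := .c 2 (.l 8) (.c 4 (.l 8) .e)
noncomputable def r8 : Tr := .c 1 q10 (.c 3 q10 .e)
noncomputable def r9 : Tr := .c 0 q8 (.c 1 q10 (.c 3 q10 .e))
noncomputable def t6 : Tr := .c 2 r8 (.c 4 r9 .e)
noncomputable def r10 : Tr := .c 3 q10 .e
noncomputable def t7 : Tr := .c 0 r10 (.c 2 r8 (.c 4 r9 .e))
noncomputable def q11 : Tr := .c 4 (.l 6) .e
noncomputable def r11 : Tr := .c 0 q11 .e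
noncomputable def t8 : Tr := .c 3 r11 (.c 4 r9 .e)
noncomputable def q12 : Tr := .c 1 (.l 0) (.c 3 (.l 0) .e)
noncomputable def r12 : Tr := .c 2 q12 (.c 4 q12 .e)
noncomputable def r13 : Tr := .c 0 q1 (.c 2 q12 (.c 4 q12 .e))
noncomputable def t9 : Tr := .c 1 r12 (.c 3 r13 .e)
noncomputable def r14 : Tr := .c 4 q12 .e
noncomputable def t10 : Tr := .c 0 r14 (.c 1 r12 (.c 3 r13 .e))
noncomputable def q13 : Tr := .c 3 (.l 2) .e
noncomputable def r15 : Tr := .c 0 q13 .e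
noncomputable def t11 : Tr := .c 3 r13 (.c 4 r15 .e)
noncomputable def q14 : Tr := .c 0 (.l 8) (.c 2 (.l 8) (.c 4 (.l 8) .e))
noncomputable def q15 : Tr := .c 0 (.l 10) .e
noncomputable def r16 : Tr := .c 3 q14 (.c 4 q15 .e)
noncomputable def r17 : Tr := .c 1 q10 (.c 3 q14 .e)
noncomputable def r18 : Tr := .c 0 q8 (.c 1 q10 (.c 3 q14 .e))
noncomputable def t12 : Tr := .c 0 r16 (.c 2 r17 (.c 4 r18 .e))
noncomputable def q16 : Tr := .c 0 (.l 11) (.c 2 (.l 11) (.c 4 (.l 11) .e))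
noncomputable def q17 : Tr := .c 0 (.l 12) .e
noncomputable def r19 : Tr := .c 3 q16 (.c 4 q17 .e)
noncomputable def r20 : Tr := .c 4 q17 .e
noncomputable def q18 : Tr := .c 4 (.l 13) .e
noncomputable def r21 : Tr := .c 0 q18 (.c 4 q17 .e)
noncomputable def t13 : Tr := .c 0 r19 (.c 1 r20 (.c 3 r21 .e))
noncomputable def t14 : Tr := .c 2 r17 (.c 4 r18 .e)
noncomputable def q19 : Tr := .c 0 (.l 14) .e
noncomputable def r22 : Tr := .c 0 q11 (.c 4 q19 .e)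
noncomputable def t15 : Tr := .c 3 r22 (.c 4 r18 .e)
noncomputable def q20 : Tr := .c 0 (.l 15) .e
noncomputable def q21 : Tr := .c 0 (.l 16) (.c 1 (.l 16) (.c 3 (.l 16) .e))
noncomputable def r23 : Tr := .c 3 q20 (.c 4 q21 .e)
noncomputable def r24 : Tr := .c 3 q20 .e
noncomputable def q22 : Tr := .c 3 (.l 17) .e
noncomputable def r25 : Tr := .c 0 q22 (.c 3 q20 .e)
noncomputable def t16 : Tr := .c 0 r23 (.c 2 r24 (.c 4 r25 .e))
noncomputable def q23 : Tr := .c 0 (.l 18) .e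
noncomputable def q24 : Tr := .c 0 (.l 0) (.c 1 (.l 0) (.c 3 (.l 0) .e))
noncomputable def r26 : Tr := .c 3 q23 (.c 4 q24 .e)
noncomputable def r27 : Tr := .c 2 q12 (.c 4 q24 .e)
noncomputable def r28 : Tr := .c 0 q1 (.c 2 q12 (.c 4 q24 .e))
noncomputable def t17 : Tr := .c 0 r26 (.c 1 r27 (.c 3 r28 .e))
noncomputable def t18 : Tr := .c 1 r27 (.c 3 r28 .e)
noncomputable def q25 : Tr := .c 0 (.l 19) .e
noncomputable def r29 : Tr := .c 0 q13 (.c 3 q25 .e)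
noncomputable def t19 : Tr := .c 3 r28 (.c 4 r29 .e)

/-- the diagram -/
noncomputable def T : Tr := (.c 0 (.c 3 (.c 0 t0 (.c 2 t1 (.c 4 t2 .e))) (.c 4 (.c 0 t3 (.c 1 t4 (.c 3 t5 .e))) .e)) (.c 1
(.c 2 (.c 1 t6 (.c 3 t7 .e)) (.c 4 (.c 0 t8 (.c 1 t6 (.c 3 t7 .e))) .e)) (.c 2 (.c 1 (.c 2 t9
(.c 4 t10 .e)) (.c 3 (.c 0 t11 (.c 2 t9 (.c 4 t10 .e))) .e)) (.c 3 (.c 0 (.c 3 t12 (.c 4 t13
.e)) (.c 2 (.c 1 t14 (.c 3 t12 .e)) (.c 4 (.c 0 t15 (.c 1 t14 (.c 3 t12 .e))) .e))) (.c 4 (.c 0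
(.c 3 t16 (.c 4 t17 .e)) (.c 1 (.c 2 t18 (.c 4 t17 .e)) (.c 3 (.c 0 t19 (.c 2 t18 (.c 4 t17
.e))) .e))) .e)))))

theorem chk : chkP 5 9 nb op nbT opT PL T = true := by decide +kernel

end B11

/-! ### 01 02 03 14 24 45 -/

namespace B19

/-- the letters (masks) -/
def L : List ℕ := [3, 5, 9, 18, 20, 48]

/-- the palettes (masks) -/
def P : List ℕ := [3, 5, 9, 18, 20, 48, 7, 11, 19, 13, 21, 22, 50, 52]

/-- neighbours, letters -/
def nb : List ℕ := [48, 40, 56, 6, 5, 7]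

/-- antipodes, letters -/
def op : List ℕ := [31, 31, 7, 59, 59, 56]

/-- neighbours, palettes -/
def nbT : List ℕ := [8240, 4136, 14392, 518, 133, 711, 12320, 15408, 8704, 14632, 4224, 644, 1734, 965]

/-- antipodes, palettes -/
def opT : List ℕ := [8159, 12255, 1991, 15867, 16251, 15672, 16351, 16335, 16383, 16343, 16383, 16379, 16377,
16378]

/-- the letters of the palettes -/
def PL : List (List ℕ) := [[0], [1], [2], [3], [4], [5], [0, 1], [0, 2], [0, 3], [1, 2], [1, 4], [3, 4], [3, 5], [4, 5]]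

noncomputable def q0 : Tr := .c 4 (.l 0) .e
noncomputable def r0 : Tr := .c 0 q0 .e
noncomputable def t0 : Tr := .c 4 r0 .e
noncomputable def q1 : Tr := .c 3 (.l 1) .e
noncomputable def r1 : Tr := .c 1 q1 .e
noncomputable def t1 : Tr := .c 3 r1 .e
noncomputable def q2 : Tr := .c 1 (.l 2) .e
noncomputable def r2 : Tr := .c 3 q2 .e
noncomputable def t2 : Tr := .c 1 r2 .e
noncomputable def q3 : Tr := .c 0 (.l 3) .e
noncomputable def r3 : Tr := .c 4 q3 .e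
noncomputable def t3 : Tr := .c 0 r3 .e

/-- the diagram -/
noncomputable def T : Tr := (.c 0 (.c 4 (.c 0 t0 .e) .e) (.c 1 (.c 3 (.c 1 t1 .e) .e) (.c 3 (.c 1 (.c 3 t2 .e) .e) (.c 4
(.c 0 (.c 4 t3 .e) .e) .e))))

theorem chk : chkP 6 14 nb op nbT opT PL T = true := by decide +kernel

end B19

/-! ### 01 02 03 14 25 45 -/

namespace B20

/-- the letters (masks) -/
def L : List ℕ := [3, 5, 9, 18, 36, 48]

/-- the palettes (masks) -/
def P : List ℕ := [3, 5, 9, 18, 36, 48, 7, 11, 19, 13, 37, 50, 52]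

/-- neighbours, letters -/
def nb : List ℕ := [48, 40, 56, 22, 13, 7]

/-- antipodes, letters -/
def op : List ℕ := [31, 31, 31, 63, 63, 56]

/-- neighbours, palettes -/
def nbT : List ℕ := [4144, 2088, 6200, 1558, 397, 711, 6176, 7216, 5648, 6440, 2440, 1734, 965]

/-- antipodes, palettes -/
def opT : List ℕ := [4063, 6111, 2015, 6655, 7807, 7480, 8159, 8143, 8175, 8151, 8183, 8185, 8186]

/-- the letters of the palettes -/
def PL : List (List ℕ) := [[0], [1], [2], [3], [4], [5], [0, 1], [0, 2], [0, 3], [1, 2], [1, 4], [3, 5], [4, 5]]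

noncomputable def q0 : Tr := .c 4 (.l 0) .e
noncomputable def r0 : Tr := .c 0 q0 (.c 2 q0 (.c 3 q0 .e))
noncomputable def t0 : Tr := .c 4 r0 .e
noncomputable def r1 : Tr := .c 2 q0 .e
noncomputable def t1 : Tr := .c 3 r1 (.c 4 r0 .e)
noncomputable def r2 : Tr := .c 3 q0 .e
noncomputable def q1 : Tr := .c 4 (.l 0) (.c 5 (.l 0) .e)
noncomputable def r3 : Tr := .c 0 q1 (.c 2 q1 (.c 3 q0 .e))
noncomputable def t2 : Tr := .c 1 r2 (.c 2 r2 (.c 4 r3 .e))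
noncomputable def t3 : Tr := .c 4 r2 .e
noncomputable def q2 : Tr := .c 3 (.l 1) .e
noncomputable def r4 : Tr := .c 1 q2 (.c 2 q2 (.c 4 q2 .e))
noncomputable def t4 : Tr := .c 3 r4 .e
noncomputable def r5 : Tr := .c 2 q2 .e
noncomputable def t5 : Tr := .c 3 r4 (.c 4 r5 .e)
noncomputable def r6 : Tr := .c 4 q2 .e
noncomputable def q3 : Tr := .c 3 (.l 1) (.c 5 (.l 1) .e)
noncomputable def r7 : Tr := .c 1 q3 (.c 2 q3 (.c 4 q2 .e))
noncomputable def t6 : Tr := .c 0 r6 (.c 2 r6 (.c 3 r7 .e))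
noncomputable def t7 : Tr := .c 3 r6 .e
noncomputable def q4 : Tr := .c 3 (.l 1) (.c 4 (.l 1) .e)
noncomputable def r8 : Tr := .c 1 q2 (.c 2 q4 (.c 4 q2 .e))
noncomputable def t8 : Tr := .c 3 r8 .e
noncomputable def q5 : Tr := .c 3 (.l 1) (.c 4 (.l 0) .e)
noncomputable def r9 : Tr := .c 0 q0 (.c 2 q5 (.c 3 q0 .e))
noncomputable def t9 : Tr := .c 3 r8 (.c 4 r9 .e)
noncomputable def q6 : Tr := .c 4 (.l 2) .e
noncomputable def r10 : Tr := .c 3 q6 (.c 4 q2 .e)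
noncomputable def q7 : Tr := .c 3 (.l 1) (.c 4 (.l 1) (.c 5 (.l 1) .e))
noncomputable def r11 : Tr := .c 1 q3 (.c 2 q7 (.c 4 q2 .e))
noncomputable def t10 : Tr := .c 0 r6 (.c 2 r10 (.c 3 r11 .e))
noncomputable def q8 : Tr := .c 3 (.l 0) (.c 4 (.l 0) .e)
noncomputable def r12 : Tr := .c 0 q0 (.c 2 q8 (.c 3 q0 .e))
noncomputable def t11 : Tr := .c 4 r12 .e
noncomputable def r13 : Tr := .c 1 q2 (.c 2 q5 (.c 4 q2 .e))
noncomputable def t12 : Tr := .c 3 r13 (.c 4 r12 .e)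
noncomputable def q9 : Tr := .c 3 (.l 3) .e
noncomputable def r14 : Tr := .c 3 q0 (.c 4 q9 .e)
noncomputable def q10 : Tr := .c 3 (.l 0) (.c 4 (.l 0) (.c 5 (.l 0) .e))
noncomputable def r15 : Tr := .c 0 q1 (.c 2 q10 (.c 3 q0 .e))
noncomputable def t13 : Tr := .c 1 r2 (.c 2 r14 (.c 4 r15 .e))
noncomputable def t14 : Tr := .c 3 r6 (.c 4 r2 .e)
noncomputable def q11 : Tr := .c 1 (.l 0) (.c 2 (.l 0) (.c 4 (.l 0) .e))
noncomputable def r16 : Tr := .c 3 q11 .e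
noncomputable def q12 : Tr := .c 2 (.l 0) .e
noncomputable def r17 : Tr := .c 3 q11 (.c 4 q12 .e)
noncomputable def r18 : Tr := .c 0 q0 (.c 2 q0 (.c 3 q11 .e))
noncomputable def t15 : Tr := .c 1 r16 (.c 2 r17 (.c 4 r18 .e))
noncomputable def t16 : Tr := .c 1 r2 (.c 2 r2 .e)
noncomputable def q13 : Tr := .c 2 (.l 1) .e
noncomputable def r19 : Tr := .c 4 q13 .e
noncomputable def r20 : Tr := .c 3 q11 (.c 4 q13 .e)
noncomputable def q14 : Tr := .c 4 (.l 4) .e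
noncomputable def r21 : Tr := .c 2 q14 (.c 4 q13 .e)
noncomputable def t17 : Tr := .c 0 r19 (.c 2 r20 (.c 3 r21 .e))
noncomputable def r22 : Tr := .c 0 q0 (.c 2 q0 .e)
noncomputable def t18 : Tr := .c 4 r18 (.c 5 r22 .e)
noncomputable def q15 : Tr := .c 2 (.l 5) .e
noncomputable def r23 : Tr := .c 2 q0 (.c 4 q15 .e)
noncomputable def t19 : Tr := .c 3 r23 (.c 4 r18 (.c 5 r22 .e))
noncomputable def q16 : Tr := .c 1 (.l 0) (.c 2 (.l 0) .e)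
noncomputable def r24 : Tr := .c 3 q11 (.c 5 q16 .e)
noncomputable def r25 : Tr := .c 3 q11 (.c 4 q12 (.c 5 q16 .e))
noncomputable def t20 : Tr := .c 1 r24 (.c 2 r25 (.c 4 r18 .e))
noncomputable def q17 : Tr := .c 0 (.l 1) (.c 2 (.l 1) (.c 3 (.l 1) .e))
noncomputable def r26 : Tr := .c 4 q17 .e
noncomputable def r27 : Tr := .c 3 q13 (.c 4 q17 .e)
noncomputable def r28 : Tr := .c 1 q2 (.c 2 q2 (.c 4 q17 .e))
noncomputable def t21 : Tr := .c 0 r26 (.c 2 r27 (.c 3 r28 .e))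
noncomputable def t22 : Tr := .c 0 r6 (.c 2 r6 .e)
noncomputable def r29 : Tr := .c 3 q12 .e
noncomputable def r30 : Tr := .c 3 q12 (.c 4 q17 .e)
noncomputable def q18 : Tr := .c 3 (.l 6) .e
noncomputable def r31 : Tr := .c 2 q18 (.c 3 q12 .e)
noncomputable def t23 : Tr := .c 1 r29 (.c 2 r30 (.c 4 r31 .e))
noncomputable def r32 : Tr := .c 1 q2 (.c 2 q2 .e)
noncomputable def t24 : Tr := .c 3 r28 (.c 5 r32 .e)
noncomputable def q19 : Tr := .c 2 (.l 7) .e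
noncomputable def r33 : Tr := .c 2 q2 (.c 3 q19 .e)
noncomputable def t25 : Tr := .c 3 r28 (.c 4 r33 (.c 5 r32 .e))
noncomputable def q20 : Tr := .c 0 (.l 1) (.c 2 (.l 1) .e)
noncomputable def r34 : Tr := .c 4 q17 (.c 5 q20 .e)
noncomputable def r35 : Tr := .c 3 q13 (.c 4 q17 (.c 5 q20 .e))
noncomputable def t26 : Tr := .c 0 r34 (.c 2 r35 (.c 3 r28 .e))
noncomputable def r36 : Tr := .c 4 q20 .e
noncomputable def t27 : Tr := .c 3 r36 .e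
noncomputable def r37 : Tr := .c 3 q16 .e
noncomputable def t28 : Tr := .c 4 r37 .e

/-- the diagram -/
noncomputable def T : Tr := (.c 0 (.c 4 (.c 0 t0 (.c 2 t1 (.c 3 t2 .e))) (.c 5 (.c 0 t3 (.c 2 t3 .e)) .e)) (.c 1 (.c 3 (.c
1 t4 (.c 2 t5 (.c 4 t6 .e))) (.c 5 (.c 1 t7 (.c 2 t7 .e)) .e)) (.c 2 (.c 3 (.c 1 t8 (.c 2 t9
(.c 4 t10 .e))) (.c 4 (.c 0 t11 (.c 2 t12 (.c 3 t13 .e))) (.c 5 (.c 0 t3 (.c 1 t7 (.c 2 t14
.e))) .e))) (.c 3 (.c 1 (.c 3 t15 (.c 5 t16 .e)) (.c 2 (.c 3 t15 (.c 4 t17 (.c 5 t16 .e))) (.c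
4 (.c 0 t18 (.c 2 t19 (.c 3 t20 .e))) .e))) (.c 4 (.c 0 (.c 4 t21 (.c 5 t22 .e)) (.c 2 (.c 3
t23 (.c 4 t21 (.c 5 t22 .e))) (.c 3 (.c 1 t24 (.c 2 t25 (.c 4 t26 .e))) .e))) (.c 5 (.c 0 (.c 4
t27 .e) (.c 1 (.c 3 t28 .e) (.c 2 (.c 3 t28 (.c 4 t27 .e)) .e))) .e))))))

theorem chk : chkP 6 13 nb op nbT opT PL T = true := by decide +kernel

end B20

/-! ### 01 02 03 12 34 35 45 -/

namespace B29

/-- the letters (masks) -/
def L : List ℕ := [3, 5, 9, 6, 24, 40, 48]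

/-- the palettes (masks) -/
def P : List ℕ := [3, 5, 9, 6, 24, 40, 48, 7, 11, 13, 25, 41, 56]

/-- neighbours, letters -/
def nb : List ℕ := [112, 112, 72, 116, 11, 11, 15]

/-- antipodes, letters -/
def op : List ℕ := [63, 63, 55, 75, 119, 119, 120]

/-- neighbours, palettes -/
def nbT : List ℕ := [4208, 4208, 72, 7284, 139, 139, 911, 7280, 4160, 4160, 136, 136, 907]

/-- antipodes, palettes -/
def opT : List ℕ := [4031, 4031, 8119, 971, 8055, 8055, 7288, 8079, 8127, 8127, 8183, 8183, 8180]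

/-- the letters of the palettes -/
def PL : List (List ℕ) := [[0], [1], [2], [3], [4], [5], [6], [0, 1, 3], [0, 2], [1, 2], [2, 4], [2, 5], [4, 5, 6]]

noncomputable def q0 : Tr := .c 4 (.l 0) (.c 5 (.l 0) .e)
noncomputable def r0 : Tr := .c 0 q0 (.c 1 q0 .e)
noncomputable def t0 : Tr := .c 4 r0 (.c 5 r0 .e)
noncomputable def q1 : Tr := .c 6 (.l 0) .e
noncomputable def r1 : Tr := .c 0 q1 (.c 1 q1 .e)
noncomputable def t1 : Tr := .c 4 r1 (.c 5 r1 .e)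
noncomputable def r2 : Tr := .c 3 q0 .e
noncomputable def t2 : Tr := .c 4 r2 (.c 5 r2 .e)
noncomputable def r3 : Tr := .c 3 q1 .e
noncomputable def t3 : Tr := .c 2 r3 (.c 4 r3 (.c 5 r3 .e))
noncomputable def q2 : Tr := .c 3 (.l 1) .e
noncomputable def r4 : Tr := .c 6 q2 .e
noncomputable def q3 : Tr := .c 6 (.l 2) .e
noncomputable def r5 : Tr := .c 3 q3 (.c 6 q2 .e)
noncomputable def t4 : Tr := .c 0 r4 (.c 1 r4 (.c 2 r5 .e))
noncomputable def q4 : Tr := .c 3 (.l 3) .e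
noncomputable def r6 : Tr := .c 3 q1 (.c 6 q4 .e)
noncomputable def t5 : Tr := .c 2 r6 (.c 4 r3 (.c 5 r3 .e))
noncomputable def r7 : Tr := .c 0 q1 (.c 1 q1 (.c 2 q1 .e))
noncomputable def t6 : Tr := .c 6 r7 .e
noncomputable def q5 : Tr := .c 6 (.l 4) .e
noncomputable def r8 : Tr := .c 2 q5 .e
noncomputable def t7 : Tr := .c 3 r8 .e
noncomputable def t8 : Tr := .c 6 r0 .e
noncomputable def q6 : Tr := .c 2 (.l 0) (.c 4 (.l 0) (.c 5 (.l 0) .e))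
noncomputable def r9 : Tr := .c 3 q6 .e
noncomputable def t9 : Tr := .c 6 r9 .e
noncomputable def q7 : Tr := .c 2 (.l 5) .e
noncomputable def r10 : Tr := .c 6 q7 .e
noncomputable def t10 : Tr := .c 3 r10 (.c 6 r9 .e)
noncomputable def t11 : Tr := .c 6 r3 .e
noncomputable def q8 : Tr := .c 0 (.l 1) (.c 1 (.l 1) .e)
noncomputable def r11 : Tr := .c 4 q8 (.c 5 q8 .e)
noncomputable def t12 : Tr := .c 0 r11 (.c 1 r11 .e)
noncomputable def r12 : Tr := .c 4 q2 (.c 5 q2 .e)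
noncomputable def t13 : Tr := .c 0 r12 (.c 1 r12 .e)
noncomputable def r13 : Tr := .c 6 q8 .e
noncomputable def t14 : Tr := .c 0 r13 (.c 1 r13 .e)
noncomputable def t15 : Tr := .c 0 r4 (.c 1 r4 (.c 2 r4 .e))
noncomputable def t16 : Tr := .c 3 r11 .e
noncomputable def r14 : Tr := .c 2 q2 (.c 4 q2 (.c 5 q2 .e))
noncomputable def t17 : Tr := .c 3 r14 .e
noncomputable def q9 : Tr := .c 3 (.l 6) .e
noncomputable def r15 : Tr := .c 2 q9 .e
noncomputable def t18 : Tr := .c 6 r15 .e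
noncomputable def q10 : Tr := .c 0 (.l 1) (.c 1 (.l 1) (.c 2 (.l 1) .e))
noncomputable def r16 : Tr := .c 6 q10 .e
noncomputable def q11 : Tr := .c 2 (.l 7) .e
noncomputable def r17 : Tr := .c 3 q11 .e
noncomputable def t19 : Tr := .c 3 r16 (.c 6 r17 .e)
noncomputable def t20 : Tr := .c 3 r16 .e
noncomputable def t21 : Tr := .c 3 r4 .e

/-- the diagram -/
noncomputable def T : Tr := (.c 0 (.c 4 (.c 0 t0 (.c 1 t0 (.c 3 t1 .e))) (.c 5 (.c 0 t0 (.c 1 t0 (.c 3 t1 .e))) (.c 6 (.c 0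
t2 (.c 1 t2 (.c 3 t3 .e))) .e))) (.c 1 (.c 4 (.c 0 t0 (.c 1 t0 (.c 3 t1 .e))) (.c 5 (.c 0 t0
(.c 1 t0 (.c 3 t1 .e))) (.c 6 (.c 0 t2 (.c 1 t2 (.c 3 t3 .e))) .e))) (.c 2 (.c 3 (.c 6 t4 .e)
(.c 6 (.c 3 t5 .e) .e)) (.c 3 (.c 2 (.c 3 t6 (.c 6 t7 .e)) (.c 4 (.c 0 t8 (.c 1 t8 (.c 3 t6
.e))) (.c 5 (.c 0 t8 (.c 1 t8 (.c 3 t6 .e))) (.c 6 (.c 0 t9 (.c 1 t9 (.c 2 t10 (.c 3 t11 .e))))
.e)))) (.c 4 (.c 0 (.c 4 t12 (.c 5 t12 (.c 6 t13 .e))) (.c 1 (.c 4 t12 (.c 5 t12 (.c 6 t13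
.e))) (.c 3 (.c 4 t14 (.c 5 t14 (.c 6 t15 .e))) .e))) (.c 5 (.c 0 (.c 4 t12 (.c 5 t12 (.c 6 t13
.e))) (.c 1 (.c 4 t12 (.c 5 t12 (.c 6 t13 .e))) (.c 3 (.c 4 t14 (.c 5 t14 (.c 6 t15 .e))) .e)))
(.c 6 (.c 0 (.c 4 t16 (.c 5 t16 (.c 6 t17 .e))) (.c 1 (.c 4 t16 (.c 5 t16 (.c 6 t17 .e))) (.c 2
(.c 3 t18 (.c 6 t17 .e)) (.c 3 (.c 2 t19 (.c 4 t20 (.c 5 t20 (.c 6 t21 .e)))) .e)))) .e)))))))

theorem chk : chkP 7 13 nb op nbT opT PL T = true := by decide +kernel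

end B29

end Vale.Agent.P032.Words.Trie
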