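import Vale.Agent.P032.Words.H151.Pal

/-!
# Hexagons around a centre with six colours
-/

namespace Vale.Agent.P032.Words.Trie

/-! ### 01 02 03 45 -/

namespace B2

/-- the letters (masks) -/
def L : List ℕ := [3, 5, 9, 48]

/-- the palettes (masks) -/
def P : List ℕ := [3, 5, 9, 48, 7, 11, 13]

/-- neighbours, letters -/
def nb : List ℕ := [8, 8, 8, 7]

/-- antipodes, letters -/
def op : List ℕ := [7, 7, 7, 8]

/-- neighbours, palettes -/
def nbT : List ℕ := [8, 8, 8, 119, 8, 8, 8]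

/-- antipodes, palettes -/
def opT : List ℕ := [119, 119, 119, 8, 119, 119, 119]

/-- the letters of the palettes -/
def PL : List (List ℕ) := [[0], [1], [2], [3], [0, 1], [0, 2], [1, 2]]



/-- the diagram -/
noncomputable def T : Tr := (.e)

theorem chk : chkP 4 7 nb op nbT opT PL T = true := by decide +kernel

end B2

/-! ### 01 02 13 45 -/

namespace B3

/-- the letters (masks) -/
def L : List ℕ := [3, 5, 10, 48]

/-- the palettes (masks) -/
def P : List ℕ := [3, 5, 10, 48, 7, 11]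

/-- neighbours, letters -/
def nb : List ℕ := [8, 12, 10, 7]

/-- antipodes, letters -/
def op : List ℕ := [15, 15, 15, 15]

/-- neighbours, palettes -/
def nbT : List ℕ := [8, 12, 10, 55, 8, 8]

/-- antipodes, palettes -/
def opT : List ℕ := [63, 63, 63, 15, 55, 55]

/-- the letters of the palettes -/
def PL : List (List ℕ) := [[0], [1], [2], [3], [0, 1], [0, 2]]

noncomputable def q0 : Tr := .c 3 (.l 0) .e
noncomputable def q1 : Tr := .c 3 (.l 1) .e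
noncomputable def q2 : Tr := .c 3 (.l 2) .e
noncomputable def r0 : Tr := .c 0 q0 (.c 1 q1 (.c 2 q2 .e))
noncomputable def t0 : Tr := .c 3 r0 .e
noncomputable def q3 : Tr := .c 3 (.l 3) .e
noncomputable def r1 : Tr := .c 1 q3 .e
noncomputable def q4 : Tr := .c 3 (.l 4) .e
noncomputable def q5 : Tr := .c 3 (.l 5) .e
noncomputable def q6 : Tr := .c 3 (.l 6) .e
noncomputable def r2 : Tr := .c 0 q4 (.c 1 q5 (.c 2 q6 .e))
noncomputable def t1 : Tr := .c 2 r1 (.c 3 r2 .e)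
noncomputable def q7 : Tr := .c 3 (.l 7) .e
noncomputable def r3 : Tr := .c 2 q7 .e
noncomputable def q8 : Tr := .c 3 (.l 8) .e
noncomputable def q9 : Tr := .c 3 (.l 9) .e
noncomputable def q10 : Tr := .c 3 (.l 10) .e
noncomputable def r4 : Tr := .c 0 q8 (.c 1 q9 (.c 2 q10 .e))
noncomputable def t2 : Tr := .c 1 r3 (.c 3 r4 .e)
noncomputable def q11 : Tr := .c 2 (.l 11) (.c 3 (.l 12) .e)
noncomputable def q12 : Tr := .c 2 (.l 13) .e
noncomputable def r5 : Tr := .c 1 q11 (.c 3 q12 .e)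
noncomputable def q13 : Tr := .c 3 (.l 14) .e
noncomputable def q14 : Tr := .c 2 (.l 15) (.c 3 (.l 14) .e)
noncomputable def r6 : Tr := .c 0 q13 (.c 1 q14 (.c 2 q13 .e))
noncomputable def t3 : Tr := .c 2 r5 (.c 3 r6 .e)
noncomputable def q15 : Tr := .c 2 (.l 16) .e
noncomputable def r7 : Tr := .c 3 q15 .e
noncomputable def q16 : Tr := .c 3 (.l 17) .e
noncomputable def r8 : Tr := .c 2 q16 (.c 3 q15 .e)
noncomputable def q17 : Tr := .c 2 (.l 18) (.c 3 (.l 19) .e)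
noncomputable def r9 : Tr := .c 1 q17 (.c 3 q15 .e)
noncomputable def t4 : Tr := .c 0 r7 (.c 1 r8 (.c 2 r9 .e))
noncomputable def q18 : Tr := .c 3 (.l 20) .e
noncomputable def q19 : Tr := .c 2 (.l 21) (.c 3 (.l 22) .e)
noncomputable def q20 : Tr := .c 3 (.l 23) .e
noncomputable def r10 : Tr := .c 0 q18 (.c 1 q19 (.c 2 q20 .e))
noncomputable def t5 : Tr := .c 3 r10 .e
noncomputable def q21 : Tr := .c 2 (.l 24) (.c 3 (.l 3) .e)
noncomputable def q22 : Tr := .c 2 (.l 25) .e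
noncomputable def r11 : Tr := .c 1 q21 (.c 3 q22 .e)
noncomputable def q23 : Tr := .c 3 (.l 26) .e
noncomputable def q24 : Tr := .c 2 (.l 21) (.c 3 (.l 27) .e)
noncomputable def q25 : Tr := .c 3 (.l 28) .e
noncomputable def r12 : Tr := .c 0 q23 (.c 1 q24 (.c 2 q25 .e))
noncomputable def t6 : Tr := .c 2 r11 (.c 3 r12 .e)
noncomputable def q26 : Tr := .c 2 (.l 29) .e
noncomputable def r13 : Tr := .c 2 q7 (.c 3 q26 .e)
noncomputable def q27 : Tr := .c 3 (.l 30) .e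
noncomputable def q28 : Tr := .c 2 (.l 21) (.c 3 (.l 31) .e)
noncomputable def q29 : Tr := .c 3 (.l 32) .e
noncomputable def r14 : Tr := .c 0 q27 (.c 1 q28 (.c 2 q29 .e))
noncomputable def t7 : Tr := .c 1 r13 (.c 3 r14 .e)
noncomputable def q30 : Tr := .c 1 (.l 33) (.c 3 (.l 34) .e)
noncomputable def q31 : Tr := .c 1 (.l 35) .e
noncomputable def r15 : Tr := .c 2 q30 (.c 3 q31 .e)
noncomputable def q32 : Tr := .c 3 (.l 36) .e
noncomputable def q33 : Tr := .c 1 (.l 37) (.c 3 (.l 36) .e)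
noncomputable def r16 : Tr := .c 0 q32 (.c 1 q32 (.c 2 q33 .e))
noncomputable def t8 : Tr := .c 1 r15 (.c 3 r16 .e)
noncomputable def q34 : Tr := .c 1 (.l 38) .e
noncomputable def r17 : Tr := .c 3 q34 .e
noncomputable def q35 : Tr := .c 1 (.l 39) (.c 3 (.l 40) .e)
noncomputable def r18 : Tr := .c 2 q35 (.c 3 q34 .e)
noncomputable def q36 : Tr := .c 3 (.l 41) .e
noncomputable def r19 : Tr := .c 1 q36 (.c 3 q34 .e)
noncomputable def t9 : Tr := .c 0 r17 (.c 1 r18 (.c 2 r19 .e))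
noncomputable def q37 : Tr := .c 3 (.l 42) .e
noncomputable def q38 : Tr := .c 3 (.l 43) .e
noncomputable def q39 : Tr := .c 1 (.l 44) (.c 3 (.l 45) .e)
noncomputable def r20 : Tr := .c 0 q37 (.c 1 q38 (.c 2 q39 .e))
noncomputable def t10 : Tr := .c 3 r20 .e
noncomputable def q40 : Tr := .c 1 (.l 46) .e
noncomputable def r21 : Tr := .c 1 q3 (.c 3 q40 .e)
noncomputable def q41 : Tr := .c 3 (.l 47) .e
noncomputable def q42 : Tr := .c 3 (.l 48) .e
noncomputable def q43 : Tr := .c 1 (.l 44) (.c 3 (.l 49) .e)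
noncomputable def r22 : Tr := .c 0 q41 (.c 1 q42 (.c 2 q43 .e))
noncomputable def t11 : Tr := .c 2 r21 (.c 3 r22 .e)
noncomputable def q44 : Tr := .c 1 (.l 50) (.c 3 (.l 7) .e)
noncomputable def q45 : Tr := .c 1 (.l 51) .e
noncomputable def r23 : Tr := .c 2 q44 (.c 3 q45 .e)
noncomputable def q46 : Tr := .c 3 (.l 52) .e
noncomputable def q47 : Tr := .c 3 (.l 53) .e
noncomputable def q48 : Tr := .c 1 (.l 44) (.c 3 (.l 54) .e)
noncomputable def r24 : Tr := .c 0 q46 (.c 1 q47 (.c 2 q48 .e))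
noncomputable def t12 : Tr := .c 1 r23 (.c 3 r24 .e)
noncomputable def q49 : Tr := .c 0 (.l 55) (.c 1 (.l 56) (.c 2 (.l 57) .e))
noncomputable def r25 : Tr := .c 3 q49 .e
noncomputable def q50 : Tr := .c 1 (.l 58) .e
noncomputable def q51 : Tr := .c 0 (.l 59) (.c 1 (.l 60) (.c 2 (.l 61) .e))
noncomputable def r26 : Tr := .c 2 q50 (.c 3 q51 .e)
noncomputable def q52 : Tr := .c 2 (.l 62) .e
noncomputable def q53 : Tr := .c 0 (.l 63) (.c 1 (.l 64) (.c 2 (.l 65) .e))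
noncomputable def r27 : Tr := .c 1 q52 (.c 3 q53 .e)
noncomputable def t13 : Tr := .c 0 r25 (.c 1 r26 (.c 2 r27 .e))
noncomputable def q54 : Tr := .c 1 (.l 66) .e
noncomputable def q55 : Tr := .c 0 (.l 67) (.c 1 (.l 67) (.c 2 (.l 67) .e))
noncomputable def r28 : Tr := .c 2 q54 (.c 3 q55 .e)
noncomputable def q56 : Tr := .c 2 (.l 68) .e
noncomputable def q57 : Tr := .c 1 (.l 69) .e
noncomputable def r29 : Tr := .c 1 q56 (.c 2 q57 .e)
noncomputable def t14 : Tr := .c 1 r28 (.c 3 r29 .e)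
noncomputable def q58 : Tr := .c 0 (.l 70) (.c 1 (.l 71) (.c 2 (.l 72) .e))
noncomputable def r30 : Tr := .c 3 q58 .e
noncomputable def q59 : Tr := .c 0 (.l 73) (.c 1 (.l 74) (.c 2 (.l 75) .e))
noncomputable def r31 : Tr := .c 2 q50 (.c 3 q59 .e)
noncomputable def q60 : Tr := .c 0 (.l 76) (.c 1 (.l 77) (.c 2 (.l 78) .e))
noncomputable def r32 : Tr := .c 1 q52 (.c 3 q60 .e)
noncomputable def t15 : Tr := .c 0 r30 (.c 1 r31 (.c 2 r32 .e))
noncomputable def q61 : Tr := .c 2 (.l 79) .e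
noncomputable def q62 : Tr := .c 0 (.l 80) (.c 1 (.l 80) (.c 2 (.l 80) .e))
noncomputable def r33 : Tr := .c 1 q61 (.c 3 q62 .e)
noncomputable def q63 : Tr := .c 2 (.l 81) .e
noncomputable def q64 : Tr := .c 1 (.l 82) .e
noncomputable def r34 : Tr := .c 1 q63 (.c 2 q64 .e)
noncomputable def t16 : Tr := .c 2 r33 (.c 3 r34 .e)
noncomputable def q65 : Tr := .c 0 (.l 83) (.c 1 (.l 84) (.c 2 (.l 85) .e))
noncomputable def r35 : Tr := .c 3 q65 .e
noncomputable def q66 : Tr := .c 0 (.l 86) (.c 1 (.l 87) (.c 2 (.l 88) .e))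
noncomputable def r36 : Tr := .c 2 q50 (.c 3 q66 .e)
noncomputable def q67 : Tr := .c 0 (.l 89) (.c 1 (.l 90) (.c 2 (.l 91) .e))
noncomputable def r37 : Tr := .c 1 q52 (.c 3 q67 .e)
noncomputable def t17 : Tr := .c 0 r35 (.c 1 r36 (.c 2 r37 .e))

/-- the diagram -/
noncomputable def T : Tr := (.c 0 (.c 3 (.c 0 t0 (.c 1 t1 (.c 2 t2 .e))) .e) (.c 1 (.c 2 (.c 1 t3 (.c 3 t4 .e)) (.c 3 (.c 0
t5 (.c 1 t6 (.c 2 t7 .e))) .e)) (.c 2 (.c 1 (.c 2 t8 (.c 3 t9 .e)) (.c 3 (.c 0 t10 (.c 1 t11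
(.c 2 t12 .e))) .e)) (.c 3 (.c 0 (.c 3 t13 .e) (.c 1 (.c 2 t14 (.c 3 t15 .e)) (.c 2 (.c 1 t16
(.c 3 t17 .e)) .e))) .e))))

theorem chk : chkP 4 6 nb op nbT opT PL T = true := by decide +kernel

end B3

/-! ### 01 02 03 12 13 45 -/

namespace B12

/-- the letters (masks) -/
def L : List ℕ := [3, 5, 9, 6, 10, 48]

/-- the palettes (masks) -/
def P : List ℕ := [3, 5, 9, 6, 10, 48, 7, 11, 13, 14]

/-- neighbours, letters -/
def nb : List ℕ := [32, 48, 40, 36, 34, 31]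

/-- antipodes, letters -/
def op : List ℕ := [31, 63, 63, 63, 63, 62]

/-- neighbours, palettes -/
def nbT : List ℕ := [32, 48, 40, 36, 34, 991, 32, 32, 32, 32]

/-- antipodes, palettes -/
def opT : List ℕ := [991, 1023, 1023, 1023, 1023, 62, 991, 991, 991, 991]

/-- the letters of the palettes -/
def PL : List (List ℕ) := [[0], [1], [2], [3], [4], [5], [0, 1, 3], [0, 2, 4], [1, 2], [3, 4]]

noncomputable def q0 : Tr := .c 5 (.l 0) .e
noncomputable def r0 : Tr := .c 1 q0 .e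
noncomputable def t0 : Tr := .c 4 r0 .e
noncomputable def q1 : Tr := .c 5 (.l 1) .e
noncomputable def r1 : Tr := .c 2 q1 .e
noncomputable def t1 : Tr := .c 3 r1 .e
noncomputable def q2 : Tr := .c 5 (.l 2) .e
noncomputable def r2 : Tr := .c 3 q2 .e
noncomputable def t2 : Tr := .c 2 r2 .e
noncomputable def q3 : Tr := .c 5 (.l 3) .e
noncomputable def r3 : Tr := .c 4 q3 .e
noncomputable def t3 : Tr := .c 1 r3 .e
noncomputable def q4 : Tr := .c 4 (.l 4) (.c 5 (.l 5) .e)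
noncomputable def q5 : Tr := .c 4 (.l 6) .e
noncomputable def r4 : Tr := .c 1 q4 (.c 5 q5 .e)
noncomputable def q6 : Tr := .c 5 (.l 7) .e
noncomputable def q7 : Tr := .c 4 (.l 8) (.c 5 (.l 7) .e)
noncomputable def r5 : Tr := .c 0 q6 (.c 1 q7 (.c 2 q6 (.c 3 q6 (.c 4 q6 .e))))
noncomputable def t4 : Tr := .c 4 r4 (.c 5 r5 .e)
noncomputable def q8 : Tr := .c 4 (.l 9) .e
noncomputable def r6 : Tr := .c 5 q8 .e
noncomputable def q9 : Tr := .c 5 (.l 10) .e
noncomputable def r7 : Tr := .c 4 q9 (.c 5 q8 .e)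
noncomputable def q10 : Tr := .c 5 (.l 11) .e
noncomputable def r8 : Tr := .c 3 q10 (.c 5 q8 .e)
noncomputable def q11 : Tr := .c 5 (.l 12) .e
noncomputable def r9 : Tr := .c 2 q11 (.c 5 q8 .e)
noncomputable def q12 : Tr := .c 4 (.l 13) (.c 5 (.l 14) .e)
noncomputable def r10 : Tr := .c 1 q12 (.c 5 q8 .e)
noncomputable def t5 : Tr := .c 0 r6 (.c 1 r7 (.c 2 r8 (.c 3 r9 (.c 4 r10 .e))))
noncomputable def q13 : Tr := .c 4 (.l 15) .e
noncomputable def r11 : Tr := .c 1 q13 .e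
noncomputable def t6 : Tr := .c 5 r11 .e
noncomputable def q14 : Tr := .c 4 (.l 16) (.c 5 (.l 0) .e)
noncomputable def q15 : Tr := .c 4 (.l 17) .e
noncomputable def r12 : Tr := .c 1 q14 (.c 5 q15 .e)
noncomputable def q16 : Tr := .c 4 (.l 15) (.c 5 (.l 18) .e)
noncomputable def q17 : Tr := .c 5 (.l 19) .e
noncomputable def q18 : Tr := .c 5 (.l 20) .e
noncomputable def q19 : Tr := .c 5 (.l 21) .e
noncomputable def r13 : Tr := .c 1 q16 (.c 2 q17 (.c 3 q18 (.c 4 q19 .e)))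
noncomputable def t7 : Tr := .c 4 r12 (.c 5 r13 .e)
noncomputable def q20 : Tr := .c 4 (.l 22) .e
noncomputable def r14 : Tr := .c 2 q1 (.c 5 q20 .e)
noncomputable def q21 : Tr := .c 4 (.l 15) (.c 5 (.l 23) .e)
noncomputable def q22 : Tr := .c 5 (.l 24) .e
noncomputable def q23 : Tr := .c 5 (.l 25) .e
noncomputable def q24 : Tr := .c 5 (.l 26) .e
noncomputable def r15 : Tr := .c 1 q21 (.c 2 q22 (.c 3 q23 (.c 4 q24 .e)))
noncomputable def t8 : Tr := .c 3 r14 (.c 5 r15 .e)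
noncomputable def q25 : Tr := .c 4 (.l 27) .e
noncomputable def r16 : Tr := .c 3 q2 (.c 5 q25 .e)
noncomputable def q26 : Tr := .c 4 (.l 15) (.c 5 (.l 28) .e)
noncomputable def q27 : Tr := .c 5 (.l 29) .e
noncomputable def q28 : Tr := .c 5 (.l 30) .e
noncomputable def q29 : Tr := .c 5 (.l 31) .e
noncomputable def r17 : Tr := .c 1 q26 (.c 2 q27 (.c 3 q28 (.c 4 q29 .e)))
noncomputable def t9 : Tr := .c 2 r16 (.c 5 r17 .e)
noncomputable def q30 : Tr := .c 4 (.l 32) .e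
noncomputable def r18 : Tr := .c 4 q3 (.c 5 q30 .e)
noncomputable def q31 : Tr := .c 4 (.l 15) (.c 5 (.l 33) .e)
noncomputable def q32 : Tr := .c 5 (.l 34) .e
noncomputable def q33 : Tr := .c 5 (.l 35) .e
noncomputable def q34 : Tr := .c 5 (.l 36) .e
noncomputable def r19 : Tr := .c 1 q31 (.c 2 q32 (.c 3 q33 (.c 4 q34 .e)))
noncomputable def t10 : Tr := .c 1 r18 (.c 5 r19 .e)
noncomputable def q35 : Tr := .c 3 (.l 37) (.c 5 (.l 38) .e)
noncomputable def q36 : Tr := .c 3 (.l 39) .e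
noncomputable def r20 : Tr := .c 2 q35 (.c 5 q36 .e)
noncomputable def q37 : Tr := .c 5 (.l 40) .e
noncomputable def q38 : Tr := .c 3 (.l 41) (.c 5 (.l 40) .e)
noncomputable def r21 : Tr := .c 0 q37 (.c 1 q37 (.c 2 q38 (.c 3 q37 (.c 4 q37 .e))))
noncomputable def t11 : Tr := .c 3 r20 (.c 5 r21 .e)
noncomputable def q39 : Tr := .c 3 (.l 42) .e
noncomputable def r22 : Tr := .c 5 q39 .e
noncomputable def q40 : Tr := .c 5 (.l 43) .e
noncomputable def r23 : Tr := .c 4 q40 (.c 5 q39 .e)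
noncomputable def q41 : Tr := .c 5 (.l 44) .e
noncomputable def r24 : Tr := .c 3 q41 (.c 5 q39 .e)
noncomputable def q42 : Tr := .c 3 (.l 45) (.c 5 (.l 46) .e)
noncomputable def r25 : Tr := .c 2 q42 (.c 5 q39 .e)
noncomputable def q43 : Tr := .c 5 (.l 47) .e
noncomputable def r26 : Tr := .c 1 q43 (.c 5 q39 .e)
noncomputable def t12 : Tr := .c 0 r22 (.c 1 r23 (.c 2 r24 (.c 3 r25 (.c 4 r26 .e))))
noncomputable def q44 : Tr := .c 3 (.l 48) .e
noncomputable def r27 : Tr := .c 2 q44 .e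
noncomputable def t13 : Tr := .c 5 r27 .e
noncomputable def q45 : Tr := .c 3 (.l 49) .e
noncomputable def r28 : Tr := .c 1 q0 (.c 5 q45 .e)
noncomputable def q46 : Tr := .c 5 (.l 50) .e
noncomputable def q47 : Tr := .c 3 (.l 48) (.c 5 (.l 51) .e)
noncomputable def q48 : Tr := .c 5 (.l 52) .e
noncomputable def q49 : Tr := .c 5 (.l 53) .e
noncomputable def r29 : Tr := .c 1 q46 (.c 2 q47 (.c 3 q48 (.c 4 q49 .e)))
noncomputable def t14 : Tr := .c 4 r28 (.c 5 r29 .e)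
noncomputable def q50 : Tr := .c 3 (.l 54) (.c 5 (.l 1) .e)
noncomputable def q51 : Tr := .c 3 (.l 55) .e
noncomputable def r30 : Tr := .c 2 q50 (.c 5 q51 .e)
noncomputable def q52 : Tr := .c 5 (.l 56) .e
noncomputable def q53 : Tr := .c 3 (.l 48) (.c 5 (.l 57) .e)
noncomputable def q54 : Tr := .c 5 (.l 58) .e
noncomputable def q55 : Tr := .c 5 (.l 59) .e
noncomputable def r31 : Tr := .c 1 q52 (.c 2 q53 (.c 3 q54 (.c 4 q55 .e)))
noncomputable def t15 : Tr := .c 3 r30 (.c 5 r31 .e)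
noncomputable def q56 : Tr := .c 3 (.l 60) .e
noncomputable def r32 : Tr := .c 3 q2 (.c 5 q56 .e)
noncomputable def q57 : Tr := .c 5 (.l 61) .e
noncomputable def q58 : Tr := .c 3 (.l 48) (.c 5 (.l 62) .e)
noncomputable def q59 : Tr := .c 5 (.l 63) .e
noncomputable def q60 : Tr := .c 5 (.l 64) .e
noncomputable def r33 : Tr := .c 1 q57 (.c 2 q58 (.c 3 q59 (.c 4 q60 .e)))
noncomputable def t16 : Tr := .c 2 r32 (.c 5 r33 .e)
noncomputable def q61 : Tr := .c 3 (.l 65) .e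
noncomputable def r34 : Tr := .c 4 q3 (.c 5 q61 .e)
noncomputable def q62 : Tr := .c 5 (.l 66) .e
noncomputable def q63 : Tr := .c 3 (.l 48) (.c 5 (.l 67) .e)
noncomputable def q64 : Tr := .c 5 (.l 68) .e
noncomputable def q65 : Tr := .c 5 (.l 69) .e
noncomputable def r35 : Tr := .c 1 q62 (.c 2 q63 (.c 3 q64 (.c 4 q65 .e)))
noncomputable def t17 : Tr := .c 1 r34 (.c 5 r35 .e)
noncomputable def q66 : Tr := .c 2 (.l 70) (.c 5 (.l 71) .e)
noncomputable def q67 : Tr := .c 2 (.l 72) .e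
noncomputable def r36 : Tr := .c 3 q66 (.c 5 q67 .e)
noncomputable def q68 : Tr := .c 5 (.l 73) .e
noncomputable def q69 : Tr := .c 2 (.l 74) (.c 5 (.l 73) .e)
noncomputable def r37 : Tr := .c 0 q68 (.c 1 q68 (.c 2 q68 (.c 3 q69 (.c 4 q68 .e))))
noncomputable def t18 : Tr := .c 2 r36 (.c 5 r37 .e)
noncomputable def q70 : Tr := .c 2 (.l 75) .e
noncomputable def r38 : Tr := .c 5 q70 .e
noncomputable def q71 : Tr := .c 5 (.l 76) .e
noncomputable def r39 : Tr := .c 4 q71 (.c 5 q70 .e)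
noncomputable def q72 : Tr := .c 2 (.l 77) (.c 5 (.l 78) .e)
noncomputable def r40 : Tr := .c 3 q72 (.c 5 q70 .e)
noncomputable def q73 : Tr := .c 5 (.l 79) .e
noncomputable def r41 : Tr := .c 2 q73 (.c 5 q70 .e)
noncomputable def q74 : Tr := .c 5 (.l 80) .e
noncomputable def r42 : Tr := .c 1 q74 (.c 5 q70 .e)
noncomputable def t19 : Tr := .c 0 r38 (.c 1 r39 (.c 2 r40 (.c 3 r41 (.c 4 r42 .e))))
noncomputable def q75 : Tr := .c 2 (.l 81) .e
noncomputable def r43 : Tr := .c 3 q75 .e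
noncomputable def t20 : Tr := .c 5 r43 .e
noncomputable def q76 : Tr := .c 2 (.l 82) .e
noncomputable def r44 : Tr := .c 1 q0 (.c 5 q76 .e)
noncomputable def q77 : Tr := .c 5 (.l 83) .e
noncomputable def q78 : Tr := .c 5 (.l 84) .e
noncomputable def q79 : Tr := .c 2 (.l 81) (.c 5 (.l 85) .e)
noncomputable def q80 : Tr := .c 5 (.l 86) .e
noncomputable def r45 : Tr := .c 1 q77 (.c 2 q78 (.c 3 q79 (.c 4 q80 .e)))
noncomputable def t21 : Tr := .c 4 r44 (.c 5 r45 .e)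
noncomputable def q81 : Tr := .c 2 (.l 87) .e
noncomputable def r46 : Tr := .c 2 q1 (.c 5 q81 .e)
noncomputable def q82 : Tr := .c 5 (.l 88) .e
noncomputable def q83 : Tr := .c 5 (.l 89) .e
noncomputable def q84 : Tr := .c 2 (.l 81) (.c 5 (.l 90) .e)
noncomputable def q85 : Tr := .c 5 (.l 91) .e
noncomputable def r47 : Tr := .c 1 q82 (.c 2 q83 (.c 3 q84 (.c 4 q85 .e)))
noncomputable def t22 : Tr := .c 3 r46 (.c 5 r47 .e)
noncomputable def q86 : Tr := .c 2 (.l 92) (.c 5 (.l 2) .e)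
noncomputable def q87 : Tr := .c 2 (.l 93) .e
noncomputable def r48 : Tr := .c 3 q86 (.c 5 q87 .e)
noncomputable def q88 : Tr := .c 5 (.l 94) .e
noncomputable def q89 : Tr := .c 5 (.l 95) .e
noncomputable def q90 : Tr := .c 2 (.l 81) (.c 5 (.l 96) .e)
noncomputable def q91 : Tr := .c 5 (.l 97) .e
noncomputable def r49 : Tr := .c 1 q88 (.c 2 q89 (.c 3 q90 (.c 4 q91 .e)))
noncomputable def t23 : Tr := .c 2 r48 (.c 5 r49 .e)
noncomputable def q92 : Tr := .c 2 (.l 98) .e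
noncomputable def r50 : Tr := .c 4 q3 (.c 5 q92 .e)
noncomputable def q93 : Tr := .c 5 (.l 99) .e
noncomputable def q94 : Tr := .c 5 (.l 100) .e
noncomputable def q95 : Tr := .c 2 (.l 81) (.c 5 (.l 101) .e)
noncomputable def q96 : Tr := .c 5 (.l 102) .e
noncomputable def r51 : Tr := .c 1 q93 (.c 2 q94 (.c 3 q95 (.c 4 q96 .e)))
noncomputable def t24 : Tr := .c 1 r50 (.c 5 r51 .e)
noncomputable def q97 : Tr := .c 1 (.l 103) (.c 5 (.l 104) .e)
noncomputable def q98 : Tr := .c 1 (.l 105) .e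
noncomputable def r52 : Tr := .c 4 q97 (.c 5 q98 .e)
noncomputable def q99 : Tr := .c 5 (.l 106) .e
noncomputable def q100 : Tr := .c 1 (.l 107) (.c 5 (.l 106) .e)
noncomputable def r53 : Tr := .c 0 q99 (.c 1 q99 (.c 2 q99 (.c 3 q99 (.c 4 q100 .e))))
noncomputable def t25 : Tr := .c 1 r52 (.c 5 r53 .e)
noncomputable def q101 : Tr := .c 1 (.l 108) .e
noncomputable def r54 : Tr := .c 5 q101 .e
noncomputable def q102 : Tr := .c 1 (.l 109) (.c 5 (.l 110) .e)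
noncomputable def r55 : Tr := .c 4 q102 (.c 5 q101 .e)
noncomputable def q103 : Tr := .c 5 (.l 111) .e
noncomputable def r56 : Tr := .c 3 q103 (.c 5 q101 .e)
noncomputable def q104 : Tr := .c 5 (.l 112) .e
noncomputable def r57 : Tr := .c 2 q104 (.c 5 q101 .e)
noncomputable def q105 : Tr := .c 5 (.l 113) .e
noncomputable def r58 : Tr := .c 1 q105 (.c 5 q101 .e)
noncomputable def t26 : Tr := .c 0 r54 (.c 1 r55 (.c 2 r56 (.c 3 r57 (.c 4 r58 .e))))
noncomputable def q106 : Tr := .c 1 (.l 114) .e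
noncomputable def r59 : Tr := .c 4 q106 .e
noncomputable def t27 : Tr := .c 5 r59 .e
noncomputable def q107 : Tr := .c 1 (.l 115) .e
noncomputable def r60 : Tr := .c 1 q0 (.c 5 q107 .e)
noncomputable def q108 : Tr := .c 5 (.l 116) .e
noncomputable def q109 : Tr := .c 5 (.l 117) .e
noncomputable def q110 : Tr := .c 5 (.l 118) .e
noncomputable def q111 : Tr := .c 1 (.l 114) (.c 5 (.l 119) .e)
noncomputable def r61 : Tr := .c 1 q108 (.c 2 q109 (.c 3 q110 (.c 4 q111 .e)))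
noncomputable def t28 : Tr := .c 4 r60 (.c 5 r61 .e)
noncomputable def q112 : Tr := .c 1 (.l 120) .e
noncomputable def r62 : Tr := .c 2 q1 (.c 5 q112 .e)
noncomputable def q113 : Tr := .c 5 (.l 121) .e
noncomputable def q114 : Tr := .c 5 (.l 122) .e
noncomputable def q115 : Tr := .c 5 (.l 123) .e
noncomputable def q116 : Tr := .c 1 (.l 114) (.c 5 (.l 124) .e)
noncomputable def r63 : Tr := .c 1 q113 (.c 2 q114 (.c 3 q115 (.c 4 q116 .e)))
noncomputable def t29 : Tr := .c 3 r62 (.c 5 r63 .e)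
noncomputable def q117 : Tr := .c 1 (.l 125) .e
noncomputable def r64 : Tr := .c 3 q2 (.c 5 q117 .e)
noncomputable def q118 : Tr := .c 5 (.l 126) .e
noncomputable def q119 : Tr := .c 5 (.l 127) .e
noncomputable def q120 : Tr := .c 5 (.l 128) .e
noncomputable def q121 : Tr := .c 1 (.l 114) (.c 5 (.l 129) .e)
noncomputable def r65 : Tr := .c 1 q118 (.c 2 q119 (.c 3 q120 (.c 4 q121 .e)))
noncomputable def t30 : Tr := .c 2 r64 (.c 5 r65 .e)
noncomputable def q122 : Tr := .c 1 (.l 130) (.c 5 (.l 3) .e)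
noncomputable def q123 : Tr := .c 1 (.l 131) .e
noncomputable def r66 : Tr := .c 4 q122 (.c 5 q123 .e)
noncomputable def q124 : Tr := .c 5 (.l 132) .e
noncomputable def q125 : Tr := .c 5 (.l 133) .e
noncomputable def q126 : Tr := .c 5 (.l 134) .e
noncomputable def q127 : Tr := .c 1 (.l 114) (.c 5 (.l 135) .e)
noncomputable def r67 : Tr := .c 1 q124 (.c 2 q125 (.c 3 q126 (.c 4 q127 .e)))
noncomputable def t31 : Tr := .c 1 r66 (.c 5 r67 .e)
noncomputable def q128 : Tr := .c 1 (.l 136) .e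
noncomputable def r68 : Tr := .c 4 q128 .e
noncomputable def q129 : Tr := .c 2 (.l 137) .e
noncomputable def r69 : Tr := .c 3 q129 .e
noncomputable def q130 : Tr := .c 3 (.l 138) .e
noncomputable def r70 : Tr := .c 2 q130 .e
noncomputable def q131 : Tr := .c 4 (.l 139) .e
noncomputable def r71 : Tr := .c 1 q131 .e
noncomputable def t32 : Tr := .c 1 r68 (.c 2 r69 (.c 3 r70 (.c 4 r71 .e)))
noncomputable def q132 : Tr := .c 1 (.l 140) .e
noncomputable def q133 : Tr := .c 0 (.l 141) (.c 1 (.l 141) (.c 2 (.l 141) (.c 3 (.l 141) (.c 4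
(.l 141) .e))))
noncomputable def r72 : Tr := .c 4 q132 (.c 5 q133 .e)
noncomputable def q134 : Tr := .c 4 (.l 142) .e
noncomputable def q135 : Tr := .c 3 (.l 143) .e
noncomputable def q136 : Tr := .c 2 (.l 144) .e
noncomputable def q137 : Tr := .c 1 (.l 145) .e
noncomputable def r73 : Tr := .c 1 q134 (.c 2 q135 (.c 3 q136 (.c 4 q137 .e)))
noncomputable def t33 : Tr := .c 1 r72 (.c 5 r73 .e)
noncomputable def q138 : Tr := .c 1 (.l 146) (.c 2 (.l 147) (.c 3 (.l 148) (.c 4 (.l 149) .e)))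
noncomputable def r74 : Tr := .c 4 q128 (.c 5 q138 .e)
noncomputable def q139 : Tr := .c 1 (.l 150) (.c 2 (.l 151) (.c 3 (.l 152) (.c 4 (.l 153) .e)))
noncomputable def r75 : Tr := .c 3 q129 (.c 5 q139 .e)
noncomputable def q140 : Tr := .c 1 (.l 154) (.c 2 (.l 155) (.c 3 (.l 156) (.c 4 (.l 157) .e)))
noncomputable def r76 : Tr := .c 2 q130 (.c 5 q140 .e)
noncomputable def q141 : Tr := .c 1 (.l 158) (.c 2 (.l 159) (.c 3 (.l 160) (.c 4 (.l 161) .e)))
noncomputable def r77 : Tr := .c 1 q131 (.c 5 q141 .e)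
noncomputable def t34 : Tr := .c 1 r74 (.c 2 r75 (.c 3 r76 (.c 4 r77 .e)))
noncomputable def q142 : Tr := .c 2 (.l 162) .e
noncomputable def q143 : Tr := .c 0 (.l 163) (.c 1 (.l 163) (.c 2 (.l 163) (.c 3 (.l 163) (.c 4
(.l 163) .e))))
noncomputable def r78 : Tr := .c 3 q142 (.c 5 q143 .e)
noncomputable def q144 : Tr := .c 4 (.l 164) .e
noncomputable def q145 : Tr := .c 3 (.l 165) .e
noncomputable def q146 : Tr := .c 2 (.l 166) .e
noncomputable def q147 : Tr := .c 1 (.l 167) .e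
noncomputable def r79 : Tr := .c 1 q144 (.c 2 q145 (.c 3 q146 (.c 4 q147 .e)))
noncomputable def t35 : Tr := .c 2 r78 (.c 5 r79 .e)
noncomputable def q148 : Tr := .c 1 (.l 168) (.c 2 (.l 169) (.c 3 (.l 170) (.c 4 (.l 171) .e)))
noncomputable def r80 : Tr := .c 4 q128 (.c 5 q148 .e)
noncomputable def q149 : Tr := .c 1 (.l 172) (.c 2 (.l 173) (.c 3 (.l 174) (.c 4 (.l 175) .e)))
noncomputable def r81 : Tr := .c 3 q129 (.c 5 q149 .e)
noncomputable def q150 : Tr := .c 1 (.l 176) (.c 2 (.l 177) (.c 3 (.l 178) (.c 4 (.l 179) .e)))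
noncomputable def r82 : Tr := .c 2 q130 (.c 5 q150 .e)
noncomputable def q151 : Tr := .c 1 (.l 180) (.c 2 (.l 181) (.c 3 (.l 182) (.c 4 (.l 183) .e)))
noncomputable def r83 : Tr := .c 1 q131 (.c 5 q151 .e)
noncomputable def t36 : Tr := .c 1 r80 (.c 2 r81 (.c 3 r82 (.c 4 r83 .e)))
noncomputable def q152 : Tr := .c 3 (.l 184) .e
noncomputable def q153 : Tr := .c 0 (.l 185) (.c 1 (.l 185) (.c 2 (.l 185) (.c 3 (.l 185) (.c 4
(.l 185) .e))))
noncomputable def r84 : Tr := .c 2 q152 (.c 5 q153 .e)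
noncomputable def q154 : Tr := .c 4 (.l 186) .e
noncomputable def q155 : Tr := .c 3 (.l 187) .e
noncomputable def q156 : Tr := .c 2 (.l 188) .e
noncomputable def q157 : Tr := .c 1 (.l 189) .e
noncomputable def r85 : Tr := .c 1 q154 (.c 2 q155 (.c 3 q156 (.c 4 q157 .e)))
noncomputable def t37 : Tr := .c 3 r84 (.c 5 r85 .e)
noncomputable def q158 : Tr := .c 1 (.l 190) (.c 2 (.l 191) (.c 3 (.l 192) (.c 4 (.l 193) .e)))
noncomputable def r86 : Tr := .c 4 q128 (.c 5 q158 .e)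
noncomputable def q159 : Tr := .c 1 (.l 194) (.c 2 (.l 195) (.c 3 (.l 196) (.c 4 (.l 197) .e)))
noncomputable def r87 : Tr := .c 3 q129 (.c 5 q159 .e)
noncomputable def q160 : Tr := .c 1 (.l 198) (.c 2 (.l 199) (.c 3 (.l 200) (.c 4 (.l 201) .e)))
noncomputable def r88 : Tr := .c 2 q130 (.c 5 q160 .e)
noncomputable def q161 : Tr := .c 1 (.l 202) (.c 2 (.l 203) (.c 3 (.l 204) (.c 4 (.l 205) .e)))
noncomputable def r89 : Tr := .c 1 q131 (.c 5 q161 .e)
noncomputable def t38 : Tr := .c 1 r86 (.c 2 r87 (.c 3 r88 (.c 4 r89 .e)))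
noncomputable def q162 : Tr := .c 4 (.l 206) .e
noncomputable def q163 : Tr := .c 0 (.l 207) (.c 1 (.l 207) (.c 2 (.l 207) (.c 3 (.l 207) (.c 4
(.l 207) .e))))
noncomputable def r90 : Tr := .c 1 q162 (.c 5 q163 .e)
noncomputable def q164 : Tr := .c 4 (.l 208) .e
noncomputable def q165 : Tr := .c 3 (.l 209) .e
noncomputable def q166 : Tr := .c 2 (.l 210) .e
noncomputable def q167 : Tr := .c 1 (.l 211) .e
noncomputable def r91 : Tr := .c 1 q164 (.c 2 q165 (.c 3 q166 (.c 4 q167 .e)))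
noncomputable def t39 : Tr := .c 4 r90 (.c 5 r91 .e)
noncomputable def q168 : Tr := .c 1 (.l 212) (.c 2 (.l 213) (.c 3 (.l 214) (.c 4 (.l 215) .e)))
noncomputable def r92 : Tr := .c 4 q128 (.c 5 q168 .e)
noncomputable def q169 : Tr := .c 1 (.l 216) (.c 2 (.l 217) (.c 3 (.l 218) (.c 4 (.l 219) .e)))
noncomputable def r93 : Tr := .c 3 q129 (.c 5 q169 .e)
noncomputable def q170 : Tr := .c 1 (.l 220) (.c 2 (.l 221) (.c 3 (.l 222) (.c 4 (.l 223) .e)))
noncomputable def r94 : Tr := .c 2 q130 (.c 5 q170 .e)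
noncomputable def q171 : Tr := .c 1 (.l 224) (.c 2 (.l 225) (.c 3 (.l 226) (.c 4 (.l 227) .e)))
noncomputable def r95 : Tr := .c 1 q131 (.c 5 q171 .e)
noncomputable def t40 : Tr := .c 1 r92 (.c 2 r93 (.c 3 r94 (.c 4 r95 .e)))

/-- the diagram -/
noncomputable def T : Tr := (.c 0 (.c 5 (.c 1 t0 (.c 2 t1 (.c 3 t2 (.c 4 t3 .e)))) .e) (.c 1 (.c 4 (.c 1 t4 (.c 5 t5 .e))
(.c 5 (.c 0 t6 (.c 1 t7 (.c 2 t8 (.c 3 t9 (.c 4 t10 .e))))) .e)) (.c 2 (.c 3 (.c 2 t11 (.c 5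
t12 .e)) (.c 5 (.c 0 t13 (.c 1 t14 (.c 2 t15 (.c 3 t16 (.c 4 t17 .e))))) .e)) (.c 3 (.c 2 (.c 3
t18 (.c 5 t19 .e)) (.c 5 (.c 0 t20 (.c 1 t21 (.c 2 t22 (.c 3 t23 (.c 4 t24 .e))))) .e)) (.c 4
(.c 1 (.c 4 t25 (.c 5 t26 .e)) (.c 5 (.c 0 t27 (.c 1 t28 (.c 2 t29 (.c 3 t30 (.c 4 t31 .e)))))
.e)) (.c 5 (.c 0 (.c 5 t32 .e) (.c 1 (.c 4 t33 (.c 5 t34 .e)) (.c 2 (.c 3 t35 (.c 5 t36 .e))
(.c 3 (.c 2 t37 (.c 5 t38 .e)) (.c 4 (.c 1 t39 (.c 5 t40 .e)) .e))))) .e))))))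

theorem chk : chkP 6 10 nb op nbT opT PL T = true := by decide +kernel

end B12

/-! ### 01 02 03 12 14 35 -/

namespace B14

/-- the letters (masks) -/
def L : List ℕ := [3, 5, 9, 6, 18, 40]

/-- the palettes (masks) -/
def P : List ℕ := [3, 5, 9, 6, 18, 40, 7, 11, 19, 13, 41, 22]

/-- neighbours, letters -/
def nb : List ℕ := [32, 48, 24, 36, 38, 27]

/-- antipodes, letters -/
def op : List ℕ := [31, 63, 63, 31, 31, 38]

/-- neighbours, palettes -/
def nbT : List ℕ := [32, 48, 2072, 1060, 1574, 2395, 1056, 2048, 1568, 2320, 2392, 1700]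

/-- antipodes, palettes -/
def opT : List ℕ := [4063, 4095, 2047, 3039, 2527, 1702, 4063, 4095, 4063, 4079, 4071, 4059]

/-- the letters of the palettes -/
def PL : List (List ℕ) := [[0], [1], [2], [3], [4], [5], [0, 1, 3], [0, 2], [0, 4], [1, 2], [2, 5], [3, 4]]

noncomputable def q0 : Tr := .c 5 (.l 0) .e
noncomputable def r0 : Tr := .c 1 q0 .e
noncomputable def t0 : Tr := .c 4 r0 .e
noncomputable def q1 : Tr := .c 4 (.l 1) (.c 5 (.l 2) .e)
noncomputable def q2 : Tr := .c 4 (.l 1) .e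
noncomputable def r1 : Tr := .c 1 q1 (.c 2 q2 .e)
noncomputable def q3 : Tr := .c 5 (.l 3) .e
noncomputable def q4 : Tr := .c 4 (.l 4) (.c 5 (.l 3) .e)
noncomputable def r2 : Tr := .c 0 q3 (.c 1 q4 (.c 3 q3 (.c 4 q3 .e)))
noncomputable def t1 : Tr := .c 4 r1 (.c 5 r2 .e)
noncomputable def r3 : Tr := .c 2 q2 .e
noncomputable def t2 : Tr := .c 3 r3 (.c 4 r1 .e)
noncomputable def q5 : Tr := .c 5 (.l 5) .e
noncomputable def r4 : Tr := .c 4 q5 .e
noncomputable def q6 : Tr := .c 5 (.l 2) .e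
noncomputable def r5 : Tr := .c 1 q6 .e
noncomputable def t3 : Tr := .c 1 r4 (.c 4 r5 .e)
noncomputable def q7 : Tr := .c 4 (.l 6) .e
noncomputable def r6 : Tr := .c 1 q7 .e
noncomputable def t4 : Tr := .c 5 r6 .e
noncomputable def q8 : Tr := .c 4 (.l 7) (.c 5 (.l 0) .e)
noncomputable def q9 : Tr := .c 4 (.l 7) .e
noncomputable def r7 : Tr := .c 1 q8 (.c 2 q9 (.c 5 q9 .e))
noncomputable def q10 : Tr := .c 4 (.l 6) (.c 5 (.l 8) .e)
noncomputable def r8 : Tr := .c 1 q10 .e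
noncomputable def t5 : Tr := .c 4 r7 (.c 5 r8 .e)
noncomputable def q11 : Tr := .c 4 (.l 9) .e
noncomputable def r9 : Tr := .c 5 q11 .e
noncomputable def t6 : Tr := .c 1 r9 (.c 5 r6 .e)
noncomputable def q12 : Tr := .c 3 (.l 1) (.c 4 (.l 1) .e)
noncomputable def r10 : Tr := .c 2 q12 .e
noncomputable def r11 : Tr := .c 1 q2 (.c 2 q12 .e)
noncomputable def t7 : Tr := .c 3 r10 (.c 4 r11 .e)
noncomputable def q13 : Tr := .c 4 (.l 4) .e
noncomputable def r12 : Tr := .c 1 q13 .e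
noncomputable def t8 : Tr := .c 4 r11 (.c 5 r12 .e)
noncomputable def q14 : Tr := .c 2 (.l 8) .e
noncomputable def r13 : Tr := .c 3 q14 (.c 4 q14 .e)
noncomputable def t9 : Tr := .c 2 r13 .e
noncomputable def r14 : Tr := .c 4 q14 .e
noncomputable def t10 : Tr := .c 1 r14 (.c 2 r13 .e)
noncomputable def q15 : Tr := .c 1 (.l 8) (.c 2 (.l 8) .e)
noncomputable def q16 : Tr := .c 1 (.l 10) .e
noncomputable def r15 : Tr := .c 4 q15 (.c 5 q16 .e)
noncomputable def r16 : Tr := .c 3 q14 (.c 4 q15 .e)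
noncomputable def t11 : Tr := .c 1 r15 (.c 2 r16 .e)
noncomputable def q17 : Tr := .c 1 (.l 11) .e
noncomputable def r17 : Tr := .c 5 q17 .e
noncomputable def q18 : Tr := .c 1 (.l 12) (.c 2 (.l 12) (.c 5 (.l 12) .e))
noncomputable def r18 : Tr := .c 4 q18 (.c 5 q17 .e)
noncomputable def q19 : Tr := .c 5 (.l 13) .e
noncomputable def r19 : Tr := .c 1 q19 (.c 5 q17 .e)
noncomputable def t12 : Tr := .c 0 r17 (.c 1 r18 (.c 3 r17 (.c 4 r19 .e)))
noncomputable def t13 : Tr := .c 2 r16 .e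
noncomputable def q20 : Tr := .c 1 (.l 14) .e
noncomputable def r20 : Tr := .c 1 q0 (.c 5 q20 .e)
noncomputable def t14 : Tr := .c 4 r20 .e
noncomputable def r21 : Tr := .c 5 q16 .e
noncomputable def t15 : Tr := .c 1 r21 .e
noncomputable def q21 : Tr := .c 1 (.l 15) .e
noncomputable def r22 : Tr := .c 4 q21 .e
noncomputable def t16 : Tr := .c 1 r22 .e
noncomputable def q22 : Tr := .c 1 (.l 16) .e
noncomputable def q23 : Tr := .c 0 (.l 17) (.c 1 (.l 17) (.c 3 (.l 17) (.c 4 (.l 17) .e)))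
noncomputable def r23 : Tr := .c 4 q22 (.c 5 q23 .e)
noncomputable def r24 : Tr := .c 4 q22 .e
noncomputable def q24 : Tr := .c 4 (.l 18) .e
noncomputable def r25 : Tr := .c 1 q24 (.c 4 q22 .e)
noncomputable def t17 : Tr := .c 1 r23 (.c 2 r24 (.c 5 r25 .e))
noncomputable def q25 : Tr := .c 1 (.l 1) .e
noncomputable def r26 : Tr := .c 4 q21 (.c 5 q25 .e)
noncomputable def t18 : Tr := .c 1 r26 .e
noncomputable def q26 : Tr := .c 1 (.l 19) .e
noncomputable def r27 : Tr := .c 1 q13 (.c 4 q26 .e)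
noncomputable def t19 : Tr := .c 5 r27 .e

/-- the diagram -/
noncomputable def T : Tr := (.c 0 (.c 5 (.c 1 t0 .e) .e) (.c 1 (.c 4 (.c 1 t1 (.c 2 t2 (.c 5 t3 .e))) (.c 5 (.c 0 t4 (.c 1
t5 (.c 3 t4 (.c 4 t6 .e)))) .e)) (.c 2 (.c 3 (.c 2 t7 .e) (.c 4 (.c 1 t8 (.c 2 t7 .e)) .e)) (.c
3 (.c 2 (.c 3 t9 (.c 4 t10 .e)) (.c 5 (.c 1 t0 .e) .e)) (.c 4 (.c 1 (.c 4 t11 (.c 5 t12 .e))
(.c 2 (.c 3 t13 (.c 4 t11 .e)) (.c 5 (.c 1 t14 (.c 4 t15 .e)) .e))) (.c 5 (.c 0 (.c 5 t16 .e)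
(.c 1 (.c 4 t17 (.c 5 t18 .e)) (.c 3 (.c 5 t16 .e) (.c 4 (.c 1 t19 (.c 5 t16 .e)) .e))))
.e))))))

theorem chk : chkP 6 12 nb op nbT opT PL T = true := by decide +kernel

end B14

/-! ### 01 02 03 12 13 23 45 -/

namespace B23

/-- the letters (masks) -/
def L : List ℕ := [3, 5, 9, 6, 10, 12, 48]

/-- the palettes (masks) -/
def P : List ℕ := [3, 5, 9, 6, 10, 12, 48, 7, 11, 13, 14]

/-- neighbours, letters -/
def nb : List ℕ := [96, 80, 72, 68, 66, 65, 63]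

/-- antipodes, letters -/
def op : List ℕ := [127, 127, 127, 127, 127, 127, 127]

/-- neighbours, palettes -/
def nbT : List ℕ := [96, 80, 72, 68, 66, 65, 1983, 64, 64, 64, 64]

/-- antipodes, palettes -/
def opT : List ℕ := [2047, 2047, 2047, 2047, 2047, 2047, 127, 1983, 1983, 1983, 1983]

/-- the letters of the palettes -/
def PL : List (List ℕ) := [[0], [1], [2], [3], [4], [5], [6], [0, 1, 3], [0, 2, 4], [1, 2, 5], [3, 4, 5]]

noncomputable def q0 : Tr := .c 5 (.l 0) (.c 6 (.l 1) .e)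
noncomputable def q1 : Tr := .c 5 (.l 2) .e
noncomputable def r0 : Tr := .c 0 q0 (.c 6 q1 .e)
noncomputable def q2 : Tr := .c 5 (.l 3) (.c 6 (.l 4) .e)
noncomputable def q3 : Tr := .c 6 (.l 4) .e
noncomputable def r1 : Tr := .c 0 q2 (.c 1 q3 (.c 2 q3 (.c 3 q3 (.c 4 q3 (.c 5 q3 .e)))))
noncomputable def t0 : Tr := .c 5 r0 (.c 6 r1 .e)
noncomputable def q4 : Tr := .c 6 (.l 5) .e
noncomputable def q5 : Tr := .c 5 (.l 6) .e
noncomputable def r2 : Tr := .c 5 q4 (.c 6 q5 .e)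
noncomputable def q6 : Tr := .c 6 (.l 7) .e
noncomputable def r3 : Tr := .c 4 q6 (.c 6 q5 .e)
noncomputable def q7 : Tr := .c 6 (.l 8) .e
noncomputable def r4 : Tr := .c 3 q7 (.c 6 q5 .e)
noncomputable def q8 : Tr := .c 6 (.l 9) .e
noncomputable def r5 : Tr := .c 2 q8 (.c 6 q5 .e)
noncomputable def q9 : Tr := .c 6 (.l 10) .e
noncomputable def r6 : Tr := .c 1 q9 (.c 6 q5 .e)
noncomputable def q10 : Tr := .c 5 (.l 11) (.c 6 (.l 12) .e)
noncomputable def r7 : Tr := .c 0 q10 (.c 6 q5 .e)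
noncomputable def t1 : Tr := .c 0 r2 (.c 1 r3 (.c 2 r4 (.c 3 r5 (.c 4 r6 (.c 5 r7 .e)))))
noncomputable def q11 : Tr := .c 5 (.l 13) (.c 6 (.l 14) .e)
noncomputable def q12 : Tr := .c 5 (.l 15) .e
noncomputable def r8 : Tr := .c 0 q11 (.c 6 q12 .e)
noncomputable def q13 : Tr := .c 5 (.l 16) (.c 6 (.l 17) .e)
noncomputable def q14 : Tr := .c 6 (.l 18) .e
noncomputable def q15 : Tr := .c 6 (.l 19) .e
noncomputable def q16 : Tr := .c 6 (.l 20) .e
noncomputable def q17 : Tr := .c 6 (.l 21) .e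
noncomputable def q18 : Tr := .c 6 (.l 22) .e
noncomputable def r9 : Tr := .c 0 q13 (.c 1 q14 (.c 2 q15 (.c 3 q16 (.c 4 q17 (.c 5 q18 .e)))))
noncomputable def t2 : Tr := .c 5 r8 (.c 6 r9 .e)
noncomputable def q19 : Tr := .c 6 (.l 23) .e
noncomputable def q20 : Tr := .c 5 (.l 24) .e
noncomputable def r10 : Tr := .c 1 q19 (.c 6 q20 .e)
noncomputable def q21 : Tr := .c 5 (.l 16) (.c 6 (.l 25) .e)
noncomputable def q22 : Tr := .c 6 (.l 26) .e
noncomputable def q23 : Tr := .c 6 (.l 27) .e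
noncomputable def q24 : Tr := .c 6 (.l 28) .e
noncomputable def q25 : Tr := .c 6 (.l 29) .e
noncomputable def q26 : Tr := .c 6 (.l 30) .e
noncomputable def r11 : Tr := .c 0 q21 (.c 1 q22 (.c 2 q23 (.c 3 q24 (.c 4 q25 (.c 5 q26 .e)))))
noncomputable def t3 : Tr := .c 4 r10 (.c 6 r11 .e)
noncomputable def q27 : Tr := .c 6 (.l 31) .e
noncomputable def q28 : Tr := .c 5 (.l 32) .e
noncomputable def r12 : Tr := .c 2 q27 (.c 6 q28 .e)
noncomputable def q29 : Tr := .c 5 (.l 16) (.c 6 (.l 33) .e)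
noncomputable def q30 : Tr := .c 6 (.l 34) .e
noncomputable def q31 : Tr := .c 6 (.l 35) .e
noncomputable def q32 : Tr := .c 6 (.l 36) .e
noncomputable def q33 : Tr := .c 6 (.l 37) .e
noncomputable def q34 : Tr := .c 6 (.l 38) .e
noncomputable def r13 : Tr := .c 0 q29 (.c 1 q30 (.c 2 q31 (.c 3 q32 (.c 4 q33 (.c 5 q34 .e)))))
noncomputable def t4 : Tr := .c 3 r12 (.c 6 r13 .e)
noncomputable def q35 : Tr := .c 6 (.l 39) .e
noncomputable def q36 : Tr := .c 5 (.l 40) .e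
noncomputable def r14 : Tr := .c 3 q35 (.c 6 q36 .e)
noncomputable def q37 : Tr := .c 5 (.l 16) (.c 6 (.l 41) .e)
noncomputable def q38 : Tr := .c 6 (.l 42) .e
noncomputable def q39 : Tr := .c 6 (.l 43) .e
noncomputable def q40 : Tr := .c 6 (.l 44) .e
noncomputable def q41 : Tr := .c 6 (.l 45) .e
noncomputable def q42 : Tr := .c 6 (.l 46) .e
noncomputable def r15 : Tr := .c 0 q37 (.c 1 q38 (.c 2 q39 (.c 3 q40 (.c 4 q41 (.c 5 q42 .e)))))
noncomputable def t5 : Tr := .c 2 r14 (.c 6 r15 .e)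
noncomputable def q43 : Tr := .c 6 (.l 47) .e
noncomputable def q44 : Tr := .c 5 (.l 48) .e
noncomputable def r16 : Tr := .c 4 q43 (.c 6 q44 .e)
noncomputable def q45 : Tr := .c 5 (.l 16) (.c 6 (.l 49) .e)
noncomputable def q46 : Tr := .c 6 (.l 50) .e
noncomputable def q47 : Tr := .c 6 (.l 51) .e
noncomputable def q48 : Tr := .c 6 (.l 52) .e
noncomputable def q49 : Tr := .c 6 (.l 53) .e
noncomputable def q50 : Tr := .c 6 (.l 54) .e
noncomputable def r17 : Tr := .c 0 q45 (.c 1 q46 (.c 2 q47 (.c 3 q48 (.c 4 q49 (.c 5 q50 .e)))))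
noncomputable def t6 : Tr := .c 1 r16 (.c 6 r17 .e)
noncomputable def q51 : Tr := .c 6 (.l 55) .e
noncomputable def q52 : Tr := .c 5 (.l 56) .e
noncomputable def r18 : Tr := .c 5 q51 (.c 6 q52 .e)
noncomputable def q53 : Tr := .c 5 (.l 16) (.c 6 (.l 57) .e)
noncomputable def q54 : Tr := .c 6 (.l 58) .e
noncomputable def q55 : Tr := .c 6 (.l 59) .e
noncomputable def q56 : Tr := .c 6 (.l 60) .e
noncomputable def q57 : Tr := .c 6 (.l 61) .e
noncomputable def q58 : Tr := .c 6 (.l 62) .e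
noncomputable def r19 : Tr := .c 0 q53 (.c 1 q54 (.c 2 q55 (.c 3 q56 (.c 4 q57 (.c 5 q58 .e)))))
noncomputable def t7 : Tr := .c 0 r18 (.c 6 r19 .e)
noncomputable def q59 : Tr := .c 4 (.l 63) (.c 6 (.l 64) .e)
noncomputable def q60 : Tr := .c 4 (.l 65) .e
noncomputable def r20 : Tr := .c 1 q59 (.c 6 q60 .e)
noncomputable def q61 : Tr := .c 6 (.l 66) .e
noncomputable def q62 : Tr := .c 4 (.l 67) (.c 6 (.l 66) .e)
noncomputable def r21 : Tr := .c 0 q61 (.c 1 q62 (.c 2 q61 (.c 3 q61 (.c 4 q61 (.c 5 q61 .e)))))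
noncomputable def t8 : Tr := .c 4 r20 (.c 6 r21 .e)
noncomputable def q63 : Tr := .c 6 (.l 68) .e
noncomputable def q64 : Tr := .c 4 (.l 69) .e
noncomputable def r22 : Tr := .c 5 q63 (.c 6 q64 .e)
noncomputable def q65 : Tr := .c 6 (.l 70) .e
noncomputable def r23 : Tr := .c 4 q65 (.c 6 q64 .e)
noncomputable def q66 : Tr := .c 6 (.l 71) .e
noncomputable def r24 : Tr := .c 3 q66 (.c 6 q64 .e)
noncomputable def q67 : Tr := .c 6 (.l 72) .e
noncomputable def r25 : Tr := .c 2 q67 (.c 6 q64 .e)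
noncomputable def q68 : Tr := .c 4 (.l 73) (.c 6 (.l 74) .e)
noncomputable def r26 : Tr := .c 1 q68 (.c 6 q64 .e)
noncomputable def q69 : Tr := .c 6 (.l 75) .e
noncomputable def r27 : Tr := .c 0 q69 (.c 6 q64 .e)
noncomputable def t9 : Tr := .c 0 r22 (.c 1 r23 (.c 2 r24 (.c 3 r25 (.c 4 r26 (.c 5 r27 .e)))))
noncomputable def q70 : Tr := .c 6 (.l 14) .e
noncomputable def q71 : Tr := .c 4 (.l 76) .e
noncomputable def r28 : Tr := .c 0 q70 (.c 6 q71 .e)
noncomputable def q72 : Tr := .c 6 (.l 77) .e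
noncomputable def q73 : Tr := .c 4 (.l 78) (.c 6 (.l 79) .e)
noncomputable def q74 : Tr := .c 6 (.l 80) .e
noncomputable def q75 : Tr := .c 6 (.l 81) .e
noncomputable def q76 : Tr := .c 6 (.l 82) .e
noncomputable def q77 : Tr := .c 6 (.l 83) .e
noncomputable def r29 : Tr := .c 0 q72 (.c 1 q73 (.c 2 q74 (.c 3 q75 (.c 4 q76 (.c 5 q77 .e)))))
noncomputable def t10 : Tr := .c 5 r28 (.c 6 r29 .e)
noncomputable def q78 : Tr := .c 4 (.l 84) (.c 6 (.l 23) .e)
noncomputable def q79 : Tr := .c 4 (.l 85) .e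
noncomputable def r30 : Tr := .c 1 q78 (.c 6 q79 .e)
noncomputable def q80 : Tr := .c 6 (.l 86) .e
noncomputable def q81 : Tr := .c 4 (.l 78) (.c 6 (.l 87) .e)
noncomputable def q82 : Tr := .c 6 (.l 88) .e
noncomputable def q83 : Tr := .c 6 (.l 89) .e
noncomputable def q84 : Tr := .c 6 (.l 90) .e
noncomputable def q85 : Tr := .c 6 (.l 91) .e
noncomputable def r31 : Tr := .c 0 q80 (.c 1 q81 (.c 2 q82 (.c 3 q83 (.c 4 q84 (.c 5 q85 .e)))))
noncomputable def t11 : Tr := .c 4 r30 (.c 6 r31 .e)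
noncomputable def q86 : Tr := .c 4 (.l 92) .e
noncomputable def r32 : Tr := .c 2 q27 (.c 6 q86 .e)
noncomputable def q87 : Tr := .c 6 (.l 93) .e
noncomputable def q88 : Tr := .c 4 (.l 78) (.c 6 (.l 94) .e)
noncomputable def q89 : Tr := .c 6 (.l 95) .e
noncomputable def q90 : Tr := .c 6 (.l 96) .e
noncomputable def q91 : Tr := .c 6 (.l 97) .e
noncomputable def q92 : Tr := .c 6 (.l 98) .e
noncomputable def r33 : Tr := .c 0 q87 (.c 1 q88 (.c 2 q89 (.c 3 q90 (.c 4 q91 (.c 5 q92 .e)))))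
noncomputable def t12 : Tr := .c 3 r32 (.c 6 r33 .e)
noncomputable def q93 : Tr := .c 4 (.l 99) .e
noncomputable def r34 : Tr := .c 3 q35 (.c 6 q93 .e)
noncomputable def q94 : Tr := .c 6 (.l 100) .e
noncomputable def q95 : Tr := .c 4 (.l 78) (.c 6 (.l 101) .e)
noncomputable def q96 : Tr := .c 6 (.l 102) .e
noncomputable def q97 : Tr := .c 6 (.l 103) .e
noncomputable def q98 : Tr := .c 6 (.l 104) .e
noncomputable def q99 : Tr := .c 6 (.l 105) .e
noncomputable def r35 : Tr := .c 0 q94 (.c 1 q95 (.c 2 q96 (.c 3 q97 (.c 4 q98 (.c 5 q99 .e)))))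
noncomputable def t13 : Tr := .c 2 r34 (.c 6 r35 .e)
noncomputable def q100 : Tr := .c 4 (.l 106) .e
noncomputable def r36 : Tr := .c 4 q43 (.c 6 q100 .e)
noncomputable def q101 : Tr := .c 6 (.l 107) .e
noncomputable def q102 : Tr := .c 4 (.l 78) (.c 6 (.l 108) .e)
noncomputable def q103 : Tr := .c 6 (.l 109) .e
noncomputable def q104 : Tr := .c 6 (.l 110) .e
noncomputable def q105 : Tr := .c 6 (.l 111) .e
noncomputable def q106 : Tr := .c 6 (.l 112) .e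
noncomputable def r37 : Tr := .c 0 q101 (.c 1 q102 (.c 2 q103 (.c 3 q104 (.c 4 q105 (.c 5 q106
.e)))))
noncomputable def t14 : Tr := .c 1 r36 (.c 6 r37 .e)
noncomputable def q107 : Tr := .c 4 (.l 113) .e
noncomputable def r38 : Tr := .c 5 q51 (.c 6 q107 .e)
noncomputable def q108 : Tr := .c 6 (.l 114) .e
noncomputable def q109 : Tr := .c 4 (.l 78) (.c 6 (.l 115) .e)
noncomputable def q110 : Tr := .c 6 (.l 116) .e
noncomputable def q111 : Tr := .c 6 (.l 117) .e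
noncomputable def q112 : Tr := .c 6 (.l 118) .e
noncomputable def q113 : Tr := .c 6 (.l 119) .e
noncomputable def r39 : Tr := .c 0 q108 (.c 1 q109 (.c 2 q110 (.c 3 q111 (.c 4 q112 (.c 5 q113
.e)))))
noncomputable def t15 : Tr := .c 0 r38 (.c 6 r39 .e)
noncomputable def q114 : Tr := .c 3 (.l 120) (.c 6 (.l 121) .e)
noncomputable def q115 : Tr := .c 3 (.l 122) .e
noncomputable def r40 : Tr := .c 2 q114 (.c 6 q115 .e)
noncomputable def q116 : Tr := .c 6 (.l 123) .e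
noncomputable def q117 : Tr := .c 3 (.l 124) (.c 6 (.l 123) .e)
noncomputable def r41 : Tr := .c 0 q116 (.c 1 q116 (.c 2 q117 (.c 3 q116 (.c 4 q116 (.c 5 q116
.e)))))
noncomputable def t16 : Tr := .c 3 r40 (.c 6 r41 .e)
noncomputable def q118 : Tr := .c 6 (.l 125) .e
noncomputable def q119 : Tr := .c 3 (.l 126) .e
noncomputable def r42 : Tr := .c 5 q118 (.c 6 q119 .e)
noncomputable def q120 : Tr := .c 6 (.l 127) .e
noncomputable def r43 : Tr := .c 4 q120 (.c 6 q119 .e)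
noncomputable def q121 : Tr := .c 6 (.l 128) .e
noncomputable def r44 : Tr := .c 3 q121 (.c 6 q119 .e)
noncomputable def q122 : Tr := .c 3 (.l 129) (.c 6 (.l 130) .e)
noncomputable def r45 : Tr := .c 2 q122 (.c 6 q119 .e)
noncomputable def q123 : Tr := .c 6 (.l 131) .e
noncomputable def r46 : Tr := .c 1 q123 (.c 6 q119 .e)
noncomputable def q124 : Tr := .c 6 (.l 132) .e
noncomputable def r47 : Tr := .c 0 q124 (.c 6 q119 .e)
noncomputable def t17 : Tr := .c 0 r42 (.c 1 r43 (.c 2 r44 (.c 3 r45 (.c 4 r46 (.c 5 r47 .e)))))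
noncomputable def q125 : Tr := .c 3 (.l 133) .e
noncomputable def r48 : Tr := .c 0 q70 (.c 6 q125 .e)
noncomputable def q126 : Tr := .c 6 (.l 134) .e
noncomputable def q127 : Tr := .c 6 (.l 135) .e
noncomputable def q128 : Tr := .c 3 (.l 136) (.c 6 (.l 137) .e)
noncomputable def q129 : Tr := .c 6 (.l 138) .e
noncomputable def q130 : Tr := .c 6 (.l 139) .e
noncomputable def q131 : Tr := .c 6 (.l 140) .e
noncomputable def r49 : Tr := .c 0 q126 (.c 1 q127 (.c 2 q128 (.c 3 q129 (.c 4 q130 (.c 5 q131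
.e)))))
noncomputable def t18 : Tr := .c 5 r48 (.c 6 r49 .e)
noncomputable def q132 : Tr := .c 3 (.l 141) .e
noncomputable def r50 : Tr := .c 1 q19 (.c 6 q132 .e)
noncomputable def q133 : Tr := .c 6 (.l 142) .e
noncomputable def q134 : Tr := .c 6 (.l 143) .e
noncomputable def q135 : Tr := .c 3 (.l 136) (.c 6 (.l 144) .e)
noncomputable def q136 : Tr := .c 6 (.l 145) .e
noncomputable def q137 : Tr := .c 6 (.l 146) .e
noncomputable def q138 : Tr := .c 6 (.l 147) .e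
noncomputable def r51 : Tr := .c 0 q133 (.c 1 q134 (.c 2 q135 (.c 3 q136 (.c 4 q137 (.c 5 q138
.e)))))
noncomputable def t19 : Tr := .c 4 r50 (.c 6 r51 .e)
noncomputable def q139 : Tr := .c 3 (.l 148) (.c 6 (.l 31) .e)
noncomputable def q140 : Tr := .c 3 (.l 149) .e
noncomputable def r52 : Tr := .c 2 q139 (.c 6 q140 .e)
noncomputable def q141 : Tr := .c 6 (.l 150) .e
noncomputable def q142 : Tr := .c 6 (.l 151) .e
noncomputable def q143 : Tr := .c 3 (.l 136) (.c 6 (.l 152) .e)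
noncomputable def q144 : Tr := .c 6 (.l 153) .e
noncomputable def q145 : Tr := .c 6 (.l 154) .e
noncomputable def q146 : Tr := .c 6 (.l 155) .e
noncomputable def r53 : Tr := .c 0 q141 (.c 1 q142 (.c 2 q143 (.c 3 q144 (.c 4 q145 (.c 5 q146
.e)))))
noncomputable def t20 : Tr := .c 3 r52 (.c 6 r53 .e)
noncomputable def q147 : Tr := .c 3 (.l 156) .e
noncomputable def r54 : Tr := .c 3 q35 (.c 6 q147 .e)
noncomputable def q148 : Tr := .c 6 (.l 157) .e
noncomputable def q149 : Tr := .c 6 (.l 158) .e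
noncomputable def q150 : Tr := .c 3 (.l 136) (.c 6 (.l 159) .e)
noncomputable def q151 : Tr := .c 6 (.l 160) .e
noncomputable def q152 : Tr := .c 6 (.l 161) .e
noncomputable def q153 : Tr := .c 6 (.l 162) .e
noncomputable def r55 : Tr := .c 0 q148 (.c 1 q149 (.c 2 q150 (.c 3 q151 (.c 4 q152 (.c 5 q153
.e)))))
noncomputable def t21 : Tr := .c 2 r54 (.c 6 r55 .e)
noncomputable def q154 : Tr := .c 3 (.l 163) .e
noncomputable def r56 : Tr := .c 4 q43 (.c 6 q154 .e)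
noncomputable def q155 : Tr := .c 6 (.l 164) .e
noncomputable def q156 : Tr := .c 6 (.l 165) .e
noncomputable def q157 : Tr := .c 3 (.l 136) (.c 6 (.l 166) .e)
noncomputable def q158 : Tr := .c 6 (.l 167) .e
noncomputable def q159 : Tr := .c 6 (.l 168) .e
noncomputable def q160 : Tr := .c 6 (.l 169) .e
noncomputable def r57 : Tr := .c 0 q155 (.c 1 q156 (.c 2 q157 (.c 3 q158 (.c 4 q159 (.c 5 q160
.e)))))
noncomputable def t22 : Tr := .c 1 r56 (.c 6 r57 .e)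
noncomputable def q161 : Tr := .c 3 (.l 170) .e
noncomputable def r58 : Tr := .c 5 q51 (.c 6 q161 .e)
noncomputable def q162 : Tr := .c 6 (.l 171) .e
noncomputable def q163 : Tr := .c 6 (.l 172) .e
noncomputable def q164 : Tr := .c 3 (.l 136) (.c 6 (.l 173) .e)
noncomputable def q165 : Tr := .c 6 (.l 174) .e
noncomputable def q166 : Tr := .c 6 (.l 175) .e
noncomputable def q167 : Tr := .c 6 (.l 176) .e
noncomputable def r59 : Tr := .c 0 q162 (.c 1 q163 (.c 2 q164 (.c 3 q165 (.c 4 q166 (.c 5 q167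
.e)))))
noncomputable def t23 : Tr := .c 0 r58 (.c 6 r59 .e)
noncomputable def q168 : Tr := .c 2 (.l 177) (.c 6 (.l 178) .e)
noncomputable def q169 : Tr := .c 2 (.l 179) .e
noncomputable def r60 : Tr := .c 3 q168 (.c 6 q169 .e)
noncomputable def q170 : Tr := .c 6 (.l 180) .e
noncomputable def q171 : Tr := .c 2 (.l 181) (.c 6 (.l 180) .e)
noncomputable def r61 : Tr := .c 0 q170 (.c 1 q170 (.c 2 q170 (.c 3 q171 (.c 4 q170 (.c 5 q170
.e)))))
noncomputable def t24 : Tr := .c 2 r60 (.c 6 r61 .e)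
noncomputable def q172 : Tr := .c 6 (.l 182) .e
noncomputable def q173 : Tr := .c 2 (.l 183) .e
noncomputable def r62 : Tr := .c 5 q172 (.c 6 q173 .e)
noncomputable def q174 : Tr := .c 6 (.l 184) .e
noncomputable def r63 : Tr := .c 4 q174 (.c 6 q173 .e)
noncomputable def q175 : Tr := .c 2 (.l 185) (.c 6 (.l 186) .e)
noncomputable def r64 : Tr := .c 3 q175 (.c 6 q173 .e)
noncomputable def q176 : Tr := .c 6 (.l 187) .e
noncomputable def r65 : Tr := .c 2 q176 (.c 6 q173 .e)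
noncomputable def q177 : Tr := .c 6 (.l 188) .e
noncomputable def r66 : Tr := .c 1 q177 (.c 6 q173 .e)
noncomputable def q178 : Tr := .c 6 (.l 189) .e
noncomputable def r67 : Tr := .c 0 q178 (.c 6 q173 .e)
noncomputable def t25 : Tr := .c 0 r62 (.c 1 r63 (.c 2 r64 (.c 3 r65 (.c 4 r66 (.c 5 r67 .e)))))
noncomputable def q179 : Tr := .c 2 (.l 190) .e
noncomputable def r68 : Tr := .c 0 q70 (.c 6 q179 .e)
noncomputable def q180 : Tr := .c 6 (.l 191) .e
noncomputable def q181 : Tr := .c 6 (.l 192) .e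
noncomputable def q182 : Tr := .c 6 (.l 193) .e
noncomputable def q183 : Tr := .c 2 (.l 194) (.c 6 (.l 195) .e)
noncomputable def q184 : Tr := .c 6 (.l 196) .e
noncomputable def q185 : Tr := .c 6 (.l 197) .e
noncomputable def r69 : Tr := .c 0 q180 (.c 1 q181 (.c 2 q182 (.c 3 q183 (.c 4 q184 (.c 5 q185
.e)))))
noncomputable def t26 : Tr := .c 5 r68 (.c 6 r69 .e)
noncomputable def q186 : Tr := .c 2 (.l 198) .e
noncomputable def r70 : Tr := .c 1 q19 (.c 6 q186 .e)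
noncomputable def q187 : Tr := .c 6 (.l 199) .e
noncomputable def q188 : Tr := .c 6 (.l 200) .e
noncomputable def q189 : Tr := .c 6 (.l 201) .e
noncomputable def q190 : Tr := .c 2 (.l 194) (.c 6 (.l 202) .e)
noncomputable def q191 : Tr := .c 6 (.l 203) .e
noncomputable def q192 : Tr := .c 6 (.l 204) .e
noncomputable def r71 : Tr := .c 0 q187 (.c 1 q188 (.c 2 q189 (.c 3 q190 (.c 4 q191 (.c 5 q192
.e)))))
noncomputable def t27 : Tr := .c 4 r70 (.c 6 r71 .e)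
noncomputable def q193 : Tr := .c 2 (.l 205) .e
noncomputable def r72 : Tr := .c 2 q27 (.c 6 q193 .e)
noncomputable def q194 : Tr := .c 6 (.l 206) .e
noncomputable def q195 : Tr := .c 6 (.l 207) .e
noncomputable def q196 : Tr := .c 6 (.l 208) .e
noncomputable def q197 : Tr := .c 2 (.l 194) (.c 6 (.l 209) .e)
noncomputable def q198 : Tr := .c 6 (.l 210) .e
noncomputable def q199 : Tr := .c 6 (.l 211) .e
noncomputable def r73 : Tr := .c 0 q194 (.c 1 q195 (.c 2 q196 (.c 3 q197 (.c 4 q198 (.c 5 q199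
.e)))))
noncomputable def t28 : Tr := .c 3 r72 (.c 6 r73 .e)
noncomputable def q200 : Tr := .c 2 (.l 212) (.c 6 (.l 39) .e)
noncomputable def q201 : Tr := .c 2 (.l 213) .e
noncomputable def r74 : Tr := .c 3 q200 (.c 6 q201 .e)
noncomputable def q202 : Tr := .c 6 (.l 214) .e
noncomputable def q203 : Tr := .c 6 (.l 215) .e
noncomputable def q204 : Tr := .c 6 (.l 216) .e
noncomputable def q205 : Tr := .c 2 (.l 194) (.c 6 (.l 217) .e)
noncomputable def q206 : Tr := .c 6 (.l 218) .e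
noncomputable def q207 : Tr := .c 6 (.l 219) .e
noncomputable def r75 : Tr := .c 0 q202 (.c 1 q203 (.c 2 q204 (.c 3 q205 (.c 4 q206 (.c 5 q207
.e)))))
noncomputable def t29 : Tr := .c 2 r74 (.c 6 r75 .e)
noncomputable def q208 : Tr := .c 2 (.l 220) .e
noncomputable def r76 : Tr := .c 4 q43 (.c 6 q208 .e)
noncomputable def q209 : Tr := .c 6 (.l 221) .e
noncomputable def q210 : Tr := .c 6 (.l 222) .e
noncomputable def q211 : Tr := .c 6 (.l 223) .e
noncomputable def q212 : Tr := .c 2 (.l 194) (.c 6 (.l 224) .e)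
noncomputable def q213 : Tr := .c 6 (.l 225) .e
noncomputable def q214 : Tr := .c 6 (.l 226) .e
noncomputable def r77 : Tr := .c 0 q209 (.c 1 q210 (.c 2 q211 (.c 3 q212 (.c 4 q213 (.c 5 q214
.e)))))
noncomputable def t30 : Tr := .c 1 r76 (.c 6 r77 .e)
noncomputable def q215 : Tr := .c 2 (.l 227) .e
noncomputable def r78 : Tr := .c 5 q51 (.c 6 q215 .e)
noncomputable def q216 : Tr := .c 6 (.l 228) .e
noncomputable def q217 : Tr := .c 6 (.l 229) .e
noncomputable def q218 : Tr := .c 6 (.l 230) .e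
noncomputable def q219 : Tr := .c 2 (.l 194) (.c 6 (.l 231) .e)
noncomputable def q220 : Tr := .c 6 (.l 232) .e
noncomputable def q221 : Tr := .c 6 (.l 233) .e
noncomputable def r79 : Tr := .c 0 q216 (.c 1 q217 (.c 2 q218 (.c 3 q219 (.c 4 q220 (.c 5 q221
.e)))))
noncomputable def t31 : Tr := .c 0 r78 (.c 6 r79 .e)
noncomputable def q222 : Tr := .c 1 (.l 234) (.c 6 (.l 235) .e)
noncomputable def q223 : Tr := .c 1 (.l 236) .e
noncomputable def r80 : Tr := .c 4 q222 (.c 6 q223 .e)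
noncomputable def q224 : Tr := .c 6 (.l 237) .e
noncomputable def q225 : Tr := .c 1 (.l 238) (.c 6 (.l 237) .e)
noncomputable def r81 : Tr := .c 0 q224 (.c 1 q224 (.c 2 q224 (.c 3 q224 (.c 4 q225 (.c 5 q224
.e)))))
noncomputable def t32 : Tr := .c 1 r80 (.c 6 r81 .e)
noncomputable def q226 : Tr := .c 6 (.l 239) .e
noncomputable def q227 : Tr := .c 1 (.l 240) .e
noncomputable def r82 : Tr := .c 5 q226 (.c 6 q227 .e)
noncomputable def q228 : Tr := .c 1 (.l 241) (.c 6 (.l 242) .e)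
noncomputable def r83 : Tr := .c 4 q228 (.c 6 q227 .e)
noncomputable def q229 : Tr := .c 6 (.l 243) .e
noncomputable def r84 : Tr := .c 3 q229 (.c 6 q227 .e)
noncomputable def q230 : Tr := .c 6 (.l 244) .e
noncomputable def r85 : Tr := .c 2 q230 (.c 6 q227 .e)
noncomputable def q231 : Tr := .c 6 (.l 245) .e
noncomputable def r86 : Tr := .c 1 q231 (.c 6 q227 .e)
noncomputable def q232 : Tr := .c 6 (.l 246) .e
noncomputable def r87 : Tr := .c 0 q232 (.c 6 q227 .e)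
noncomputable def t33 : Tr := .c 0 r82 (.c 1 r83 (.c 2 r84 (.c 3 r85 (.c 4 r86 (.c 5 r87 .e)))))
noncomputable def q233 : Tr := .c 1 (.l 247) .e
noncomputable def r88 : Tr := .c 0 q70 (.c 6 q233 .e)
noncomputable def q234 : Tr := .c 6 (.l 248) .e
noncomputable def q235 : Tr := .c 6 (.l 249) .e
noncomputable def q236 : Tr := .c 6 (.l 250) .e
noncomputable def q237 : Tr := .c 6 (.l 251) .e
noncomputable def q238 : Tr := .c 1 (.l 252) (.c 6 (.l 253) .e)
noncomputable def q239 : Tr := .c 6 (.l 254) .e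
noncomputable def r89 : Tr := .c 0 q234 (.c 1 q235 (.c 2 q236 (.c 3 q237 (.c 4 q238 (.c 5 q239
.e)))))
noncomputable def t34 : Tr := .c 5 r88 (.c 6 r89 .e)
noncomputable def q240 : Tr := .c 1 (.l 255) .e
noncomputable def r90 : Tr := .c 1 q19 (.c 6 q240 .e)
noncomputable def q241 : Tr := .c 6 (.l 256) .e
noncomputable def q242 : Tr := .c 6 (.l 257) .e
noncomputable def q243 : Tr := .c 6 (.l 258) .e
noncomputable def q244 : Tr := .c 6 (.l 259) .e
noncomputable def q245 : Tr := .c 1 (.l 252) (.c 6 (.l 260) .e)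
noncomputable def q246 : Tr := .c 6 (.l 261) .e
noncomputable def r91 : Tr := .c 0 q241 (.c 1 q242 (.c 2 q243 (.c 3 q244 (.c 4 q245 (.c 5 q246
.e)))))
noncomputable def t35 : Tr := .c 4 r90 (.c 6 r91 .e)
noncomputable def q247 : Tr := .c 1 (.l 262) .e
noncomputable def r92 : Tr := .c 2 q27 (.c 6 q247 .e)
noncomputable def q248 : Tr := .c 6 (.l 263) .e
noncomputable def q249 : Tr := .c 6 (.l 264) .e
noncomputable def q250 : Tr := .c 6 (.l 265) .e
noncomputable def q251 : Tr := .c 6 (.l 266) .e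
noncomputable def q252 : Tr := .c 1 (.l 252) (.c 6 (.l 267) .e)
noncomputable def q253 : Tr := .c 6 (.l 268) .e
noncomputable def r93 : Tr := .c 0 q248 (.c 1 q249 (.c 2 q250 (.c 3 q251 (.c 4 q252 (.c 5 q253
.e)))))
noncomputable def t36 : Tr := .c 3 r92 (.c 6 r93 .e)
noncomputable def q254 : Tr := .c 1 (.l 269) .e
noncomputable def r94 : Tr := .c 3 q35 (.c 6 q254 .e)
noncomputable def q255 : Tr := .c 6 (.l 270) .e
noncomputable def q256 : Tr := .c 6 (.l 271) .e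
noncomputable def q257 : Tr := .c 6 (.l 272) .e
noncomputable def q258 : Tr := .c 6 (.l 273) .e
noncomputable def q259 : Tr := .c 1 (.l 252) (.c 6 (.l 274) .e)
noncomputable def q260 : Tr := .c 6 (.l 275) .e
noncomputable def r95 : Tr := .c 0 q255 (.c 1 q256 (.c 2 q257 (.c 3 q258 (.c 4 q259 (.c 5 q260
.e)))))
noncomputable def t37 : Tr := .c 2 r94 (.c 6 r95 .e)
noncomputable def q261 : Tr := .c 1 (.l 276) (.c 6 (.l 47) .e)
noncomputable def q262 : Tr := .c 1 (.l 277) .e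
noncomputable def r96 : Tr := .c 4 q261 (.c 6 q262 .e)
noncomputable def q263 : Tr := .c 6 (.l 278) .e
noncomputable def q264 : Tr := .c 6 (.l 279) .e
noncomputable def q265 : Tr := .c 6 (.l 280) .e
noncomputable def q266 : Tr := .c 6 (.l 281) .e
noncomputable def q267 : Tr := .c 1 (.l 252) (.c 6 (.l 282) .e)
noncomputable def q268 : Tr := .c 6 (.l 283) .e
noncomputable def r97 : Tr := .c 0 q263 (.c 1 q264 (.c 2 q265 (.c 3 q266 (.c 4 q267 (.c 5 q268
.e)))))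
noncomputable def t38 : Tr := .c 1 r96 (.c 6 r97 .e)
noncomputable def q269 : Tr := .c 1 (.l 284) .e
noncomputable def r98 : Tr := .c 5 q51 (.c 6 q269 .e)
noncomputable def q270 : Tr := .c 6 (.l 285) .e
noncomputable def q271 : Tr := .c 6 (.l 286) .e
noncomputable def q272 : Tr := .c 6 (.l 287) .e
noncomputable def q273 : Tr := .c 6 (.l 288) .e
noncomputable def q274 : Tr := .c 1 (.l 252) (.c 6 (.l 289) .e)
noncomputable def q275 : Tr := .c 6 (.l 290) .e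
noncomputable def r99 : Tr := .c 0 q270 (.c 1 q271 (.c 2 q272 (.c 3 q273 (.c 4 q274 (.c 5 q275
.e)))))
noncomputable def t39 : Tr := .c 0 r98 (.c 6 r99 .e)
noncomputable def q276 : Tr := .c 0 (.l 291) (.c 6 (.l 292) .e)
noncomputable def q277 : Tr := .c 0 (.l 293) .e
noncomputable def r100 : Tr := .c 5 q276 (.c 6 q277 .e)
noncomputable def q278 : Tr := .c 6 (.l 294) .e
noncomputable def q279 : Tr := .c 0 (.l 295) (.c 6 (.l 294) .e)
noncomputable def r101 : Tr := .c 0 q278 (.c 1 q278 (.c 2 q278 (.c 3 q278 (.c 4 q278 (.c 5 q279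
.e)))))
noncomputable def t40 : Tr := .c 0 r100 (.c 6 r101 .e)
noncomputable def q280 : Tr := .c 0 (.l 296) (.c 6 (.l 297) .e)
noncomputable def q281 : Tr := .c 0 (.l 298) .e
noncomputable def r102 : Tr := .c 5 q280 (.c 6 q281 .e)
noncomputable def q282 : Tr := .c 6 (.l 299) .e
noncomputable def r103 : Tr := .c 4 q282 (.c 6 q281 .e)
noncomputable def q283 : Tr := .c 6 (.l 300) .e
noncomputable def r104 : Tr := .c 3 q283 (.c 6 q281 .e)
noncomputable def q284 : Tr := .c 6 (.l 301) .e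
noncomputable def r105 : Tr := .c 2 q284 (.c 6 q281 .e)
noncomputable def q285 : Tr := .c 6 (.l 302) .e
noncomputable def r106 : Tr := .c 1 q285 (.c 6 q281 .e)
noncomputable def q286 : Tr := .c 6 (.l 303) .e
noncomputable def r107 : Tr := .c 0 q286 (.c 6 q281 .e)
noncomputable def t41 : Tr := .c 0 r102 (.c 1 r103 (.c 2 r104 (.c 3 r105 (.c 4 r106 (.c 5 r107
.e)))))
noncomputable def q287 : Tr := .c 0 (.l 304) .e
noncomputable def r108 : Tr := .c 0 q70 (.c 6 q287 .e)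
noncomputable def q288 : Tr := .c 6 (.l 305) .e
noncomputable def q289 : Tr := .c 6 (.l 306) .e
noncomputable def q290 : Tr := .c 6 (.l 307) .e
noncomputable def q291 : Tr := .c 6 (.l 308) .e
noncomputable def q292 : Tr := .c 6 (.l 309) .e
noncomputable def q293 : Tr := .c 0 (.l 310) (.c 6 (.l 311) .e)
noncomputable def r109 : Tr := .c 0 q288 (.c 1 q289 (.c 2 q290 (.c 3 q291 (.c 4 q292 (.c 5 q293
.e)))))
noncomputable def t42 : Tr := .c 5 r108 (.c 6 r109 .e)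
noncomputable def q294 : Tr := .c 0 (.l 312) .e
noncomputable def r110 : Tr := .c 1 q19 (.c 6 q294 .e)
noncomputable def q295 : Tr := .c 6 (.l 313) .e
noncomputable def q296 : Tr := .c 6 (.l 314) .e
noncomputable def q297 : Tr := .c 6 (.l 315) .e
noncomputable def q298 : Tr := .c 6 (.l 316) .e
noncomputable def q299 : Tr := .c 6 (.l 317) .e
noncomputable def q300 : Tr := .c 0 (.l 310) (.c 6 (.l 318) .e)
noncomputable def r111 : Tr := .c 0 q295 (.c 1 q296 (.c 2 q297 (.c 3 q298 (.c 4 q299 (.c 5 q300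
.e)))))
noncomputable def t43 : Tr := .c 4 r110 (.c 6 r111 .e)
noncomputable def q301 : Tr := .c 0 (.l 319) .e
noncomputable def r112 : Tr := .c 2 q27 (.c 6 q301 .e)
noncomputable def q302 : Tr := .c 6 (.l 320) .e
noncomputable def q303 : Tr := .c 6 (.l 321) .e
noncomputable def q304 : Tr := .c 6 (.l 322) .e
noncomputable def q305 : Tr := .c 6 (.l 323) .e
noncomputable def q306 : Tr := .c 6 (.l 324) .e
noncomputable def q307 : Tr := .c 0 (.l 310) (.c 6 (.l 325) .e)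
noncomputable def r113 : Tr := .c 0 q302 (.c 1 q303 (.c 2 q304 (.c 3 q305 (.c 4 q306 (.c 5 q307
.e)))))
noncomputable def t44 : Tr := .c 3 r112 (.c 6 r113 .e)
noncomputable def q308 : Tr := .c 0 (.l 326) .e
noncomputable def r114 : Tr := .c 3 q35 (.c 6 q308 .e)
noncomputable def q309 : Tr := .c 6 (.l 327) .e
noncomputable def q310 : Tr := .c 6 (.l 328) .e
noncomputable def q311 : Tr := .c 6 (.l 329) .e
noncomputable def q312 : Tr := .c 6 (.l 330) .e
noncomputable def q313 : Tr := .c 6 (.l 331) .e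
noncomputable def q314 : Tr := .c 0 (.l 310) (.c 6 (.l 332) .e)
noncomputable def r115 : Tr := .c 0 q309 (.c 1 q310 (.c 2 q311 (.c 3 q312 (.c 4 q313 (.c 5 q314
.e)))))
noncomputable def t45 : Tr := .c 2 r114 (.c 6 r115 .e)
noncomputable def q315 : Tr := .c 0 (.l 333) .e
noncomputable def r116 : Tr := .c 4 q43 (.c 6 q315 .e)
noncomputable def q316 : Tr := .c 6 (.l 334) .e
noncomputable def q317 : Tr := .c 6 (.l 335) .e
noncomputable def q318 : Tr := .c 6 (.l 336) .e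
noncomputable def q319 : Tr := .c 6 (.l 337) .e
noncomputable def q320 : Tr := .c 6 (.l 338) .e
noncomputable def q321 : Tr := .c 0 (.l 310) (.c 6 (.l 339) .e)
noncomputable def r117 : Tr := .c 0 q316 (.c 1 q317 (.c 2 q318 (.c 3 q319 (.c 4 q320 (.c 5 q321
.e)))))
noncomputable def t46 : Tr := .c 1 r116 (.c 6 r117 .e)
noncomputable def q322 : Tr := .c 0 (.l 340) (.c 6 (.l 55) .e)
noncomputable def q323 : Tr := .c 0 (.l 341) .e
noncomputable def r118 : Tr := .c 5 q322 (.c 6 q323 .e)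
noncomputable def q324 : Tr := .c 6 (.l 342) .e
noncomputable def q325 : Tr := .c 6 (.l 343) .e
noncomputable def q326 : Tr := .c 6 (.l 344) .e
noncomputable def q327 : Tr := .c 6 (.l 345) .e
noncomputable def q328 : Tr := .c 6 (.l 346) .e
noncomputable def q329 : Tr := .c 0 (.l 310) (.c 6 (.l 347) .e)
noncomputable def r119 : Tr := .c 0 q324 (.c 1 q325 (.c 2 q326 (.c 3 q327 (.c 4 q328 (.c 5 q329
.e)))))
noncomputable def t47 : Tr := .c 0 r118 (.c 6 r119 .e)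
noncomputable def q330 : Tr := .c 0 (.l 348) .e
noncomputable def q331 : Tr := .c 0 (.l 349) (.c 1 (.l 349) (.c 2 (.l 349) (.c 3 (.l 349) (.c 4
(.l 349) (.c 5 (.l 349) .e)))))
noncomputable def r120 : Tr := .c 5 q330 (.c 6 q331 .e)
noncomputable def q332 : Tr := .c 5 (.l 350) .e
noncomputable def q333 : Tr := .c 4 (.l 351) .e
noncomputable def q334 : Tr := .c 3 (.l 352) .e
noncomputable def q335 : Tr := .c 2 (.l 353) .e
noncomputable def q336 : Tr := .c 1 (.l 354) .e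
noncomputable def q337 : Tr := .c 0 (.l 355) .e
noncomputable def r121 : Tr := .c 0 q332 (.c 1 q333 (.c 2 q334 (.c 3 q335 (.c 4 q336 (.c 5 q337
.e)))))
noncomputable def t48 : Tr := .c 0 r120 (.c 6 r121 .e)
noncomputable def q338 : Tr := .c 0 (.l 356) .e
noncomputable def q339 : Tr := .c 0 (.l 357) (.c 1 (.l 358) (.c 2 (.l 359) (.c 3 (.l 360) (.c 4
(.l 361) (.c 5 (.l 362) .e)))))
noncomputable def r122 : Tr := .c 5 q338 (.c 6 q339 .e)
noncomputable def q340 : Tr := .c 1 (.l 363) .e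
noncomputable def q341 : Tr := .c 0 (.l 364) (.c 1 (.l 365) (.c 2 (.l 366) (.c 3 (.l 367) (.c 4
(.l 368) (.c 5 (.l 369) .e)))))
noncomputable def r123 : Tr := .c 4 q340 (.c 6 q341 .e)
noncomputable def q342 : Tr := .c 2 (.l 370) .e
noncomputable def q343 : Tr := .c 0 (.l 371) (.c 1 (.l 372) (.c 2 (.l 373) (.c 3 (.l 374) (.c 4
(.l 375) (.c 5 (.l 376) .e)))))
noncomputable def r124 : Tr := .c 3 q342 (.c 6 q343 .e)
noncomputable def q344 : Tr := .c 3 (.l 377) .e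
noncomputable def q345 : Tr := .c 0 (.l 378) (.c 1 (.l 379) (.c 2 (.l 380) (.c 3 (.l 381) (.c 4
(.l 382) (.c 5 (.l 383) .e)))))
noncomputable def r125 : Tr := .c 2 q344 (.c 6 q345 .e)
noncomputable def q346 : Tr := .c 4 (.l 384) .e
noncomputable def q347 : Tr := .c 0 (.l 385) (.c 1 (.l 386) (.c 2 (.l 387) (.c 3 (.l 388) (.c 4
(.l 389) (.c 5 (.l 390) .e)))))
noncomputable def r126 : Tr := .c 1 q346 (.c 6 q347 .e)
noncomputable def q348 : Tr := .c 5 (.l 391) .e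
noncomputable def q349 : Tr := .c 0 (.l 392) (.c 1 (.l 393) (.c 2 (.l 394) (.c 3 (.l 395) (.c 4
(.l 396) (.c 5 (.l 397) .e)))))
noncomputable def r127 : Tr := .c 0 q348 (.c 6 q349 .e)
noncomputable def t49 : Tr := .c 0 r122 (.c 1 r123 (.c 2 r124 (.c 3 r125 (.c 4 r126 (.c 5 r127
.e)))))
noncomputable def q350 : Tr := .c 1 (.l 398) .e
noncomputable def q351 : Tr := .c 0 (.l 399) (.c 1 (.l 399) (.c 2 (.l 399) (.c 3 (.l 399) (.c 4
(.l 399) (.c 5 (.l 399) .e)))))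
noncomputable def r128 : Tr := .c 4 q350 (.c 6 q351 .e)
noncomputable def q352 : Tr := .c 5 (.l 400) .e
noncomputable def q353 : Tr := .c 4 (.l 401) .e
noncomputable def q354 : Tr := .c 3 (.l 402) .e
noncomputable def q355 : Tr := .c 2 (.l 403) .e
noncomputable def q356 : Tr := .c 1 (.l 404) .e
noncomputable def q357 : Tr := .c 0 (.l 405) .e
noncomputable def r129 : Tr := .c 0 q352 (.c 1 q353 (.c 2 q354 (.c 3 q355 (.c 4 q356 (.c 5 q357
.e)))))
noncomputable def t50 : Tr := .c 1 r128 (.c 6 r129 .e)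
noncomputable def q358 : Tr := .c 0 (.l 406) (.c 1 (.l 407) (.c 2 (.l 408) (.c 3 (.l 409) (.c 4
(.l 410) (.c 5 (.l 411) .e)))))
noncomputable def r130 : Tr := .c 5 q338 (.c 6 q358 .e)
noncomputable def q359 : Tr := .c 0 (.l 412) (.c 1 (.l 413) (.c 2 (.l 414) (.c 3 (.l 415) (.c 4
(.l 416) (.c 5 (.l 417) .e)))))
noncomputable def r131 : Tr := .c 4 q340 (.c 6 q359 .e)
noncomputable def q360 : Tr := .c 0 (.l 418) (.c 1 (.l 419) (.c 2 (.l 420) (.c 3 (.l 421) (.c 4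
(.l 422) (.c 5 (.l 423) .e)))))
noncomputable def r132 : Tr := .c 3 q342 (.c 6 q360 .e)
noncomputable def q361 : Tr := .c 0 (.l 424) (.c 1 (.l 425) (.c 2 (.l 426) (.c 3 (.l 427) (.c 4
(.l 428) (.c 5 (.l 429) .e)))))
noncomputable def r133 : Tr := .c 2 q344 (.c 6 q361 .e)
noncomputable def q362 : Tr := .c 0 (.l 430) (.c 1 (.l 431) (.c 2 (.l 432) (.c 3 (.l 433) (.c 4
(.l 434) (.c 5 (.l 435) .e)))))
noncomputable def r134 : Tr := .c 1 q346 (.c 6 q362 .e)
noncomputable def q363 : Tr := .c 0 (.l 436) (.c 1 (.l 437) (.c 2 (.l 438) (.c 3 (.l 439) (.c 4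
(.l 440) (.c 5 (.l 441) .e)))))
noncomputable def r135 : Tr := .c 0 q348 (.c 6 q363 .e)
noncomputable def t51 : Tr := .c 0 r130 (.c 1 r131 (.c 2 r132 (.c 3 r133 (.c 4 r134 (.c 5 r135
.e)))))
noncomputable def q364 : Tr := .c 2 (.l 442) .e
noncomputable def q365 : Tr := .c 0 (.l 443) (.c 1 (.l 443) (.c 2 (.l 443) (.c 3 (.l 443) (.c 4
(.l 443) (.c 5 (.l 443) .e)))))
noncomputable def r136 : Tr := .c 3 q364 (.c 6 q365 .e)
noncomputable def q366 : Tr := .c 5 (.l 444) .e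
noncomputable def q367 : Tr := .c 4 (.l 445) .e
noncomputable def q368 : Tr := .c 3 (.l 446) .e
noncomputable def q369 : Tr := .c 2 (.l 447) .e
noncomputable def q370 : Tr := .c 1 (.l 448) .e
noncomputable def q371 : Tr := .c 0 (.l 449) .e
noncomputable def r137 : Tr := .c 0 q366 (.c 1 q367 (.c 2 q368 (.c 3 q369 (.c 4 q370 (.c 5 q371
.e)))))
noncomputable def t52 : Tr := .c 2 r136 (.c 6 r137 .e)
noncomputable def q372 : Tr := .c 0 (.l 450) (.c 1 (.l 451) (.c 2 (.l 452) (.c 3 (.l 453) (.c 4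
(.l 454) (.c 5 (.l 455) .e)))))
noncomputable def r138 : Tr := .c 5 q338 (.c 6 q372 .e)
noncomputable def q373 : Tr := .c 0 (.l 456) (.c 1 (.l 457) (.c 2 (.l 458) (.c 3 (.l 459) (.c 4
(.l 460) (.c 5 (.l 461) .e)))))
noncomputable def r139 : Tr := .c 4 q340 (.c 6 q373 .e)
noncomputable def q374 : Tr := .c 0 (.l 462) (.c 1 (.l 463) (.c 2 (.l 464) (.c 3 (.l 465) (.c 4
(.l 466) (.c 5 (.l 467) .e)))))
noncomputable def r140 : Tr := .c 3 q342 (.c 6 q374 .e)
noncomputable def q375 : Tr := .c 0 (.l 468) (.c 1 (.l 469) (.c 2 (.l 470) (.c 3 (.l 471) (.c 4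
(.l 472) (.c 5 (.l 473) .e)))))
noncomputable def r141 : Tr := .c 2 q344 (.c 6 q375 .e)
noncomputable def q376 : Tr := .c 0 (.l 474) (.c 1 (.l 475) (.c 2 (.l 476) (.c 3 (.l 477) (.c 4
(.l 478) (.c 5 (.l 479) .e)))))
noncomputable def r142 : Tr := .c 1 q346 (.c 6 q376 .e)
noncomputable def q377 : Tr := .c 0 (.l 480) (.c 1 (.l 481) (.c 2 (.l 482) (.c 3 (.l 483) (.c 4
(.l 484) (.c 5 (.l 485) .e)))))
noncomputable def r143 : Tr := .c 0 q348 (.c 6 q377 .e)
noncomputable def t53 : Tr := .c 0 r138 (.c 1 r139 (.c 2 r140 (.c 3 r141 (.c 4 r142 (.c 5 r143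
.e)))))
noncomputable def q378 : Tr := .c 3 (.l 486) .e
noncomputable def q379 : Tr := .c 0 (.l 487) (.c 1 (.l 487) (.c 2 (.l 487) (.c 3 (.l 487) (.c 4
(.l 487) (.c 5 (.l 487) .e)))))
noncomputable def r144 : Tr := .c 2 q378 (.c 6 q379 .e)
noncomputable def q380 : Tr := .c 5 (.l 488) .e
noncomputable def q381 : Tr := .c 4 (.l 489) .e
noncomputable def q382 : Tr := .c 3 (.l 490) .e
noncomputable def q383 : Tr := .c 2 (.l 491) .e
noncomputable def q384 : Tr := .c 1 (.l 492) .e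
noncomputable def q385 : Tr := .c 0 (.l 493) .e
noncomputable def r145 : Tr := .c 0 q380 (.c 1 q381 (.c 2 q382 (.c 3 q383 (.c 4 q384 (.c 5 q385
.e)))))
noncomputable def t54 : Tr := .c 3 r144 (.c 6 r145 .e)
noncomputable def q386 : Tr := .c 0 (.l 494) (.c 1 (.l 495) (.c 2 (.l 496) (.c 3 (.l 497) (.c 4
(.l 498) (.c 5 (.l 499) .e)))))
noncomputable def r146 : Tr := .c 5 q338 (.c 6 q386 .e)
noncomputable def q387 : Tr := .c 0 (.l 500) (.c 1 (.l 501) (.c 2 (.l 502) (.c 3 (.l 503) (.c 4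
(.l 504) (.c 5 (.l 505) .e)))))
noncomputable def r147 : Tr := .c 4 q340 (.c 6 q387 .e)
noncomputable def q388 : Tr := .c 0 (.l 506) (.c 1 (.l 507) (.c 2 (.l 508) (.c 3 (.l 509) (.c 4
(.l 510) (.c 5 (.l 511) .e)))))
noncomputable def r148 : Tr := .c 3 q342 (.c 6 q388 .e)
noncomputable def q389 : Tr := .c 0 (.l 512) (.c 1 (.l 513) (.c 2 (.l 514) (.c 3 (.l 515) (.c 4
(.l 516) (.c 5 (.l 517) .e)))))
noncomputable def r149 : Tr := .c 2 q344 (.c 6 q389 .e)
noncomputable def q390 : Tr := .c 0 (.l 518) (.c 1 (.l 519) (.c 2 (.l 520) (.c 3 (.l 521) (.c 4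
(.l 522) (.c 5 (.l 523) .e)))))
noncomputable def r150 : Tr := .c 1 q346 (.c 6 q390 .e)
noncomputable def q391 : Tr := .c 0 (.l 524) (.c 1 (.l 525) (.c 2 (.l 526) (.c 3 (.l 527) (.c 4
(.l 528) (.c 5 (.l 529) .e)))))
noncomputable def r151 : Tr := .c 0 q348 (.c 6 q391 .e)
noncomputable def t55 : Tr := .c 0 r146 (.c 1 r147 (.c 2 r148 (.c 3 r149 (.c 4 r150 (.c 5 r151
.e)))))
noncomputable def q392 : Tr := .c 4 (.l 530) .e
noncomputable def q393 : Tr := .c 0 (.l 531) (.c 1 (.l 531) (.c 2 (.l 531) (.c 3 (.l 531) (.c 4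
(.l 531) (.c 5 (.l 531) .e)))))
noncomputable def r152 : Tr := .c 1 q392 (.c 6 q393 .e)
noncomputable def q394 : Tr := .c 5 (.l 532) .e
noncomputable def q395 : Tr := .c 4 (.l 533) .e
noncomputable def q396 : Tr := .c 3 (.l 534) .e
noncomputable def q397 : Tr := .c 2 (.l 535) .e
noncomputable def q398 : Tr := .c 1 (.l 536) .e
noncomputable def q399 : Tr := .c 0 (.l 537) .e
noncomputable def r153 : Tr := .c 0 q394 (.c 1 q395 (.c 2 q396 (.c 3 q397 (.c 4 q398 (.c 5 q399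
.e)))))
noncomputable def t56 : Tr := .c 4 r152 (.c 6 r153 .e)
noncomputable def q400 : Tr := .c 0 (.l 538) (.c 1 (.l 539) (.c 2 (.l 540) (.c 3 (.l 541) (.c 4
(.l 542) (.c 5 (.l 543) .e)))))
noncomputable def r154 : Tr := .c 5 q338 (.c 6 q400 .e)
noncomputable def q401 : Tr := .c 0 (.l 544) (.c 1 (.l 545) (.c 2 (.l 546) (.c 3 (.l 547) (.c 4
(.l 548) (.c 5 (.l 549) .e)))))
noncomputable def r155 : Tr := .c 4 q340 (.c 6 q401 .e)
noncomputable def q402 : Tr := .c 0 (.l 550) (.c 1 (.l 551) (.c 2 (.l 552) (.c 3 (.l 553) (.c 4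
(.l 554) (.c 5 (.l 555) .e)))))
noncomputable def r156 : Tr := .c 3 q342 (.c 6 q402 .e)
noncomputable def q403 : Tr := .c 0 (.l 556) (.c 1 (.l 557) (.c 2 (.l 558) (.c 3 (.l 559) (.c 4
(.l 560) (.c 5 (.l 561) .e)))))
noncomputable def r157 : Tr := .c 2 q344 (.c 6 q403 .e)
noncomputable def q404 : Tr := .c 0 (.l 562) (.c 1 (.l 563) (.c 2 (.l 564) (.c 3 (.l 565) (.c 4
(.l 566) (.c 5 (.l 567) .e)))))
noncomputable def r158 : Tr := .c 1 q346 (.c 6 q404 .e)
noncomputable def q405 : Tr := .c 0 (.l 568) (.c 1 (.l 569) (.c 2 (.l 570) (.c 3 (.l 571) (.c 4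
(.l 572) (.c 5 (.l 573) .e)))))
noncomputable def r159 : Tr := .c 0 q348 (.c 6 q405 .e)
noncomputable def t57 : Tr := .c 0 r154 (.c 1 r155 (.c 2 r156 (.c 3 r157 (.c 4 r158 (.c 5 r159
.e)))))
noncomputable def q406 : Tr := .c 5 (.l 574) .e
noncomputable def q407 : Tr := .c 0 (.l 575) (.c 1 (.l 575) (.c 2 (.l 575) (.c 3 (.l 575) (.c 4
(.l 575) (.c 5 (.l 575) .e)))))
noncomputable def r160 : Tr := .c 0 q406 (.c 6 q407 .e)
noncomputable def q408 : Tr := .c 5 (.l 576) .e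
noncomputable def q409 : Tr := .c 4 (.l 577) .e
noncomputable def q410 : Tr := .c 3 (.l 578) .e
noncomputable def q411 : Tr := .c 2 (.l 579) .e
noncomputable def q412 : Tr := .c 1 (.l 580) .e
noncomputable def q413 : Tr := .c 0 (.l 581) .e
noncomputable def r161 : Tr := .c 0 q408 (.c 1 q409 (.c 2 q410 (.c 3 q411 (.c 4 q412 (.c 5 q413
.e)))))
noncomputable def t58 : Tr := .c 5 r160 (.c 6 r161 .e)
noncomputable def q414 : Tr := .c 0 (.l 582) (.c 1 (.l 583) (.c 2 (.l 584) (.c 3 (.l 585) (.c 4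
(.l 586) (.c 5 (.l 587) .e)))))
noncomputable def r162 : Tr := .c 5 q338 (.c 6 q414 .e)
noncomputable def q415 : Tr := .c 0 (.l 588) (.c 1 (.l 589) (.c 2 (.l 590) (.c 3 (.l 591) (.c 4
(.l 592) (.c 5 (.l 593) .e)))))
noncomputable def r163 : Tr := .c 4 q340 (.c 6 q415 .e)
noncomputable def q416 : Tr := .c 0 (.l 594) (.c 1 (.l 595) (.c 2 (.l 596) (.c 3 (.l 597) (.c 4
(.l 598) (.c 5 (.l 599) .e)))))
noncomputable def r164 : Tr := .c 3 q342 (.c 6 q416 .e)
noncomputable def q417 : Tr := .c 0 (.l 600) (.c 1 (.l 601) (.c 2 (.l 602) (.c 3 (.l 603) (.c 4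
(.l 604) (.c 5 (.l 605) .e)))))
noncomputable def r165 : Tr := .c 2 q344 (.c 6 q417 .e)
noncomputable def q418 : Tr := .c 0 (.l 606) (.c 1 (.l 607) (.c 2 (.l 608) (.c 3 (.l 609) (.c 4
(.l 610) (.c 5 (.l 611) .e)))))
noncomputable def r166 : Tr := .c 1 q346 (.c 6 q418 .e)
noncomputable def q419 : Tr := .c 0 (.l 612) (.c 1 (.l 613) (.c 2 (.l 614) (.c 3 (.l 615) (.c 4
(.l 616) (.c 5 (.l 617) .e)))))
noncomputable def r167 : Tr := .c 0 q348 (.c 6 q419 .e)
noncomputable def t59 : Tr := .c 0 r162 (.c 1 r163 (.c 2 r164 (.c 3 r165 (.c 4 r166 (.c 5 r167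
.e)))))

/-- the diagram -/
noncomputable def T : Tr := (.c 0 (.c 5 (.c 0 t0 (.c 6 t1 .e)) (.c 6 (.c 0 t2 (.c 1 t3 (.c 2 t4 (.c 3 t5 (.c 4 t6 (.c 5 t7
.e)))))) .e)) (.c 1 (.c 4 (.c 1 t8 (.c 6 t9 .e)) (.c 6 (.c 0 t10 (.c 1 t11 (.c 2 t12 (.c 3 t13
(.c 4 t14 (.c 5 t15 .e)))))) .e)) (.c 2 (.c 3 (.c 2 t16 (.c 6 t17 .e)) (.c 6 (.c 0 t18 (.c 1
t19 (.c 2 t20 (.c 3 t21 (.c 4 t22 (.c 5 t23 .e)))))) .e)) (.c 3 (.c 2 (.c 3 t24 (.c 6 t25 .e))
(.c 6 (.c 0 t26 (.c 1 t27 (.c 2 t28 (.c 3 t29 (.c 4 t30 (.c 5 t31 .e)))))) .e)) (.c 4 (.c 1 (.c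
4 t32 (.c 6 t33 .e)) (.c 6 (.c 0 t34 (.c 1 t35 (.c 2 t36 (.c 3 t37 (.c 4 t38 (.c 5 t39 .e))))))
.e)) (.c 5 (.c 0 (.c 5 t40 (.c 6 t41 .e)) (.c 6 (.c 0 t42 (.c 1 t43 (.c 2 t44 (.c 3 t45 (.c 4
t46 (.c 5 t47 .e)))))) .e)) (.c 6 (.c 0 (.c 5 t48 (.c 6 t49 .e)) (.c 1 (.c 4 t50 (.c 6 t51 .e))
(.c 2 (.c 3 t52 (.c 6 t53 .e)) (.c 3 (.c 2 t54 (.c 6 t55 .e)) (.c 4 (.c 1 t56 (.c 6 t57 .e))
(.c 5 (.c 0 t58 (.c 6 t59 .e)) .e)))))) .e)))))))

theorem chk : chkP 7 11 nb op nbT opT PL T = true := by decide +kernel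

end B23

/-! ### 01 02 03 12 13 24 45 -/

namespace B25

/-- the letters (masks) -/
def L : List ℕ := [3, 5, 9, 6, 10, 20, 48]

/-- the palettes (masks) -/
def P : List ℕ := [3, 5, 9, 6, 10, 20, 48, 7, 11, 13, 21, 14, 22, 52]

/-- neighbours, letters -/
def nb : List ℕ := [96, 80, 104, 68, 98, 21, 31]

/-- antipodes, letters -/
def op : List ℕ := [63, 127, 127, 127, 127, 127, 126]

/-- neighbours, palettes -/
def nbT : List ℕ := [8288, 80, 12392, 68, 9314, 277, 2975, 8256, 13408, 12352, 2320, 9280, 772, 2965]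

/-- antipodes, palettes -/
def opT : List ℕ := [8127, 16383, 4095, 16383, 7167, 16127, 13438, 16319, 16287, 16319, 16367, 16319, 16379, 16362]

/-- the letters of the palettes -/
def PL : List (List ℕ) := [[0], [1], [2], [3], [4], [5], [6], [0, 1, 3], [0, 2, 4], [1, 2], [1, 5], [3, 4], [3, 5], [5,
6]]

noncomputable def q0 : Tr := .c 5 (.l 0) .e
noncomputable def r0 : Tr := .c 0 q0 (.c 2 q0 (.c 4 q0 .e))
noncomputable def t0 : Tr := .c 5 r0 .e
noncomputable def q1 : Tr := .c 5 (.l 0) (.c 6 (.l 0) .e)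
noncomputable def r1 : Tr := .c 2 q1 .e
noncomputable def r2 : Tr := .c 0 q1 (.c 2 q1 (.c 4 q1 .e))
noncomputable def t1 : Tr := .c 3 r1 (.c 5 r2 .e)
noncomputable def r3 : Tr := .c 4 q1 .e
noncomputable def t2 : Tr := .c 1 r3 (.c 5 r2 .e)
noncomputable def r4 : Tr := .c 2 q0 (.c 4 q0 .e)
noncomputable def t3 : Tr := .c 5 r4 .e
noncomputable def q2 : Tr := .c 6 (.l 1) .e
noncomputable def r5 : Tr := .c 1 q2 .e
noncomputable def t4 : Tr := .c 4 r5 .e
noncomputable def r6 : Tr := .c 2 q1 (.c 4 q1 .e)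
noncomputable def t5 : Tr := .c 3 r1 (.c 5 r6 .e)
noncomputable def q3 : Tr := .c 6 (.l 2) .e
noncomputable def r7 : Tr := .c 3 q3 .e
noncomputable def t6 : Tr := .c 2 r7 .e
noncomputable def t7 : Tr := .c 1 r3 (.c 5 r6 .e)
noncomputable def q4 : Tr := .c 4 (.l 3) (.c 6 (.l 4) .e)
noncomputable def q5 : Tr := .c 4 (.l 3) .e
noncomputable def r8 : Tr := .c 1 q4 (.c 5 q5 (.c 6 q5 .e))
noncomputable def q6 : Tr := .c 6 (.l 5) .e
noncomputable def q7 : Tr := .c 4 (.l 6) (.c 6 (.l 5) .e)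
noncomputable def r9 : Tr := .c 0 q6 (.c 1 q7 (.c 2 q6 (.c 3 q6 (.c 4 q6 .e))))
noncomputable def t8 : Tr := .c 4 r8 (.c 6 r9 .e)
noncomputable def r10 : Tr := .c 5 q5 (.c 6 q5 .e)
noncomputable def q8 : Tr := .c 6 (.l 7) .e
noncomputable def r11 : Tr := .c 3 q8 (.c 5 q5 (.c 6 q5 .e))
noncomputable def t9 : Tr := .c 0 r10 (.c 2 r11 (.c 4 r8 .e))
noncomputable def q9 : Tr := .c 6 (.l 8) .e
noncomputable def r12 : Tr := .c 4 q9 (.c 6 q5 .e)
noncomputable def q10 : Tr := .c 6 (.l 9) .e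
noncomputable def r13 : Tr := .c 2 q10 (.c 6 q5 .e)
noncomputable def t10 : Tr := .c 0 r10 (.c 1 r12 (.c 2 r11 (.c 3 r13 (.c 4 r8 .e))))
noncomputable def q11 : Tr := .c 4 (.l 10) .e
noncomputable def r14 : Tr := .c 1 q11 .e
noncomputable def t11 : Tr := .c 6 r14 .e
noncomputable def q12 : Tr := .c 4 (.l 11) (.c 6 (.l 1) .e)
noncomputable def q13 : Tr := .c 4 (.l 11) .e
noncomputable def r15 : Tr := .c 1 q12 (.c 5 q13 (.c 6 q13 .e))
noncomputable def q14 : Tr := .c 4 (.l 10) (.c 6 (.l 0) .e)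
noncomputable def q15 : Tr := .c 6 (.l 0) .e
noncomputable def r16 : Tr := .c 1 q14 (.c 2 q15 (.c 3 q15 (.c 4 q15 .e)))
noncomputable def t12 : Tr := .c 4 r15 (.c 6 r16 .e)
noncomputable def q16 : Tr := .c 4 (.l 12) .e
noncomputable def r17 : Tr := .c 2 q15 (.c 6 q16 .e)
noncomputable def r18 : Tr := .c 2 q15 (.c 4 q15 .e)
noncomputable def t13 : Tr := .c 3 r17 (.c 5 r18 (.c 6 r16 .e))
noncomputable def q17 : Tr := .c 4 (.l 13) .e
noncomputable def r19 : Tr := .c 3 q3 (.c 5 q17 (.c 6 q17 .e))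
noncomputable def t14 : Tr := .c 2 r19 (.c 6 r16 .e)
noncomputable def q18 : Tr := .c 4 (.l 14) .e
noncomputable def r20 : Tr := .c 4 q15 (.c 6 q18 .e)
noncomputable def t15 : Tr := .c 1 r20 (.c 5 r18 (.c 6 r16 .e))
noncomputable def q19 : Tr := .c 3 (.l 0) (.c 5 (.l 0) (.c 6 (.l 0) .e))
noncomputable def q20 : Tr := .c 3 (.l 15) .e
noncomputable def r21 : Tr := .c 2 q19 (.c 6 q20 .e)
noncomputable def r22 : Tr := .c 0 q1 (.c 2 q19 (.c 4 q1 .e))
noncomputable def r23 : Tr := .c 0 q1 (.c 1 q15 (.c 2 q19 (.c 3 q15 (.c 4 q1 .e))))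
noncomputable def t16 : Tr := .c 3 r21 (.c 5 r22 (.c 6 r23 .e))
noncomputable def q21 : Tr := .c 3 (.l 16) .e
noncomputable def r24 : Tr := .c 6 q21 .e
noncomputable def q22 : Tr := .c 5 (.l 17) (.c 6 (.l 17) .e)
noncomputable def r25 : Tr := .c 4 q22 (.c 6 q21 .e)
noncomputable def q23 : Tr := .c 6 (.l 18) .e
noncomputable def r26 : Tr := .c 3 q23 (.c 6 q21 .e)
noncomputable def q24 : Tr := .c 3 (.l 19) (.c 5 (.l 19) (.c 6 (.l 19) .e))
noncomputable def r27 : Tr := .c 2 q24 (.c 6 q21 .e)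
noncomputable def q25 : Tr := .c 6 (.l 20) .e
noncomputable def r28 : Tr := .c 1 q25 (.c 6 q21 .e)
noncomputable def t17 : Tr := .c 0 r24 (.c 1 r25 (.c 2 r26 (.c 3 r27 (.c 4 r28 .e))))
noncomputable def q26 : Tr := .c 3 (.l 0) (.c 5 (.l 0) .e)
noncomputable def r29 : Tr := .c 0 q0 (.c 2 q26 (.c 4 q0 .e))
noncomputable def t18 : Tr := .c 5 r29 (.c 6 r29 .e)
noncomputable def q27 : Tr := .c 3 (.l 21) .e
noncomputable def r30 : Tr := .c 4 q1 (.c 6 q27 .e)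
noncomputable def t19 : Tr := .c 1 r30 (.c 5 r22 (.c 6 r23 .e))
noncomputable def r31 : Tr := .c 2 q26 (.c 4 q0 .e)
noncomputable def t20 : Tr := .c 5 r31 (.c 6 r31 .e)
noncomputable def q28 : Tr := .c 3 (.l 22) .e
noncomputable def r32 : Tr := .c 1 q2 (.c 6 q28 .e)
noncomputable def r33 : Tr := .c 1 q15 (.c 2 q19 (.c 3 q15 (.c 4 q1 .e)))
noncomputable def t21 : Tr := .c 4 r32 (.c 6 r33 .e)
noncomputable def r34 : Tr := .c 2 q19 (.c 4 q1 .e)
noncomputable def t22 : Tr := .c 3 r21 (.c 5 r34 (.c 6 r33 .e))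
noncomputable def q29 : Tr := .c 3 (.l 23) .e
noncomputable def r35 : Tr := .c 3 q3 (.c 6 q29 .e)
noncomputable def t23 : Tr := .c 2 r35 (.c 6 r33 .e)
noncomputable def t24 : Tr := .c 1 r30 (.c 5 r34 (.c 6 r33 .e))
noncomputable def q30 : Tr := .c 2 (.l 3) (.c 6 (.l 24) .e)
noncomputable def q31 : Tr := .c 2 (.l 3) .e
noncomputable def r36 : Tr := .c 3 q30 (.c 5 q31 (.c 6 q31 .e))
noncomputable def q32 : Tr := .c 6 (.l 25) .e
noncomputable def q33 : Tr := .c 2 (.l 26) (.c 6 (.l 25) .e)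
noncomputable def r37 : Tr := .c 0 q32 (.c 1 q32 (.c 2 q32 (.c 3 q33 (.c 4 q32 .e))))
noncomputable def t25 : Tr := .c 2 r36 (.c 6 r37 .e)
noncomputable def r38 : Tr := .c 5 q31 (.c 6 q31 .e)
noncomputable def q34 : Tr := .c 6 (.l 27) .e
noncomputable def r39 : Tr := .c 1 q34 (.c 5 q31 (.c 6 q31 .e))
noncomputable def t26 : Tr := .c 0 r38 (.c 2 r36 (.c 4 r39 .e))
noncomputable def q35 : Tr := .c 6 (.l 28) .e
noncomputable def r40 : Tr := .c 4 q35 (.c 6 q31 .e)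
noncomputable def q36 : Tr := .c 6 (.l 29) .e
noncomputable def r41 : Tr := .c 2 q36 (.c 6 q31 .e)
noncomputable def t27 : Tr := .c 0 r38 (.c 1 r40 (.c 2 r36 (.c 3 r41 (.c 4 r39 .e))))
noncomputable def q37 : Tr := .c 2 (.l 30) .e
noncomputable def r42 : Tr := .c 3 q37 .e
noncomputable def t28 : Tr := .c 6 r42 .e
noncomputable def q38 : Tr := .c 2 (.l 31) .e
noncomputable def r43 : Tr := .c 1 q2 (.c 5 q38 (.c 6 q38 .e))
noncomputable def q39 : Tr := .c 2 (.l 30) (.c 6 (.l 0) .e)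
noncomputable def r44 : Tr := .c 1 q15 (.c 2 q15 (.c 3 q39 (.c 4 q15 .e)))
noncomputable def t29 : Tr := .c 4 r43 (.c 6 r44 .e)
noncomputable def q40 : Tr := .c 2 (.l 32) .e
noncomputable def r45 : Tr := .c 2 q15 (.c 6 q40 .e)
noncomputable def t30 : Tr := .c 3 r45 (.c 5 r18 (.c 6 r44 .e))
noncomputable def q41 : Tr := .c 2 (.l 33) (.c 6 (.l 2) .e)
noncomputable def q42 : Tr := .c 2 (.l 33) .e
noncomputable def r46 : Tr := .c 3 q41 (.c 5 q42 (.c 6 q42 .e))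
noncomputable def t31 : Tr := .c 2 r46 (.c 6 r44 .e)
noncomputable def q43 : Tr := .c 2 (.l 34) .e
noncomputable def r47 : Tr := .c 4 q15 (.c 6 q43 .e)
noncomputable def t32 : Tr := .c 1 r47 (.c 5 r18 (.c 6 r44 .e))
noncomputable def q44 : Tr := .c 1 (.l 0) (.c 5 (.l 0) (.c 6 (.l 0) .e))
noncomputable def q45 : Tr := .c 1 (.l 35) .e
noncomputable def r48 : Tr := .c 4 q44 (.c 6 q45 .e)
noncomputable def r49 : Tr := .c 0 q1 (.c 2 q1 (.c 4 q44 .e))
noncomputable def r50 : Tr := .c 0 q1 (.c 1 q15 (.c 2 q1 (.c 3 q15 (.c 4 q44 .e))))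
noncomputable def t33 : Tr := .c 1 r48 (.c 5 r49 (.c 6 r50 .e))
noncomputable def q46 : Tr := .c 1 (.l 36) .e
noncomputable def r51 : Tr := .c 6 q46 .e
noncomputable def q47 : Tr := .c 1 (.l 37) (.c 5 (.l 37) (.c 6 (.l 37) .e))
noncomputable def r52 : Tr := .c 4 q47 (.c 6 q46 .e)
noncomputable def q48 : Tr := .c 6 (.l 38) .e
noncomputable def r53 : Tr := .c 3 q48 (.c 6 q46 .e)
noncomputable def q49 : Tr := .c 5 (.l 39) (.c 6 (.l 39) .e)
noncomputable def r54 : Tr := .c 2 q49 (.c 6 q46 .e)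
noncomputable def q50 : Tr := .c 6 (.l 40) .e
noncomputable def r55 : Tr := .c 1 q50 (.c 6 q46 .e)
noncomputable def t34 : Tr := .c 0 r51 (.c 1 r52 (.c 2 r53 (.c 3 r54 (.c 4 r55 .e))))
noncomputable def q51 : Tr := .c 1 (.l 0) (.c 5 (.l 0) .e)
noncomputable def r56 : Tr := .c 0 q0 (.c 2 q0 (.c 4 q51 .e))
noncomputable def t35 : Tr := .c 5 r56 (.c 6 r56 .e)
noncomputable def q52 : Tr := .c 1 (.l 41) .e
noncomputable def r57 : Tr := .c 2 q1 (.c 6 q52 .e)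
noncomputable def t36 : Tr := .c 3 r57 (.c 5 r49 (.c 6 r50 .e))
noncomputable def r58 : Tr := .c 2 q0 (.c 4 q51 .e)
noncomputable def t37 : Tr := .c 5 r58 (.c 6 r58 .e)
noncomputable def q53 : Tr := .c 1 (.l 42) .e
noncomputable def r59 : Tr := .c 1 q2 (.c 6 q53 .e)
noncomputable def r60 : Tr := .c 1 q15 (.c 2 q1 (.c 3 q15 (.c 4 q44 .e)))
noncomputable def t38 : Tr := .c 4 r59 (.c 6 r60 .e)
noncomputable def r61 : Tr := .c 2 q1 (.c 4 q44 .e)
noncomputable def t39 : Tr := .c 3 r57 (.c 5 r61 (.c 6 r60 .e))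
noncomputable def q54 : Tr := .c 1 (.l 43) .e
noncomputable def r62 : Tr := .c 3 q3 (.c 6 q54 .e)
noncomputable def t40 : Tr := .c 2 r62 (.c 6 r60 .e)
noncomputable def t41 : Tr := .c 1 r48 (.c 5 r61 (.c 6 r60 .e))
noncomputable def q55 : Tr := .c 0 (.l 3) (.c 2 (.l 3) (.c 4 (.l 3) .e))
noncomputable def r63 : Tr := .c 5 q55 .e
noncomputable def r64 : Tr := .c 3 q31 (.c 5 q55 .e)
noncomputable def r65 : Tr := .c 1 q5 (.c 5 q55 .e)
noncomputable def t42 : Tr := .c 0 r63 (.c 2 r64 (.c 4 r65 .e))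
noncomputable def q56 : Tr := .c 2 (.l 3) (.c 4 (.l 3) .e)
noncomputable def r66 : Tr := .c 5 q56 .e
noncomputable def r67 : Tr := .c 3 q31 (.c 5 q56 .e)
noncomputable def r68 : Tr := .c 1 q5 (.c 5 q56 .e)
noncomputable def t43 : Tr := .c 0 r66 (.c 2 r67 (.c 4 r68 .e))
noncomputable def r69 : Tr := .c 3 q31 (.c 5 q55 (.c 6 q55 .e))
noncomputable def q57 : Tr := .c 4 (.l 44) .e
noncomputable def q58 : Tr := .c 2 (.l 26) .e
noncomputable def r70 : Tr := .c 1 q57 (.c 3 q58 .e)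
noncomputable def t44 : Tr := .c 2 r69 (.c 6 r70 .e)
noncomputable def r71 : Tr := .c 5 q55 (.c 6 q55 .e)
noncomputable def r72 : Tr := .c 1 q5 (.c 5 q55 (.c 6 q55 .e))
noncomputable def t45 : Tr := .c 0 r71 (.c 2 r69 (.c 4 r72 .e))
noncomputable def r73 : Tr := .c 5 q56 (.c 6 q56 .e)
noncomputable def r74 : Tr := .c 6 q56 .e
noncomputable def r75 : Tr := .c 3 q31 (.c 5 q56 (.c 6 q56 .e))
noncomputable def r76 : Tr := .c 1 q5 (.c 5 q56 (.c 6 q56 .e))
noncomputable def t46 : Tr := .c 0 r73 (.c 1 r74 (.c 2 r75 (.c 3 r74 (.c 4 r76 .e))))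
noncomputable def q59 : Tr := .c 4 (.l 6) .e
noncomputable def q60 : Tr := .c 2 (.l 45) .e
noncomputable def r77 : Tr := .c 1 q59 (.c 3 q60 .e)
noncomputable def t47 : Tr := .c 4 r72 (.c 6 r77 .e)
noncomputable def t48 : Tr := .c 2 r64 (.c 4 r65 .e)
noncomputable def q61 : Tr := .c 1 (.l 46) .e
noncomputable def r78 : Tr := .c 4 q61 .e
noncomputable def q62 : Tr := .c 3 (.l 47) .e
noncomputable def r79 : Tr := .c 2 q62 .e
noncomputable def t49 : Tr := .c 1 r78 (.c 2 r67 (.c 3 r79 (.c 4 r68 .e)))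
noncomputable def q63 : Tr := .c 1 (.l 48) .e
noncomputable def q64 : Tr := .c 0 (.l 49) (.c 1 (.l 49) (.c 2 (.l 49) (.c 3 (.l 49) (.c 4 (.l 49)
.e))))
noncomputable def r80 : Tr := .c 4 q63 (.c 6 q64 .e)
noncomputable def q65 : Tr := .c 3 (.l 50) .e
noncomputable def r81 : Tr := .c 2 q65 (.c 4 q63 .e)
noncomputable def q66 : Tr := .c 4 (.l 51) .e
noncomputable def q67 : Tr := .c 2 (.l 52) .e
noncomputable def r82 : Tr := .c 1 q66 (.c 2 q65 (.c 3 q67 (.c 4 q63 .e)))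
noncomputable def t50 : Tr := .c 1 r80 (.c 5 r81 (.c 6 r82 .e))
noncomputable def q68 : Tr := .c 1 (.l 3) (.c 2 (.l 3) (.c 3 (.l 3) (.c 4 (.l 3) .e)))
noncomputable def r83 : Tr := .c 4 q61 (.c 6 q68 .e)
noncomputable def r84 : Tr := .c 3 q31 (.c 5 q56 (.c 6 q68 .e))
noncomputable def r85 : Tr := .c 2 q62 (.c 6 q68 .e)
noncomputable def r86 : Tr := .c 1 q5 (.c 5 q56 (.c 6 q68 .e))
noncomputable def t51 : Tr := .c 1 r83 (.c 2 r84 (.c 3 r85 (.c 4 r86 .e)))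
noncomputable def q69 : Tr := .c 0 (.l 3) (.c 1 (.l 3) (.c 2 (.l 3) (.c 3 (.l 3) (.c 4 (.l 3)
.e))))
noncomputable def r87 : Tr := .c 3 q31 (.c 5 q55 (.c 6 q69 .e))
noncomputable def q70 : Tr := .c 3 (.l 53) .e
noncomputable def q71 : Tr := .c 1 (.l 54) .e
noncomputable def r88 : Tr := .c 1 q57 (.c 2 q70 (.c 3 q58 (.c 4 q71 .e)))
noncomputable def t52 : Tr := .c 2 r87 (.c 6 r88 .e)
noncomputable def r89 : Tr := .c 1 q5 (.c 5 q55 (.c 6 q69 .e))
noncomputable def t53 : Tr := .c 2 r87 (.c 4 r89 .e)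
noncomputable def q72 : Tr := .c 3 (.l 55) .e
noncomputable def q73 : Tr := .c 0 (.l 56) (.c 1 (.l 56) (.c 2 (.l 56) (.c 3 (.l 56) (.c 4 (.l 56)
.e))))
noncomputable def r90 : Tr := .c 2 q72 (.c 6 q73 .e)
noncomputable def q74 : Tr := .c 1 (.l 57) .e
noncomputable def r91 : Tr := .c 2 q72 (.c 4 q74 .e)
noncomputable def q75 : Tr := .c 4 (.l 58) .e
noncomputable def q76 : Tr := .c 2 (.l 59) .e
noncomputable def r92 : Tr := .c 1 q75 (.c 2 q72 (.c 3 q76 (.c 4 q74 .e)))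
noncomputable def t54 : Tr := .c 3 r90 (.c 5 r91 (.c 6 r92 .e))
noncomputable def q77 : Tr := .c 3 (.l 60) .e
noncomputable def q78 : Tr := .c 1 (.l 61) .e
noncomputable def r93 : Tr := .c 1 q59 (.c 2 q77 (.c 3 q60 (.c 4 q78 .e)))
noncomputable def t55 : Tr := .c 4 r89 (.c 6 r93 .e)

/-- the diagram -/
noncomputable def T : Tr := (.c 0 (.c 5 (.c 0 t0 (.c 2 t1 (.c 4 t2 .e))) (.c 6 (.c 0 t3 (.c 1 t4 (.c 2 t5 (.c 3 t6 (.c 4 t7
.e))))) .e)) (.c 1 (.c 4 (.c 1 t8 (.c 5 t9 (.c 6 t10 .e))) (.c 6 (.c 0 t11 (.c 1 t12 (.c 2 t13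
(.c 3 t14 (.c 4 t15 .e))))) .e)) (.c 2 (.c 3 (.c 2 t16 (.c 6 t17 .e)) (.c 5 (.c 0 t18 (.c 2 t16
(.c 4 t19 .e))) (.c 6 (.c 0 t20 (.c 1 t21 (.c 2 t22 (.c 3 t23 (.c 4 t24 .e))))) .e))) (.c 3 (.c
2 (.c 3 t25 (.c 5 t26 (.c 6 t27 .e))) (.c 6 (.c 0 t28 (.c 1 t29 (.c 2 t30 (.c 3 t31 (.c 4 t32
.e))))) .e)) (.c 4 (.c 1 (.c 4 t33 (.c 6 t34 .e)) (.c 5 (.c 0 t35 (.c 2 t36 (.c 4 t33 .e))) (.c
6 (.c 0 t37 (.c 1 t38 (.c 2 t39 (.c 3 t40 (.c 4 t41 .e))))) .e))) (.c 5 (.c 0 (.c 5 t42 (.c 6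
t43 .e)) (.c 2 (.c 3 t44 (.c 5 t45 (.c 6 t46 .e))) (.c 4 (.c 1 t47 (.c 5 t45 (.c 6 t46 .e)))
.e))) (.c 6 (.c 0 (.c 5 t48 (.c 6 t49 .e)) (.c 1 (.c 4 t50 (.c 6 t51 .e)) (.c 2 (.c 3 t52 (.c 5
t53 (.c 6 t51 .e))) (.c 3 (.c 2 t54 (.c 6 t51 .e)) (.c 4 (.c 1 t55 (.c 5 t53 (.c 6 t51 .e)))
.e))))) .e)))))))

theorem chk : chkP 7 14 nb op nbT opT PL T = true := by decide +kernel

end B25

end Vale.Agent.P032.Words.Trie
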