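import Vale.Agent.P032.Words.H151.Pal

/-!
# Hexagons around a centre with six colours
-/

namespace Vale.Agent.P032.Words.Trie

/-! ### 01 02 03 12 45 -/

namespace B5

/-- the letters (masks) -/
def L : List ℕ := [3, 5, 9, 6, 48]

/-- the palettes (masks) -/
def P : List ℕ := [3, 5, 9, 6, 48, 7, 11, 13]

/-- neighbours, letters -/
def nb : List ℕ := [16, 16, 24, 20, 15]

/-- antipodes, letters -/
def op : List ℕ := [15, 15, 15, 31, 24]

/-- neighbours, palettes -/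
def nbT : List ℕ := [16, 16, 24, 20, 239, 16, 16, 16]

/-- antipodes, palettes -/
def opT : List ℕ := [239, 239, 239, 255, 24, 239, 239, 239]

/-- the letters of the palettes -/
def PL : List (List ℕ) := [[0], [1], [2], [3], [4], [0, 1, 3], [0, 2], [1, 2]]

noncomputable def q0 : Tr := .c 4 (.l 0) .e
noncomputable def r0 : Tr := .c 3 q0 .e
noncomputable def t0 : Tr := .c 2 r0 .e
noncomputable def q1 : Tr := .c 3 (.l 1) .e
noncomputable def q2 : Tr := .c 3 (.l 2) .e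
noncomputable def r1 : Tr := .c 2 q1 (.c 4 q2 .e)
noncomputable def t1 : Tr := .c 3 r1 .e
noncomputable def q3 : Tr := .c 3 (.l 3) .e
noncomputable def r2 : Tr := .c 4 q3 .e
noncomputable def q4 : Tr := .c 4 (.l 4) .e
noncomputable def r3 : Tr := .c 3 q4 (.c 4 q3 .e)
noncomputable def q5 : Tr := .c 3 (.l 5) (.c 4 (.l 6) .e)
noncomputable def r4 : Tr := .c 2 q5 (.c 4 q3 .e)
noncomputable def t2 : Tr := .c 0 r2 (.c 1 r2 (.c 2 r3 (.c 3 r4 .e)))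
noncomputable def q6 : Tr := .c 3 (.l 7) .e
noncomputable def r5 : Tr := .c 4 q6 .e
noncomputable def t3 : Tr := .c 3 r5 .e
noncomputable def q7 : Tr := .c 3 (.l 8) .e
noncomputable def r6 : Tr := .c 3 q0 (.c 4 q7 .e)
noncomputable def t4 : Tr := .c 2 r6 .e
noncomputable def q8 : Tr := .c 2 (.l 9) (.c 4 (.l 10) .e)
noncomputable def r7 : Tr := .c 3 q8 .e
noncomputable def q9 : Tr := .c 4 (.l 11) .e
noncomputable def q10 : Tr := .c 2 (.l 12) (.c 4 (.l 11) .e)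
noncomputable def r8 : Tr := .c 0 q9 (.c 1 q9 (.c 2 q9 (.c 3 q10 .e)))
noncomputable def t5 : Tr := .c 2 r7 (.c 4 r8 .e)
noncomputable def q11 : Tr := .c 4 (.l 13) .e
noncomputable def r9 : Tr := .c 3 q11 .e
noncomputable def q12 : Tr := .c 4 (.l 14) .e
noncomputable def r10 : Tr := .c 2 q12 .e
noncomputable def t6 : Tr := .c 2 r9 (.c 3 r10 .e)
noncomputable def q13 : Tr := .c 2 (.l 15) .e
noncomputable def r11 : Tr := .c 3 q13 .e
noncomputable def t7 : Tr := .c 4 r11 .e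
noncomputable def q14 : Tr := .c 2 (.l 16) .e
noncomputable def r12 : Tr := .c 4 q14 .e
noncomputable def t8 : Tr := .c 3 r12 (.c 4 r11 .e)
noncomputable def q15 : Tr := .c 2 (.l 17) (.c 4 (.l 0) .e)
noncomputable def q16 : Tr := .c 2 (.l 18) .e
noncomputable def r13 : Tr := .c 3 q15 (.c 4 q16 .e)
noncomputable def q17 : Tr := .c 2 (.l 15) (.c 4 (.l 19) .e)
noncomputable def r14 : Tr := .c 3 q17 .e
noncomputable def t9 : Tr := .c 2 r13 (.c 4 r14 .e)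
noncomputable def q18 : Tr := .c 3 (.l 20) .e
noncomputable def r15 : Tr := .c 2 q18 .e
noncomputable def t10 : Tr := .c 3 r15 .e
noncomputable def q19 : Tr := .c 3 (.l 21) .e
noncomputable def q20 : Tr := .c 2 (.l 22) .e
noncomputable def r16 : Tr := .c 2 q19 (.c 3 q20 .e)
noncomputable def t11 : Tr := .c 4 r16 .e
noncomputable def q21 : Tr := .c 3 (.l 23) .e
noncomputable def q22 : Tr := .c 0 (.l 24) (.c 1 (.l 24) (.c 2 (.l 24) (.c 3 (.l 24) .e)))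
noncomputable def r17 : Tr := .c 2 q21 (.c 4 q22 .e)
noncomputable def q23 : Tr := .c 3 (.l 25) .e
noncomputable def q24 : Tr := .c 2 (.l 26) .e
noncomputable def r18 : Tr := .c 2 q23 (.c 3 q24 .e)
noncomputable def t12 : Tr := .c 3 r17 (.c 4 r18 .e)
noncomputable def q25 : Tr := .c 3 (.l 27) .e
noncomputable def r19 : Tr := .c 2 q18 (.c 4 q25 .e)
noncomputable def t13 : Tr := .c 3 r19 .e

/-- the diagram -/
noncomputable def T : Tr := (.c 0 (.c 4 (.c 3 t0 .e) .e) (.c 1 (.c 4 (.c 3 t0 .e) .e) (.c 2 (.c 3 (.c 2 t1 (.c 4 t2 .e))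
(.c 4 (.c 2 t3 (.c 3 t4 .e)) .e)) (.c 3 (.c 2 (.c 3 t5 (.c 4 t6 .e)) (.c 4 (.c 0 t7 (.c 1 t7
(.c 2 t8 (.c 3 t9 .e)))) .e)) (.c 4 (.c 0 (.c 4 t10 .e) (.c 1 (.c 4 t10 .e) (.c 2 (.c 3 t11 (.c
4 t10 .e)) (.c 3 (.c 2 t12 (.c 4 t13 .e)) .e)))) .e)))))

theorem chk : chkP 5 8 nb op nbT opT PL T = true := by decide +kernel

end B5

/-! ### 01 02 03 14 25 -/

namespace B7

/-- the letters (masks) -/
def L : List ℕ := [3, 5, 9, 18, 36]

/-- the palettes (masks) -/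
def P : List ℕ := [3, 5, 9, 18, 36, 7, 11, 19, 13, 37]

/-- neighbours, letters -/
def nb : List ℕ := [16, 8, 24, 22, 13]

/-- antipodes, letters -/
def op : List ℕ := [31, 31, 31, 31, 31]

/-- neighbours, palettes -/
def nbT : List ℕ := [16, 8, 24, 790, 205, 0, 528, 784, 136, 200]

/-- antipodes, palettes -/
def opT : List ℕ := [1023, 1023, 1023, 255, 831, 1023, 1007, 1007, 1015, 1015]

/-- the letters of the palettes -/
def PL : List (List ℕ) := [[0], [1], [2], [3], [4], [0, 1], [0, 2], [0, 3], [1, 2], [1, 4]]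

noncomputable def q0 : Tr := .c 4 (.l 0) .e
noncomputable def r0 : Tr := .c 0 q0 (.c 2 q0 (.c 3 q0 .e))
noncomputable def t0 : Tr := .c 4 r0 .e
noncomputable def q1 : Tr := .c 4 (.l 1) .e
noncomputable def r1 : Tr := .c 2 q1 .e
noncomputable def t1 : Tr := .c 3 r1 (.c 4 r0 .e)
noncomputable def r2 : Tr := .c 3 q0 .e
noncomputable def t2 : Tr := .c 1 r2 (.c 2 r2 (.c 4 r0 .e))
noncomputable def q2 : Tr := .c 3 (.l 2) .e
noncomputable def r3 : Tr := .c 1 q2 (.c 2 q2 (.c 4 q2 .e))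
noncomputable def t3 : Tr := .c 3 r3 .e
noncomputable def q3 : Tr := .c 3 (.l 3) .e
noncomputable def r4 : Tr := .c 2 q3 .e
noncomputable def t4 : Tr := .c 3 r3 (.c 4 r4 .e)
noncomputable def r5 : Tr := .c 4 q2 .e
noncomputable def t5 : Tr := .c 0 r5 (.c 2 r5 (.c 3 r3 .e))
noncomputable def q4 : Tr := .c 3 (.l 2) (.c 4 (.l 4) .e)
noncomputable def r6 : Tr := .c 1 q2 (.c 2 q4 (.c 4 q2 .e))
noncomputable def t6 : Tr := .c 3 r6 .e
noncomputable def q5 : Tr := .c 4 (.l 5) .e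
noncomputable def q6 : Tr := .c 3 (.l 3) (.c 4 (.l 5) .e)
noncomputable def r7 : Tr := .c 0 q5 (.c 2 q6 (.c 3 q5 .e))
noncomputable def t7 : Tr := .c 3 r6 (.c 4 r7 .e)
noncomputable def q7 : Tr := .c 4 (.l 6) .e
noncomputable def r8 : Tr := .c 3 q7 (.c 4 q2 .e)
noncomputable def t8 : Tr := .c 0 r5 (.c 2 r8 (.c 3 r6 .e))
noncomputable def q8 : Tr := .c 3 (.l 7) (.c 4 (.l 0) .e)
noncomputable def r9 : Tr := .c 0 q0 (.c 2 q8 (.c 3 q0 .e))
noncomputable def t9 : Tr := .c 4 r9 .e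
noncomputable def q9 : Tr := .c 3 (.l 8) .e
noncomputable def q10 : Tr := .c 3 (.l 8) (.c 4 (.l 1) .e)
noncomputable def r10 : Tr := .c 1 q9 (.c 2 q10 (.c 4 q9 .e))
noncomputable def t10 : Tr := .c 3 r10 (.c 4 r9 .e)
noncomputable def q11 : Tr := .c 3 (.l 9) .e
noncomputable def r11 : Tr := .c 3 q0 (.c 4 q11 .e)
noncomputable def t11 : Tr := .c 1 r2 (.c 2 r11 (.c 4 r9 .e))
noncomputable def q12 : Tr := .c 1 (.l 0) (.c 2 (.l 0) (.c 4 (.l 0) .e))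
noncomputable def r12 : Tr := .c 3 q12 .e
noncomputable def q13 : Tr := .c 2 (.l 10) .e
noncomputable def r13 : Tr := .c 3 q12 (.c 4 q13 .e)
noncomputable def r14 : Tr := .c 0 q0 (.c 2 q0 (.c 3 q12 .e))
noncomputable def t12 : Tr := .c 1 r12 (.c 2 r13 (.c 4 r14 .e))
noncomputable def q14 : Tr := .c 2 (.l 11) .e
noncomputable def r15 : Tr := .c 4 q14 .e
noncomputable def q15 : Tr := .c 1 (.l 12) (.c 2 (.l 12) (.c 4 (.l 12) .e))
noncomputable def r16 : Tr := .c 3 q15 (.c 4 q14 .e)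
noncomputable def q16 : Tr := .c 4 (.l 13) .e
noncomputable def r17 : Tr := .c 2 q16 (.c 4 q14 .e)
noncomputable def t13 : Tr := .c 0 r15 (.c 2 r16 (.c 3 r17 .e))
noncomputable def t14 : Tr := .c 4 r14 .e
noncomputable def q17 : Tr := .c 2 (.l 14) .e
noncomputable def r18 : Tr := .c 2 q1 (.c 4 q17 .e)
noncomputable def t15 : Tr := .c 3 r18 (.c 4 r14 .e)
noncomputable def q18 : Tr := .c 0 (.l 2) (.c 2 (.l 2) (.c 3 (.l 2) .e))
noncomputable def r19 : Tr := .c 4 q18 .e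
noncomputable def q19 : Tr := .c 2 (.l 15) .e
noncomputable def r20 : Tr := .c 3 q19 (.c 4 q18 .e)
noncomputable def r21 : Tr := .c 1 q2 (.c 2 q2 (.c 4 q18 .e))
noncomputable def t16 : Tr := .c 0 r19 (.c 2 r20 (.c 3 r21 .e))
noncomputable def q20 : Tr := .c 2 (.l 16) .e
noncomputable def r22 : Tr := .c 3 q20 .e
noncomputable def q21 : Tr := .c 0 (.l 17) (.c 2 (.l 17) (.c 3 (.l 17) .e))
noncomputable def r23 : Tr := .c 3 q20 (.c 4 q21 .e)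
noncomputable def q22 : Tr := .c 3 (.l 18) .e
noncomputable def r24 : Tr := .c 2 q22 (.c 3 q20 .e)
noncomputable def t17 : Tr := .c 1 r22 (.c 2 r23 (.c 4 r24 .e))
noncomputable def t18 : Tr := .c 3 r21 .e
noncomputable def q23 : Tr := .c 2 (.l 19) .e
noncomputable def r25 : Tr := .c 2 q3 (.c 3 q23 .e)
noncomputable def t19 : Tr := .c 3 r21 (.c 4 r25 .e)

/-- the diagram -/
noncomputable def T : Tr := (.c 0 (.c 4 (.c 0 t0 (.c 2 t1 (.c 3 t2 .e))) .e) (.c 1 (.c 3 (.c 1 t3 (.c 2 t4 (.c 4 t5 .e)))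
.e) (.c 2 (.c 3 (.c 1 t6 (.c 2 t7 (.c 4 t8 .e))) (.c 4 (.c 0 t9 (.c 2 t10 (.c 3 t11 .e))) .e))
(.c 3 (.c 1 (.c 3 t12 .e) (.c 2 (.c 3 t12 (.c 4 t13 .e)) (.c 4 (.c 0 t14 (.c 2 t15 (.c 3 t12
.e))) .e))) (.c 4 (.c 0 (.c 4 t16 .e) (.c 2 (.c 3 t17 (.c 4 t16 .e)) (.c 3 (.c 1 t18 (.c 2 t19
(.c 4 t16 .e))) .e))) .e)))))

theorem chk : chkP 5 10 nb op nbT opT PL T = true := by decide +kernel

end B7

/-! ### 01 02 03 12 34 35 -/

namespace B15

/-- the letters (masks) -/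
def L : List ℕ := [3, 5, 9, 6, 24, 40]

/-- the palettes (masks) -/
def P : List ℕ := [3, 5, 9, 6, 24, 40, 7, 11, 13, 25, 41, 56]

/-- neighbours, letters -/
def nb : List ℕ := [48, 48, 8, 52, 11, 11]

/-- antipodes, letters -/
def op : List ℕ := [63, 63, 55, 11, 55, 55]

/-- neighbours, palettes -/
def nbT : List ℕ := [2096, 2096, 8, 3636, 75, 75, 3632, 2048, 2048, 72, 72, 459]

/-- antipodes, palettes -/
def opT : List ℕ := [2047, 2047, 4087, 459, 4023, 4023, 4047, 4095, 4095, 4087, 4087, 4084]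

/-- the letters of the palettes -/
def PL : List (List ℕ) := [[0], [1], [2], [3], [4], [5], [0, 1, 3], [0, 2], [1, 2], [2, 4], [2, 5], [4, 5]]

noncomputable def q0 : Tr := .c 4 (.l 0) (.c 5 (.l 0) .e)
noncomputable def r0 : Tr := .c 0 q0 (.c 1 q0 .e)
noncomputable def t0 : Tr := .c 4 r0 (.c 5 r0 .e)
noncomputable def q1 : Tr := .c 0 (.l 1) (.c 1 (.l 1) .e)
noncomputable def r1 : Tr := .c 4 q1 (.c 5 q1 .e)
noncomputable def t1 : Tr := .c 0 r1 (.c 1 r1 .e)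

/-- the diagram -/
noncomputable def T : Tr := (.c 0 (.c 4 (.c 0 t0 (.c 1 t0 .e)) (.c 5 (.c 0 t0 (.c 1 t0 .e)) .e)) (.c 1 (.c 4 (.c 0 t0 (.c 1
t0 .e)) (.c 5 (.c 0 t0 (.c 1 t0 .e)) .e)) (.c 4 (.c 0 (.c 4 t1 (.c 5 t1 .e)) (.c 1 (.c 4 t1 (.c
5 t1 .e)) .e)) (.c 5 (.c 0 (.c 4 t1 (.c 5 t1 .e)) (.c 1 (.c 4 t1 (.c 5 t1 .e)) .e)) .e))))

theorem chk : chkP 6 12 nb op nbT opT PL T = true := by decide +kernel

end B15

/-! ### 01 02 03 14 24 35 -/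

namespace B18

/-- the letters (masks) -/
def L : List ℕ := [3, 5, 9, 18, 20, 40]

/-- the palettes (masks) -/
def P : List ℕ := [3, 5, 9, 18, 20, 40, 7, 11, 19, 13, 21, 41, 22]

/-- neighbours, letters -/
def nb : List ℕ := [48, 40, 24, 38, 37, 27]

/-- antipodes, letters -/
def op : List ℕ := [63, 63, 63, 63, 63, 63]

/-- neighbours, palettes -/
def nbT : List ℕ := [48, 40, 4120, 2598, 2213, 5467, 2080, 5136, 2592, 4360, 2208, 5464, 2724]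

/-- antipodes, palettes -/
def opT : List ℕ := [8191, 8191, 4095, 5631, 6015, 2751, 8159, 8175, 8159, 8183, 8159, 8167, 8155]

/-- the letters of the palettes -/
def PL : List (List ℕ) := [[0], [1], [2], [3], [4], [5], [0, 1], [0, 2], [0, 3], [1, 2], [1, 4], [2, 5], [3, 4]]

noncomputable def q0 : Tr := .c 4 (.l 0) (.c 5 (.l 1) .e)
noncomputable def q1 : Tr := .c 4 (.l 0) .e
noncomputable def r0 : Tr := .c 0 q0 (.c 2 q1 (.c 5 q1 .e))
noncomputable def q2 : Tr := .c 4 (.l 2) (.c 5 (.l 3) .e)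
noncomputable def q3 : Tr := .c 5 (.l 3) .e
noncomputable def r1 : Tr := .c 0 q2 (.c 1 q3 (.c 3 q3 (.c 4 q3 .e)))
noncomputable def t0 : Tr := .c 4 r0 (.c 5 r1 .e)
noncomputable def q4 : Tr := .c 5 (.l 4) .e
noncomputable def r2 : Tr := .c 1 q4 (.c 2 q1 (.c 5 q1 .e))
noncomputable def t1 : Tr := .c 3 r2 (.c 4 r0 .e)
noncomputable def q5 : Tr := .c 5 (.l 5) .e
noncomputable def r3 : Tr := .c 4 q5 (.c 5 q1 .e)
noncomputable def q6 : Tr := .c 5 (.l 6) .e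
noncomputable def r4 : Tr := .c 3 q6 (.c 5 q1 .e)
noncomputable def t2 : Tr := .c 0 r3 (.c 1 r4 (.c 3 r2 (.c 4 r0 .e)))
noncomputable def q7 : Tr := .c 4 (.l 7) (.c 5 (.l 8) .e)
noncomputable def q8 : Tr := .c 4 (.l 7) .e
noncomputable def r5 : Tr := .c 0 q7 (.c 2 q8 (.c 5 q8 .e))
noncomputable def q9 : Tr := .c 4 (.l 9) (.c 5 (.l 10) .e)
noncomputable def q10 : Tr := .c 5 (.l 10) .e
noncomputable def r6 : Tr := .c 0 q9 (.c 1 q10 (.c 3 q10 (.c 4 q10 .e)))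
noncomputable def t3 : Tr := .c 4 r5 (.c 5 r6 .e)
noncomputable def q11 : Tr := .c 5 (.l 11) .e
noncomputable def q12 : Tr := .c 4 (.l 12) .e
noncomputable def r7 : Tr := .c 1 q11 (.c 2 q12 (.c 5 q12 .e))
noncomputable def t4 : Tr := .c 3 r7 (.c 5 r6 .e)
noncomputable def q13 : Tr := .c 4 (.l 13) .e
noncomputable def r8 : Tr := .c 3 q10 (.c 5 q13 .e)
noncomputable def r9 : Tr := .c 3 q10 (.c 4 q10 .e)
noncomputable def t5 : Tr := .c 1 r8 (.c 2 r9 (.c 5 r6 .e))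
noncomputable def q14 : Tr := .c 4 (.l 14) .e
noncomputable def r10 : Tr := .c 4 q10 (.c 5 q14 .e)
noncomputable def t6 : Tr := .c 0 r10 (.c 2 r9 (.c 5 r6 .e))
noncomputable def q15 : Tr := .c 3 (.l 0) (.c 5 (.l 15) .e)
noncomputable def q16 : Tr := .c 3 (.l 0) .e
noncomputable def r11 : Tr := .c 1 q15 (.c 2 q16 (.c 5 q16 .e))
noncomputable def q17 : Tr := .c 5 (.l 16) .e
noncomputable def q18 : Tr := .c 3 (.l 17) (.c 5 (.l 16) .e)
noncomputable def r12 : Tr := .c 0 q17 (.c 1 q18 (.c 3 q17 (.c 4 q17 .e)))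
noncomputable def t7 : Tr := .c 3 r11 (.c 5 r12 .e)
noncomputable def q19 : Tr := .c 5 (.l 18) .e
noncomputable def r13 : Tr := .c 0 q19 (.c 2 q16 (.c 5 q16 .e))
noncomputable def t8 : Tr := .c 3 r11 (.c 4 r13 .e)
noncomputable def q20 : Tr := .c 5 (.l 19) .e
noncomputable def r14 : Tr := .c 4 q20 (.c 5 q16 .e)
noncomputable def q21 : Tr := .c 5 (.l 20) .e
noncomputable def r15 : Tr := .c 3 q21 (.c 5 q16 .e)
noncomputable def t9 : Tr := .c 0 r14 (.c 1 r15 (.c 3 r11 (.c 4 r13 .e)))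
noncomputable def q22 : Tr := .c 5 (.l 8) .e
noncomputable def q23 : Tr := .c 3 (.l 21) .e
noncomputable def r16 : Tr := .c 0 q22 (.c 2 q23 (.c 5 q23 .e))
noncomputable def q24 : Tr := .c 3 (.l 22) (.c 5 (.l 10) .e)
noncomputable def r17 : Tr := .c 0 q10 (.c 1 q24 (.c 3 q10 (.c 4 q10 .e)))
noncomputable def t10 : Tr := .c 4 r16 (.c 5 r17 .e)
noncomputable def q25 : Tr := .c 3 (.l 23) (.c 5 (.l 11) .e)
noncomputable def q26 : Tr := .c 3 (.l 23) .e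
noncomputable def r18 : Tr := .c 1 q25 (.c 2 q26 (.c 5 q26 .e))
noncomputable def t11 : Tr := .c 3 r18 (.c 5 r17 .e)
noncomputable def q27 : Tr := .c 3 (.l 24) .e
noncomputable def r19 : Tr := .c 3 q10 (.c 5 q27 .e)
noncomputable def t12 : Tr := .c 1 r19 (.c 2 r9 (.c 5 r17 .e))
noncomputable def q28 : Tr := .c 3 (.l 25) .e
noncomputable def r20 : Tr := .c 4 q10 (.c 5 q28 .e)
noncomputable def t13 : Tr := .c 0 r20 (.c 2 r9 (.c 5 r17 .e))
noncomputable def q29 : Tr := .c 3 (.l 0) (.c 4 (.l 0) .e)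
noncomputable def r21 : Tr := .c 1 q16 (.c 2 q29 (.c 5 q29 .e))
noncomputable def q30 : Tr := .c 4 (.l 26) .e
noncomputable def q31 : Tr := .c 3 (.l 17) .e
noncomputable def r22 : Tr := .c 0 q30 (.c 1 q31 .e)
noncomputable def t14 : Tr := .c 3 r21 (.c 5 r22 .e)
noncomputable def r23 : Tr := .c 0 q1 (.c 2 q29 (.c 5 q29 .e))
noncomputable def t15 : Tr := .c 3 r21 (.c 4 r23 .e)
noncomputable def r24 : Tr := .c 5 q29 .e
noncomputable def t16 : Tr := .c 0 r24 (.c 1 r24 (.c 3 r21 (.c 4 r23 .e)))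
noncomputable def q32 : Tr := .c 4 (.l 2) .e
noncomputable def q33 : Tr := .c 3 (.l 27) .e
noncomputable def r25 : Tr := .c 0 q32 (.c 1 q33 .e)
noncomputable def t17 : Tr := .c 4 r23 (.c 5 r25 .e)
noncomputable def q34 : Tr := .c 1 (.l 10) (.c 2 (.l 10) (.c 5 (.l 10) .e))
noncomputable def q35 : Tr := .c 1 (.l 28) .e
noncomputable def r26 : Tr := .c 3 q34 (.c 5 q35 .e)
noncomputable def q36 : Tr := .c 2 (.l 10) (.c 5 (.l 10) .e)
noncomputable def r27 : Tr := .c 3 q34 (.c 4 q36 .e)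
noncomputable def r28 : Tr := .c 0 q10 (.c 1 q10 (.c 3 q34 (.c 4 q36 .e)))
noncomputable def t18 : Tr := .c 1 r26 (.c 2 r27 (.c 5 r28 .e))
noncomputable def q37 : Tr := .c 2 (.l 29) (.c 5 (.l 29) .e)
noncomputable def q38 : Tr := .c 1 (.l 30) .e
noncomputable def r29 : Tr := .c 4 q37 (.c 5 q38 .e)
noncomputable def q39 : Tr := .c 1 (.l 31) (.c 2 (.l 31) (.c 5 (.l 31) .e))
noncomputable def r30 : Tr := .c 3 q39 (.c 5 q38 .e)
noncomputable def q40 : Tr := .c 5 (.l 32) .e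
noncomputable def r31 : Tr := .c 1 q40 (.c 5 q38 .e)
noncomputable def q41 : Tr := .c 5 (.l 33) .e
noncomputable def r32 : Tr := .c 0 q41 (.c 5 q38 .e)
noncomputable def t19 : Tr := .c 0 r29 (.c 1 r30 (.c 3 r31 (.c 4 r32 .e)))
noncomputable def q42 : Tr := .c 1 (.l 34) .e
noncomputable def r33 : Tr := .c 4 q36 (.c 5 q42 .e)
noncomputable def t20 : Tr := .c 0 r33 (.c 2 r27 (.c 5 r28 .e))
noncomputable def q43 : Tr := .c 1 (.l 35) .e
noncomputable def r34 : Tr := .c 0 q22 (.c 5 q43 .e)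
noncomputable def t21 : Tr := .c 4 r34 (.c 5 r28 .e)
noncomputable def q44 : Tr := .c 1 (.l 36) .e
noncomputable def r35 : Tr := .c 1 q11 (.c 5 q44 .e)
noncomputable def t22 : Tr := .c 3 r35 (.c 5 r28 .e)
noncomputable def q45 : Tr := .c 0 (.l 10) (.c 2 (.l 10) (.c 5 (.l 10) .e))
noncomputable def q46 : Tr := .c 0 (.l 37) .e
noncomputable def r36 : Tr := .c 4 q45 (.c 5 q46 .e)
noncomputable def r37 : Tr := .c 3 q36 (.c 4 q45 .e)
noncomputable def r38 : Tr := .c 0 q10 (.c 1 q10 (.c 3 q36 (.c 4 q45 .e)))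
noncomputable def t23 : Tr := .c 0 r36 (.c 2 r37 (.c 5 r38 .e))
noncomputable def q47 : Tr := .c 0 (.l 38) (.c 2 (.l 38) (.c 5 (.l 38) .e))
noncomputable def q48 : Tr := .c 0 (.l 39) .e
noncomputable def r39 : Tr := .c 4 q47 (.c 5 q48 .e)
noncomputable def q49 : Tr := .c 2 (.l 40) (.c 5 (.l 40) .e)
noncomputable def r40 : Tr := .c 3 q49 (.c 5 q48 .e)
noncomputable def q50 : Tr := .c 5 (.l 41) .e
noncomputable def r41 : Tr := .c 1 q50 (.c 5 q48 .e)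
noncomputable def q51 : Tr := .c 5 (.l 42) .e
noncomputable def r42 : Tr := .c 0 q51 (.c 5 q48 .e)
noncomputable def t24 : Tr := .c 0 r39 (.c 1 r40 (.c 3 r41 (.c 4 r42 .e)))
noncomputable def q52 : Tr := .c 0 (.l 43) .e
noncomputable def r43 : Tr := .c 3 q36 (.c 5 q52 .e)
noncomputable def t25 : Tr := .c 1 r43 (.c 2 r37 (.c 5 r38 .e))
noncomputable def q53 : Tr := .c 0 (.l 44) .e
noncomputable def r44 : Tr := .c 0 q22 (.c 5 q53 .e)
noncomputable def t26 : Tr := .c 4 r44 (.c 5 r38 .e)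
noncomputable def q54 : Tr := .c 0 (.l 45) .e
noncomputable def r45 : Tr := .c 1 q11 (.c 5 q54 .e)
noncomputable def t27 : Tr := .c 3 r45 (.c 5 r38 .e)
noncomputable def q55 : Tr := .c 0 (.l 46) .e
noncomputable def q56 : Tr := .c 0 (.l 47) (.c 1 (.l 47) (.c 3 (.l 47) (.c 4 (.l 47) .e)))
noncomputable def r46 : Tr := .c 4 q55 (.c 5 q56 .e)
noncomputable def q57 : Tr := .c 1 (.l 48) .e
noncomputable def r47 : Tr := .c 3 q57 (.c 4 q55 .e)
noncomputable def q58 : Tr := .c 4 (.l 49) .e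
noncomputable def q59 : Tr := .c 3 (.l 50) .e
noncomputable def r48 : Tr := .c 0 q58 (.c 1 q59 (.c 3 q57 (.c 4 q55 .e)))
noncomputable def t28 : Tr := .c 0 r46 (.c 2 r47 (.c 5 r48 .e))
noncomputable def q60 : Tr := .c 0 (.l 51) .e
noncomputable def q61 : Tr := .c 0 (.l 0) (.c 1 (.l 0) (.c 3 (.l 0) (.c 4 (.l 0) .e)))
noncomputable def r49 : Tr := .c 4 q60 (.c 5 q61 .e)
noncomputable def q62 : Tr := .c 1 (.l 52) .e
noncomputable def r50 : Tr := .c 3 q62 (.c 5 q61 .e)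
noncomputable def r51 : Tr := .c 1 q16 (.c 2 q29 (.c 5 q61 .e))
noncomputable def r52 : Tr := .c 0 q1 (.c 2 q29 (.c 5 q61 .e))
noncomputable def t29 : Tr := .c 0 r49 (.c 1 r50 (.c 3 r51 (.c 4 r52 .e)))
noncomputable def q63 : Tr := .c 1 (.l 53) .e
noncomputable def q64 : Tr := .c 0 (.l 54) (.c 1 (.l 54) (.c 3 (.l 54) (.c 4 (.l 54) .e)))
noncomputable def r53 : Tr := .c 3 q63 (.c 5 q64 .e)
noncomputable def q65 : Tr := .c 0 (.l 55) .e
noncomputable def r54 : Tr := .c 3 q63 (.c 4 q65 .e)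
noncomputable def q66 : Tr := .c 4 (.l 56) .e
noncomputable def q67 : Tr := .c 3 (.l 57) .e
noncomputable def r55 : Tr := .c 0 q66 (.c 1 q67 (.c 3 q63 (.c 4 q65 .e)))
noncomputable def t30 : Tr := .c 1 r53 (.c 2 r54 (.c 5 r55 .e))
noncomputable def q68 : Tr := .c 1 (.l 58) .e
noncomputable def q69 : Tr := .c 0 (.l 59) .e
noncomputable def r56 : Tr := .c 0 q30 (.c 1 q31 (.c 3 q68 (.c 4 q69 .e)))
noncomputable def t31 : Tr := .c 3 r51 (.c 5 r56 .e)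
noncomputable def t32 : Tr := .c 3 r51 (.c 4 r52 .e)
noncomputable def q70 : Tr := .c 1 (.l 60) .e
noncomputable def q71 : Tr := .c 0 (.l 61) .e
noncomputable def r57 : Tr := .c 0 q32 (.c 1 q33 (.c 3 q70 (.c 4 q71 .e)))
noncomputable def t33 : Tr := .c 4 r52 (.c 5 r57 .e)

/-- the diagram -/
noncomputable def T : Tr := (.c 0 (.c 4 (.c 0 t0 (.c 2 t1 (.c 5 t2 .e))) (.c 5 (.c 0 t3 (.c 1 t4 (.c 3 t5 (.c 4 t6 .e))))
.e)) (.c 1 (.c 3 (.c 1 t7 (.c 2 t8 (.c 5 t9 .e))) (.c 5 (.c 0 t10 (.c 1 t11 (.c 3 t12 (.c 4 t13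
.e)))) .e)) (.c 2 (.c 3 (.c 1 t14 (.c 2 t15 (.c 5 t16 .e))) (.c 4 (.c 0 t17 (.c 2 t15 (.c 5 t16
.e))) .e)) (.c 3 (.c 1 (.c 3 t18 (.c 5 t19 .e)) (.c 2 (.c 3 t18 (.c 4 t20 .e)) (.c 5 (.c 0 t21
(.c 1 t22 (.c 3 t18 (.c 4 t20 .e)))) .e))) (.c 4 (.c 0 (.c 4 t23 (.c 5 t24 .e)) (.c 2 (.c 3 t25
(.c 4 t23 .e)) (.c 5 (.c 0 t26 (.c 1 t27 (.c 3 t25 (.c 4 t23 .e)))) .e))) (.c 5 (.c 0 (.c 4 t28
(.c 5 t29 .e)) (.c 1 (.c 3 t30 (.c 5 t29 .e)) (.c 3 (.c 1 t31 (.c 2 t32 (.c 5 t29 .e))) (.c 4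
(.c 0 t33 (.c 2 t32 (.c 5 t29 .e))) .e)))) .e))))))

theorem chk : chkP 6 13 nb op nbT opT PL T = true := by decide +kernel

end B18

/-! ### 01 02 12 34 35 45 -/

namespace B21

/-- the letters (masks) -/
def L : List ℕ := [3, 5, 6, 24, 40, 48]

/-- the palettes (masks) -/
def P : List ℕ := [3, 5, 6, 24, 40, 48, 7, 56]

/-- neighbours, letters -/
def nb : List ℕ := [56, 56, 56, 7, 7, 7]

/-- antipodes, letters -/
def op : List ℕ := [63, 63, 63, 63, 63, 63]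

/-- neighbours, palettes -/
def nbT : List ℕ := [184, 184, 184, 71, 71, 71, 184, 71]

/-- antipodes, palettes -/
def opT : List ℕ := [127, 127, 127, 191, 191, 191, 199, 248]

/-- the letters of the palettes -/
def PL : List (List ℕ) := [[0], [1], [2], [3], [4], [5], [0, 1, 2], [3, 4, 5]]

noncomputable def q0 : Tr := .c 3 (.l 0) (.c 4 (.l 0) (.c 5 (.l 0) .e))
noncomputable def r0 : Tr := .c 0 q0 (.c 1 q0 (.c 2 q0 .e))
noncomputable def t0 : Tr := .c 3 r0 (.c 4 r0 (.c 5 r0 .e))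
noncomputable def q1 : Tr := .c 0 (.l 1) (.c 1 (.l 1) (.c 2 (.l 1) .e))
noncomputable def r1 : Tr := .c 3 q1 (.c 4 q1 (.c 5 q1 .e))
noncomputable def t1 : Tr := .c 0 r1 (.c 1 r1 (.c 2 r1 .e))

/-- the diagram -/
noncomputable def T : Tr := (.c 0 (.c 3 (.c 0 t0 (.c 1 t0 (.c 2 t0 .e))) (.c 4 (.c 0 t0 (.c 1 t0 (.c 2 t0 .e))) (.c 5 (.c 0
t0 (.c 1 t0 (.c 2 t0 .e))) .e))) (.c 1 (.c 3 (.c 0 t0 (.c 1 t0 (.c 2 t0 .e))) (.c 4 (.c 0 t0
(.c 1 t0 (.c 2 t0 .e))) (.c 5 (.c 0 t0 (.c 1 t0 (.c 2 t0 .e))) .e))) (.c 2 (.c 3 (.c 0 t0 (.c 1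
t0 (.c 2 t0 .e))) (.c 4 (.c 0 t0 (.c 1 t0 (.c 2 t0 .e))) (.c 5 (.c 0 t0 (.c 1 t0 (.c 2 t0 .e)))
.e))) (.c 3 (.c 0 (.c 3 t1 (.c 4 t1 (.c 5 t1 .e))) (.c 1 (.c 3 t1 (.c 4 t1 (.c 5 t1 .e))) (.c 2
(.c 3 t1 (.c 4 t1 (.c 5 t1 .e))) .e))) (.c 4 (.c 0 (.c 3 t1 (.c 4 t1 (.c 5 t1 .e))) (.c 1 (.c 3
t1 (.c 4 t1 (.c 5 t1 .e))) (.c 2 (.c 3 t1 (.c 4 t1 (.c 5 t1 .e))) .e))) (.c 5 (.c 0 (.c 3 t1
(.c 4 t1 (.c 5 t1 .e))) (.c 1 (.c 3 t1 (.c 4 t1 (.c 5 t1 .e))) (.c 2 (.c 3 t1 (.c 4 t1 (.c 5 t1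
.e))) .e))) .e))))))

theorem chk : chkP 6 8 nb op nbT opT PL T = true := by decide +kernel

end B21

end Vale.Agent.P032.Words.Trie
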